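import Crest.Agent.R253.Sc
import Crest.Agent.Lib.PrekopaLeindler.Basic

set_option autoImplicit false
set_option linter.unusedVariables false
set_option linter.unusedSectionVars false

open MeasureTheory Matrix Set Filter Topology
open Crest.Agent.R215 (gam)
open Crest.Agent.R203
open Crest.GeometryTopology.Isotropic

noncomputable section

namespace Crest.Agent.R253

variable {m : ℕ}

/-! The logarithmic Laplace transform of a weight. -/

def llZ (w : Vc m → ℝ) (z : Vc m) : ℝ := ∫ x, Real.exp (z ⬝ᵥ x) * w x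
def llM (w : Vc m → ℝ) (z : Vc m) : Vc m := fun i => (∫ x, x i * (Real.exp (z ⬝ᵥ x) * w x)) / llZ w z

/-- admissible weights -/
structure Wt (w : Vc m → ℝ) : Prop where
  meas : Measurable w
  nonneg : ∀ x, 0 ≤ w x
  int : ∀ a : ℝ, Integrable fun x => Real.exp (a * ‖x‖) * w x
  pos : 0 < ∫ x, w x

variable {w : Vc m → ℝ}

theorem LL1_dot_le (z x : Vc m) : z ⬝ᵥ x ≤ (∑ i, |z i|) * ‖x‖ := by
  rw [dotProduct, Finset.sum_mul]
  refine Finset.sum_le_sum fun i _ => (le_abs_self _).trans ?_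
  rw [abs_mul]
  exact mul_le_mul_of_nonneg_left (norm_le_pi_norm x i) (abs_nonneg _)

theorem Wt.LL1_meas (h : Wt w) (z : Vc m) : Measurable fun x => Real.exp (z ⬝ᵥ x) * w x :=
  (by fun_prop : Continuous fun x : Vc m => Real.exp (z ⬝ᵥ x)).measurable.mul h.meas

theorem Wt.LL1_nn (h : Wt w) (z x : Vc m) : 0 ≤ Real.exp (z ⬝ᵥ x) * w x :=
  mul_nonneg (Real.exp_pos _).le (h.nonneg x)

theorem Wt.LL1_int (h : Wt w) (z : Vc m) : Integrable fun x => Real.exp (z ⬝ᵥ x) * w x := by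
  refine (h.int (∑ i, |z i|)).mono' (h.LL1_meas z).aestronglyMeasurable
    (Eventually.of_forall fun x => ?_)
  rw [Real.norm_eq_abs, abs_of_nonneg (h.LL1_nn z x)]
  exact mul_le_mul_of_nonneg_right (Real.exp_le_exp.2 (LL1_dot_le z x)) (h.nonneg x)

theorem Wt.LL1_int_coord (h : Wt w) (z : Vc m) (i : Fin m) :
    Integrable fun x => x i * (Real.exp (z ⬝ᵥ x) * w x) := by
  refine (h.int ((∑ i, |z i|) + 1)).mono'
    ((measurable_pi_apply i).mul (h.LL1_meas z)).aestronglyMeasurable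
    (Eventually.of_forall fun x => ?_)
  rw [Real.norm_eq_abs, abs_mul, abs_of_nonneg (h.LL1_nn z x), ← mul_assoc, add_mul, one_mul,
    Real.exp_add, mul_comm (Real.exp _) (Real.exp ‖x‖)]
  refine mul_le_mul_of_nonneg_right (mul_le_mul ?_ (Real.exp_le_exp.2 (LL1_dot_le z x))
    (Real.exp_pos _).le (Real.exp_pos _).le) (h.nonneg x)
  have h1 : |x i| ≤ ‖x‖ := norm_le_pi_norm x i
  linarith [Real.add_one_le_exp ‖x‖]

theorem Wt.llZ_pos (h : Wt w) (z : Vc m) : 0 < llZ w z := by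
  have h0 : Integrable w := by simpa using h.int 0
  have h1 := (integral_pos_iff_support_of_nonneg h.nonneg h0).1 h.pos
  refine (integral_pos_iff_support_of_nonneg (h.LL1_nn z) (h.LL1_int z)).2 ?_
  refine h1.trans_le (measure_mono fun x hx => ?_)
  exact mul_ne_zero (Real.exp_pos _).ne' hx

/-- Jensen: `exp s ≥ 1 + s`. -/
theorem Wt.subgrad (h : Wt w) (z y : Vc m) :
    Real.log (llZ w z) + llM w z ⬝ᵥ (y - z) ≤ Real.log (llZ w y) := by
  have hZ := h.llZ_pos z
  set d := y - z with hd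
  set c := llM w z ⬝ᵥ d with hc
  have i1 : Integrable fun x => ∑ i, d i * (x i * (Real.exp (z ⬝ᵥ x) * w x)) :=
    integrable_finsetSum _ fun i _ => (h.LL1_int_coord z i).const_mul _
  have e1 : ∫ x, ∑ i, d i * (x i * (Real.exp (z ⬝ᵥ x) * w x)) = c * llZ w z := by
    rw [integral_finsetSum _ fun i _ => (h.LL1_int_coord z i).const_mul _, hc, dotProduct,
      Finset.sum_mul]
    refine Finset.sum_congr rfl fun i _ => ?_
    rw [integral_const_mul, llM, mul_right_comm, div_mul_cancel₀ _ hZ.ne', mul_comm]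
  have i2 : Integrable fun x => (1 - c) * (Real.exp (z ⬝ᵥ x) * w x) := (h.LL1_int z).const_mul _
  have e2 : ∫ x, Real.exp c * ((1 - c) * (Real.exp (z ⬝ᵥ x) * w x) +
      ∑ i, d i * (x i * (Real.exp (z ⬝ᵥ x) * w x))) = Real.exp c * llZ w z := by
    rw [integral_const_mul, integral_add i2 i1, e1, integral_const_mul]
    change _ * ((1 - c) * llZ w z + _) = _
    ring
  have k : Real.exp c * llZ w z ≤ llZ w y := by
    rw [← e2]
    refine integral_mono ((i2.add i1).const_mul _) (h.LL1_int y) fun x => ?_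
    have e3 : ∑ i, d i * (x i * (Real.exp (z ⬝ᵥ x) * w x)) =
        d ⬝ᵥ x * (Real.exp (z ⬝ᵥ x) * w x) := by
      rw [show d ⬝ᵥ x = ∑ i, d i * x i from rfl, Finset.sum_mul]
      exact Finset.sum_congr rfl fun i _ => (mul_assoc _ _ _).symm
    have e4 : Real.exp (y ⬝ᵥ x) = Real.exp c * Real.exp (d ⬝ᵥ x - c) * Real.exp (z ⬝ᵥ x) := by
      rw [← Real.exp_add, ← Real.exp_add, hd, sub_dotProduct]
      congr 1
      ring
    have a1 := mul_le_mul_of_nonneg_right (Real.add_one_le_exp (d ⬝ᵥ x - c)) (h.LL1_nn z x)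
    have a2 := mul_le_mul_of_nonneg_left a1 (Real.exp_pos c).le
    simp only [e3, e4]
    linarith
  have k2 := Real.log_le_log (mul_pos (Real.exp_pos c) hZ) k
  rw [Real.log_mul (Real.exp_pos c).ne' hZ.ne', Real.log_exp] at k2
  linarith

theorem LL1_young {κ : ℝ} (hκ : 0 < κ) (v y : Vc m) : 2 * (v ⬝ᵥ y) ≤ κ * nsq y + κ⁻¹ * nsq v := by
  have h1 := nsq_nonneg (κ • y - v)
  simp only [nsq, sub_dotProduct, dotProduct_sub, smul_dotProduct, dotProduct_smul, smul_eq_mul,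
    dotProduct_comm y v] at h1
  have h2 := mul_nonneg (inv_pos.2 hκ).le h1
  have h3 : κ⁻¹ * κ = 1 := inv_mul_cancel₀ hκ.ne'
  unfold nsq
  linear_combination h2 + (κ * y ⬝ᵥ y - 2 * v ⬝ᵥ y) * h3

theorem LL1_log {A B Z c : ℝ} (hA : 0 < A) (hB : 0 < B) (hZ : 0 < Z) :
    Real.log (A * B) = Real.log A + Real.log B ∧
      Real.log ((Real.exp (c / 2) * Z) ^ 2) = c + 2 * Real.log Z := by
  refine ⟨Real.log_mul hA.ne' hB.ne', ?_⟩
  rw [Real.log_pow, Real.log_mul (Real.exp_pos _).ne' hZ.ne', Real.log_exp]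
  push_cast
  ring

/-- Prékopa–Leindler (`plProp_pi`): with `f x = e^{(z+v)x} w x`, `g x = e^{(z-v)x} w x`,
`h x = e^{zx} w x e^{|v|²/(2κ)}`, because `2 v⬝y ≤ κ|y|² + |v|²/κ`. -/
theorem Wt.sd_up (h : Wt w) {κ : ℝ} (hκ : 0 < κ)
    (hw : ∀ x y, w (x + y) * w (x - y) * Real.exp (κ * nsq y) ≤ w x ^ 2) (z v : Vc m) :
    Real.log (llZ w (z + v)) + Real.log (llZ w (z - v)) - 2 * Real.log (llZ w z) ≤ κ⁻¹ * nsq v := by
  set c := κ⁻¹ * nsq v with hc
  have hA := h.llZ_pos (z + v)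
  have hB := h.llZ_pos (z - v)
  have hZ := h.llZ_pos z
  have n3 : ∀ x, 0 ≤ Real.exp (c / 2) * (Real.exp (z ⬝ᵥ x) * w x) := fun x =>
    mul_nonneg (Real.exp_pos _).le (h.LL1_nn z x)
  have k := Crest.Agent.Lib.PrekopaLeindler.plProp_pi m _ _ _
    (h.LL1_meas (z + v)).ennreal_ofReal (h.LL1_meas (z - v)).ennreal_ofReal
    ((h.LL1_meas z).const_mul (Real.exp (c / 2))).ennreal_ofReal (fun a b => by
      obtain ⟨x, hx⟩ : ∃ x : Vc m, x = fun i => (a i + b i) / 2 := ⟨_, rfl⟩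
      obtain ⟨y, hy⟩ : ∃ y : Vc m, y = fun i => (a i - b i) / 2 := ⟨_, rfl⟩
      have ea : a = x + y := by
        funext i
        simp only [hx, hy, Pi.add_apply]
        ring
      have eb : b = x - y := by
        funext i
        simp only [hx, hy, Pi.sub_apply]
        ring
      beta_reduce
      rw [← ENNReal.ofReal_mul (h.LL1_nn _ _), ← ENNReal.ofReal_pow (n3 _), ← hx, ea, eb]
      refine ENNReal.ofReal_le_ofReal ?_
      have e1 : Real.exp ((z + v) ⬝ᵥ (x + y)) * Real.exp ((z - v) ⬝ᵥ (x - y)) ≤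
          (Real.exp (c / 2) * Real.exp (z ⬝ᵥ x)) ^ 2 * Real.exp (κ * nsq y) := by
        rw [← Real.exp_add, ← Real.exp_add, ← Real.exp_nat_mul, ← Real.exp_add]
        refine Real.exp_le_exp.2 ?_
        have := LL1_young hκ v y
        simp only [add_dotProduct, dotProduct_add, sub_dotProduct, dotProduct_sub]
        push_cast
        linarith
      have e2 := mul_le_mul_of_nonneg_right e1 (mul_nonneg (h.nonneg (x + y)) (h.nonneg (x - y)))
      have e3 := mul_le_mul_of_nonneg_left (hw x y)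
        (sq_nonneg (Real.exp (c / 2) * Real.exp (z ⬝ᵥ x)))
      linarith)
  rw [← ofReal_integral_eq_lintegral_ofReal (h.LL1_int _) (Eventually.of_forall (h.LL1_nn _)),
    ← ofReal_integral_eq_lintegral_ofReal (h.LL1_int _) (Eventually.of_forall (h.LL1_nn _)),
    ← ofReal_integral_eq_lintegral_ofReal ((h.LL1_int z).const_mul _) (Eventually.of_forall n3),
    integral_const_mul] at k
  change ENNReal.ofReal (llZ w (z + v)) * ENNReal.ofReal (llZ w (z - v)) ≤
    ENNReal.ofReal (Real.exp (c / 2) * llZ w z) ^ 2 at k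
  rw [← ENNReal.ofReal_mul hA.le, ← ENNReal.ofReal_pow (mul_pos (Real.exp_pos _) hZ).le,
    ENNReal.ofReal_le_ofReal_iff (sq_nonneg _)] at k
  have k2 := Real.log_le_log (mul_pos hA hB) k
  rw [(LL1_log (c := c) hA hB hZ).1, (LL1_log hA hB hZ).2] at k2
  linarith

theorem LL1_cs {F G H : Vc m → ℝ} (hF : Integrable F) (hG : Integrable G) (hH : Integrable H)
    (F0 : ∀ x, 0 ≤ F x) (G0 : ∀ x, 0 ≤ G x) (h : ∀ x, H x ^ 2 ≤ F x * G x) (hA : 0 < ∫ x, F x)
    (hB : 0 < ∫ x, G x) (H0 : 0 ≤ ∫ x, H x) : (∫ x, H x) ^ 2 ≤ (∫ x, F x) * ∫ x, G x := by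
  set A := ∫ x, F x with hA'
  set B := ∫ x, G x with hB'
  have s0 : 0 < √(A * B) := Real.sqrt_pos.2 (mul_pos hA hB)
  have s1 : √(A * B) ^ 2 = A * B := Real.sq_sqrt (mul_pos hA hB).le
  have k : ∫ x, 2 * √(A * B) * H x ≤ ∫ x, (B * F x + A * G x) := by
    refine integral_mono (hH.const_mul _) ((hF.const_mul _).add (hG.const_mul _)) fun x => ?_
    refine (abs_le_of_sq_le_sq' ?_
      (add_nonneg (mul_nonneg hB.le (F0 x)) (mul_nonneg hA.le (G0 x)))).2
    rw [mul_pow, mul_pow, s1]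
    nlinarith [mul_le_mul_of_nonneg_left (h x) (mul_pos hA hB).le, sq_nonneg (B * F x - A * G x)]
  rw [integral_const_mul, integral_add (hF.const_mul _) (hG.const_mul _), integral_const_mul,
    integral_const_mul, ← hA', ← hB'] at k
  have k2 : ∫ x, H x ≤ √(A * B) := by
    refine le_of_mul_le_mul_left ?_ s0
    nlinarith
  rw [← s1]
  exact pow_le_pow_left₀ H0 k2 2

/-- Cauchy–Schwarz after the shifts `x ↦ x ± v/κ`. -/
theorem Wt.sd_lo (h : Wt w) {κ : ℝ} (hκ : 0 < κ)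
    (hw : ∀ x y, w x ^ 2 ≤ w (x + y) * w (x - y) * Real.exp (κ * nsq y)) (z v : Vc m) :
    κ⁻¹ * nsq v ≤ Real.log (llZ w (z + v)) + Real.log (llZ w (z - v)) - 2 * Real.log (llZ w z) := by
  set c := κ⁻¹ * nsq v with hc
  have hA := h.llZ_pos (z + v)
  have hB := h.llZ_pos (z - v)
  have hZ := h.llZ_pos z
  obtain ⟨y, hy⟩ : ∃ y : Vc m, y = κ⁻¹ • v := ⟨_, rfl⟩
  have eA : ∫ x, Real.exp ((z + v) ⬝ᵥ (x + y)) * w (x + y) = llZ w (z + v) :=
    integral_add_right_eq_self (fun x => Real.exp ((z + v) ⬝ᵥ x) * w x) y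
  have eB : ∫ x, Real.exp ((z - v) ⬝ᵥ (x - y)) * w (x - y) = llZ w (z - v) :=
    integral_sub_right_eq_self (fun x => Real.exp ((z - v) ⬝ᵥ x) * w x) y
  have eZ : ∫ x, Real.exp (c / 2) * (Real.exp (z ⬝ᵥ x) * w x) = Real.exp (c / 2) * llZ w z :=
    integral_const_mul _ _
  have y1 : v ⬝ᵥ y = c := by
    rw [hy, dotProduct_smul, smul_eq_mul]
    rfl
  have y2 : κ * nsq y = c := by
    rw [hy, nsq, smul_dotProduct, ← hy, y1, smul_eq_mul, mul_inv_cancel_left₀ hκ.ne']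
  have k := LL1_cs ((h.LL1_int (z + v)).comp_add_right y) ((h.LL1_int (z - v)).comp_sub_right y)
    ((h.LL1_int z).const_mul (Real.exp (c / 2))) (fun x => h.LL1_nn _ _) (fun x => h.LL1_nn _ _)
    (fun x => by
      have e1 : Real.exp ((z + v) ⬝ᵥ (x + y)) * Real.exp ((z - v) ⬝ᵥ (x - y)) =
          (Real.exp (c / 2) * Real.exp (z ⬝ᵥ x)) ^ 2 * Real.exp (κ * nsq y) := by
        rw [← Real.exp_add, ← Real.exp_add, ← Real.exp_nat_mul, ← Real.exp_add]
        congr 1
        simp only [add_dotProduct, dotProduct_add, sub_dotProduct, dotProduct_sub]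
        push_cast
        linarith
      have e3 := mul_le_mul_of_nonneg_left (hw x y)
        (sq_nonneg (Real.exp (c / 2) * Real.exp (z ⬝ᵥ x)))
      have e4 := congrArg (· * (w (x + y) * w (x - y))) e1
      linarith) (eA ▸ hA) (eB ▸ hB) (eZ ▸ (mul_pos (Real.exp_pos _) hZ).le)
  rw [eA, eB, eZ] at k
  have k2 := Real.log_le_log (pow_pos (mul_pos (Real.exp_pos _) hZ) 2) k
  rw [(LL1_log (c := c) hA hB hZ).1, (LL1_log hA hB hZ).2] at k2
  linarith

theorem Wt.sc0 (h : Wt w) {κ : ℝ} (hκ : 0 < κ)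
    (hw : ∀ x y, w (x + y) * w (x - y) * Real.exp (κ * nsq y) ≤ w x ^ 2) :
    SC (fun z => Real.log (llZ w z)) (llM w) 0 κ⁻¹ := by
  refine SC.of_sd (fun z y => h.subgrad z y) (fun z v => ?_) (fun z v => h.sd_up hκ hw z v)
  have a := h.subgrad z (z + v)
  have b := h.subgrad z (z - v)
  rw [add_sub_cancel_left] at a
  rw [sub_sub_cancel_left, dotProduct_neg] at b
  linarith

theorem Wt.sc (h : Wt w) {κ₁ κ₂ : ℝ} (h1 : 0 < κ₁) (h2 : 0 < κ₂)
    (hw1 : ∀ x y, w (x + y) * w (x - y) * Real.exp (κ₁ * nsq y) ≤ w x ^ 2)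
    (hw2 : ∀ x y, w x ^ 2 ≤ w (x + y) * w (x - y) * Real.exp (κ₂ * nsq y)) :
    SC (fun z => Real.log (llZ w z)) (llM w) κ₂⁻¹ κ₁⁻¹ := by
  exact SC.of_sd (fun z y => h.subgrad z y) (fun z v => h.sd_lo h2 hw2 z v)
    (fun z v => h.sd_up h1 hw1 z v)

theorem ll2_cosh (y : ℝ) : 2 + y ^ 2 ≤ Real.exp y + Real.exp (-y) := by
  have h1 : Real.cosh (2 * (y / 2)) = Real.cosh (y / 2) ^ 2 + Real.sinh (y / 2) ^ 2 :=
    Real.cosh_two_mul _
  rw [Real.cosh_sq, show 2 * (y / 2) = y by ring, Real.cosh_eq] at h1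
  have h2 : |y / 2| ≤ |Real.sinh (y / 2)| := by
    rw [Real.abs_sinh]
    exact Real.self_le_sinh_iff.2 (abs_nonneg _)
  have h3 : (y / 2) ^ 2 ≤ Real.sinh (y / 2) ^ 2 := sq_le_sq.2 h2
  nlinarith

theorem ll2_int (h : Wt w) (z : Vc m) : Integrable fun x => Real.exp (z ⬝ᵥ x) * w x := by
  refine (h.int (∑ i, |z i|)).mono' ?_ (Eventually.of_forall fun x => ?_)
  · refine Measurable.aestronglyMeasurable (Measurable.mul ?_ h.meas)
    exact (Real.continuous_exp.comp (continuous_const.dotProduct continuous_id)).measurable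
  · rw [Real.norm_eq_abs, abs_of_nonneg (mul_nonneg (Real.exp_pos _).le (h.nonneg x))]
    refine mul_le_mul_of_nonneg_right (Real.exp_le_exp.2 ?_) (h.nonneg x)
    rw [dotProduct, Finset.sum_mul]
    refine Finset.sum_le_sum fun i _ => (le_abs_self _).trans ?_
    rw [abs_mul]
    exact mul_le_mul_of_nonneg_left (norm_le_pi_norm x i) (abs_nonneg _)

theorem ll2_shift (z x : Vc m) (i : Fin m) (s c : ℝ) :
    Real.exp (s * (x i - c)) * (Real.exp (z ⬝ᵥ x) * w x) =
      Real.exp (-(s * c)) * (Real.exp ((z + Pi.single i s) ⬝ᵥ x) * w x) := by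
  rw [← mul_assoc, ← mul_assoc, ← Real.exp_add, ← Real.exp_add, add_dotProduct, single_dotProduct]
  congr 2
  ring

theorem ll2_int_shift (h : Wt w) (z : Vc m) (i : Fin m) (s c : ℝ) :
    Integrable fun x : Vc m => Real.exp (s * (x i - c)) * (Real.exp (z ⬝ᵥ x) * w x) := by
  simp only [ll2_shift]
  exact (ll2_int h _).const_mul _

theorem ll2_shift_le (h : Wt w) {α β : ℝ} (hs : SC (fun z => Real.log (llZ w z)) (llM w) α β)
    (z : Vc m) (i : Fin m) (s : ℝ) :
    ∫ x : Vc m, Real.exp (s * (x i - llM w z i)) * (Real.exp (z ⬝ᵥ x) * w x) ≤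
      llZ w z * Real.exp (β / 2 * s ^ 2) := by
  simp only [ll2_shift]
  rw [integral_const_mul]
  have a := hs.up z (z + Pi.single i s)
  have e : nsq (Pi.single i s : Vc m) = s ^ 2 := by
    rw [nsq, single_dotProduct, Pi.single_eq_same, sq]
  rw [add_sub_cancel_left, dotProduct_single, e] at a
  have b := Real.exp_le_exp.2 a
  rw [Real.exp_log (h.llZ_pos _), Real.exp_add, Real.exp_add, Real.exp_log (h.llZ_pos _)] at b
  change Real.exp (-(s * llM w z i)) * llZ w (z + Pi.single i s) ≤ _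
  refine (mul_le_mul_of_nonneg_left b (Real.exp_pos _).le).trans (le_of_eq ?_)
  have c : Real.exp (-(s * llM w z i)) * Real.exp (llM w z i * s) = 1 := by
    rw [← Real.exp_add, mul_comm s, neg_add_cancel, Real.exp_zero]
  linear_combination (llZ w z * Real.exp (β / 2 * s ^ 2)) * c

theorem ll2_pt (h : Wt w) (z x : Vc m) (i : Fin m) (s c : ℝ) :
    2 * (Real.exp (z ⬝ᵥ x) * w x) + s ^ 2 * ((x i - c) ^ 2 * (Real.exp (z ⬝ᵥ x) * w x)) ≤
      Real.exp (s * (x i - c)) * (Real.exp (z ⬝ᵥ x) * w x) +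
        Real.exp (-s * (x i - c)) * (Real.exp (z ⬝ᵥ x) * w x) := by
  have a := mul_le_mul_of_nonneg_right (ll2_cosh (s * (x i - c)))
    (mul_nonneg (Real.exp_pos (z ⬝ᵥ x)).le (h.nonneg x))
  rw [neg_mul]
  linarith

theorem ll2_int_sq (h : Wt w) (z : Vc m) (i : Fin m) (c : ℝ) :
    Integrable fun x : Vc m => (x i - c) ^ 2 * (Real.exp (z ⬝ᵥ x) * w x) := by
  refine ((ll2_int_shift h z i 1 c).add (ll2_int_shift h z i (-1) c)).mono' ?_
    (Eventually.of_forall fun x => ?_)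
  · refine AEStronglyMeasurable.mul ?_ (ll2_int h z).aestronglyMeasurable
    exact (((continuous_apply i).sub continuous_const).pow 2).aestronglyMeasurable
  · have p := mul_nonneg (Real.exp_pos (z ⬝ᵥ x)).le (h.nonneg x)
    rw [Real.norm_eq_abs, abs_of_nonneg (mul_nonneg (sq_nonneg _) p)]
    have a := ll2_pt h z x i 1 c
    simp only [Pi.add_apply]
    linarith

theorem ll2_var_one (h : Wt w) {α β : ℝ} (hs : SC (fun z => Real.log (llZ w z)) (llM w) α β)
    (z : Vc m) (i : Fin m) :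
    ∫ x : Vc m, (x i - llM w z i) ^ 2 * (Real.exp (z ⬝ᵥ x) * w x) ≤ β * llZ w z := by
  set V := ∫ x : Vc m, (x i - llM w z i) ^ 2 * (Real.exp (z ⬝ᵥ x) * w x) with hV
  have key : ∀ s : ℝ, 2 * llZ w z + s ^ 2 * V ≤ 2 * (llZ w z * Real.exp (β / 2 * s ^ 2)) := by
    intro s
    have a := ll2_shift_le h hs z i s
    have b := ll2_shift_le h hs z i (-s)
    rw [neg_sq] at b
    have c := integral_mono (((ll2_int h z).const_mul 2).add
      ((ll2_int_sq h z i (llM w z i)).const_mul (s ^ 2)))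
      ((ll2_int_shift h z i s (llM w z i)).add (ll2_int_shift h z i (-s) (llM w z i)))
      fun x => ll2_pt h z x i s (llM w z i)
    simp only [Pi.add_apply] at c
    rw [integral_add ((ll2_int h z).const_mul 2) ((ll2_int_sq h z i (llM w z i)).const_mul (s ^ 2)),
      integral_add (ll2_int_shift h z i s (llM w z i)) (ll2_int_shift h z i (-s) (llM w z i)),
      integral_const_mul, integral_const_mul] at c
    change 2 * llZ w z + s ^ 2 * V ≤ _ at c
    linarith
  have hd : HasDerivAt (fun t : ℝ => 2 * (llZ w z * Real.exp (β / 2 * t)))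
      (2 * (llZ w z * (Real.exp (β / 2 * 0) * (β / 2 * 1)))) 0 :=
    ((((hasDerivAt_id (0 : ℝ)).const_mul (β / 2)).exp).const_mul _).const_mul _
  have ht := hd.tendsto_slope_zero_right
  have e : 2 * (llZ w z * (Real.exp (β / 2 * 0) * (β / 2 * 1))) = β * llZ w z := by
    rw [mul_zero, Real.exp_zero]; ring
  rw [e] at ht
  refine ge_of_tendsto ht ?_
  filter_upwards [self_mem_nhdsWithin] with t ht0
  have ht1 : 0 < t := ht0
  have a := key √t
  rw [Real.sq_sqrt ht1.le] at a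
  rw [smul_eq_mul, zero_add, mul_zero, Real.exp_zero, mul_one, le_inv_mul_iff₀ ht1]
  linarith

/-- variance bound: `1 + s²y²/2 ≤ cosh (s y)`, so `1 + s² Var/2 ≤ e^{β s²/2}`, `s → 0`. -/
theorem Wt.var_le (h : Wt w) {α β : ℝ} (hs : SC (fun z => Real.log (llZ w z)) (llM w) α β)
    (z : Vc m) :
    ∫ x, nsq (x - llM w z) * (Real.exp (z ⬝ᵥ x) * w x) ≤ m * β * llZ w z := by
  simp only [nsq_eq_sum, Finset.sum_mul, Pi.sub_apply]
  rw [integral_finsetSum _ fun i _ => ll2_int_sq h z i _]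
  refine (Finset.sum_le_sum fun i _ => ll2_var_one h hs z i).trans (le_of_eq ?_)
  rw [Finset.sum_const, Finset.card_univ, Fintype.card_fin, nsmul_eq_mul, mul_assoc]

theorem SC.wt {U : Vc m → ℝ} {g : Vc m → Vc m} {κ₁ κ₂ : ℝ} (h : SC U g κ₁ κ₂) (h1 : 0 < κ₁)
    (h2 : 0 < κ₂) : Wt fun x => Real.exp (-U x) := by
  have hc : Continuous U := continuous_iff_continuousAt.2 fun z => (h.hasFDerivAt z).continuousAt
  have hi : ∀ a : ℝ, Integrable fun x => Real.exp (a * ‖x‖) * Real.exp (-U x) := fun a => by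
    simpa only [one_mul] using h.integrable_exp h1 h2 (PG.const 1) a
  refine ⟨(Real.continuous_exp.comp hc.neg).measurable, fun x => (Real.exp_pos _).le, hi, ?_⟩
  refine integral_exp_pos ?_
  simpa only [zero_mul, Real.exp_zero, one_mul] using hi 0

theorem SC.ll {U : Vc m → ℝ} {g : Vc m → Vc m} {κ₁ κ₂ : ℝ} (h : SC U g κ₁ κ₂) (h1 : 0 < κ₁)
    (h2 : 0 < κ₂) : SC (fun z => Real.log (llZ (fun x => Real.exp (-U x)) z))
      (llM fun x => Real.exp (-U x)) κ₂⁻¹ κ₁⁻¹ := by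
  refine (h.wt h1 h2).sc h1 h2 (fun x y => ?_) fun x y => ?_
  · rw [sq, ← Real.exp_add, ← Real.exp_add, ← Real.exp_add, Real.exp_le_exp]
    linarith [(h.sd x y).1]
  · rw [sq, ← Real.exp_add, ← Real.exp_add, ← Real.exp_add, Real.exp_le_exp]
    linarith [(h.sd x y).2]

end Crest.Agent.R253
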