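import Crest.Agent.R253.Lc
import Crest.Agent.R253.LL

set_option autoImplicit false
set_option linter.unusedVariables false
set_option linter.unusedSectionVars false

open MeasureTheory Matrix Set Filter Topology
open Crest.Agent.R215 (gam)
open Crest.Agent.R203
open Crest.GeometryTopology.Isotropic

noncomputable section

namespace Crest.Agent.R253

variable {m : ℕ}

/-! Approximation of a log-concave density by smooth strongly log-concave ones. -/

/-- Gaussian smoothing at variance `s²` -/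
def cv (s : ℝ) (f : Vc m → ℝ) (x : Vc m) : ℝ := ∫ y, f (x - s • y) ∂gm m

variable {f : Vc m → ℝ} {C κ s : ℝ}

/-- complement of a smooth convex function -/
theorem SC.compl {L : Vc m → ℝ} {G : Vc m → Vc m} {β : ℝ} (h : SC L G 0 β) (e : ℝ) :
    SC (fun x => β / 2 * nsq x - L x + e) (fun x => β • x - G x) 0 β := by
  refine ⟨fun z y => ?_, fun z y => ?_⟩
  · have a := (sc_nsq (m := m) β).lo z y
    have b := h.up z y
    rw [sub_dotProduct]
    linarith
  · have a := (sc_nsq (m := m) β).up z y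
    have b := h.lo z y
    rw [sub_dotProduct]
    linarith

theorem apx1_nsq_smul (c : ℝ) (v : Vc m) : nsq (c • v) = c ^ 2 * nsq v := by
  unfold nsq
  rw [smul_dotProduct, dotProduct_smul, smul_eq_mul, smul_eq_mul]
  ring

theorem apx1_nsq_add (v w : Vc m) : nsq (v + w) = nsq v + 2 * (v ⬝ᵥ w) + nsq w := by
  unfold nsq
  rw [add_dotProduct, dotProduct_add, dotProduct_add, dotProduct_comm w v]
  ring

theorem apx1_nsq_sub (v w : Vc m) : nsq (v - w) = nsq v - 2 * (v ⬝ᵥ w) + nsq w := by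
  unfold nsq
  rw [sub_dotProduct, dotProduct_sub, dotProduct_sub, dotProduct_comm w v]
  ring

/-- substitute `u = x - s y` -/
theorem cv_eq (h : Dom C κ f) (hs : 0 < s) : ∃ c : ℝ, 0 < c ∧ ∀ x, cv s f x =
    c * Real.exp (-((s ^ 2)⁻¹ / 2 * nsq x)) *
      llZ (fun u => f u * Real.exp (-((s ^ 2)⁻¹ / 2 * nsq u))) ((s ^ 2)⁻¹ • x) := by
  set c₀ : ℝ := m / 2 * Real.log (2 * Real.pi) with hc₀
  have hp : 0 < |(s ^ Module.finrank ℝ (Vc m))⁻¹| := abs_pos.2 (by positivity)
  refine ⟨|(s ^ Module.finrank ℝ (Vc m))⁻¹| * Real.exp (-c₀), by positivity, fun x => ?_⟩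
  have hm : Measurable fun z : Vc m => Real.exp (-(1 / 2 * nsq z + c₀)) :=
    (((continuous_nsq.const_mul _).add continuous_const).neg.rexp).measurable
  set φ : Vc m → ℝ := fun u => f u * Real.exp (-(1 / 2 * nsq (s⁻¹ • (x - u)) + c₀)) with hφ
  have e1 : cv s f x = ∫ y, φ (x - s • y) := by
    unfold cv
    rw [gm_eq_mu]
    refine (integral_md hm (fun _ => (Real.exp_pos _).le) _).trans ?_
    simp only [hφ, sub_sub_cancel, inv_smul_smul₀ hs.ne']
  have e2 : ∀ u, φ u = Real.exp (-c₀) * Real.exp (-((s ^ 2)⁻¹ / 2 * nsq x)) *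
      (Real.exp (((s ^ 2)⁻¹ • x) ⬝ᵥ u) * (f u * Real.exp (-((s ^ 2)⁻¹ / 2 * nsq u)))) := by
    intro u
    have : Real.exp (-(1 / 2 * nsq (s⁻¹ • (x - u)) + c₀)) =
        Real.exp (-c₀) * Real.exp (-((s ^ 2)⁻¹ / 2 * nsq x)) *
          Real.exp (((s ^ 2)⁻¹ • x) ⬝ᵥ u) * Real.exp (-((s ^ 2)⁻¹ / 2 * nsq u)) := by
      rw [← Real.exp_add, ← Real.exp_add, ← Real.exp_add, apx1_nsq_smul, apx1_nsq_sub,
        smul_dotProduct, smul_eq_mul, inv_pow]
      congr 1
      ring
    simp only [hφ, this]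
    ring
  rw [e1, Measure.integral_comp_smul volume (fun v => φ (x - v)) s, integral_sub_left_eq_self φ,
    smul_eq_mul]
  simp only [e2]
  rw [integral_const_mul]
  unfold llZ
  ring

theorem apx1_scale {ψ : Vc m → ℝ} {X : Vc m → Vc m} {α β : ℝ} (h : SC ψ X α β) (c : ℝ) :
    SC (fun x => ψ (c • x)) (fun x => c • X (c • x)) (α * c ^ 2) (β * c ^ 2) := by
  refine ⟨fun z y => ?_, fun z y => ?_⟩
  · have a := h.lo (c • z) (c • y)
    rw [← smul_sub, dotProduct_smul, apx1_nsq_smul] at a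
    rw [smul_dotProduct]
    linarith
  · have a := h.up (c • z) (c • y)
    rw [← smul_sub, dotProduct_smul, apx1_nsq_smul] at a
    rw [smul_dotProduct]
    linarith

theorem apx1_wt (h : LC f) {k : ℝ} (hk : 0 < k) :
    Wt fun u => f u * Real.exp (-(k / 2 * nsq u)) := by
  obtain ⟨C, κ, hd⟩ := h.dom
  have hm : Measurable fun u : Vc m => f u * Real.exp (-(k / 2 * nsq u)) :=
    h.meas.mul (continuous_nsq.const_mul _).neg.rexp.measurable
  have hnn : ∀ u : Vc m, 0 ≤ f u * Real.exp (-(k / 2 * nsq u)) := fun u =>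
    mul_nonneg (h.nonneg u) (Real.exp_pos _).le
  have hC : 0 ≤ C := by
    have := (h.nonneg 0).trans (hd.le 0)
    simpa using this
  have hfC : ∀ x, f x ≤ C := fun x => (hd.le x).trans (mul_le_of_le_one_right hC
    (Real.exp_le_one_iff.2 (neg_nonpos.2 (mul_nonneg hd.pos.le (norm_nonneg _)))))
  have hint : ∀ a : ℝ, Integrable fun x : Vc m =>
      Real.exp (a * ‖x‖) * (f x * Real.exp (-(k / 2 * nsq x))) := fun a => by
    refine ((sc_nsq (m := m) k).integrable_exp hk hk (PG.const C) a).mono'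
      ((continuous_norm.const_mul a).rexp.measurable.mul hm).aestronglyMeasurable
      (ae_of_all _ fun x => ?_)
    rw [Real.norm_of_nonneg (mul_nonneg (Real.exp_pos _).le (hnn x)), ← mul_assoc,
      mul_comm (Real.exp _) (f x)]
    gcongr
    exact hfC x
  refine ⟨hm, hnn, hint, ?_⟩
  have i0 : Integrable fun x : Vc m => f x * Real.exp (-(k / 2 * nsq x)) := by
    simpa using hint 0
  have i1 : Integrable f := Integrable.of_integral_ne_zero (by rw [h.one]; exact one_ne_zero)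
  have h1 := (integral_pos_iff_support_of_nonneg (fun x => h.nonneg x) i1).1
    (by rw [h.one]; exact one_pos)
  refine (integral_pos_iff_support_of_nonneg (fun x => hnn x) i0).2
    (h1.trans_le (measure_mono fun x hx => ?_))
  exact mul_ne_zero hx (Real.exp_pos _).ne'

/-- `Wt.sc0` with `κ = s⁻²` (`LC.mid`, parallelogram law), rescaling (`SC.comp` with a scalar matrix),
`SC.compl` -/
theorem LC.cv_sc (h : LC f) (hs : 0 < s) : (∀ x, 0 < cv s f x) ∧
    ∃ G, SC (fun x => -Real.log (cv s f x)) G 0 (s ^ 2)⁻¹ := by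
  obtain ⟨C, κ, hd⟩ := h.dom
  obtain ⟨c, hc, he⟩ := cv_eq hd hs
  have hk : 0 < (s ^ 2)⁻¹ := by positivity
  generalize (s ^ 2)⁻¹ = k at he hk ⊢
  have hw := apx1_wt h hk
  refine ⟨fun x => by rw [he]; exact mul_pos (mul_pos hc (Real.exp_pos _)) (hw.llZ_pos _), ?_⟩
  have h0 := hw.sc0 hk fun x y => by
    have e : Real.exp (-(k / 2 * nsq (x + y))) * Real.exp (-(k / 2 * nsq (x - y))) *
        Real.exp (k * nsq y) = Real.exp (-(k / 2 * nsq x)) ^ 2 := by
      rw [sq, ← Real.exp_add, ← Real.exp_add, ← Real.exp_add, apx1_nsq_add, apx1_nsq_sub]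
      congr 1
      ring
    calc f (x + y) * Real.exp (-(k / 2 * nsq (x + y))) *
          (f (x - y) * Real.exp (-(k / 2 * nsq (x - y)))) * Real.exp (k * nsq y)
        = f (x + y) * f (x - y) * (Real.exp (-(k / 2 * nsq (x + y))) *
            Real.exp (-(k / 2 * nsq (x - y))) * Real.exp (k * nsq y)) := by ring
      _ ≤ f x ^ 2 * Real.exp (-(k / 2 * nsq x)) ^ 2 := by
          rw [e]
          exact mul_le_mul_of_nonneg_right (h.mid x y) (sq_nonneg _)
      _ = _ := by ring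
  have h1 := apx1_scale h0 k
  rw [zero_mul, show k⁻¹ * k ^ 2 = k by field_simp] at h1
  have h2 := h1.compl (-Real.log c)
  have e : (fun x => -Real.log (cv s f x)) = fun x => k / 2 * nsq x -
      Real.log (llZ (fun u => f u * Real.exp (-(k / 2 * nsq u))) (k • x)) + -Real.log c := by
    funext x
    rw [he, Real.log_mul (mul_pos hc (Real.exp_pos _)).ne' (hw.llZ_pos _).ne',
      Real.log_mul hc.ne' (Real.exp_pos _).ne', Real.log_exp]
    ring
  rw [e]
  exact ⟨_, h2⟩

theorem Dom.Apx2_C (h : Dom C κ f) : 0 ≤ C :=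
  nonneg_of_mul_nonneg_left ((h.nonneg 0).trans (h.le 0)) (Real.exp_pos _)

theorem Dom.Apx2_le (h : Dom C κ f) (x : Vc m) : f x ≤ C := by
  have h1 : Real.exp (-(κ * ‖x‖)) ≤ 1 :=
    Real.exp_le_one_iff.2 (neg_nonpos.2 (mul_nonneg h.pos.le (norm_nonneg x)))
  exact (h.le x).trans (mul_le_of_le_one_right h.Apx2_C h1)

theorem Dom.Apx2_mono (h : Dom C κ f) {C' : ℝ} (hC : C ≤ C') : Dom C' κ f :=
  ⟨h.meas, h.nonneg, h.pos, fun x =>
    (h.le x).trans (mul_le_mul_of_nonneg_right hC (Real.exp_pos _).le)⟩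

theorem Apx2_sc (s e : ℝ) : SC (fun x : Vc m => s / 2 * nsq x + e) (fun x => s • x) s s := by
  have key : ∀ z y : Vc m, s / 2 * nsq y + e =
      s / 2 * nsq z + e + (s • z) ⬝ᵥ (y - z) + s / 2 * nsq (y - z) := by
    intro z y
    have h := nsq_add_aux z (y - z)
    rw [add_sub_cancel] at h
    rw [h, smul_dotProduct, smul_eq_mul]
    ring
  exact ⟨fun z y => (key z y).ge, fun z y => (key z y).le⟩

/-- `‖x - s y‖ ≥ ‖x‖ - ‖y‖`, `integrable_exp_norm` -/
theorem Dom.cv (h : Dom C κ f) : ∃ C' : ℝ, C ≤ C' ∧ ∀ s : ℝ, 0 < s → s ≤ 1 → Dom C' κ (cv s f) := by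
  have hi := integrable_exp_norm (ι := Fin m) h.pos.le
  have h1 : 1 ≤ ∫ y : Vc m, Real.exp (κ * ‖y‖) ∂gm m := by
    have := integral_mono (integrable_const (1 : ℝ)) hi fun y =>
      Real.one_le_exp (mul_nonneg h.pos.le (norm_nonneg y))
    simpa using this
  refine ⟨C * ∫ y : Vc m, Real.exp (κ * ‖y‖) ∂gm m, le_mul_of_one_le_right h.Apx2_C h1,
    fun s hs hs1 => ⟨?_, fun x => integral_nonneg fun y => h.nonneg _, h.pos, fun x => ?_⟩⟩
  · have hm : StronglyMeasurable fun p : Vc m × Vc m => f (p.1 - s • p.2) :=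
      (h.meas.comp (by fun_prop)).stronglyMeasurable
    exact (hm.integral_prod_right' (ν := gm m)).measurable
  · have h2 : ∀ y : Vc m, f (x - s • y) ≤ C * Real.exp (-(κ * ‖x‖)) * Real.exp (κ * ‖y‖) := by
      intro y
      refine (h.le _).trans ?_
      rw [mul_assoc, ← Real.exp_add]
      refine mul_le_mul_of_nonneg_left (Real.exp_le_exp.2 ?_) h.Apx2_C
      have h3 : ‖s • y‖ ≤ ‖y‖ := by
        rw [norm_smul, Real.norm_of_nonneg hs.le]
        exact mul_le_of_le_one_left (norm_nonneg y) hs1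
      have h4 := norm_sub_norm_le x (s • y)
      have h5 := mul_le_mul_of_nonneg_left (show ‖x‖ - ‖y‖ ≤ ‖x - s • y‖ by linarith) h.pos.le
      linarith
    have h3 := integral_mono_of_nonneg (Eventually.of_forall fun y => h.nonneg (x - s • y))
      (hi.const_mul (C * Real.exp (-(κ * ‖x‖)))) (Eventually.of_forall h2)
    rw [integral_const_mul] at h3
    unfold R253.cv
    linarith

theorem Dom.tendsto_cv (h : Dom C κ f) {x : Vc m} (hx : ContinuousAt f x) {σ : ℕ → ℝ}
    (hσ : Tendsto σ atTop (𝓝 0)) : Tendsto (fun n => R253.cv (σ n) f x) atTop (𝓝 (f x)) := by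
  have h1 := tendsto_integral_of_dominated_convergence (μ := gm m)
    (F := fun n y => f (x - σ n • y)) (f := fun _ => f x) (fun _ => C)
    (fun n => (h.meas.comp (by fun_prop)).aestronglyMeasurable) (integrable_const C)
    (fun n => Eventually.of_forall fun y => by
      rw [Real.norm_of_nonneg (h.nonneg _)]; exact h.Apx2_le _)
    (Eventually.of_forall fun y => by
      refine hx.tendsto.comp ?_
      have := (tendsto_const_nhds (x := x)).sub (hσ.smul_const y)
      simpa using this)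
  simpa [R253.cv] using h1

/-- `s = 1/(n+1)`, `F n = cv s f * exp (-s |x|²/2)`, `Z n = ∫ F n → 1` (`Dom.tendsto_integral`), `Z n > 0`,
so `Z n ≥ z₀ > 0` for all `n`; `V n = -log (cv s f) + s |x|²/2 + log (Z n)`. -/
theorem LC.approx (h : LC f) : ∃ (C κ : ℝ) (V : ℕ → Vc m → ℝ) (g : ℕ → Vc m → Vc m) (a b : ℕ → ℝ),
    Dom C κ f ∧ (∀ n, SC (V n) (g n) (a n) (b n) ∧ 0 < a n ∧ 0 < b n ∧
      ∫ x, Real.exp (-V n x) = 1 ∧ Dom C κ fun x => Real.exp (-V n x)) ∧
    ∀ᵐ x ∂(volume : Measure (Vc m)), Tendsto (fun n => Real.exp (-V n x)) atTop (𝓝 (f x)) := by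
  obtain ⟨C, κ, hd⟩ := h.dom
  obtain ⟨C', hC', hcv⟩ := hd.cv
  set σ : ℕ → ℝ := fun n => 1 / ((n : ℝ) + 1) with hσ
  have hσ0 : ∀ n, 0 < σ n := fun n => Nat.one_div_pos_of_nat
  have hσ1 : ∀ n, σ n ≤ 1 := fun n => by
    rw [hσ, div_le_one (by positivity)]
    linarith [(Nat.cast_nonneg n : (0 : ℝ) ≤ n)]
  have hσt : Tendsto σ atTop (𝓝 0) := tendsto_one_div_add_atTop_nhds_zero_nat
  set F : ℕ → Vc m → ℝ := fun n x => cv (σ n) f x * Real.exp (-(σ n / 2 * nsq x)) with hF
  have hFd : ∀ n, Dom C' κ (F n) := by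
    intro n
    have hn := hcv (σ n) (hσ0 n) (hσ1 n)
    refine ⟨hn.meas.mul (by have := continuous_nsq (m := m); fun_prop),
      fun x => mul_nonneg (hn.nonneg x) (Real.exp_pos _).le, hd.pos, fun x => ?_⟩
    refine le_trans (mul_le_of_le_one_right (hn.nonneg x) (Real.exp_le_one_iff.2 ?_)) (hn.le x)
    have := mul_nonneg (hσ0 n).le (nsq_nonneg x)
    linarith
  have hFp : ∀ n x, 0 < F n x := fun n x => mul_pos ((h.cv_sc (hσ0 n)).1 x) (Real.exp_pos _)
  have hFt : ∀ᵐ x ∂(volume : Measure (Vc m)), Tendsto (fun n => F n x) atTop (𝓝 (f x)) := by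
    filter_upwards [h.ae_cont] with x hx
    have h1 := ((hσt.div_const 2).mul_const (nsq x)).neg
    have h2 := (Real.continuous_exp.tendsto _).comp h1
    have h3 := (hd.tendsto_cv hx hσt).mul h2
    simpa using h3
  set Z : ℕ → ℝ := fun n => ∫ x, F n x with hZ
  have hZt : Tendsto Z atTop (𝓝 1) := by
    have h1 := Dom.tendsto_integral hFd hFt (PG.const (1 : ℝ))
    simp only [one_mul, h.one] at h1
    exact h1
  have hZp : ∀ n, 0 < Z n := by
    intro n
    have hi : Integrable (F n) := by simpa using (hFd n).integrable (PG.const (1 : ℝ))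
    refine (integral_pos_iff_support_of_nonneg (hFd n).nonneg hi).2 ?_
    have : Function.support (F n) = univ := eq_univ_of_forall fun x => (hFp n x).ne'
    rw [this]
    exact isOpen_univ.measure_pos _ univ_nonempty
  have hZi : Tendsto (fun n => (Z n)⁻¹) atTop (𝓝 1) := by simpa using hZt.inv₀ one_ne_zero
  obtain ⟨B, hB⟩ := hZi.bddAbove_range
  have hB' : ∀ n, (Z n)⁻¹ ≤ B := fun n => hB ⟨n, rfl⟩
  have hB1 : 1 ≤ B := le_of_tendsto' hZi hB'
  have hC0 : 0 ≤ C' := hd.Apx2_C.trans hC'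
  choose G hG using fun n => (h.cv_sc (hσ0 n)).2
  have hexp : ∀ n x, Real.exp (-(-Real.log (cv (σ n) f x) + (σ n / 2 * nsq x + Real.log (Z n)))) =
      (Z n)⁻¹ * F n x := by
    intro n x
    rw [neg_add, neg_add, neg_neg, Real.exp_add, Real.exp_add, Real.exp_log ((h.cv_sc (hσ0 n)).1 x),
      Real.exp_neg (Real.log _), Real.exp_log (hZp n)]
    ring
  refine ⟨B * C', κ, fun n x => -Real.log (cv (σ n) f x) + (σ n / 2 * nsq x + Real.log (Z n)),
    fun n x => G n x + σ n • x, fun n => 0 + σ n, fun n => (σ n ^ 2)⁻¹ + σ n,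
    hd.Apx2_mono (hC'.trans (le_mul_of_one_le_left hC0 hB1)), fun n => ?_, ?_⟩
  · have h0 := hσ0 n
    refine ⟨(hG n).add (Apx2_sc _ _), by positivity, by positivity, ?_, ?_⟩
    · simp only [hexp]
      rw [integral_const_mul]
      exact inv_mul_cancel₀ (hZp n).ne'
    · simp only [hexp]
      refine ⟨(hFd n).meas.const_mul _,
        fun x => mul_nonneg (inv_pos.2 (hZp n)).le ((hFd n).nonneg x), hd.pos, fun x => ?_⟩
      rw [mul_assoc]
      exact mul_le_mul (hB' n) ((hFd n).le x) ((hFd n).nonneg x) (by linarith)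
  · filter_upwards [hFt] with x hx
    simp only [hexp]
    simpa using hZi.mul hx

end Crest.Agent.R253
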