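import Crest.Agent.R253.WdB

set_option autoImplicit false
set_option linter.unusedVariables false
set_option linter.unusedSectionVars false

open MeasureTheory Matrix Set Filter Topology
open Crest.Agent.R215 (gam)
open Crest.Agent.R203
open Crest.GeometryTopology.Isotropic

noncomputable section

namespace Crest.Agent.R253

variable {m : ℕ}

/-! Hilbert space calculus for vector fields, and the two polarised gap inequalities. -/

variable {u w x : Vc m → Vc m} {D E G : Fin m → Vc m → Vc m}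

theorem L2v.add (h : L2v u) (h' : L2v w) : L2v fun z => u z + w z := fun i => (h i).add (h' i)
theorem L2v.sub (h : L2v u) (h' : L2v w) : L2v fun z => u z - w z := fun i => (h i).sub (h' i)
theorem L2v.smul (h : L2v u) (c : ℝ) : L2v fun z => c • u z := fun i => (h i).const_mul c
theorem l2v_const (c : Vc m) : L2v fun _ : Vc m => c := fun i => memLp_const (c i)
theorem l2v_sum {κ : Type} (s : Finset κ) {F : κ → Vc m → Vc m} (h : ∀ j ∈ s, L2v (F j)) :
    L2v fun z => ∑ j ∈ s, F j z := fun i => by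
  simp only [Finset.sum_apply]
  exact memLp_finsetSum s fun j hj => h j hj i
theorem L2m.mulVec {A : Vc m → Mx m} (h : L2m A) (θ : Vc m) : L2v fun z => A z *ᵥ θ := fun i => by
  simp only [Matrix.mulVec, dotProduct]
  exact memLp_finsetSum _ fun j _ => (h i j).mul_const (θ j)
theorem L2v.integrable_dot (h : L2v u) (h' : L2v w) :
    Integrable (fun z => u z ⬝ᵥ w z) (gm m) := by
  simp only [dotProduct]
  exact integrable_finsetSum _ fun i _ => (h i).integrable_mul (h' i)
theorem VW.l2 (h : VW u D) : L2v u := fun i => (h i).l2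
theorem VW.l2d (h : VW u D) (k : Fin m) : L2v (D k) := fun i => (h i).l2d k
theorem VW.add (h : VW u D) (h' : VW w E) : VW (fun z => u z + w z) fun k z => D k z + E k z :=
  fun i => (h i).add (h' i)
theorem VW.sub (h : VW u D) (h' : VW w E) : VW (fun z => u z - w z) fun k z => D k z - E k z :=
  fun i => (h i).sub (h' i)
theorem VW.smul (h : VW u D) (c : ℝ) : VW (fun z => c • u z) fun k z => c • D k z :=
  fun i => (h i).const_mul c
theorem vw_const (c : Vc m) : VW (fun _ : Vc m => c) fun _ _ => 0 := fun i => wd_const (c i)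
theorem MW.mulVec {T : Vc m → Mx m} {S : Fin m → Vc m → Mx m} (h : MW T S) (θ : Vc m) :
    VW (fun z => T z *ᵥ θ) fun k z => S k z *ᵥ θ := fun i => by
  have := wd_sum Finset.univ (F := fun j z => θ j * T z i j) (G := fun j k z => θ j * S k z i j)
    fun j _ => (h i j).const_mul (θ j)
  simpa only [Matrix.mulVec, dotProduct, mul_comm] using this

theorem ip_comm (u w : Vc m → Vc m) : ip u w = ip w u := by
  simp only [ip, dotProduct_comm]
theorem ip_eq_sum (h : L2v u) (h' : L2v w) : ip u w = ∑ i, ∫ z, u z i * w z i ∂gm m := by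
  simp only [ip, dotProduct]
  exact integral_finsetSum _ fun i _ => (h i).integrable_mul (h' i)
theorem ip_add_left (h : L2v u) (h' : L2v w) (h'' : L2v x) :
    ip (fun z => u z + w z) x = ip u x + ip w x := by
  simp only [ip, add_dotProduct]
  exact integral_add (h.integrable_dot h'') (h'.integrable_dot h'')
theorem ip_sub_left (h : L2v u) (h' : L2v w) (h'' : L2v x) :
    ip (fun z => u z - w z) x = ip u x - ip w x := by
  simp only [ip, sub_dotProduct]
  exact integral_sub (h.integrable_dot h'') (h'.integrable_dot h'')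
theorem ip_smul_left (c : ℝ) (u w : Vc m → Vc m) : ip (fun z => c • u z) w = c * ip u w := by
  simp only [ip, smul_dotProduct, smul_eq_mul]
  exact integral_const_mul c _
theorem ip_const_left (c : Vc m) (h : L2v w) :
    ip (fun _ => c) w = c ⬝ᵥ fun i => ∫ z, w z i ∂gm m := by
  rw [ip_eq_sum (l2v_const c) h]
  simp only [dotProduct, integral_const_mul]
theorem ip_self_nonneg_aux (v : Vc m) : 0 ≤ v ⬝ᵥ v :=
  Finset.sum_nonneg fun i _ => mul_self_nonneg (v i)
theorem ip_self_nonneg (u : Vc m → Vc m) : 0 ≤ ip u u :=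
  integral_nonneg fun z => ip_self_nonneg_aux (u z)
theorem ipk_self_nonneg (D : Fin m → Vc m → Vc m) : 0 ≤ ipk D D :=
  Finset.sum_nonneg fun k _ => ip_self_nonneg (D k)
theorem nr_sq (u : Vc m → Vc m) : nr u ^ 2 = ip u u := Real.sq_sqrt (ip_self_nonneg u)
theorem nrk_sq (D : Fin m → Vc m → Vc m) : nrk D ^ 2 = ipk D D := Real.sq_sqrt (ipk_self_nonneg D)
theorem abs_ip_le_quad (h : L2v u) (h' : L2v w) (s : ℝ) :
    ip (fun z => u z + s • w z) (fun z => u z + s • w z) =
      ip w w * (s * s) + 2 * ip u w * s + ip u u := by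
  have hs := h'.smul s
  rw [ip_add_left h hs (h.add hs), ip_comm u, ip_add_left h hs h, ip_smul_left, ip_smul_left,
    ip_comm w (fun z => u z + s • w z), ip_add_left h hs h', ip_smul_left, ip_comm w u]
  ring
theorem abs_ip_le_disc {a b c : ℝ} (ha : 0 ≤ a) (h : ∀ s : ℝ, 0 ≤ c * (s * s) + 2 * b * s + a) :
    |b| ≤ √a * √c := by
  have := discrim_le_zero h
  rw [discrim] at this
  rw [← Real.sqrt_mul ha]
  exact Real.abs_le_sqrt (by nlinarith)
theorem abs_ip_le (h : L2v u) (h' : L2v w) : |ip u w| ≤ nr u * nr w :=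
  abs_ip_le_disc (ip_self_nonneg u) fun s => abs_ip_le_quad h h' s ▸ ip_self_nonneg _
theorem abs_ipk_le (h : ∀ k, L2v (D k)) (h' : ∀ k, L2v (E k)) : |ipk D E| ≤ nrk D * nrk E := by
  refine abs_ip_le_disc (ipk_self_nonneg D) fun s => ?_
  have : ipk E E * (s * s) + 2 * ipk D E * s + ipk D D =
      ∑ k, ip (fun z => D k z + s • E k z) (fun z => D k z + s • E k z) := by
    simp only [abs_ip_le_quad (h _) (h' _), ipk, Finset.sum_add_distrib, Finset.sum_mul,
      Finset.mul_sum]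
  rw [this]
  exact Finset.sum_nonneg fun k _ => ip_self_nonneg _
theorem nr_add_le_aux {a b c : ℝ} (ha : 0 ≤ a) (hc : 0 ≤ c) (h : |b| ≤ √a * √c) :
    √(c + 2 * b + a) ≤ √a + √c := by
  refine Real.sqrt_le_iff.2 ⟨by positivity, ?_⟩
  have := Real.sq_sqrt ha
  have := Real.sq_sqrt hc
  have := le_abs_self b
  nlinarith
theorem nr_add_le (h : L2v u) (h' : L2v w) : nr (fun z => u z + w z) ≤ nr u + nr w := by
  have := abs_ip_le_quad h h' 1
  simp only [one_smul, mul_one] at this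
  rw [nr, this]
  exact nr_add_le_aux (ip_self_nonneg u) (ip_self_nonneg w) (abs_ip_le h h')
theorem nrk_add_le (h : ∀ k, L2v (D k)) (h' : ∀ k, L2v (E k)) :
    nrk (fun k z => D k z + E k z) ≤ nrk D + nrk E := by
  have e : ∀ k, ip (fun z => D k z + E k z) (fun z => D k z + E k z) =
      ip (E k) (E k) + 2 * ip (D k) (E k) + ip (D k) (D k) := fun k => by
    have := abs_ip_le_quad (h k) (h' k) 1
    simpa only [one_smul, mul_one] using this
  have : ipk (fun k z => D k z + E k z) (fun k z => D k z + E k z) =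
      ipk E E + 2 * ipk D E + ipk D D := by
    simp only [ipk, e, Finset.sum_add_distrib, Finset.mul_sum]
  rw [nrk, this]
  exact nr_add_le_aux (ipk_self_nonneg D) (ipk_self_nonneg E) (abs_ipk_le h h')
theorem nr_mono_aux (h' : L2v w) {c : ℝ} (h : ∀ z, nsq (u z) ≤ c ^ 2 * nsq (w z)) :
    ip u u ≤ c ^ 2 * ip w w := by
  rw [ip, ip, ← integral_const_mul]
  exact integral_mono_of_nonneg (Eventually.of_forall fun z => ip_self_nonneg_aux (u z))
    ((h'.integrable_dot h').const_mul _) (Eventually.of_forall h)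
theorem nr_mono (h' : L2v w) {c : ℝ} (hc : 0 ≤ c) (h : ∀ z, nsq (u z) ≤ c ^ 2 * nsq (w z)) :
    nr u ≤ c * nr w := by
  refine (Real.sqrt_le_sqrt (nr_mono_aux h' h)).trans_eq ?_
  rw [Real.sqrt_mul (sq_nonneg c), Real.sqrt_sq hc, nr]
theorem nrk_mono (h' : ∀ k, L2v (E k)) {c : ℝ} (hc : 0 ≤ c)
    (h : ∀ k z, nsq (D k z) ≤ c ^ 2 * nsq (E k z)) : nrk D ≤ c * nrk E := by
  have : ipk D D ≤ c ^ 2 * ipk E E := by
    rw [ipk, ipk, Finset.mul_sum]
    exact Finset.sum_le_sum fun k _ => nr_mono_aux (h' k) (h k)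
  refine (Real.sqrt_le_sqrt this).trans_eq ?_
  rw [Real.sqrt_mul (sq_nonneg c), Real.sqrt_sq hc, nrk]
theorem sum_nr_sq_aux (A : Mx m) {U : Mx m} (hU : U * Uᵀ = 1) :
    ∑ a, (A *ᵥ fun i => U i a) ⬝ᵥ (A *ᵥ fun i => U i a) = fr2 A := by
  have h1 : fr2 (A * U) = fr2 A := by
    rw [fr2_eq_fip, fr2_eq_fip, fip_eq_trace, fip_eq_trace, transpose_mul, Matrix.mul_assoc,
      ← Matrix.mul_assoc U, hU, Matrix.one_mul]
  rw [← h1, fr2, Finset.sum_comm]
  simp only [dotProduct, Matrix.mulVec, Matrix.mul_apply, sq]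
theorem sum_nr_sq {A : Vc m → Mx m} (h : L2m A) {U : Mx m} (hU : U * Uᵀ = 1) :
    ∑ a, nr (fun z => A z *ᵥ fun i => U i a) ^ 2 = n2m A := by
  simp only [nr_sq, ip]
  rw [← integral_finsetSum _ fun a _ => (h.mulVec _).integrable_dot (h.mulVec _)]
  simp only [sum_nr_sq_aux _ hU, n2m]

/-- fields without chaos of order `0` and `1` -/
structure Hi2 (u : Vc m → Vc m) (D : Fin m → Vc m → Vc m) : Prop where
  vw : VW u D
  m0 : ∀ i, ∫ z, u z i ∂gm m = 0
  m1 : ∀ k i, ∫ z, D k z i ∂gm m = 0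

/-- energy in the chaos of order `0` -/
def hi2m0 (u : Vc m → Vc m) : ℝ := ∑ i, (∫ z, u z i ∂gm m) ^ 2
/-- energy in the chaos of order `1` -/
def hi2m1 (D : Fin m → Vc m → Vc m) : ℝ := ∑ i, ∑ k, (∫ z, D k z i ∂gm m) ^ 2

theorem hi2_gap (h : VW u D) : 2 * ip u u ≤ 2 * hi2m0 u + hi2m1 D + ipk D D := by
  have e : ipk D D = ∑ i, ∑ k, ∫ z, D k z i ^ 2 ∂gm m := by
    rw [Finset.sum_comm]
    exact Finset.sum_congr rfl fun k _ => by simp only [ip_eq_sum (h.l2d k) (h.l2d k), sq]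
  rw [e, ip_eq_sum h.l2 h.l2, hi2m0, hi2m1, Finset.mul_sum, Finset.mul_sum,
    ← Finset.sum_add_distrib, ← Finset.sum_add_distrib]
  exact Finset.sum_le_sum fun i _ => by simpa only [sq] using (h i).gap

theorem hi2_bessel (h : VW u D) : hi2m0 u + hi2m1 D ≤ ip u u := by
  rw [ip_eq_sum h.l2 h.l2, hi2m0, hi2m1, ← Finset.sum_add_distrib]
  refine Finset.sum_le_sum fun i _ => ?_
  have := bessel_one (h i).l2
  simp only [← (h i).stein] at this
  simpa only [sq] using this

theorem hi2_ip (h : L2v u) (h' : L2v w) (s t : ℝ) :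
    ip (fun z => s • u z + t • w z) (fun z => s • u z + t • w z) =
      s ^ 2 * ip u u + 2 * s * t * ip u w + t ^ 2 * ip w w := by
  have hx := (h.smul s).add (h'.smul t)
  rw [ip_add_left (h.smul s) (h'.smul t) hx, ip_smul_left, ip_smul_left, ip_comm u, ip_comm w,
    ip_add_left (h.smul s) (h'.smul t) h, ip_add_left (h.smul s) (h'.smul t) h', ip_smul_left,
    ip_smul_left, ip_smul_left, ip_smul_left, ip_comm w u]
  ring

theorem hi2_mean (h : L2v u) (h' : L2v w) (s t : ℝ) {i : Fin m} (h0 : ∫ z, u z i ∂gm m = 0) :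
    ∫ z, (s • u z + t • w z) i ∂gm m = t * ∫ z, w z i ∂gm m := by
  simp only [Pi.add_apply, Pi.smul_apply, smul_eq_mul]
  rw [integral_add (((h i).integrable one_le_two).const_mul s)
    (((h' i).integrable one_le_two).const_mul t), integral_const_mul, integral_const_mul, h0,
    mul_zero, zero_add]

/-- the gap inequality and Bessel's inequality for `s u + t w` -/
theorem hi2_comb (h : Hi2 u D) (h' : VW w E) (s t : ℝ) :
    2 * (s ^ 2 * ip u u + 2 * s * t * ip u w + t ^ 2 * ip w w) ≤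
      2 * (t ^ 2 * hi2m0 w) + t ^ 2 * hi2m1 E +
        (s ^ 2 * ipk D D + 2 * s * t * ipk D E + t ^ 2 * ipk E E) ∧
    t ^ 2 * hi2m0 w + t ^ 2 * hi2m1 E ≤ s ^ 2 * ip u u + 2 * s * t * ip u w + t ^ 2 * ip w w := by
  have hx := (h.vw.smul s).add (h'.smul t)
  have e0 : hi2m0 (fun z => s • u z + t • w z) = t ^ 2 * hi2m0 w := by
    simp only [hi2m0, hi2_mean h.vw.l2 h'.l2 s t (h.m0 _), mul_pow, Finset.mul_sum]
  have e1 : hi2m1 (fun k z => s • D k z + t • E k z) = t ^ 2 * hi2m1 E := by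
    simp only [hi2m1, hi2_mean (h.vw.l2d _) (h'.l2d _) s t (h.m1 _ _), mul_pow, Finset.mul_sum]
  have e2 : ipk (fun k z => s • D k z + t • E k z) (fun k z => s • D k z + t • E k z) =
      s ^ 2 * ipk D D + 2 * s * t * ipk D E + t ^ 2 * ipk E E := by
    simp only [ipk, hi2_ip (h.vw.l2d _) (h'.l2d _), Finset.sum_add_distrib, Finset.mul_sum]
  have a1 := hi2_gap hx
  have a2 := hi2_bessel hx
  rw [e0, e1, hi2_ip h.vw.l2 h'.l2] at a1 a2
  rw [e2] at a1
  exact ⟨a1, a2⟩

theorem hi2_discr {A c B : ℝ} (hB : 0 ≤ B) (h : ∀ s, 0 ≤ A * (s * s) + 2 * c * s + B) :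
    |c| ≤ √A * √B := by
  have := discrim_le_zero h
  rw [discrim] at this
  rw [← Real.sqrt_mul' _ hB]
  exact Real.abs_le_sqrt (by linarith)

theorem hi2m1_nonneg (D : Fin m → Vc m → Vc m) : 0 ≤ hi2m1 D :=
  Finset.sum_nonneg fun _ _ => Finset.sum_nonneg fun _ _ => sq_nonneg _

theorem hi2m0_nonneg (u : Vc m → Vc m) : 0 ≤ hi2m0 u := Finset.sum_nonneg fun _ _ => sq_nonneg _

theorem Hi2.gap (h : Hi2 u D) : 2 * ip u u ≤ ipk D D := by
  simpa [hi2m0, hi2m1, h.m0, h.m1] using hi2_gap h.vw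

/-- Remove the chaos `≤ 1` part of `w` (call it `w'`), apply `Hi2.gap` to `s u ∓ w'`, add
`∓ 2 s ⟨u,w'⟩ ≤ s²|u|²/2 + 2|w'|²`, optimise in `s`. -/
theorem Hi2.beta3 (h : Hi2 u D) (h' : VW w E) :
    |ipk D E - 3 * ip u w| ≤ √(ipk D D - 3 / 2 * ip u u) * nrk E := by
  refine hi2_discr (ipk_self_nonneg E) fun s => ?_
  have a1 := (hi2_comb h h' s 1).1
  have a2 := (hi2_comb h h' s (-2)).2
  linarith [hi2m1_nonneg E]

/-- the same with `± 2 s ⟨u,w'⟩ ≤ s²|u|²/3 + 3|w'|²` -/
theorem Hi2.beta1 (h : Hi2 u D) (h' : VW w E) :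
    |ipk D E - ip u w| ≤ √(ipk D D - 5 / 3 * ip u u) * √(ip w w + ipk E E) := by
  refine hi2_discr (add_nonneg (ip_self_nonneg w) (ipk_self_nonneg E)) fun s => ?_
  have a1 := (hi2_comb h h' s 1).1
  have a2 := (hi2_comb h h' s 3).2
  linarith [hi2m1_nonneg E, hi2m0_nonneg w]

end Crest.Agent.R253
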