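import Crest.Agent.R253.Lc
import Crest.Agent.R253.Ip

set_option autoImplicit false
set_option linter.unusedVariables false
set_option linter.unusedSectionVars false

open MeasureTheory Matrix Set Filter Topology
open Crest.Agent.R215 (gam)
open Crest.Agent.R203

noncomputable section

namespace Crest.Agent.R253.As1

variable {m : ℕ}

theorem nsq_mulVec_le (W : Mx m) (v : Vc m) : nsq (W *ᵥ v) ≤ fr2 W * nsq v := by
  rw [nsq_eq_sum, fr2, Finset.sum_mul]
  refine Finset.sum_le_sum fun i _ => ?_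
  rw [← nsq_eq_sum (W i)]
  exact dot_sq_le (W i) v

theorem nsq_sub_le (v w : Vc m) : nsq (v - w) ≤ 2 * nsq v + 2 * nsq w := by
  simp only [nsq_eq_sum, Finset.mul_sum, ← Finset.sum_add_distrib, Pi.sub_apply]
  exact Finset.sum_le_sum fun i _ => by nlinarith [sq_nonneg (v i + w i)]

theorem fr2_mul_orth (W : Mx m) {O : Mx m} (hO : O * Oᵀ = 1) : fr2 (W * O) = fr2 W := by
  simpa using fr2_conj (U := 1) (by simp) hO W

theorem mp_orth {O : Mx m} (hO : O * Oᵀ = 1) :
    MeasurePreserving (fun z : Vc m => Oᵀ *ᵥ z) (gm m) (gm m) :=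
  ⟨by fun_prop, map_orth (by rw [transpose_transpose]; exact mul_eq_one_comm.1 hO)⟩

theorem l2v_lin {u : Vc m → Vc m} (h : L2v u) (W : Mx m) : L2v fun z => W *ᵥ u z := fun i => by
  simp only [Matrix.mulVec, dotProduct]
  exact memLp_finsetSum _ fun j _ => (h j).const_mul (W i j)

theorem l2v_xi : L2v (xi : Vc m → Vc m) := fun i => (pg_xi i).memLp_two

theorem meas_xi : Measurable (xi : Vc m → Vc m) := measurable_pi_lambda _ fun i => (pg_xi i).1

theorem integral_orth {O : Mx m} (hO : O * Oᵀ = 1) {F : Vc m → ℝ} (hF : Measurable F) :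
    ∫ z, F (Oᵀ *ᵥ z) ∂gm m = ∫ z, F z ∂gm m := by
  rw [← integral_map (mp_orth hO).measurable.aemeasurable hF.aestronglyMeasurable,
    (mp_orth hO).map_eq]

theorem integral_nsq_xi (M : Mx m) (c : Vc m) :
    ∫ z, nsq (c + M *ᵥ (xi z - 1)) ∂gm m = nsq c + fr2 M := by
  have h0 : L2v fun z : Vc m => xi z - 1 := l2v_xi.sub (l2v_const 1)
  have h1 := l2v_lin h0 M
  have h2 := abs_ip_le_quad (l2v_const c) h1 1
  have h3 : ∀ j, ∫ z, (xi z j - 1) ∂gm m = 0 := fun j => by
    rw [integral_sub (pg_xi j).integrable (integrable_const _), integral_xi]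
    simp
  have h4 : ip (fun _ => c) (fun z => M *ᵥ (xi z - 1)) = 0 := by
    have : ∀ i, ∫ z, (M *ᵥ (xi z - 1)) i ∂gm m = 0 := fun i => by
      simp only [Matrix.mulVec, dotProduct]
      rw [integral_finsetSum _ fun j _ => ((h0 j).integrable one_le_two).const_mul _]
      simp only [integral_const_mul, Pi.sub_apply, Pi.one_apply, h3, mul_zero,
        Finset.sum_const_zero]
    rw [ip_const_left c h1]
    simp only [this, dotProduct, mul_zero, Finset.sum_const_zero]
  have h5 : ip (fun z => M *ᵥ (xi z - 1)) (fun z => M *ᵥ (xi z - 1)) = fr2 M := by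
    rw [ip_eq_sum h1 h1, fr2]
    refine Finset.sum_congr rfl fun i _ => ?_
    have a1 : ∀ j k, Integrable (fun z : Vc m => M i j * M i k * ((xi z j - 1) * (xi z k - 1)))
        (gm m) := fun j k => ((h0 j).integrable_mul (h0 k)).const_mul _
    have a2 : ∀ z : Vc m, (M *ᵥ (xi z - 1)) i * (M *ᵥ (xi z - 1)) i =
        ∑ j, ∑ k, M i j * M i k * ((xi z j - 1) * (xi z k - 1)) := fun z => by
      simp only [Matrix.mulVec, dotProduct, Finset.sum_mul_sum, Pi.sub_apply, Pi.one_apply]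
      exact Finset.sum_congr rfl fun j _ => Finset.sum_congr rfl fun k _ => by ring
    simp only [a2]
    rw [integral_finsetSum _ fun j _ => integrable_finsetSum _ fun k _ => a1 j k]
    refine Finset.sum_congr rfl fun j _ => ?_
    rw [integral_finsetSum _ fun k _ => a1 j k]
    simp [integral_const_mul, integral_xi_mul, sq]
  have h6 : ip (fun _ : Vc m => c) (fun _ => c) = nsq c := by simp [ip, nsq]
  rw [h4, h5, h6] at h2
  simp only [one_smul, ip] at h2
  simp only [nsq] at *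
  linarith

theorem integral_nsq_lin_le {r : Vc m → Vc m} (hr : L2v r) (W : Mx m) :
    ∫ z, nsq (W *ᵥ r z) ∂gm m ≤ fr2 W * ip r r := by
  rw [ip, ← integral_const_mul]
  exact integral_mono ((l2v_lin hr W).integrable_dot (l2v_lin hr W))
    ((hr.integrable_dot hr).const_mul _) fun z => nsq_mulVec_le W (r z)

theorem bound {W O : Mx m} (hO : O * Oᵀ = 1) {b : Vc m} {r : Vc m → Vc m} (hr : L2v r)
    (hη : ip r r ≤ 1 / 4) {B : ℝ}
    (hB : ∫ z, nsq (W *ᵥ (b + O *ᵥ xi (Oᵀ *ᵥ z) + r z)) ∂gm m ≤ B) :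
    fr2 W ≤ 4 * B ∧ nsq (W *ᵥ b) ≤ 3 * (B + 4 * B * m + B) := by
  have hx : L2v fun z => xi (Oᵀ *ᵥ z) := fun i => (l2v_xi i).comp_measurePreserving (mp_orth hO)
  have hY := l2v_lin (((l2v_const b).add (l2v_lin hx O)).add hr) W
  have hR := l2v_lin hr W
  set c := W *ᵥ b + (W * O) *ᵥ 1 with hc
  have h1 := integral_orth hO (F := fun z => nsq (c + (W * O) *ᵥ (xi z - 1)))
    (continuous_nsq.measurable.comp ((by fun_prop :
      Measurable fun y : Vc m => c + (W * O) *ᵥ (y - 1)).comp meas_xi))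
  rw [integral_nsq_xi, fr2_mul_orth W hO] at h1
  have h2 : ∀ z, c + (W * O) *ᵥ (xi (Oᵀ *ᵥ z) - 1) =
      W *ᵥ (b + O *ᵥ xi (Oᵀ *ᵥ z) + r z) - W *ᵥ r z := fun z => by
    simp only [hc, mulVec_add, mulVec_sub, mulVec_mulVec]
    abel
  simp only [h2] at h1
  have h3 := integral_mono ((hY.sub hR).integrable_dot (hY.sub hR))
    (((hY.integrable_dot hY).const_mul 2).add ((hR.integrable_dot hR).const_mul 2))
    fun z => nsq_sub_le _ _
  simp only [Pi.add_apply] at h3
  rw [integral_add ((hY.integrable_dot hY).const_mul 2) ((hR.integrable_dot hR).const_mul 2),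
    integral_const_mul, integral_const_mul] at h3
  have h4 := integral_nsq_lin_le hr W
  have h5 := mul_le_mul_of_nonneg_left hη (fr2_nonneg W)
  have h6 := nsq_nonneg c
  have h7 := fr2_nonneg W
  have h8 := nsq_sub_le c ((W * O) *ᵥ 1)
  have h9 := nsq_mulVec_le (W * O) 1
  have h10 : nsq (1 : Vc m) = m := by simp [nsq_eq_sum]
  rw [fr2_mul_orth W hO, h10] at h9
  rw [hc, add_sub_cancel_right, ← hc] at h8
  simp only [nsq] at *
  have h11 : fr2 W ≤ 4 * B := by linarith
  have h12 := mul_le_mul_of_nonneg_right h11 (Nat.cast_nonneg (α := ℝ) m)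
  have h13 : 0 ≤ 4 * B * m := mul_nonneg (by linarith) (Nat.cast_nonneg m)
  exact ⟨h11, by linarith⟩

theorem limit (μ : Measure (Vc m)) [IsProbabilityMeasure μ] (W O : ℕ → Mx m) (b : ℕ → Vc m)
    (r : ℕ → Vc m → Vc m) (hO : ∀ n, O n * (O n)ᵀ = 1) (hr : ∀ n, L2v (r n))
    (hη : ∀ n, ip (r n) (r n) ≤ 1 / (4 * ((n : ℝ) + 1))) {B : ℝ}
    (hB : ∀ n, ∫ z, nsq (W n *ᵥ (b n + O n *ᵥ xi ((O n)ᵀ *ᵥ z) + r n z)) ∂gm m ≤ B)
    (hl : ∀ (u : Vc m → ℝ) (K : NNReal) (B : ℝ), LipschitzWith K u → (∀ x, |u x| ≤ B) →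
      Tendsto (fun n => ∫ z, u (W n *ᵥ (b n + O n *ᵥ xi ((O n)ᵀ *ᵥ z) + r n z)) ∂gm m) atTop
        (𝓝 (∫ x, u x ∂μ))) :
    ∃ (M : Mx m) (β : Vc m), μ = Measure.map (fun z => M *ᵥ xi z + β) (gm m) := by
  have hb := fun n => bound (hO n) (hr n) ((hη n).trans (one_div_le_one_div_of_le (by norm_num)
    (by linarith [Nat.cast_nonneg (α := ℝ) n]))) (hB n)
  have hB0 : 0 ≤ B := by linarith [(hb 0).1, fr2_nonneg (W 0)]
  obtain ⟨p, -, φ, hφ, hp⟩ := tendsto_subseq_of_bounded
    (X := (Fin m → Fin m → ℝ) × (Fin m → ℝ))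
    (Metric.isBounded_closedBall (x := 0) (r := √(4 * B) + √(3 * (B + 4 * B * m + B))))
    (x := fun n => (W n * O n, W n *ᵥ b n)) (fun n => by
      rw [mem_closedBall_zero_iff, Prod.norm_def]
      refine max_le (le_add_of_le_of_nonneg ?_ (Real.sqrt_nonneg _))
        (le_add_of_nonneg_of_le (Real.sqrt_nonneg _)
          (Real.le_sqrt_of_sq_le ((norm_sq_le_nsq _).trans (hb n).2)))
      refine (pi_norm_le_iff_of_nonneg (Real.sqrt_nonneg _)).2 fun i =>
        (pi_norm_le_iff_of_nonneg (Real.sqrt_nonneg _)).2 fun j => Real.abs_le_sqrt ?_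
      exact (sq_le_fr2 (W n * O n) i j).trans ((fr2_mul_orth _ (hO n)).trans_le (hb n).1))
  have hm : ∀ (M : Mx m) (β : Vc m), Measurable fun z => M *ᵥ xi z + β := fun M β =>
    (by fun_prop : Measurable fun y : Vc m => M *ᵥ y + β).comp meas_xi
  refine ⟨of p.1, p.2, ?_⟩
  have := Measure.isProbabilityMeasure_map (μ := gm m) (hm (of p.1) p.2).aemeasurable
  refine (B4.ext_lip _ _ fun u K C hu hC => ?_).symm
  rw [integral_map (hm _ _).aemeasurable hu.continuous.aestronglyMeasurable]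
  have hc : Continuous fun q : (Fin m → Fin m → ℝ) × (Fin m → ℝ) =>
      ∫ z, u (of q.1 *ᵥ xi z + q.2) ∂gm m := by
    refine continuous_of_dominated (bound := fun _ => C)
      (fun q => (hu.continuous.measurable.comp (hm _ _)).aestronglyMeasurable)
      (fun q => Eventually.of_forall fun z => hC _) (integrable_const C)
      (Eventually.of_forall fun z => hu.continuous.comp (Continuous.add ?_ continuous_snd))
    exact Continuous.matrix_mulVec continuous_fst continuous_const
  have h1 := (hc.tendsto p).comp hp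
  have h2 := (hl u K C hu hC).comp hφ.tendsto_atTop
  have h3 : Tendsto (fun n : ℕ => K * ((1 + B) * (√((n : ℝ) + 1))⁻¹)) atTop (𝓝 0) := by
    have := ((Real.tendsto_sqrt_atTop.comp (tendsto_atTop_add_const_right _ 1
      tendsto_natCast_atTop_atTop)).inv_tendsto_atTop.const_mul (1 + B)).const_mul (K : ℝ)
    simpa using this
  have h4 : ∀ n, |∫ z, u (W n *ᵥ (b n + O n *ᵥ xi ((O n)ᵀ *ᵥ z) + r n z)) ∂gm m -
      ∫ z, u ((W n * O n) *ᵥ xi z + W n *ᵥ b n) ∂gm m| ≤ K * ((1 + B) * (√((n : ℝ) + 1))⁻¹) := by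
    intro n
    have hR := l2v_lin (hr n) (W n)
    have m1 : Measurable fun z => u ((W n * O n) *ᵥ xi z + W n *ᵥ b n) :=
      hu.continuous.measurable.comp (hm _ _)
    have hx : L2v fun z => xi ((O n)ᵀ *ᵥ z) := fun i =>
      (l2v_xi i).comp_measurePreserving (mp_orth (hO n))
    have hY := l2v_lin (((l2v_const (b n)).add (l2v_lin hx (O n))).add (hr n)) (W n)
    have i1 : Integrable (fun z => u (W n *ᵥ (b n + O n *ᵥ xi ((O n)ᵀ *ᵥ z) + r n z))) (gm m) :=
      (integrable_const C).mono' (hu.continuous.measurable.comp_aemeasurable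
        (aemeasurable_pi_lambda _ fun i => (hY i).aemeasurable)).aestronglyMeasurable
        (Eventually.of_forall fun z => hC _)
    have i2 : Integrable (fun z => u ((W n * O n) *ᵥ xi ((O n)ᵀ *ᵥ z) + W n *ᵥ b n)) (gm m) :=
      (integrable_const C).mono' (m1.comp (mp_orth (hO n)).measurable).aestronglyMeasurable
        (Eventually.of_forall fun z => hC _)
    set s := √((n : ℝ) + 1) with hs
    have s0 : 0 < s := Real.sqrt_pos.2 (by positivity)
    have s2 : s ^ 2 = n + 1 := Real.sq_sqrt (by positivity)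
    have i3 : Integrable (fun z => nsq (W n *ᵥ r n z)) (gm m) := hR.integrable_dot hR
    rw [← integral_orth (hO n) m1, ← integral_sub i1 i2, ← Real.norm_eq_abs]
    refine (norm_integral_le_of_norm_le (((integrable_const s⁻¹).add (i3.const_mul s)).const_mul K)
      (Eventually.of_forall fun z => ?_)).trans ?_
    · refine (hu.norm_sub_le _ _).trans (mul_le_mul_of_nonneg_left ?_ K.2)
      have e : W n *ᵥ (b n + O n *ᵥ xi ((O n)ᵀ *ᵥ z) + r n z) -
          ((W n * O n) *ᵥ xi ((O n)ᵀ *ᵥ z) + W n *ᵥ b n) = W n *ᵥ r n z := by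
        simp only [mulVec_add, mulVec_mulVec]
        abel
      have a1 := norm_sq_le_nsq (W n *ᵥ r n z)
      rw [e, Pi.add_apply, ← mul_le_mul_iff_right₀ s0, mul_add, mul_inv_cancel₀ s0.ne']
      nlinarith [sq_nonneg (s * ‖W n *ᵥ r n z‖ - 1), mul_le_mul_of_nonneg_left a1 (sq_nonneg s),
        mul_nonneg s0.le (norm_nonneg (W n *ᵥ r n z))]
    · simp only [Pi.add_apply]
      rw [integral_const_mul, integral_add (integrable_const _) (i3.const_mul s),
        integral_const_mul, integral_const, probReal_univ, one_smul]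
      refine mul_le_mul_of_nonneg_left ?_ K.2
      have a1 := (integral_nsq_lin_le (hr n) (W n)).trans
        (mul_le_mul (hb n).1 (hη n) (ip_self_nonneg _) (by positivity))
      have a2 : s * (4 * B * (1 / (4 * ((n : ℝ) + 1)))) = B * s⁻¹ := by
        rw [← s2]
        field_simp
      have a3 := mul_le_mul_of_nonneg_left a1 s0.le
      linarith
  have h5 := squeeze_zero (fun n => abs_nonneg _) (fun n => h4 (φ n)) (h3.comp hφ.tendsto_atTop)
  have h6 := tendsto_nhds_unique ((tendsto_zero_iff_abs_tendsto_zero _).2 h5) (h2.sub h1)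
  linarith

end Crest.Agent.R253.As1
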