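import Crest.Agent.R253.Pos
import Crest.Agent.R253.Apx
import Crest.Agent.R253.AsmAux1
import Crest.Agent.R203.OfEntB

set_option autoImplicit false
set_option linter.unusedVariables false
set_option linter.unusedSectionVars false

open MeasureTheory Matrix Set Filter Topology
open Crest.Agent.R215 (gam)
open Crest.Agent.R203
open Crest.GeometryTopology.Isotropic

noncomputable section

namespace Crest.Agent.R253

variable {m : ℕ}

/-! Assembly of S0391 from the inequality and its stability for centred Brenier fields. -/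

/-- the inequality in normal position -/
def IneqSt (m : ℕ) : Prop := ∀ (V ψ : Vc m → ℝ) (g X : Vc m → Vc m) (κ₁ κ₂ α β : ℝ),
  BM V g κ₁ κ₂ ψ X α β → Cen (TT α β X) → 0 ≤ dfc fun x => Real.exp (-V x)

/-- stability in normal position -/
def StabSt (m : ℕ) : Prop := ∀ η : ℝ, 0 < η → ∃ δ : ℝ, 0 < δ ∧
  ∀ (V ψ : Vc m → ℝ) (g X : Vc m → Vc m) (κ₁ κ₂ α β : ℝ), BM V g κ₁ κ₂ ψ X α β → Cen (TT α β X) →
    dfc (fun x => Real.exp (-V x)) ≤ δ → ∃ (O : Mx m) (b : Vc m), O * Oᵀ = 1 ∧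
      ∫ z, nsq (X z - b - O *ᵥ xi (Oᵀ *ᵥ z)) ∂gm m ≤ η

variable {f : Vc m → ℝ}

/-- `LC.approx`, `exists_pos`, `exp_VA`, `dfc_aff`, `Dom.tendsto_dfc` -/
theorem LC.ineq (h : LC f) (H : IneqSt m) : 0 ≤ dfc f := by
  obtain ⟨C, κ, V, g, a, b, hf, hV, hl⟩ := h.approx
  refine ge_of_tendsto' (Dom.tendsto_dfc (fun n => (hV n).2.2.2.2) hf h.one hl) fun n => ?_
  obtain ⟨h1, h2, h3, h4, h5⟩ := hV n
  obtain ⟨A, κ₁, κ₂, α, β, ψ, X, hA, hB, hC⟩ := exists_pos h1 h2 h3 h4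
  have := H _ _ _ _ _ _ _ _ hB hC
  rwa [exp_VA _ hA, dfc_aff h5 h4 hA] at this

/-- Rows of `W` are bounded: for a row `w`, `Y i = w ⬝ b + w ⬝ O xi(Oᵀ z) + w ⬝ r` with `‖r‖² ≤ η ≤ 1/4`, the middle
term minus its mean has norm `|w|` (`integral_xi_mul`, `map_orth`), so `|w| (1 - 1/2) ≤ sd (Y i) ≤ √B`;
then take means. -/
theorem asm_bound {W O : Mx m} (hO : O * Oᵀ = 1) {b : Vc m} {r : Vc m → Vc m} (hr : L2v r)
    (hη : ip r r ≤ 1 / 4) {B : ℝ}
    (hB : ∫ z, nsq (W *ᵥ (b + O *ᵥ xi (Oᵀ *ᵥ z) + r z)) ∂gm m ≤ B) :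
    fr2 W ≤ 4 * B ∧ nsq (W *ᵥ b) ≤ 3 * (B + 4 * B * m + B) := As1.bound hO hr hη hB

/-- `M n = W n * O n`, `β n = W n b n` are bounded (`asm_bound`); pass to a convergent subsequence; for bounded
Lipschitz `u`, `∫ u (Y n) - ∫ u (M n xi + β n) → 0` (`map_orth`), dominated convergence, `B4.ext_lip`. -/
theorem asm_limit (μ : Measure (Vc m)) [IsProbabilityMeasure μ] (W O : ℕ → Mx m) (b : ℕ → Vc m)
    (r : ℕ → Vc m → Vc m) (hO : ∀ n, O n * (O n)ᵀ = 1) (hr : ∀ n, L2v (r n))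
    (hη : ∀ n, ip (r n) (r n) ≤ 1 / (4 * ((n : ℝ) + 1))) {B : ℝ}
    (hB : ∀ n, ∫ z, nsq (W n *ᵥ (b n + O n *ᵥ xi ((O n)ᵀ *ᵥ z) + r n z)) ∂gm m ≤ B)
    (hl : ∀ (u : Vc m → ℝ) (K : NNReal) (B : ℝ), LipschitzWith K u → (∀ x, |u x| ≤ B) →
      Tendsto (fun n => ∫ z, u (W n *ᵥ (b n + O n *ᵥ xi ((O n)ᵀ *ᵥ z) + r n z)) ∂gm m) atTop
        (𝓝 (∫ x, u x ∂μ))) :
    ∃ (M : Mx m) (β : Vc m), μ = Measure.map (fun z => M *ᵥ xi z + β) (gm m) :=
  As1.limit μ W O b r hO hr hη hB hl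

/-- if `det M = 0` the image lies in a hyperplane, which is null; `md_expD`, `withDensity_eq_iff` -/
theorem LC.ae_expD (h : LC f) {M : Mx m} {β : Vc m}
    (hM : md f = Measure.map (fun z => M *ᵥ xi z + β) (gm m)) :
    M.det ≠ 0 ∧ f =ᵐ[volume] expD M β := by
  have hxi : Measurable (xi : Vc m → Vc m) := measurable_pi_lambda _ fun i => (pg_xi i).measurable
  have hlin : ∀ A : Mx m, Measurable fun x : Vc m => A *ᵥ x := fun A =>
    (continuous_const.matrix_mulVec continuous_id).measurable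
  have hdet : M.det ≠ 0 := by
    intro h0
    obtain ⟨v, hv, hvM⟩ := Matrix.exists_vecMul_eq_zero_iff.2 h0
    have hne : LinearMap.ker (dotProductBilin ℝ ℝ v) ≠ ⊤ := by
      intro ht
      have : v ∈ LinearMap.ker (dotProductBilin ℝ ℝ v) := ht ▸ Submodule.mem_top
      exact hv (dotProduct_self_eq_zero.1 this)
    have h1 : volume ((fun x : Vc m => x + -β) ⁻¹' (LinearMap.ker (dotProductBilin ℝ ℝ v))) = 0 := by
      rw [measure_preimage_add_right]
      exact Measure.addHaar_submodule volume _ hne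
    have h2 : md f ((fun x : Vc m => x + -β) ⁻¹' (LinearMap.ker (dotProductBilin ℝ ℝ v))) = 0 :=
      withDensity_absolutelyContinuous _ _ h1
    rw [hM] at h2
    have h3 := Measure.le_map_apply (μ := gm m) (((hlin M).comp hxi).add_const β).aemeasurable
      ((fun x : Vc m => x + -β) ⁻¹' (LinearMap.ker (dotProductBilin ℝ ℝ v)))
    have h4 := le_antisymm (h3.trans (le_of_eq h2)) (zero_le)
    rw [eq_univ_of_forall (s := _ ⁻¹' _) fun z => ?_, measure_univ] at h4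
    · exact one_ne_zero h4
    · show v ⬝ᵥ (M *ᵥ xi z + β + -β) = 0
      rw [add_neg_cancel_right, dotProduct_mulVec, hvM, zero_dotProduct]
  refine ⟨hdet, ?_⟩
  obtain ⟨C, κ, hD⟩ := dom_expD (m := m)
  have hm : Measurable (expD M β) := by
    rw [expD_eq_aff]
    exact (hD.meas.comp ((hlin _).comp (measurable_id.sub_const β))).const_mul _
  have h0 : ∀ x, 0 ≤ expD M β x := fun x => by
    rw [expD_eq_aff]
    exact mul_nonneg (by positivity) (hD.nonneg _)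
  rw [← md_expD hdet] at hM
  filter_upwards [(withDensity_eq_iff_of_sigmaFinite h.meas.ennreal_ofReal.aemeasurable
    hm.ennreal_ofReal.aemeasurable).1 hM] with x hx
  exact (ENNReal.ofReal_eq_ofReal_iff (h.nonneg x) (h0 x)).1 hx

/-- For every `k` take `δ k` from `StabSt` with `η = 1/(4(k+1))` and `n k ≥ k` strictly increasing with
`dfc (e^{-V (n k)}) ≤ δ k` (`extraction_forall_of_eventually`); `exists_pos`; `W = A⁻¹`,
`r = X - b - O xi(Oᵀ z)`, `A⁻¹ X` has law `mu (V n)` (`mu_VA`); `dom_moment`, `Dom.tendsto_integral`, `asm_limit`. -/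
theorem LC.eq_case (h : LC f) (H : StabSt m) (h0 : dfc f = 0) :
    ∃ (M : Mx m) (b : Vc m), M.det ≠ 0 ∧ f =ᵐ[volume] expD M b := by
  obtain ⟨C, κ, V, g, a, b, hf, hV, hl⟩ := h.approx
  have hlin : ∀ A : Mx m, Measurable fun x : Vc m => A *ᵥ x := fun A =>
    (continuous_const.matrix_mulVec continuous_id).measurable
  have ht := Dom.tendsto_dfc (fun n => (hV n).2.2.2.2) hf h.one hl
  rw [h0] at ht
  choose δ hδ hS using fun k : ℕ => H (1 / (4 * ((k : ℝ) + 1))) (by positivity)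
  obtain ⟨φ, hφ, hφ'⟩ := extraction_forall_of_eventually
    (P := fun k n => dfc (fun x => Real.exp (-V n x)) ≤ δ k) fun k => ht.eventually_le_const (hδ k)
  have key : ∀ k : ℕ, ∃ (W O : Mx m) (c : Vc m) (r : Vc m → Vc m), O * Oᵀ = 1 ∧ L2v r ∧
      ip r r ≤ 1 / (4 * ((k : ℝ) + 1)) ∧ ∀ u : Vc m → ℝ, Measurable u →
        ∫ z, u (W *ᵥ (c + O *ᵥ xi (Oᵀ *ᵥ z) + r z)) ∂gm m =
          ∫ x, u x * Real.exp (-V (φ k) x) := by
    intro k
    obtain ⟨h1, h2, h3, h4, h5⟩ := hV (φ k)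
    obtain ⟨A, κ₁, κ₂, α, β, ψ, X, hA, hB, hC⟩ := exists_pos h1 h2 h3 h4
    obtain ⟨O, c, hO, hr⟩ := hS k _ _ _ _ _ _ _ _ hB hC (by
      rw [exp_VA _ hA, dfc_aff h5 h4 hA]
      exact hφ' k)
    refine ⟨A⁻¹, O, c, fun z => X z - c - O *ᵥ xi (Oᵀ *ᵥ z), hO, fun i => ?_, hr, fun u hu => ?_⟩
    · have mp : MeasurePreserving (fun z : Vc m => Oᵀ *ᵥ z) (gm m) (gm m) :=
        ⟨hlin _, map_orth (by rw [transpose_transpose]; exact mul_eq_one_comm.1 hO)⟩
      refine ((hB.hX.tame hB.a0.le hB.b0 i).pg.memLp_two.sub (memLp_const (c i))).sub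
        (g := fun z => ∑ j, O i j * xi (Oᵀ *ᵥ z) j) ?_
      exact memLp_finsetSum _ fun j _ =>
        ((pg_xi j).memLp_two.comp_measurePreserving mp).const_mul _
    · have e : ∀ z, c + O *ᵥ xi (Oᵀ *ᵥ z) + (X z - c - O *ᵥ xi (Oᵀ *ᵥ z)) = X z := fun z => by abel
      have hu' : Measurable fun x => u (A⁻¹ *ᵥ x) := hu.comp (hlin _)
      simp only [e]
      rw [← hB.integral_comp hu', mu_VA h1 hA,
        integral_map (hlin A).aemeasurable hu'.aestronglyMeasurable, ← h1.integral_mu]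
      simp only [mulVec_mulVec, nonsing_inv_mul _ (isUnit_iff_ne_zero.2 hA), one_mulVec]
  choose W O c r hO hr hη hu using key
  obtain ⟨B, hB⟩ := dom_moment (m := m) C κ hf.pos
  have : IsProbabilityMeasure (md f) := ⟨by
    rw [md, withDensity_apply _ MeasurableSet.univ, Measure.restrict_univ,
      ← ofReal_integral_eq_lintegral_ofReal
        (Integrable.of_integral_ne_zero (h.one ▸ one_ne_zero)) (ae_of_all _ h.nonneg), h.one,
      ENNReal.ofReal_one]⟩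
  obtain ⟨M, β, hM⟩ := asm_limit (md f) W O c r hO hr hη (B := B) (fun n => by
    rw [hu n nsq continuous_nsq.measurable]
    exact hB _ (hV _).2.2.2.2) fun u K B' hK _ => by
      simp only [fun n => hu n u hK.continuous.measurable]
      rw [integral_md h.meas h.nonneg]
      exact (Dom.tendsto_integral (fun n => (hV n).2.2.2.2) hl (Tame.of_lipschitz hK).pg).comp
        hφ.tendsto_atTop
  exact ⟨M, β, h.ae_expD hM⟩

theorem entIneq_of (H1 : IneqSt m) (H2 : StabSt m) : Crest.Agent.R203.OfEnt.EntIneq m := by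
  intro f hf hf0 hf1 hfc hfl
  have h : LC f := ⟨hf, hf0, hf1, hfc, hfl⟩
  have h1 := h.ineq H1
  unfold dfc at h1
  refine ⟨by linarith, fun he => h.eq_case H2 (by unfold dfc; linarith), ?_⟩
  rintro ⟨M, b, hM, hae⟩
  have h2 : dfc f = 0 := (dfc_congr hae).trans (dfc_expD hM b)
  unfold dfc at h2
  linarith

end Crest.Agent.R253
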