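import Crest.Agent.R253.MA

/-! Row 253: the Bochner inequality for tame fields (auxiliary file of `Boch`). -/

set_option autoImplicit false
set_option linter.unusedVariables false

open MeasureTheory Matrix Set Filter Topology
open Crest.Agent.R215 (gam)
open Crest.Agent.R203

noncomputable section

namespace Crest.Agent.R253.Boch1

variable {m : ℕ} {V : Vc m → ℝ} {g : Vc m → Vc m} {κ₁ κ₂ : ℝ}

theorem mu_ac (V : Vc m → ℝ) : mu V ≪ volume := withDensity_absolutelyContinuous _ _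

theorem pd_sub {f h : Vc m → ℝ} {z : Vc m} (hf : DifferentiableAt ℝ f z) (hh : DifferentiableAt ℝ h z)
    (i : Fin m) : pd i (fun x => f x - h x) z = pd i f z - pd i h z := by
  rw [pd_of_hasFDerivAt (hf.hasFDerivAt.fun_sub hh.hasFDerivAt) i, pd_eq_fderiv hf, pd_eq_fderiv hh]
  rfl

theorem pd_pd {f : Vc m → ℝ} (hf : ContDiff ℝ 2 f) (i j : Fin m) (z : Vc m) :
    pd j (pd i f) z = fderiv ℝ (fderiv ℝ f) z (Pi.single j 1) (Pi.single i 1) := by
  have h1 : pd i f = fun z => fderiv ℝ f z (Pi.single i 1) :=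
    funext fun z => pd_eq_fderiv (hf.differentiable (by norm_num) z) i
  have h2 : DifferentiableAt ℝ (fderiv ℝ f) z :=
    (hf.fderiv_right (m := 1) (by norm_num)).differentiable (by norm_num) z
  rw [h1]
  exact pd_of_hasFDerivAt
    ((ContinuousLinearMap.apply ℝ ℝ (Pi.single i 1 : Vc m)).hasFDerivAt.comp z h2.hasFDerivAt) j

theorem pd_symm {f : Vc m → ℝ} (hf : ContDiff ℝ 2 f) (i j : Fin m) (z : Vc m) :
    pd j (pd i f) z = pd i (pd j f) z := by
  rw [pd_pd hf, pd_pd hf]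
  exact hf.contDiffAt.isSymmSndFDerivAt (by simp) _ _

theorem ibp (hV : SC V g κ₁ κ₂) (h1 : 0 < κ₁) (h2 : 0 < κ₂) {f h : Vc m → ℝ} (hf : Tame f)
    (hh : Tame h) (i : Fin m) :
    ∫ x, (g x i * f x - pd i f x) * h x ∂mu V = ∫ x, f x * pd i h x ∂mu V := by
  have e1 := hV.stein h1 h2 (hf.mul hh) i
  have e2 : ∫ x, pd i (fun x => f x * h x) x ∂mu V =
      ∫ x, (pd i f x * h x + f x * pd i h x) ∂mu V := by
    refine integral_congr_ae ?_
    filter_upwards [(mu_ac V).ae_le hf.ae_diff_vol, (mu_ac V).ae_le hh.ae_diff_vol] with z a b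
      using pd_mul a b i
  have i1 := hV.integrable_mu h1 h2 ((hf.pg_pd i).mul hh.pg)
  have i2 := hV.integrable_mu h1 h2 (hf.pg.mul (hh.pg_pd i))
  have i3 := hV.integrable_mu h1 h2 ((hf.pg.mul hh.pg).mul (hV.tame h1.le h2 i).pg)
  rw [e2, integral_add i1 i2] at e1
  have e3 : ∫ x, (g x i * f x - pd i f x) * h x ∂mu V =
      ∫ x, f x * h x * g x i ∂mu V - ∫ x, pd i f x * h x ∂mu V := by
    rw [← integral_sub i3 i1]
    refine integral_congr_ae (ae_of_all _ fun z => ?_)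
    simp only; ring
  linarith

theorem int_sum2 {μ : Measure (Vc m)} {F : Fin m → Fin m → Vc m → ℝ} (h : ∀ i j, Integrable (F i j) μ) :
    ∫ x, ∑ i, ∑ j, F i j x ∂μ = ∑ i, ∑ j, ∫ x, F i j x ∂μ := by
  rw [integral_finsetSum _ fun i _ => integrable_finsetSum _ fun j _ => h i j]
  exact Finset.sum_congr rfl fun i _ => integral_finsetSum _ fun j _ => h i j

theorem int_sq {μ : Measure (Vc m)} {D : Fin m → Vc m → ℝ}
    (h : ∀ i j, Integrable (fun x => D i x * D j x) μ) :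
    ∫ x, (∑ i, D i x) ^ 2 ∂μ = ∑ i, ∑ j, ∫ x, D i x * D j x ∂μ := by
  rw [← int_sum2 h]
  simp only [sq, Finset.sum_mul_sum]

theorem bochner_smooth (hV : SC V g κ₁ κ₂) (h1 : 0 < κ₁) (h2 : 0 < κ₂) {Ξ : Fin m → Vc m → ℝ}
    (hs : ∀ i, ContDiff ℝ 2 (Ξ i)) (ht : ∀ i, Tame (Ξ i)) (ht' : ∀ i k, Tame (pd k (Ξ i))) :
    ∫ x, ∑ i, ∑ j, pd i (Ξ j) x * pd j (Ξ i) x ∂mu V ≤
      ∫ x, (∑ i, (g x i * Ξ i x - pd i (Ξ i) x)) ^ 2 ∂mu V := by
  have hg : ∀ i, Tame fun x => g x i := hV.tame h1.le h2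
  have hD : ∀ i, Tame fun x => g x i * Ξ i x - pd i (Ξ i) x := fun i =>
    ((hg i).mul (ht i)).sub (ht' i i)
  have iA : ∀ i j, Integrable (fun x => Ξ j x * (pd i (fun y => g y j) x * Ξ i x)) (mu V) := fun i j =>
    hV.integrable_mu h1 h2 ((ht j).pg.mul (((hg j).pg_pd i).mul (ht i).pg))
  have key : ∀ i j, ∫ x, (g x i * Ξ i x - pd i (Ξ i) x) * (g x j * Ξ j x - pd j (Ξ j) x) ∂mu V =
      ∫ x, pd i (Ξ j) x * pd j (Ξ i) x ∂mu V +
        ∫ x, Ξ j x * (pd i (fun y => g y j) x * Ξ i x) ∂mu V := by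
    intro i j
    rw [ibp hV h1 h2 (ht i) (hD j) i, ← ibp hV h1 h2 (ht' j i) (ht i) j, ← integral_add
      (hV.integrable_mu h1 h2 ((((hg j).pg.mul (ht' j i).pg).sub ((ht' j i).pg_pd j)).mul (ht i).pg))
      (iA i j)]
    refine integral_congr_ae ?_
    filter_upwards [(mu_ac V).ae_le (hg j).ae_diff_vol, (mu_ac V).ae_le (ht j).ae_diff_vol,
      (mu_ac V).ae_le (ht' j j).ae_diff_vol] with z a b c
    rw [pd_sub (a.fun_mul b) c, pd_mul a b, pd_symm (hs j) j i]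
    ring
  rw [int_sq (D := fun i x => g x i * Ξ i x - pd i (Ξ i) x)
    (fun i j => hV.integrable_mu h1 h2 ((hD i).pg.mul (hD j).pg)),
    int_sum2 (F := fun i j x => pd i (Ξ j) x * pd j (Ξ i) x)
      (fun i j => hV.integrable_mu h1 h2 ((ht' j i).pg.mul (ht' i j).pg))]
  simp only [key, Finset.sum_add_distrib]
  rw [← int_sum2 iA, le_add_iff_nonneg_right]
  refine integral_nonneg_of_ae ?_
  filter_upwards [(mu_ac V).ae_le (hV.ae_diff h1.le h2)] with z hz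
  have h3 := ((hV.jac_at hz).2.2 fun i => Ξ i z).1
  have h4 := mul_nonneg h1.le (nsq_nonneg fun i => Ξ i z)
  refine (h4.trans h3).trans_eq ?_
  rw [Finset.sum_comm]
  simp only [dotProduct, mulVec, jac, of_apply, Finset.mul_sum]

theorem mu_dom (hV : SC V g κ₁ κ₂) (h1 : 2 ≤ κ₁) (h2 : 0 < κ₂) : ∃ C : ℝ, 0 ≤ C ∧
    ∀ f : Vc m → ℝ, PG f → (∀ x, 0 ≤ f x) →
      ∫ x, (1 + ‖x‖) ^ 2 * f x ∂mu V ≤ C * ∫ x, f x ∂gm m := by
  obtain ⟨c, hc⟩ : ∃ c : ℝ, c = m / 2 * Real.log (2 * Real.pi) := ⟨_, rfl⟩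
  have hW : SC (fun z : Vc m => 1 / 2 * nsq z + c) (fun z => (1 : ℝ) • z) 1 1 :=
    ⟨fun z y => by linarith [(sc_nsq (m := m) 1).lo z y], fun z y => by
      linarith [(sc_nsq (m := m) 1).up z y]⟩
  refine ⟨Real.exp (4 - V 0 + nsq (g 0) + c), (Real.exp_pos _).le, fun f hf h0 => ?_⟩
  rw [gm_eq_mu, ← hc, hV.integral_mu, hW.integral_mu, ← integral_const_mul]
  have i1 := hW.integrable_exp one_pos one_pos hf 0
  simp only [zero_mul, Real.exp_zero, mul_one] at i1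
  refine integral_mono_of_nonneg (ae_of_all _ fun x => ?_) (i1.const_mul _) (ae_of_all _ fun x => ?_)
  · have := h0 x
    positivity
  · have a1 := hV.lo 0 x
    rw [sub_zero] at a1
    have a2 : -(g 0 ⬝ᵥ x) ≤ nsq (g 0) + nsq x / 4 := by
      rw [nsq_eq_sum, nsq_eq_sum, dotProduct, Finset.sum_div, ← Finset.sum_add_distrib,
        ← Finset.sum_neg_distrib]
      exact Finset.sum_le_sum fun i _ => by nlinarith [sq_nonneg (g 0 i + x i / 2)]
    have a3 := norm_sq_le_nsq x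
    have a4 := one_add_pow_le_exp ‖x‖ (norm_nonneg _) 2
    have a5 : ((2 : ℕ) : ℝ) * ‖x‖ + -V x ≤ 4 - V 0 + nsq (g 0) + c + -(1 / 2 * nsq x + c) := by
      push_cast
      nlinarith [sq_nonneg (‖x‖ / 2 - 2), nsq_nonneg x]
    have a6 := Real.exp_le_exp.2 a5
    rw [Real.exp_add, Real.exp_add _ (-(1 / 2 * nsq x + c))] at a6
    have a7 := mul_le_mul_of_nonneg_right a4 (Real.exp_pos (-V x)).le
    have a8 := mul_le_mul_of_nonneg_left (a7.trans a6) (h0 x)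
    simp only
    linarith

theorem l2_tendsto {μ : Measure (Vc m)} {F : ℕ → Vc m → ℝ} {f : Vc m → ℝ} (hF : ∀ n, MemLp (F n) 2 μ)
    (hf : MemLp f 2 μ) (h : Tendsto (fun n => ∫ x, (F n x - f x) ^ 2 ∂μ) atTop (𝓝 0)) :
    Tendsto (fun n => (hF n).toLp (F n)) atTop (𝓝 (hf.toLp f)) := by
  rw [tendsto_iff_norm_sub_tendsto_zero]
  have e : ∀ n, ‖(hF n).toLp (F n) - hf.toLp f‖ = √(∫ x, (F n x - f x) ^ 2 ∂μ) := fun n => by
    rw [norm_eq_sqrt_real_inner, L2.inner_def]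
    congr 1
    refine integral_congr_ae ?_
    filter_upwards [Lp.coeFn_sub ((hF n).toLp (F n)) (hf.toLp f), (hF n).coeFn_toLp, hf.coeFn_toLp]
      with x a b c
    rw [a, Pi.sub_apply, b, c]
    simp [sq]
  simp only [e]
  simpa using h.sqrt

theorem inner_toLp {μ : Measure (Vc m)} {f h : Vc m → ℝ} (hf : MemLp f 2 μ) (hh : MemLp h 2 μ) :
    inner ℝ (hf.toLp f) (hh.toLp h) = ∫ x, f x * h x ∂μ := by
  rw [L2.inner_def]
  refine integral_congr_ae ?_
  filter_upwards [hf.coeFn_toLp, hh.coeFn_toLp] with x a b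
  rw [a, b]
  simp [mul_comm]

theorem l2_mul {μ : Measure (Vc m)} {F G : ℕ → Vc m → ℝ} {f h : Vc m → ℝ} (hF : ∀ n, MemLp (F n) 2 μ)
    (hf : MemLp f 2 μ) (hG : ∀ n, MemLp (G n) 2 μ) (hh : MemLp h 2 μ)
    (a : Tendsto (fun n => ∫ x, (F n x - f x) ^ 2 ∂μ) atTop (𝓝 0))
    (b : Tendsto (fun n => ∫ x, (G n x - h x) ^ 2 ∂μ) atTop (𝓝 0)) :
    Tendsto (fun n => ∫ x, F n x * G n x ∂μ) atTop (𝓝 (∫ x, f x * h x ∂μ)) := by
  have := (l2_tendsto hF hf a).inner (𝕜 := ℝ) (l2_tendsto hG hh b)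
  simpa only [inner_toLp] using this

theorem memLp_mu (hV : SC V g κ₁ κ₂) (h1 : 0 < κ₁) (h2 : 0 < κ₂) {f : Vc m → ℝ} (hf : PG f) :
    MemLp f 2 (mu V) :=
  (memLp_two_iff_integrable_sq hf.measurable.aestronglyMeasurable).2
    (hV.integrable_mu h1 h2 (hf.pow 2))

theorem g_le (hV : SC V g κ₁ κ₂) (h1 : 0 < κ₁) (h2 : 0 < κ₂) :
    ∃ K : ℝ, 0 ≤ K ∧ ∀ x i, g x i ^ 2 ≤ K * (1 + ‖x‖) ^ 2 := by
  obtain ⟨L, hL⟩ : ∃ L, LipschitzWith L g := ⟨_, hV.lipschitz h1.le h2⟩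
  refine ⟨(‖g 0‖ + L) ^ 2, by positivity, fun x i => ?_⟩
  have a1 := hL.norm_sub_le x 0
  rw [sub_zero] at a1
  have a2 : |g x i| ≤ ‖g x‖ := norm_le_pi_norm (g x) i
  have a3 := norm_le_norm_add_norm_sub' (g x) (g 0)
  rw [← mul_pow, ← sq_abs]
  refine pow_le_pow_left₀ (abs_nonneg _) ?_ 2
  nlinarith [norm_nonneg x, norm_nonneg (g 0), L.coe_nonneg]

theorem bochner_two (hV : SC V g κ₁ κ₂) (h1 : 2 ≤ κ₁) (h2 : 0 < κ₂) {Ξ : Fin m → Vc m → ℝ}
    (ht : ∀ i, Tame (Ξ i)) : ∫ x, ∑ i, ∑ j, pd i (Ξ j) x * pd j (Ξ i) x ∂mu V ≤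
      ∫ x, (∑ i, (g x i * Ξ i x - pd i (Ξ i) x)) ^ 2 ∂mu V := by
  have h0 : 0 < κ₁ := by linarith
  obtain ⟨C, hC, hdom⟩ := mu_dom hV h1 h2
  obtain ⟨K, hK, hgK⟩ := g_le hV h0 h2
  have hg : ∀ i, PG fun x => g x i := fun i => (hV.tame h0.le h2 i).pg
  have hw : PG fun x : Vc m => (1 + ‖x‖) ^ 2 := ((PG.const 1).add PG.norm).pow 2
  have hP : ∀ i n, PG (trunc (Ξ i) n) := fun i n => (tame_trunc _ n).pg
  have hP' : ∀ i k n, PG (pd k (trunc (Ξ i) n)) := fun i k n => (tame_pd_trunc _ n k).pg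
  have t0 : ∀ i, Tendsto (fun n => ∫ x, (1 + ‖x‖) ^ 2 * (trunc (Ξ i) n x - Ξ i x) ^ 2 ∂mu V) atTop
      (𝓝 0) := fun i => by
    refine squeeze_zero (fun n => integral_nonneg fun x => by positivity)
      (fun n => hdom _ (((hP i n).sub (ht i).pg).pow 2) fun x => sq_nonneg _) ?_
    simpa using (tendsto_trunc (ht i).pg.memLp_two).const_mul C
  have t1 : ∀ i k, Tendsto (fun n => ∫ x, (pd k (trunc (Ξ i) n) x - pd k (Ξ i) x) ^ 2 ∂mu V) atTop
      (𝓝 0) := fun i k => by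
    have hq : ∀ n, PG fun x => (pd k (trunc (Ξ i) n) x - pd k (Ξ i) x) ^ 2 := fun n =>
      ((hP' i k n).sub ((ht i).pg_pd k)).pow 2
    refine squeeze_zero (fun n => integral_nonneg fun x => by positivity)
      (fun n => le_trans ?_ (hdom _ (hq n) fun x => sq_nonneg _)) ?_
    · refine integral_mono (hV.integrable_mu h0 h2 (hq n)) (hV.integrable_mu h0 h2 (hw.mul (hq n)))
        fun x => le_mul_of_one_le_left (sq_nonneg _) (one_le_pow₀ (by linarith [norm_nonneg x]))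
    · simpa using ((wd_of_tame (ht i)).tendsto_pd_trunc k).const_mul C
  have hDn : ∀ i n, PG fun x => g x i * trunc (Ξ i) n x - pd i (trunc (Ξ i) n) x := fun i n =>
    ((hg i).mul (hP i n)).sub (hP' i i n)
  have hD : ∀ i, PG fun x => g x i * Ξ i x - pd i (Ξ i) x := fun i =>
    ((hg i).mul (ht i).pg).sub ((ht i).pg_pd i)
  have t2 : ∀ i, Tendsto (fun n => ∫ x, ((g x i * trunc (Ξ i) n x - pd i (trunc (Ξ i) n) x) -
      (g x i * Ξ i x - pd i (Ξ i) x)) ^ 2 ∂mu V) atTop (𝓝 0) := fun i => by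
    refine squeeze_zero (g := fun n => 2 * K * ∫ x, (1 + ‖x‖) ^ 2 * (trunc (Ξ i) n x - Ξ i x) ^ 2 ∂mu V +
      2 * ∫ x, (pd i (trunc (Ξ i) n) x - pd i (Ξ i) x) ^ 2 ∂mu V)
      (fun n => integral_nonneg fun x => by positivity) (fun n => ?_) ?_
    · have i1 := hV.integrable_mu h0 h2 (hw.mul (((hP i n).sub (ht i).pg).pow 2))
      have i2 := hV.integrable_mu h0 h2 (((hP' i i n).sub ((ht i).pg_pd i)).pow 2)
      rw [← integral_const_mul, ← integral_const_mul, ← integral_add (i1.const_mul _) (i2.const_mul _)]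
      refine integral_mono (hV.integrable_mu h0 h2 (((hDn i n).sub (hD i)).pow 2))
        ((i1.const_mul _).add (i2.const_mul _)) fun x => ?_
      have a := mul_le_mul_of_nonneg_right (hgK x i) (sq_nonneg (trunc (Ξ i) n x - Ξ i x))
      simp only
      nlinarith [sq_nonneg (g x i * (trunc (Ξ i) n x - Ξ i x) +
        (pd i (trunc (Ξ i) n) x - pd i (Ξ i) x))]
    · simpa using ((t0 i).const_mul (2 * K)).add ((t1 i i).const_mul 2)
  have M : ∀ {f : Vc m → ℝ}, PG f → MemLp f 2 (mu V) := fun hf => memLp_mu hV h0 h2 hf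
  rw [int_sq (D := fun i x => g x i * Ξ i x - pd i (Ξ i) x)
    (fun i j => hV.integrable_mu h0 h2 ((hD i).mul (hD j))),
    int_sum2 (F := fun i j x => pd i (Ξ j) x * pd j (Ξ i) x)
      (fun i j => hV.integrable_mu h0 h2 (((ht j).pg_pd i).mul ((ht i).pg_pd j)))]
  refine le_of_tendsto_of_tendsto'
    (tendsto_finsetSum _ fun i _ => tendsto_finsetSum _ fun j _ =>
      l2_mul (fun n => M (hP' j i n)) (M ((ht j).pg_pd i)) (fun n => M (hP' i j n)) (M ((ht i).pg_pd j))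
        (t1 j i) (t1 i j))
    (tendsto_finsetSum _ fun i _ => tendsto_finsetSum _ fun j _ =>
      l2_mul (fun n => M (hDn i n)) (M (hD i)) (fun n => M (hDn j n)) (M (hD j)) (t2 i) (t2 j))
    fun n => ?_
  have := bochner_smooth hV h0 h2 (Ξ := fun i => trunc (Ξ i) n) (fun i => contDiff_trunc _ n)
    (fun i => tame_trunc _ n) (fun i k => tame_pd_trunc _ n k)
  rwa [int_sq (D := fun i x => g x i * trunc (Ξ i) n x - pd i (trunc (Ξ i) n) x)
    (fun i j => hV.integrable_mu h0 h2 ((hDn i n).mul (hDn j n))),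
    int_sum2 (F := fun i j x => pd i (trunc (Ξ j) n) x * pd j (trunc (Ξ i) n) x)
      (fun i j => hV.integrable_mu h0 h2 ((hP' j i n).mul (hP' i j n)))] at this

theorem pd_smul (f : Vc m → ℝ) (s : ℝ) (k : Fin m) (y : Vc m) :
    pd k (fun y => f (s • y)) y = s * pd k f (s • y) := by
  have := deriv_comp_mul_left (f := fun t : ℝ => f (s • y + t • (Pi.single k 1 : Vc m))) (c := s) (x := 0)
  simp only [mul_zero, smul_eq_mul] at this
  simp only [pd, lineDeriv, smul_add, smul_smul]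
  exact this

theorem sc_scale (hV : SC V g κ₁ κ₂) (s : ℝ) :
    SC (fun y => V (s • y)) (fun y => s • g (s • y)) (κ₁ * s ^ 2) (κ₂ * s ^ 2) := by
  have e1 : ∀ z y : Vc m, (s • g (s • z)) ⬝ᵥ (y - z) = g (s • z) ⬝ᵥ (s • y - s • z) := fun z y => by
    rw [← smul_sub, smul_dotProduct, dotProduct_smul]
  have e2 : ∀ z y : Vc m, nsq (s • y - s • z) = s ^ 2 * nsq (y - z) := fun z y => by
    rw [← smul_sub, nsq, nsq, smul_dotProduct, dotProduct_smul, smul_eq_mul, smul_eq_mul]; ring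
  refine ⟨fun z y => ?_, fun z y => ?_⟩
  · have := hV.lo (s • z) (s • y)
    rw [e2] at this
    rw [e1]; linarith
  · have := hV.up (s • z) (s • y)
    rw [e2] at this
    rw [e1]; linarith

theorem bochner_tame (hV : SC V g κ₁ κ₂) (h1 : 0 < κ₁) (h2 : 0 < κ₂) {Ξ : Fin m → Vc m → ℝ}
    (ht : ∀ i, Tame (Ξ i)) : ∫ x, ∑ i, ∑ j, pd i (Ξ j) x * pd j (Ξ i) x ∂mu V ≤
      ∫ x, (∑ i, (g x i * Ξ i x - pd i (Ξ i) x)) ^ 2 ∂mu V := by
  obtain ⟨s, hs, hs2⟩ : ∃ s : ℝ, 0 < s ∧ 2 ≤ κ₁ * s ^ 2 := by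
    refine ⟨√(2 / κ₁), by positivity, le_of_eq ?_⟩
    rw [Real.sq_sqrt (by positivity)]; field_simp
  have hW := sc_scale hV s
  have := bochner_two hW hs2 (by positivity) (Ξ := fun i y => Ξ i (s • y))
    fun i => Tame.comp_lip (ht i) (lipschitzWith_smul s)
  rw [hW.integral_mu, hW.integral_mu] at this
  rw [hV.integral_mu, hV.integral_mu]
  have e1 := Measure.integral_comp_smul volume
    (fun x : Vc m => (∑ i, ∑ j, pd i (Ξ j) x * pd j (Ξ i) x) * Real.exp (-V x)) s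
  have e2 := Measure.integral_comp_smul volume
    (fun x : Vc m => (∑ i, (g x i * Ξ i x - pd i (Ξ i) x)) ^ 2 * Real.exp (-V x)) s
  have hc : 0 < |(s ^ Module.finrank ℝ (Vc m))⁻¹| := by positivity
  rw [smul_eq_mul] at e1 e2
  refine le_of_mul_le_mul_left ?_ hc
  rw [← e1, ← e2]
  refine le_of_mul_le_mul_left ?_ (pow_pos hs 2)
  rw [← integral_const_mul, ← integral_const_mul]
  refine le_of_eq_of_le ?_ (this.trans_eq ?_)
  · refine integral_congr_ae (ae_of_all _ fun y => ?_)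
    simp only [pd_smul, ← mul_assoc, Finset.mul_sum]
    congr 1
    exact Finset.sum_congr rfl fun i _ => Finset.sum_congr rfl fun j _ => by ring
  · refine integral_congr_ae (ae_of_all _ fun y => ?_)
    simp only [pd_smul, Pi.smul_apply, smul_eq_mul, ← mul_assoc, ← mul_pow, Finset.mul_sum]
    congr 2
    exact Finset.sum_congr rfl fun i _ => by ring

end Crest.Agent.R253.Boch1
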