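import Crest.Agent.R253.MA

/-! Row 253: auxiliary file of `Boch` (inverse Jacobian, divergence in Gauss space). -/

set_option autoImplicit false
set_option linter.unusedVariables false
set_option linter.unusedSectionVars false

open MeasureTheory Matrix Set Filter Topology
open Crest.Agent.R215 (gam)
open Crest.Agent.R203

noncomputable section

namespace Crest.Agent.R253.Bo2

variable {m : ℕ} {V ψ : Vc m → ℝ} {g X : Vc m → Vc m} {κ₁ κ₂ α β : ℝ}

theorem meas_inv {J : Vc m → Mx m} (hJ : ∀ i j, Measurable fun z => J z i j) (i j : Fin m) :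
    Measurable fun z => (J z)⁻¹ i j := by
  have h0 : Measurable fun z => (fun a b => J z a b : Fin m → Fin m → ℝ) :=
    measurable_pi_lambda _ fun a => measurable_pi_lambda _ fun b => hJ a b
  have c0 : Continuous fun A : Fin m → Fin m → ℝ => (of A : Mx m) := continuous_id
  have h1 : Measurable fun z => (J z).det := c0.matrix_det.measurable.comp h0
  have h2 : Measurable fun z => (J z).adjugate i j :=
    (c0.matrix_adjugate.matrix_elem i j).measurable.comp h0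
  have e : (fun z => (J z)⁻¹ i j) = fun z => ((J z).det)⁻¹ * (J z).adjugate i j := by
    funext z
    rw [Matrix.inv_def, Ring.inverse_eq_inv']
    rfl
  rw [e]
  exact h1.inv.mul h2

theorem inv_le {J : Mx m} (hα : 0 < α) (h : ∀ v, α * nsq v ≤ v ⬝ᵥ J *ᵥ v) (i j : Fin m) :
    |J⁻¹ i j| ≤ α⁻¹ := by
  by_cases hd : IsUnit J.det
  · set w : Vc m := J⁻¹ *ᵥ Pi.single j 1 with hw
    have h1 : J *ᵥ w = Pi.single j 1 := by
      rw [hw, mulVec_mulVec, mul_nonsing_inv _ hd, one_mulVec]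
    have h2 : ∀ a, w a = J⁻¹ a j := fun a => by simp [hw]
    have h3 := h w
    rw [h1, dotProduct_single, mul_one] at h3
    have h4 : ∀ a, w a ^ 2 ≤ nsq w := fun a => by
      rw [nsq_eq_sum]
      exact Finset.single_le_sum (f := fun i => w i ^ 2) (fun _ _ => sq_nonneg _)
        (Finset.mem_univ a)
    have h5 := nsq_nonneg w
    have h6 : α ^ 2 * nsq w ≤ 1 := by
      rcases h5.eq_or_lt with h0 | h0
      · rw [← h0]; simp
      · have : (α * nsq w) ^ 2 ≤ nsq w :=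
          (pow_le_pow_left₀ (by positivity) h3 2).trans (h4 j)
        refine le_of_mul_le_mul_right ?_ h0
        nlinarith
    rw [← h2]
    refine abs_le_of_sq_le_sq ?_ (by positivity)
    rw [inv_pow, ← one_div, le_div_iff₀ (by positivity)]
    nlinarith [h4 i, sq_nonneg α]
  · rw [nonsing_inv_apply_not_isUnit _ hd]
    simpa using hα.le

theorem jac_inv_bdd (h : BM V g κ₁ κ₂ ψ X α β) :
    (∀ i j, AEStronglyMeasurable (fun z => (jac X z)⁻¹ i j) (gm m)) ∧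
      ∀ᵐ z ∂gm m, ∀ i j, |(jac X z)⁻¹ i j| ≤ α⁻¹ := by
  refine ⟨fun i j => (meas_inv (h.hX.jac_meas h.a0.le h.b0) i j).aestronglyMeasurable, ?_⟩
  filter_upwards [gm_ac (h.hX.ae_diff h.a0.le h.b0)] with z hz i j
  exact inv_le h.a0 (fun v => ((h.hX.jac_at hz).2.2 v).1) i j

theorem growth (h : BM V g κ₁ κ₂ ψ X α β) : ∃ C : ℝ, 0 ≤ C ∧ ∀ z i,
    g (X z) i ^ 2 ≤ C * (1 + nsq z) := by
  refine ⟨2 * nsq (g (X 0)) + 2 * (κ₂ ^ 2 * β ^ 2), by
    have := nsq_nonneg (g (X 0)); positivity, fun z i => ?_⟩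
  have h1 := h.hV.lip h.k1.le h.k2 (X z) (X 0)
  have h2 := h.hX.lip h.a0.le h.b0 z 0
  rw [sub_zero] at h2
  have h4 : ∀ (w : Vc m) a, w a ^ 2 ≤ nsq w := fun w a => by
    rw [nsq_eq_sum]
    exact Finset.single_le_sum (f := fun i => w i ^ 2) (fun _ _ => sq_nonneg _)
      (Finset.mem_univ a)
  have h5 := h4 (g (X z) - g (X 0)) i
  have h6 := h4 (g (X 0)) i
  rw [Pi.sub_apply] at h5
  have h7 : κ₂ ^ 2 * nsq (X z - X 0) ≤ κ₂ ^ 2 * (β ^ 2 * nsq z) :=
    mul_le_mul_of_nonneg_left h2 (sq_nonneg _)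
  have h8 := nsq_nonneg z
  have h9 := nsq_nonneg (g (X 0))
  have h10 : 0 ≤ κ₂ ^ 2 * β ^ 2 := by positivity
  nlinarith [sq_nonneg (g (X z) i - 2 * g (X 0) i), mul_nonneg h8 h9]

theorem row_sq {a : ℝ} {c d : Fin m → ℝ} (hc : ∀ l, |c l| ≤ a) :
    (∑ l, c l * d l) ^ 2 ≤ m * a ^ 2 * ∑ l, d l ^ 2 := by
  refine (Finset.sum_mul_sq_le_sq_mul_sq _ _ _).trans
    (mul_le_mul_of_nonneg_right ?_ (Finset.sum_nonneg fun _ _ => sq_nonneg _))
  calc ∑ l, c l ^ 2 ≤ ∑ _l : Fin m, a ^ 2 := Finset.sum_le_sum fun l _ => by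
        rw [← sq_abs]; exact pow_le_pow_left₀ (abs_nonneg _) (hc l) 2
    _ = m * a ^ 2 := by simp

theorem pt_sq {C a : ℝ} (hC : 0 ≤ C) {G u z : Vc m} {J : Mx m} {D : Fin m → Vc m}
    (hG : ∀ i, G i ^ 2 ≤ C * (1 + nsq z)) (hJ : ∀ i j, |J i j| ≤ a) :
    (∑ i, (G i * u i - ∑ l, J i l * D l i)) ^ 2 ≤ 2 * m * (C + m * a ^ 2) *
      ∑ i, (u i ^ 2 + ∑ k, (z k * u i) ^ 2 + ∑ l, D l i ^ 2) := by
  refine sq_sum_le_card_mul_sum_sq.trans ?_
  rw [Finset.card_univ, Fintype.card_fin, Finset.mul_sum, Finset.mul_sum]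
  refine Finset.sum_le_sum fun i _ => ?_
  have h1 := row_sq (d := fun l => D l i) (hJ i)
  have h2 : (G i * u i) ^ 2 ≤ C * (u i ^ 2 + ∑ k, (z k * u i) ^ 2) := by
    have : ∑ k, (z k * u i) ^ 2 = nsq z * u i ^ 2 := by
      rw [nsq_eq_sum, Finset.sum_mul]
      exact Finset.sum_congr rfl fun k _ => by ring
    rw [this, mul_pow]
    nlinarith [mul_le_mul_of_nonneg_right (hG i) (sq_nonneg (u i))]
  have h3 : 0 ≤ u i ^ 2 + ∑ k, (z k * u i) ^ 2 :=
    add_nonneg (sq_nonneg _) (Finset.sum_nonneg fun _ _ => sq_nonneg _)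
  have h4 : 0 ≤ ∑ l, D l i ^ 2 := Finset.sum_nonneg fun _ _ => sq_nonneg _
  have h5 : 0 ≤ (m : ℝ) * a ^ 2 := by positivity
  generalize u i ^ 2 + ∑ k, (z k * u i) ^ 2 = P at h2 h3 ⊢
  generalize ∑ l, D l i ^ 2 = Q at h1 h4 ⊢
  generalize ∑ l, J i l * D l i = q at h1 ⊢
  generalize G i * u i = p at h2 ⊢
  have h6 : (p - q) ^ 2 ≤ 2 * (C + m * a ^ 2) * (P + Q) := by
    nlinarith [sq_nonneg (p + q), mul_nonneg hC h4, mul_nonneg h5 h3]
  calc (m : ℝ) * (p - q) ^ 2 ≤ m * (2 * (C + m * a ^ 2) * (P + Q)) :=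
        mul_le_mul_of_nonneg_left h6 (Nat.cast_nonneg m)
    _ = _ := by ring

theorem ip_sq {u : Vc m → Vc m} (h : L2v u) : ip u u = ∑ i, ∫ z, u z i ^ 2 ∂gm m := by
  rw [ip_eq_sum h h]
  simp only [sq]

theorem dv_l2 (h : BM V g κ₁ κ₂ ψ X α β) : ∃ C : ℝ, ∀ (u : Vc m → Vc m)
    (D : Fin m → Vc m → Vc m), VW u D →
    MemLp (fun z => ∑ i, (g (X z) i * u z i - ∑ l, (jac X z)⁻¹ i l * D l z i)) 2 (gm m) ∧
      ∫ z, (∑ i, (g (X z) i * u z i - ∑ l, (jac X z)⁻¹ i l * D l z i)) ^ 2 ∂gm m ≤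
        C * (ip u u + ipk D D) := by
  obtain ⟨C, hC, hG⟩ := growth h
  obtain ⟨hm, hb⟩ := jac_inv_bdd h
  have hK : 0 ≤ 2 * (m : ℝ) * (C + m * α⁻¹ ^ 2) := by positivity
  refine ⟨2 * m * (C + m * α⁻¹ ^ 2) * (2 * m + 5), fun u D hu => ?_⟩
  have hgm : ∀ i, Measurable fun z => g (X z) i := fun i =>
    (h.hV.tame h.k1.le h.k2 i).continuous.measurable.comp
      (h.hX.lipschitz h.a0.le h.b0).continuous.measurable
  have hms : AEStronglyMeasurable
      (fun z => ∑ i, (g (X z) i * u z i - ∑ l, (jac X z)⁻¹ i l * D l z i)) (gm m) :=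
    Finset.aestronglyMeasurable_fun_sum _ fun i _ =>
      ((hgm i).aestronglyMeasurable.mul (hu i).l2.1).sub
        (Finset.aestronglyMeasurable_fun_sum _ fun l _ => (hm i l).mul ((hu i).l2d l).1)
  have i1 : ∀ i, Integrable (fun z => u z i ^ 2) (gm m) := fun i => (hu i).l2.integrable_sq
  have i2 : ∀ i k, Integrable (fun z => (z k * u z i) ^ 2) (gm m) := fun i k =>
    ((hu i).zmul k).1.integrable_sq
  have i3 : ∀ i l, Integrable (fun z => D l z i ^ 2) (gm m) := fun i l =>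
    ((hu i).l2d l).integrable_sq
  have i2' := fun i => integrable_finsetSum Finset.univ fun k _ => i2 i k
  have i3' := fun i => integrable_finsetSum Finset.univ fun k _ => i3 i k
  have i4 : ∀ i, Integrable
      (fun z => u z i ^ 2 + ∑ k, (z k * u z i) ^ 2 + ∑ l, D l z i ^ 2) (gm m) := fun i =>
    ((i1 i).add (i2' i)).add (i3' i)
  have i5 := (integrable_finsetSum Finset.univ fun i _ => i4 i).const_mul
    (2 * (m : ℝ) * (C + m * α⁻¹ ^ 2))
  have hp : ∀ᵐ z ∂gm m,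
      (∑ i, (g (X z) i * u z i - ∑ l, (jac X z)⁻¹ i l * D l z i)) ^ 2 ≤
        2 * m * (C + m * α⁻¹ ^ 2) *
          ∑ i, (u z i ^ 2 + ∑ k, (z k * u z i) ^ 2 + ∑ l, D l z i ^ 2) := by
    filter_upwards [hb] with z hz
    exact pt_sq hC (hG z) hz (D := fun l => D l z)
  refine ⟨(memLp_two_iff_integrable_sq hms).2 (i5.mono' (hms.pow 2) ?_), ?_⟩
  · filter_upwards [hp] with z hz
    rwa [Real.norm_of_nonneg (sq_nonneg _)]
  refine (integral_mono_of_nonneg (Eventually.of_forall fun z => sq_nonneg _) i5 hp).trans ?_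
  rw [integral_const_mul, mul_assoc _ (2 * (m : ℝ) + 5)]
  refine mul_le_mul_of_nonneg_left ?_ hK
  rw [integral_finsetSum _ fun i _ => i4 i]
  have e1 := ip_sq hu.l2
  have e2 : ipk D D = ∑ i, ∑ l, ∫ z, D l z i ^ 2 ∂gm m := by
    rw [Finset.sum_comm]
    exact Finset.sum_congr rfl fun l _ => ip_sq (hu.l2d l)
  rw [e1, e2, ← Finset.sum_add_distrib, Finset.mul_sum]
  refine Finset.sum_le_sum fun i _ => ?_
  have i6 : Integrable (fun z => u z i ^ 2 + ∑ k, (z k * u z i) ^ 2) (gm m) := (i1 i).add (i2' i)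
  rw [integral_add i6 (i3' i), integral_add (i1 i) (i2' i),
    integral_finsetSum _ fun k _ => i2 i k, integral_finsetSum _ fun k _ => i3 i k]
  have h1 : ∑ k, ∫ z, (z k * u z i) ^ 2 ∂gm m ≤
      ∑ k : Fin m, (2 * ∫ z, u z i ^ 2 ∂gm m + 4 * ∫ z, D k z i ^ 2 ∂gm m) :=
    Finset.sum_le_sum fun k _ => ((hu i).zmul k).2
  rw [Finset.sum_add_distrib, ← Finset.mul_sum, ← Finset.mul_sum, Finset.sum_const,
    Finset.card_univ, Fintype.card_fin, nsmul_eq_mul] at h1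
  have h2 : 0 ≤ ∫ z, u z i ^ 2 ∂gm m := integral_nonneg fun _ => sq_nonneg _
  have h3 : 0 ≤ ∑ k, ∫ z, D k z i ^ 2 ∂gm m :=
    Finset.sum_nonneg fun _ _ => integral_nonneg fun _ => sq_nonneg _
  nlinarith [mul_nonneg (Nat.cast_nonneg (α := ℝ) m) h3]

/-- products of `L²`-convergent sequences -/
theorem lim_mul {A B : ℕ → Vc m → ℝ} {a b : Vc m → ℝ} (hA : ∀ n, MemLp (A n) 2 (gm m))
    (hB : ∀ n, MemLp (B n) 2 (gm m)) (ha : MemLp a 2 (gm m)) (hb : MemLp b 2 (gm m))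
    (h1 : Tendsto (fun n => ∫ z, (A n z - a z) ^ 2 ∂gm m) atTop (𝓝 0))
    (h2 : Tendsto (fun n => ∫ z, (B n z - b z) ^ 2 ∂gm m) atTop (𝓝 0)) :
    Tendsto (fun n => ∫ z, A n z * B n z ∂gm m) atTop (𝓝 (∫ z, a z * b z ∂gm m)) := by
  have t1 := wd2_pair hA ha hb h1
  have t2 := wd2_pair hB hb ha h2
  have t3 : Tendsto (fun n => ∫ z, (A n z - a z) * (B n z - b z) ∂gm m) atTop (𝓝 0) := by
    have t4 : Tendsto (fun n => (∫ z, (A n z - a z) * (B n z - b z) ∂gm m) ^ 2) atTop (𝓝 0) :=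
      squeeze_zero (fun _ => sq_nonneg _)
        (fun n => wd2_cs ((hA n).sub ha) ((hB n).sub hb)) (by simpa using h1.mul h2)
    have t5 := t4.sqrt
    simp only [Real.sqrt_sq_eq_abs, Real.sqrt_zero] at t5
    exact (tendsto_zero_iff_abs_tendsto_zero _).2 t5
  have t6 := (t3.add (t1.add t2)).sub_const (∫ z, a z * b z ∂gm m)
  have e : ∫ z, b z * a z ∂gm m = ∫ z, a z * b z ∂gm m := by simp only [mul_comm]
  rw [e, zero_add, add_sub_cancel_right] at t6
  refine t6.congr fun n => ?_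
  have j1 : Integrable (fun z => (A n z - a z) * (B n z - b z)) (gm m) :=
    wd2_im ((hA n).sub ha) ((hB n).sub hb)
  have j2 := wd2_im (hA n) hb
  have j3 := wd2_im (hB n) ha
  have j4 := wd2_im ha hb
  have j5 : Integrable (fun z => A n z * b z + B n z * a z) (gm m) := j2.add j3
  have j6 : Integrable (fun z => (A n z - a z) * (B n z - b z) + (A n z * b z + B n z * a z))
    (gm m) := j1.add j5
  rw [← integral_add j2 j3, ← integral_add j1 j5, ← integral_sub j6 j4]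
  exact integral_congr_ae (Eventually.of_forall fun z => by ring)

theorem row_l2 (h : BM V g κ₁ κ₂ ψ X α β) {d : Fin m → Vc m → ℝ} (hd : ∀ l, MemLp (d l) 2 (gm m))
    (i : Fin m) : MemLp (fun z => ∑ l, (jac X z)⁻¹ i l * d l z) 2 (gm m) ∧
      ∫ z, (∑ l, (jac X z)⁻¹ i l * d l z) ^ 2 ∂gm m ≤ m * α⁻¹ ^ 2 * ∑ l, ∫ z, d l z ^ 2 ∂gm m := by
  obtain ⟨hm, hb⟩ := jac_inv_bdd h
  have hms : AEStronglyMeasurable (fun z => ∑ l, (jac X z)⁻¹ i l * d l z) (gm m) :=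
    Finset.aestronglyMeasurable_fun_sum _ fun l _ => (hm i l).mul (hd l).1
  have i1 : ∀ l, Integrable (fun z => d l z ^ 2) (gm m) := fun l => (hd l).integrable_sq
  have i5 := (integrable_finsetSum Finset.univ fun l _ => i1 l).const_mul ((m : ℝ) * α⁻¹ ^ 2)
  have hp : ∀ᵐ z ∂gm m, (∑ l, (jac X z)⁻¹ i l * d l z) ^ 2 ≤ m * α⁻¹ ^ 2 * ∑ l, d l z ^ 2 := by
    filter_upwards [hb] with z hz
    exact row_sq (d := fun l => d l z) (hz i)
  refine ⟨(memLp_two_iff_integrable_sq hms).2 (i5.mono' (hms.pow 2) ?_), ?_⟩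
  · filter_upwards [hp] with z hz
    rwa [Real.norm_of_nonneg (sq_nonneg _)]
  refine (integral_mono_of_nonneg (Eventually.of_forall fun z => sq_nonneg _) i5 hp).trans ?_
  rw [integral_const_mul, integral_finsetSum _ fun l _ => i1 l]

theorem boch_tame (h : BM V g κ₁ κ₂ ψ X α β)
    (hT : ∀ Ξ : Fin m → Vc m → ℝ, (∀ i, Tame (Ξ i)) →
      ∫ x, ∑ i, ∑ j, pd i (Ξ j) x * pd j (Ξ i) x ∂mu V ≤
        ∫ x, (∑ i, (g x i * Ξ i x - pd i (Ξ i) x)) ^ 2 ∂mu V)
    {u : Fin m → Vc m → ℝ} (hu : ∀ i, Tame (u i)) :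
    ∫ z, ∑ i, ∑ j, (∑ l, (jac X z)⁻¹ i l * pd l (u j) z) *
      (∑ l, (jac X z)⁻¹ j l * pd l (u i) z) ∂gm m ≤
      ∫ z, (∑ i, (g (X z) i * u i z - ∑ l, (jac X z)⁻¹ i l * pd l (u i) z)) ^ 2 ∂gm m := by
  obtain ⟨φ, Y, hY, hYX, -, -⟩ := h.hX.conj h.a0 h.b0
  have hL := hY.lipschitz (inv_pos.2 h.b0).le (inv_pos.2 h.a0)
  have ht : ∀ i, Tame fun x => u i (Y x) := fun i => Tame.comp_lip (hu i) hL
  have h1 := hT _ ht
  have hp : ∀ᵐ z ∂gm m, ∀ j i, pd i (fun x => u j (Y x)) (X z) =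
      ∑ l, (jac X z)⁻¹ i l * pd l (u j) z :=
    ae_all_iff.2 fun j => h.pd_comp_inv hL hYX (hu j)
  have m1 : Measurable fun x => ∑ i, ∑ j,
      pd i (fun x => u j (Y x)) x * pd j (fun x => u i (Y x)) x :=
    Finset.measurable_fun_sum _ fun i _ => Finset.measurable_fun_sum _
      fun j _ => ((ht j).pg_pd i).measurable.mul ((ht i).pg_pd j).measurable
  have m2 : Measurable fun x => (∑ i, (g x i * u i (Y x) - pd i (fun x => u i (Y x)) x)) ^ 2 :=
    (Finset.measurable_fun_sum _ fun i _ =>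
      ((h.hV.tame h.k1.le h.k2 i).continuous.measurable.mul (ht i).continuous.measurable).sub
        ((ht i).pg_pd i).measurable).pow_const 2
  rw [h.integral_comp m1, h.integral_comp m2] at h1
  refine le_of_eq_of_le (integral_congr_ae ?_) (h1.trans_eq (integral_congr_ae ?_))
  · filter_upwards [hp] with z hz
    simp only [hz]
  · filter_upwards [hp] with z hz
    simp only [hz, hYX]

theorem boch_vw (h : BM V g κ₁ κ₂ ψ X α β)
    (hT : ∀ Ξ : Fin m → Vc m → ℝ, (∀ i, Tame (Ξ i)) →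
      ∫ x, ∑ i, ∑ j, pd i (Ξ j) x * pd j (Ξ i) x ∂mu V ≤
        ∫ x, (∑ i, (g x i * Ξ i x - pd i (Ξ i) x)) ^ 2 ∂mu V)
    {u : Vc m → Vc m} {D : Fin m → Vc m → Vc m} (hu : VW u D) :
    ∫ z, ∑ i, ∑ j, (∑ l, (jac X z)⁻¹ i l * D l z j) *
      (∑ l, (jac X z)⁻¹ j l * D l z i) ∂gm m ≤
      ∫ z, (∑ i, (g (X z) i * u z i - ∑ l, (jac X z)⁻¹ i l * D l z i)) ^ 2 ∂gm m := by
  obtain ⟨C, hC⟩ := dv_l2 h
  set U : ℕ → Fin m → Vc m → ℝ := fun n i => trunc (fun z => u z i) n with hU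
  have ht : ∀ n i, Tame (U n i) := fun n i => tame_trunc _ n
  have hv : ∀ n, VW (fun z i => U n i z) fun k z i => pd k (U n i) z := fun n i =>
    wd_of_tame (ht n i)
  have c1 : ∀ i, Tendsto (fun n => ∫ z, (U n i z - u z i) ^ 2 ∂gm m) atTop (𝓝 0) := fun i =>
    tendsto_trunc (hu i).l2
  have c2 : ∀ k i, Tendsto (fun n => ∫ z, (pd k (U n i) z - D k z i) ^ 2 ∂gm m) atTop (𝓝 0) :=
    fun k i => (hu i).tendsto_pd_trunc k
  have r1 := fun n i j => (row_l2 h (d := fun l => pd l (U n j)) (fun l => (hv n j).l2d l) i).1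
  have r2 := fun i j => (row_l2 h (d := fun l z => D l z j) (fun l => (hu j).l2d l) i).1
  have r3 : ∀ i j, Tendsto (fun n => ∫ z, (∑ l, (jac X z)⁻¹ i l * pd l (U n j) z -
      ∑ l, (jac X z)⁻¹ i l * D l z j) ^ 2 ∂gm m) atTop (𝓝 0) := fun i j => by
    have t := (tendsto_finsetSum Finset.univ fun l _ => c2 l j).const_mul ((m : ℝ) * α⁻¹ ^ 2)
    rw [Finset.sum_const_zero, mul_zero] at t
    refine squeeze_zero (fun _ => integral_nonneg fun _ => sq_nonneg _) (fun n => ?_) t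
    refine le_of_eq_of_le ?_ (row_l2 h (d := fun l z => pd l (U n j) z - D l z j)
      (fun l => ((hv n j).l2d l).sub ((hu j).l2d l)) i).2
    simp only [mul_sub, Finset.sum_sub_distrib]
  have L : Tendsto (fun n => ∫ z, ∑ i, ∑ j, (∑ l, (jac X z)⁻¹ i l * pd l (U n j) z) *
      (∑ l, (jac X z)⁻¹ j l * pd l (U n i) z) ∂gm m) atTop
      (𝓝 (∫ z, ∑ i, ∑ j, (∑ l, (jac X z)⁻¹ i l * D l z j) *
        (∑ l, (jac X z)⁻¹ j l * D l z i) ∂gm m)) := by
    have key : ∀ {F : Fin m → Fin m → Vc m → ℝ}, (∀ i j, MemLp (F i j) 2 (gm m)) →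
        ∫ z, ∑ i, ∑ j, F i j z * F j i z ∂gm m = ∑ i, ∑ j, ∫ z, F i j z * F j i z ∂gm m :=
      fun {F} hF => by
        rw [integral_finsetSum _ fun i _ => integrable_finsetSum _ fun j _ =>
          wd2_im (hF i j) (hF j i)]
        exact Finset.sum_congr rfl fun i _ =>
          integral_finsetSum _ fun j _ => wd2_im (hF i j) (hF j i)
    rw [key r2]
    refine Tendsto.congr (fun n => (key (r1 n)).symm) ?_
    exact tendsto_finsetSum _ fun i _ => tendsto_finsetSum _ fun j _ =>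
      lim_mul (fun n => r1 n i j) (fun n => r1 n j i) (r2 i j) (r2 j i) (r3 i j) (r3 j i)
  have d3 : Tendsto (fun n => ∫ z,
      (∑ i, (g (X z) i * U n i z - ∑ l, (jac X z)⁻¹ i l * pd l (U n i) z) -
        ∑ i, (g (X z) i * u z i - ∑ l, (jac X z)⁻¹ i l * D l z i)) ^ 2 ∂gm m) atTop (𝓝 0) := by
    have t := ((tendsto_finsetSum Finset.univ fun i _ => c1 i).add
      (tendsto_finsetSum Finset.univ fun k _ =>
        tendsto_finsetSum Finset.univ fun i _ => c2 k i)).const_mul C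
    simp only [Finset.sum_const_zero, add_zero, mul_zero] at t
    refine squeeze_zero (fun _ => integral_nonneg fun _ => sq_nonneg _) (fun n => ?_) t
    have hw := (hv n).sub hu
    have h1 := (hC _ _ hw).2
    rw [ip_sq hw.l2, ipk, Finset.sum_congr rfl fun k _ => ip_sq (hw.l2d k)] at h1
    refine le_of_eq_of_le (integral_congr_ae (Eventually.of_forall fun z => ?_)) h1
    simp only [Pi.sub_apply, mul_sub, Finset.sum_sub_distrib]
    ring
  have R := lim_mul (fun n => (hC _ _ (hv n)).1) (fun n => (hC _ _ (hv n)).1) (hC _ _ hu).1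
    (hC _ _ hu).1 d3 d3
  simp only [← sq] at R
  exact le_of_tendsto_of_tendsto' L R fun n => boch_tame h hT (ht n)

end Crest.Agent.R253.Bo2
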