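import Crest.Agent.R253.NumC

set_option autoImplicit false
set_option linter.unusedVariables false

open MeasureTheory Set Filter Topology
open Crest.Agent.R203

noncomputable section

namespace Crest.Agent.R253

theorem ker1_sinh (x : ℝ) : x ^ 2 * (1 + x ^ 2 / 3 + 2 * x ^ 4 / 45) ≤ Real.sinh x ^ 2 := by
  have h := sum_le_hasSum (Finset.range 4) (fun n _ => by
    rw [pow_mul]; positivity) (Real.hasSum_cosh (2 * x))
  rw [Real.cosh_two_mul, Real.cosh_sq] at h
  simp only [Finset.sum_range_succ, Finset.range_zero, Finset.sum_empty, Nat.factorial] at h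
  norm_num at h
  nlinarith

theorem ker1_coth {x : ℝ} (hx : 0 ≤ x) : x * Real.cosh x ≤ (1 + x ^ 2 / 3) * Real.sinh x := by
  have d1 : ∀ t, HasDerivAt (fun t => t * Real.cosh t - Real.sinh t) (t * Real.sinh t) t := fun t =>
    (((hasDerivAt_id' t).mul (Real.hasDerivAt_cosh t)).sub (Real.hasDerivAt_sinh t)).congr_deriv
      (by ring)
  have m1 : Monotone fun t => t * Real.cosh t - Real.sinh t :=
    monotone_of_hasDerivAt_nonneg d1 fun t => by
      rcases le_total 0 t with h | h
      · exact mul_nonneg h (Real.sinh_nonneg_iff.2 h)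
      · exact mul_nonneg_of_nonpos_of_nonpos h (Real.sinh_nonpos_iff.2 h)
  have d2 : ∀ t, HasDerivAt (fun t => (1 + t ^ 2 / 3) * Real.sinh t - t * Real.cosh t)
      (t / 3 * (t * Real.cosh t - Real.sinh t)) t := fun t =>
    (((((hasDerivAt_pow 2 t).div_const 3).const_add 1).mul (Real.hasDerivAt_sinh t)).sub
      ((hasDerivAt_id' t).mul (Real.hasDerivAt_cosh t))).congr_deriv (by push_cast; ring)
  have m2 : Monotone fun t => (1 + t ^ 2 / 3) * Real.sinh t - t * Real.cosh t :=
    monotone_of_hasDerivAt_nonneg d2 fun t => by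
      rcases le_total 0 t with h | h
      · have := m1 h
        simp only [zero_mul, Real.sinh_zero, sub_zero] at this
        exact mul_nonneg (by linarith) this
      · have := m1 h
        simp only [zero_mul, Real.sinh_zero, sub_zero] at this
        exact mul_nonneg_of_nonpos_of_nonpos (by linarith) this
  have := m2 hx
  simp only [Real.sinh_zero, mul_zero, zero_mul, sub_zero] at this
  linarith

theorem ker1_int_log {p q : ℝ} (hp : 0 < p) (hpq : p < q) :
    ∫ s in (0 : ℝ)..1, Real.log (p + s * (q - p)) =
      (q * Real.log q - p * Real.log p) / (q - p) - 1 := by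
  have hD : 0 < q - p := sub_pos.2 hpq
  have hpos : ∀ s ∈ uIcc (0 : ℝ) 1, p + s * (q - p) ≠ 0 := fun s hs => by
    rw [uIcc_of_le zero_le_one] at hs
    exact (add_pos_of_pos_of_nonneg hp (mul_nonneg hs.1 hD.le)).ne'
  rw [intervalIntegral.integral_eq_sub_of_hasDerivAt
    (f := fun s => (p + s * (q - p)) * Real.log (p + s * (q - p)) / (q - p) - s)]
  · simp only [one_mul, zero_mul, add_zero, add_sub_cancel]
    ring
  · intro s hs
    have h1 : HasDerivAt (fun s : ℝ => p + s * (q - p)) (q - p) s := by
      simpa using ((hasDerivAt_id' s).mul_const (q - p)).const_add p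
    refine ((((Real.hasDerivAt_mul_log (hpos s hs)).comp s h1).div_const (q - p)).sub
      (hasDerivAt_id' s)).congr_deriv ?_
    field_simp
    ring
  · exact (ContinuousOn.log (by fun_prop) hpos).intervalIntegrable

theorem ker1_int_exp {c x : ℝ} (hx : 0 < x) :
    ∫ s in (0 : ℝ)..1, Real.exp (c - x + s * (2 * x)) = Real.exp c * Real.sinh x / x := by
  rw [intervalIntegral.integral_eq_sub_of_hasDerivAt
    (f := fun s => Real.exp (c - x + s * (2 * x)) / (2 * x))]
  · rw [Real.sinh_eq, show c - x + 1 * (2 * x) = c + x by ring,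
      show c - x + 0 * (2 * x) = c + -x by ring, Real.exp_add, Real.exp_add]
    field_simp
  · intro s _
    have h1 : HasDerivAt (fun s : ℝ => c - x + s * (2 * x)) (2 * x) s := by
      simpa using ((hasDerivAt_id' s).mul_const (2 * x)).const_add (c - x)
    refine (h1.exp.div_const (2 * x)).congr_deriv ?_
    field_simp
  · exact Continuous.intervalIntegrable (by fun_prop) _ _

theorem ker1_gk_comm (a b : ℝ) : gk a b = gk b a := by rw [gk, gk, dd_comm, mul_comm]

theorem ker1_xa {a b : ℝ} (h : b < a) :
    (∫ s in (0 : ℝ)..1, |ell (b + s * (a - b)) - ell a|) ^ 2 +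
      (∫ s in (0 : ℝ)..1, |ell (a + s * (b - a)) - ell b|) ^ 2 ≤ 6 * gk a b := by
  have hc := c1_ell.cont
  have hD : 0 < a - b := sub_pos.2 h
  obtain ⟨x, hx⟩ : ∃ x, x = (ell a - ell b) / 2 := ⟨_, rfl⟩
  obtain ⟨c, hc'⟩ : ∃ c, c = (ell a + ell b) / 2 := ⟨_, rfl⟩
  have ea : ell a = c + x := by linarith
  have eb : ell b = c - x := by linarith
  have hx0 : 0 < x := by linarith [ell_mono h]
  have el : ∀ t, lam t = Real.exp (ell t) := fun t => (Real.exp_log (lam_pos t)).symm
  have i1 : IntervalIntegrable (fun s : ℝ => ell (b + s * (a - b))) volume 0 1 :=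
    Continuous.intervalIntegrable (by fun_prop) _ _
  set I := ∫ s in (0 : ℝ)..1, ell (b + s * (a - b)) with hI
  have e1 : ∫ s in (0 : ℝ)..1, |ell (b + s * (a - b)) - ell a| = ell a - I := by
    rw [intervalIntegral.integral_congr (g := fun s => ell a - ell (b + s * (a - b))),
      intervalIntegral.integral_sub (by simp) i1]
    · simp [hI]
    · intro s hs
      rw [uIcc_of_le zero_le_one] at hs
      dsimp only
      rw [abs_sub_comm, abs_of_nonneg (sub_nonneg.2 (ell_mono.monotone (by nlinarith [hs.2])))]
  have e2 : ∫ s in (0 : ℝ)..1, |ell (a + s * (b - a)) - ell b| = I - ell b := by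
    rw [intervalIntegral.integral_congr (g := fun s => ell (b + (1 - s) * (a - b)) - ell b),
      intervalIntegral.integral_sub (Continuous.intervalIntegrable (by fun_prop) _ _) (by simp),
      intervalIntegral.integral_comp_sub_left (fun s => ell (b + s * (a - b))) 1]
    · simp [hI]
    · intro s hs
      rw [uIcc_of_le zero_le_one] at hs
      dsimp only
      rw [show a + s * (b - a) = b + (1 - s) * (a - b) by ring,
        abs_of_nonneg (sub_nonneg.2 (ell_mono.monotone (by nlinarith [hs.2])))]
  have cv : ∀ s ∈ Icc (0 : ℝ) 1, c - x + s * (2 * x) ≤ ell (b + s * (a - b)) := fun s hs => by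
    have := concave_log_lam.2 (mem_univ b) (mem_univ a) (sub_nonneg.2 hs.2) hs.1 (sub_add_cancel 1 s)
    simp only [smul_eq_mul] at this
    rw [show (1 - s) * b + s * a = b + s * (a - b) by ring] at this
    change (1 - s) * ell b + s * ell a ≤ ell _ at this
    rw [ea, eb] at this
    linarith
  have lo : c ≤ I := by
    have := intervalIntegral.integral_mono_on zero_le_one
      (Continuous.intervalIntegrable (μ := volume) (by fun_prop) _ _) i1 cv
    rw [intervalIntegral.integral_add (by simp) (Continuous.intervalIntegrable (by fun_prop) _ _),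
      intervalIntegral.integral_mul_const, integral_id] at this
    simp only [intervalIntegral.integral_const, smul_eq_mul] at this
    linarith
  have hs0 : 0 < Real.sinh x := Real.sinh_pos_iff.2 hx0
  have hE := Real.exp_pos c
  have up : I ≤ c + x ^ 2 / 3 := by
    have hpq : lam b < lam a := lam_mono h
    have hpos : ∀ s ∈ uIcc (0 : ℝ) 1, lam b + s * (lam a - lam b) ≠ 0 := fun s hs => by
      rw [uIcc_of_le zero_le_one] at hs
      exact (add_pos_of_pos_of_nonneg (lam_pos b) (mul_nonneg hs.1 (sub_pos.2 hpq).le)).ne'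
    have h1 := intervalIntegral.integral_mono_on zero_le_one i1
      (g := fun s => Real.log (lam b + s * (lam a - lam b)))
      (ContinuousOn.log (by fun_prop) hpos).intervalIntegrable fun s hs => by
        refine Real.log_le_log (lam_pos _) ?_
        have := convex_lam.2 (mem_univ b) (mem_univ a) (sub_nonneg.2 hs.2) hs.1 (sub_add_cancel 1 s)
        simp only [smul_eq_mul] at this
        rw [show (1 - s) * b + s * a = b + s * (a - b) by ring] at this
        linarith
    rw [ker1_int_log (lam_pos b) hpq] at h1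
    refine h1.trans ?_
    change (lam a * ell a - lam b * ell b) / _ - 1 ≤ _
    rw [sub_le_iff_le_add, div_le_iff₀ (sub_pos.2 hpq), el a, el b, ea, eb, sub_eq_add_neg c x,
      Real.exp_add, Real.exp_add]
    have h2 := mul_le_mul_of_nonneg_left (ker1_coth hx0.le) hE.le
    rw [Real.cosh_eq, Real.sinh_eq] at h2
    nlinarith
  have hg : Real.exp c * Real.sinh x / x ≤ dd FF a b := by
    rw [dd_eq_integral hasDerivAt_FF continuous_lam, ← ker1_int_exp hx0]
    refine intervalIntegral.integral_mono_on zero_le_one
      (Continuous.intervalIntegrable (by fun_prop) _ _)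
      (Continuous.intervalIntegrable (continuous_lam.comp (by fun_prop)) _ _) fun s hs => ?_
    rw [el]
    exact Real.exp_le_exp.2 (cv s hs)
  have hg2 : x ^ 2 / 3 + 2 * x ^ 4 / 45 ≤ gk a b := by
    have h1 : lam a * lam b = Real.exp c ^ 2 := by
      rw [el a, el b, ← Real.exp_add, ea, eb, sq, ← Real.exp_add]
      congr 1
      ring
    rw [gk, h1, le_sub_iff_add_le, le_div_iff₀ (by positivity)]
    refine le_trans ?_ (pow_le_pow_left₀ (by positivity) hg 2)
    rw [div_pow, le_div_iff₀ (by positivity), mul_pow]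
    nlinarith [mul_le_mul_of_nonneg_left (ker1_sinh x) (sq_nonneg (Real.exp c))]
  rw [e1, e2, ea, eb]
  have h3 : (I - c) ^ 2 ≤ (x ^ 2 / 3) ^ 2 := pow_le_pow_left₀ (by linarith) (by linarith) 2
  nlinarith [sq_nonneg (x ^ 2)]

end Crest.Agent.R253
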