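import Crest.Agent.R253.Dk

/-! Auxiliary lemmas for `R253/Ker.lean` (part 3, helper51): changes of basis. -/

set_option autoImplicit false
set_option linter.unusedVariables false
set_option linter.unusedSectionVars false

open Matrix
open Crest.Agent.R203

noncomputable section

namespace Crest.Agent.R253.K3

variable {m : ℕ} {A U : Mx m} {d : Fin m → ℝ}

theorem conj_mul (hU : U * Uᵀ = 1) (X Y : Mx m) :
    Uᵀ * (X * Y) * U = (Uᵀ * X * U) * (Uᵀ * Y * U) := by
  calc Uᵀ * (X * Y) * U = Uᵀ * X * (U * Uᵀ) * Y * U := by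
        rw [hU, Matrix.mul_one]; simp only [Matrix.mul_assoc]
    _ = _ := by simp only [Matrix.mul_assoc]

theorem conj_mf_mul (E : Eig A U d) (f : ℝ → ℝ) (X : Mx m) (a b : Fin m) :
    (Uᵀ * (mf f A * X) * U) a b = f (d a) * (Uᵀ * X * U) a b := by
  rw [conj_mul E.hU, (E.mf f).conj, diagonal_mul]

theorem conj_mul_mf (E : Eig A U d) (f : ℝ → ℝ) (X : Mx m) (a b : Fin m) :
    (Uᵀ * (X * mf f A) * U) a b = (Uᵀ * X * U) a b * f (d b) := by
  rw [conj_mul E.hU, (E.mf f).conj, mul_diagonal]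

theorem conj_sub (X Y : Mx m) (a b : Fin m) :
    (Uᵀ * (X - Y) * U) a b = (Uᵀ * X * U) a b - (Uᵀ * Y * U) a b := by
  rw [Matrix.mul_sub, Matrix.sub_mul, Matrix.sub_apply]

theorem conj_smul (c : ℝ) (X : Mx m) (a b : Fin m) :
    (Uᵀ * (c • X) * U) a b = c * (Uᵀ * X * U) a b := by
  rw [Matrix.mul_smul, Matrix.smul_mul, Matrix.smul_apply, smul_eq_mul]

theorem conj_dk (E : Eig A U d) {M : Mx m} (hM : M.IsSymm) {g : ℝ → ℝ}
    (hg : Differentiable ℝ g) (a b : Fin m) :
    (Uᵀ * dk g A M * U) a b = dd g (d a) (d b) * (Uᵀ * M * U) a b := by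
  rw [dk_eq E hM hg, dkm_conj E.hU]

theorem conj_symm {M : Mx m} (hM : M.IsSymm) (a b : Fin m) :
    (Uᵀ * M * U) a b = (Uᵀ * M * U) b a := by
  have : (Uᵀ * M * U)ᵀ = Uᵀ * M * U := by
    rw [transpose_mul, transpose_mul, transpose_transpose, hM.eq, Matrix.mul_assoc]
  conv_lhs => rw [← this]
  rfl

theorem conj_apply (X : Mx m) (a b : Fin m) :
    (Uᵀ * X * U) a b = ∑ i, ∑ j, U i a * U j b * X i j := by
  simp only [mul_apply, transpose_apply, Finset.sum_mul]
  rw [Finset.sum_comm]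
  exact Finset.sum_congr rfl fun i _ => Finset.sum_congr rfl fun j _ => by ring

/-- symmetrisation of a two-index sum -/
theorem sym2_le {w K G : Fin m → Fin m → ℝ} (hw : ∀ a b, w a b = w b a) (h0 : ∀ a b, 0 ≤ w a b)
    {c : ℝ} (h : ∀ a b, K a b + K b a ≤ 2 * c * G a b) :
    ∑ a, ∑ b, K a b * w a b ≤ c * ∑ a, ∑ b, G a b * w a b := by
  have e : ∑ a, ∑ b, K a b * w a b = ∑ a, ∑ b, K b a * w a b := by
    rw [Finset.sum_comm]
    exact Finset.sum_congr rfl fun a _ => Finset.sum_congr rfl fun b _ => by rw [hw]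
  have : ∑ a, ∑ b, K a b * w a b + ∑ a, ∑ b, K b a * w a b ≤
      2 * (c * ∑ a, ∑ b, G a b * w a b) := by
    rw [← Finset.sum_add_distrib, ← mul_assoc, Finset.mul_sum]
    refine Finset.sum_le_sum fun a _ => ?_
    rw [← Finset.sum_add_distrib, Finset.mul_sum]
    refine Finset.sum_le_sum fun b _ => ?_
    have := mul_le_mul_of_nonneg_right (h a b) (h0 a b)
    linarith
  linarith

theorem rot_inner (hU : U * Uᵀ = 1) (x y : Fin m → ℝ) :
    ∑ k, x k * y k = ∑ p, (∑ k, U k p * x k) * ∑ k, U k p * y k := by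
  have h : (Uᵀ *ᵥ x) ⬝ᵥ (Uᵀ *ᵥ y) = x ⬝ᵥ y := by
    rw [dotProduct_mulVec, vecMul_transpose, mulVec_mulVec, hU, one_mulVec]
  simpa only [dotProduct, mulVec, transpose_apply] using h.symm

/-- rotation of a three-index tensor -/
def rot3 (U : Mx m) (X : Fin m → Mx m) (p q r : Fin m) : ℝ := ∑ l, U l p * (Uᵀ * X l * U) q r

theorem rot3_eq (X : Fin m → Mx m) (p q r : Fin m) :
    rot3 U X p q r = ∑ l, ∑ i, ∑ j, U l p * U i q * U j r * X l i j := by
  simp only [rot3, conj_apply, Finset.mul_sum]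
  exact Finset.sum_congr rfl fun l _ => Finset.sum_congr rfl fun i _ =>
    Finset.sum_congr rfl fun j _ => by ring

theorem rot3_swap23 {X : Fin m → Mx m} (h : ∀ k, (X k).IsSymm) (p q r : Fin m) :
    rot3 U X p q r = rot3 U X p r q :=
  Finset.sum_congr rfl fun l _ => by rw [conj_symm (h l)]

theorem rot3_swap12 {X : Fin m → Mx m} (h : ∀ k i j, X k i j = X i k j) (p q r : Fin m) :
    rot3 U X p q r = rot3 U X q p r := by
  rw [rot3_eq, rot3_eq, Finset.sum_comm]
  exact Finset.sum_congr rfl fun l _ => Finset.sum_congr rfl fun i _ =>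
    Finset.sum_congr rfl fun j _ => by rw [h]; ring

/-- the rotated tensor seen from the last index -/
theorem rot3_last (X : Fin m → Mx m) (p q r : Fin m) :
    ∑ a, U a r * (Uᵀ * (of fun l j => X l j a : Mx m) * U) p q = rot3 U X p q r := by
  rw [rot3_eq]
  simp only [conj_apply, Finset.mul_sum, of_apply]
  rw [Finset.sum_comm]
  refine Finset.sum_congr rfl fun l _ => ?_
  rw [Finset.sum_comm]
  exact Finset.sum_congr rfl fun i _ => Finset.sum_congr rfl fun j _ => by ring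

theorem sum3_swap12 {w : Fin m → Fin m → Fin m → ℝ} (h : ∀ a b c, w a b c = w b a c)
    (K : Fin m → Fin m → Fin m → ℝ) :
    ∑ a, ∑ b, ∑ c, K a b c * w a b c = ∑ a, ∑ b, ∑ c, K b a c * w a b c := by
  rw [Finset.sum_comm]
  exact Finset.sum_congr rfl fun a _ => Finset.sum_congr rfl fun b _ =>
    Finset.sum_congr rfl fun c _ => by rw [h]

theorem sum3_swap23 {w : Fin m → Fin m → Fin m → ℝ} (h : ∀ a b c, w a b c = w a c b)
    (K : Fin m → Fin m → Fin m → ℝ) :
    ∑ a, ∑ b, ∑ c, K a b c * w a b c = ∑ a, ∑ b, ∑ c, K a c b * w a b c := by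
  refine Finset.sum_congr rfl fun a _ => ?_
  rw [Finset.sum_comm]
  exact Finset.sum_congr rfl fun b _ => Finset.sum_congr rfl fun c _ => by rw [h]

/-- symmetrisation of a three-index sum -/
theorem sym3_le {w L R : Fin m → Fin m → Fin m → ℝ} (h12 : ∀ a b c, w a b c = w b a c)
    (h23 : ∀ a b c, w a b c = w a c b) (h0 : ∀ a b c, 0 ≤ w a b c)
    (h : ∀ a b c, L a b c + L b a c + L c a b ≤ R a b c + R a c b + R b c a) :
    ∑ a, ∑ b, ∑ c, L a b c * w a b c ≤ ∑ a, ∑ b, ∑ c, R a b c * w a b c := by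
  have l1 := sum3_swap12 h12 L
  have l2 : ∑ a, ∑ b, ∑ c, L a b c * w a b c = ∑ a, ∑ b, ∑ c, L c a b * w a b c := by
    rw [l1, sum3_swap23 h23 (fun a b c => L b a c)]
  have r1 := sum3_swap23 h23 R
  have r2 : ∑ a, ∑ b, ∑ c, R a b c * w a b c = ∑ a, ∑ b, ∑ c, R b c a * w a b c := by
    rw [r1, sum3_swap12 h12 (fun a b c => R a c b)]
  have : ∑ a, ∑ b, ∑ c, L a b c * w a b c + ∑ a, ∑ b, ∑ c, L b a c * w a b c +
      ∑ a, ∑ b, ∑ c, L c a b * w a b c ≤ ∑ a, ∑ b, ∑ c, R a b c * w a b c +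
      ∑ a, ∑ b, ∑ c, R a c b * w a b c + ∑ a, ∑ b, ∑ c, R b c a * w a b c := by
    simp only [← Finset.sum_add_distrib]
    refine Finset.sum_le_sum fun a _ => Finset.sum_le_sum fun b _ =>
      Finset.sum_le_sum fun c _ => ?_
    have := mul_le_mul_of_nonneg_right (h a b c) (h0 a b c)
    linarith
  linarith

/-- left side of `boz_le` in the eigenbasis -/
theorem lhs_eq (E : Eig A U d) (f : ℝ → ℝ) (D : Fin m → Mx m) :
    ∑ k, fip (mf f A * D k * mf f A) (D k) =
      ∑ p, ∑ a, ∑ b, f (d a) * f (d b) * rot3 U D p a b ^ 2 := by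
  have e : ∀ k, fip (mf f A * D k * mf f A) (D k) =
      ∑ a, ∑ b, f (d a) * f (d b) * ((Uᵀ * D k * U) a b * (Uᵀ * D k * U) a b) := fun k => by
    rw [← fip_conj E.hU E.hU]
    simp only [fip, conj_mul_mf E, conj_mf_mul E]
    exact Finset.sum_congr rfl fun a _ => Finset.sum_congr rfl fun b _ => by ring
  simp only [e]
  rw [Finset.sum_comm, Finset.sum_comm (f := fun p a => ∑ b, f (d a) * f (d b) * rot3 U D p a b ^ 2)]
  refine Finset.sum_congr rfl fun a _ => ?_
  rw [Finset.sum_comm, Finset.sum_comm (f := fun p b => f (d a) * f (d b) * rot3 U D p a b ^ 2)]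
  refine Finset.sum_congr rfl fun b _ => ?_
  rw [← Finset.mul_sum, ← Finset.mul_sum, rot_inner E.hU]
  simp only [rot3, sq]

/-- right side of `boz_le` in the eigenbasis -/
theorem rhs_eq (E : Eig A U d) (f : ℝ → ℝ) (D : Fin m → Mx m) :
    ∑ a, ∑ i, ∑ j, (∑ l, mf f A i l * D l j a) * (∑ l, mf f A j l * D l i a) =
      ∑ p, ∑ q, ∑ r, f (d p) * f (d q) * (rot3 U D p q r * rot3 U D q p r) := by
  have e : ∀ a, ∑ i, ∑ j, (∑ l, mf f A i l * D l j a) * (∑ l, mf f A j l * D l i a) =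
      ∑ p, ∑ q, f (d p) * f (d q) * ((Uᵀ * (of fun l j => D l j a : Mx m) * U) p q *
        (Uᵀ * (of fun l j => D l j a : Mx m) * U) q p) := fun a => by
    have h1 : ∑ i, ∑ j, (∑ l, mf f A i l * D l j a) * (∑ l, mf f A j l * D l i a) =
        fip (mf f A * (of fun l j => D l j a : Mx m)) (mf f A * (of fun l j => D l j a : Mx m))ᵀ := by
      simp only [fip, transpose_apply, mul_apply, of_apply]
    rw [h1, ← fip_conj E.hU E.hU]
    have h2 : ∀ Y : Mx m, Uᵀ * Yᵀ * U = (Uᵀ * Y * U)ᵀ := fun Y => by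
      rw [transpose_mul, transpose_mul, transpose_transpose, Matrix.mul_assoc]
    rw [h2]
    simp only [fip, transpose_apply, conj_mf_mul E]
    exact Finset.sum_congr rfl fun p _ => Finset.sum_congr rfl fun q _ => by ring
  simp only [e]
  rw [Finset.sum_comm]
  refine Finset.sum_congr rfl fun p _ => ?_
  rw [Finset.sum_comm]
  refine Finset.sum_congr rfl fun q _ => ?_
  rw [← Finset.mul_sum, ← Finset.mul_sum, rot_inner E.hU]
  simp only [rot3_last]

end Crest.Agent.R253.K3
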