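import Crest.Agent.R253.NumA

set_option autoImplicit false
set_option linter.unusedVariables false
set_option linter.unusedSectionVars false

open MeasureTheory Matrix Set Filter Topology
open Crest.Agent.R215 (gam)
open Crest.Agent.R203
open Crest.GeometryTopology.Isotropic

noncomputable section

namespace Crest.Agent.R253

variable {m : ℕ}

/-! Consequences of the numerical facts. -/

theorem lip_r1 (s t : ℝ) : |r1 s - r1 t| ≤ 1 / 10 * |ell s - ell t| :=
  lip_ell c1_r1 (fun u => by rw [abs_of_nonneg (r2_nonneg u)]; exact r2_le_bt u) s t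
theorem lip_r2 (s t : ℝ) : |r2 s - r2 t| ≤ 45 / 1000 * |ell s - ell t| :=
  lip_ell c1_r2 r3_le_bt s t
theorem lip_qq (s t : ℝ) : |qq s - qq t| ≤ 1 / 10 * |ell s - ell t| :=
  lip_ell c1_qq q1_le_bt s t
theorem nc_r1r2 (u : ℝ) : 0 ≤ 2 * r1 u * r2 u ∧ 2 * r1 u * r2 u ≤ 1 / 10 * bt u := by
  have h1 := r1_nonneg u
  have h2 := r1_le u
  have h3 := r2_nonneg u
  have h4 := r2_le_bt u
  exact ⟨by positivity, by nlinarith⟩
theorem lip_sg1 (s t : ℝ) : |sg1 s - sg1 t| ≤ 2 / 10 * |ell s - ell t| := by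
  have h : C1 sg1 fun u => q1 u + 2 * r1 u * r2 u :=
    ⟨fun u => (c1_qq.d u).add (c1_r1s.d u), c1_qq.c.add c1_r1s.c⟩
  refine lip_ell h (fun u => ?_) s t
  obtain ⟨h1, h2⟩ := nc_r1r2 u
  obtain ⟨h3, h4⟩ := abs_le.1 (q1_le_bt u)
  have h5 := bt_pos u
  rw [abs_le]
  constructor <;> linarith
theorem lip_sh1 (s t : ℝ) : |sh1 s - sh1 t| ≤ 27 / 100 * |ell s - ell t| := by
  have h : C1 sh1 fun u => 2 * r1 u * r2 u + e2 u / 4 :=
    ⟨fun u => (c1_r1s.d u).add ((c1_e1.d u).div_const 4), c1_r1s.c.add (c1_e1.c.div_const 4)⟩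
  refine lip_ell h (fun u => ?_) s t
  obtain ⟨h1, h2⟩ := nc_r1r2 u
  have h3 := e2_le_bt u
  have h4 : 0 ≤ e2 u := div_nonneg (by norm_num) (pow_nonneg (Real.sqrt_nonneg _) 3)
  have h5 := bt_pos u
  rw [abs_le]
  constructor <;> linarith
theorem nc_r1s (u : ℝ) : 0 ≤ r1s u ∧ r1s u ≤ 1 / 4 := by
  have h1 := r1_nonneg u
  have h2 := r1_le u
  unfold r1s
  exact ⟨by positivity, by nlinarith⟩
theorem sg1_osc (t : ℝ) : |sg1 t - 38 / 100| ≤ 38 / 100 := by
  obtain ⟨h1, h2⟩ := nc_r1s t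
  have h3 := qq_nonneg t
  have h4 := qq_le t
  unfold sg1
  rw [abs_le]
  constructor <;> linarith
theorem sh1_osc (t : ℝ) : |sh1 t - 1 / 8| ≤ 3 / 8 := by
  obtain ⟨h1, h2⟩ := nc_r1s t
  obtain ⟨h3, h4⟩ := abs_le.1 (abs_e1_le t)
  unfold sh1
  rw [abs_le]
  constructor <;> linarith
theorem uh_ge (t : ℝ) : -87 / 1000 ≤ sh1 t / 3 - r1s t := by
  have h := r1s_le t
  unfold sh1
  linarith
/-- integrate `r1s_le` between `0` and `t` -/
theorem GG_le (t : ℝ) : GG t + ee 0 / 8 * t ≤ t * (s1 t - ee t / 4) - qq t := by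
  have hd : ∀ u, HasDerivAt (fun u => 13 / 100 * u + ee u / 8 - s2 u)
      (13 / 100 * 1 + e1 u / 8 - r1s u) u := fun u =>
    (((hasDerivAt_id u).const_mul (13 / 100)).add ((c1_ee.d u).div_const 8)).sub (c1_s2.d u)
  have hm : Monotone fun u => 13 / 100 * u + ee u / 8 - s2 u :=
    monotone_of_deriv_nonneg (fun u => (hd u).differentiableAt) fun u => by
      rw [(hd u).deriv]
      linarith [r1s_le u]
  have h0 : s2 0 = 0 := intervalIntegral.integral_same
  have h1 : 0 ≤ t * (13 / 100 * t + ee t / 8 - s2 t - ee 0 / 8) := by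
    rcases le_total 0 t with h | h
    · have := hm h
      simp only [h0] at this
      exact mul_nonneg h (by linarith)
    · have := hm h
      simp only [h0] at this
      exact mul_nonneg_of_nonpos_of_nonpos h (by linarith)
  have h2 := stein_sg t
  unfold GG s1
  nlinarith

end Crest.Agent.R253
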