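import Crest.Agent.R253.Dk
import Crest.Agent.R253.NumC
import Crest.Agent.R253.KerAux1
import Crest.Agent.R253.KerAux3

set_option autoImplicit false
set_option linter.unusedVariables false
set_option linter.unusedSectionVars false

open MeasureTheory Matrix Set Filter Topology
open Crest.Agent.R215 (gam)
open Crest.Agent.R203
open Crest.GeometryTopology.Isotropic

noncomputable section

namespace Crest.Agent.R253

variable {m : ℕ}

/-! Kernel inequalities. -/

theorem sinh_sq_ge (x : ℝ) : x ^ 2 * (1 + x ^ 2 / 3 + 2 * x ^ 4 / 45) ≤ Real.sinh x ^ 2 :=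
  ker1_sinh x
theorem coth_le {x : ℝ} (hx : 0 ≤ x) : x * Real.cosh x ≤ (1 + x ^ 2 / 3) * Real.sinh x :=
  ker1_coth hx

/-- mean distance to the endpoint `a` in the metric `ell` -/
def xa (a b : ℝ) : ℝ := ∫ s in (0 : ℝ)..1, |ell (b + s * (a - b)) - ell a|

/-- Let `2x = |ell a - ell b|`.  `xa a b + xa b a = 2x`, so the left side is `2x² + 2μ²`, where
`μ = ⨍ ell - (ell a + ell b)/2`.  Concavity of `ell` gives `μ ≥ 0` and
`dd FF a b = ⨍ lam ≥ √(lam a lam b) sinh x / x`; convexity of `lam` gives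
`μ ≤ x coth x - 1 ≤ x²/3`. -/
theorem xa_sq_le (a b : ℝ) : xa a b ^ 2 + xa b a ^ 2 ≤ 6 * gk a b := by
  rcases lt_trichotomy a b with h | rfl | h
  · rw [add_comm, ker1_gk_comm]
    exact ker1_xa h
  · have h := (lam_pos a).ne'
    have h1 : gk a a = 0 := by
      rw [gk, dd_same, c1_FF.deriv_eq]
      field_simp
      ring
    simp [xa, h1]
  · exact ker1_xa h

theorem gk_nonneg (a b : ℝ) : 0 ≤ gk a b := by
  nlinarith [xa_sq_le a b, sq_nonneg (xa a b), sq_nonneg (xa b a)]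

theorem ker_int {φ : ℝ → ℝ} (hφ : Continuous φ) {K : ℝ} (a b : ℝ)
    (h : ∀ s, |φ s| ≤ K * |ell s - ell a|) :
    (∫ s in (0 : ℝ)..1, φ (b + s * (a - b))) ^ 2 ≤ K ^ 2 * xa a b ^ 2 := by
  have hc := c1_ell.cont
  rw [← sq_abs, ← mul_pow]
  refine pow_le_pow_left₀ (abs_nonneg _) ?_ 2
  refine (intervalIntegral.abs_integral_le_integral_abs zero_le_one).trans ?_
  rw [xa, ← intervalIntegral.integral_const_mul]
  exact intervalIntegral.integral_mono_on zero_le_one
    (Continuous.intervalIntegrable (by fun_prop) _ _)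
    (Continuous.intervalIntegrable (by fun_prop) _ _) fun s _ => h _

/-- `dd_eq_integral` -/
theorem ker_cm {g g' : ℝ → ℝ} (hg : C1 g g') {K : ℝ} (hK : ∀ s t, |g' s - g' t| ≤ K * |ell s - ell t|)
    (a b : ℝ) : (dd g a b - g' a) ^ 2 + (dd g a b - g' b) ^ 2 ≤ 6 * K ^ 2 * gk a b := by
  have hc := hg.c
  have key : ∀ a b, (dd g a b - g' a) ^ 2 ≤ K ^ 2 * xa a b ^ 2 := fun a b => by
    have := ker_int (φ := fun s => g' s - g' a) (by fun_prop) a b fun s => hK s a
    rw [intervalIntegral.integral_sub (Continuous.intervalIntegrable (by fun_prop) _ _) (by simp),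
      ← dd_eq_integral hg.d hc] at this
    simpa using this
  have h1 := key a b
  have h2 := key b a
  rw [dd_comm] at h2
  nlinarith [mul_le_mul_of_nonneg_left (xa_sq_le a b) (sq_nonneg K)]

/-- the kernel is `⨍ (r1 s - r1 a)² ≤ (1/2) (1/10) xa a b` -/
theorem ker_J (a b : ℝ) : (dd s2 a b - r1s a - 2 * (r1 a * (dd r0 a b - r1 a))) ^ 2 +
    (dd s2 a b - r1s b - 2 * (r1 b * (dd r0 a b - r1 b))) ^ 2 ≤ 6 / 400 * gk a b := by
  have hc := c1_r0.c
  have hc2 := c1_s2.c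
  have key : ∀ a b, (dd s2 a b - r1s a - 2 * (r1 a * (dd r0 a b - r1 a))) ^ 2 ≤
      (1 / 20) ^ 2 * xa a b ^ 2 := fun a b => by
    have := ker_int (φ := fun s => r1s s - 2 * r1 a * r1 s + r1s a) (K := 1 / 20) (by fun_prop) a b
      fun s => by
        have h1 := lip_r1 s a
        have h2 : |r1 s - r1 a| ≤ 1 / 2 :=
          abs_le.2 ⟨by linarith [r1_nonneg s, r1_le a], by linarith [r1_nonneg a, r1_le s]⟩
        have h3 : r1s s - 2 * r1 a * r1 s + r1s a = (r1 s - r1 a) * (r1 s - r1 a) := by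
          unfold r1s
          ring
        rw [h3, abs_mul]
        nlinarith [abs_nonneg (r1 s - r1 a)]
    rw [intervalIntegral.integral_add (Continuous.intervalIntegrable (by fun_prop) _ _) (by simp),
      intervalIntegral.integral_sub (Continuous.intervalIntegrable (by fun_prop) _ _)
        (Continuous.intervalIntegrable (by fun_prop) _ _), intervalIntegral.integral_const_mul,
      ← dd_eq_integral c1_s2.d hc2, ← dd_eq_integral c1_r0.d hc] at this
    refine le_trans (le_of_eq ?_) this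
    simp only [intervalIntegral.integral_const, r1s, smul_eq_mul]
    ring
  have h1 := key a b
  have h2 := key b a
  rw [dd_comm s2, dd_comm r0] at h2
  linarith [xa_sq_le a b]

def Ph (a b : ℝ) : ℝ := dd FF a b / dd lam a b

theorem Ph_comm (a b : ℝ) : Ph a b = Ph b a := by rw [Ph, Ph, dd_comm FF, dd_comm lam]

theorem Ph_mul (a b : ℝ) : Ph a b * (lam a - lam b) = FF a - FF b := by
  have h := (dd_lam_pos a b).ne'
  rw [← dd_mul lam, ← dd_mul FF, Ph]
  field_simp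

theorem Ph_self (a : ℝ) : Ph a a * F2 a = lam a := by
  have h := (F2_pos a).ne'
  rw [Ph, dd_same, dd_same, c1_FF.deriv_eq, c1_lam.deriv_eq]
  field_simp

theorem Ph_mvt1 {a b : ℝ} (h : b ≤ a) : ∃ ξ, b ≤ ξ ∧ ξ ≤ a ∧ Ph a b * bt ξ = 1 := by
  have key : ∀ ξ, Ph a b * F2 ξ = lam ξ → Ph a b * bt ξ = 1 := fun ξ e => by
    refine mul_left_cancel₀ (lam_pos ξ).ne' ?_
    rw [mul_one]
    conv_rhs => rw [← e]
    unfold F2 bt
    ring
  rcases h.eq_or_lt with rfl | h
  · exact ⟨b, le_rfl, le_rfl, key b (Ph_self b)⟩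
  · obtain ⟨ξ, hξ, e⟩ := exists_ratio_hasDerivAt_eq_ratio_slope FF lam h
      continuous_FF.continuousOn (fun x _ => hasDerivAt_FF x) lam F2 continuous_lam.continuousOn
      (fun x _ => hasDerivAt_lam x)
    refine ⟨ξ, hξ.1.le, hξ.2.le, key ξ ?_⟩
    refine mul_left_cancel₀ (sub_pos.2 (lam_mono h)).ne' ?_
    rw [e, ← Ph_mul]
    ring

theorem Ph_mvt2 {a b : ℝ} (h : b ≤ a) :
    ∃ ξ, b ≤ ξ ∧ ξ ≤ a ∧ Ph a b * (2 * F2 ξ) = lam a + lam b := by
  rcases h.eq_or_lt with rfl | h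
  · exact ⟨b, le_rfl, le_rfl, by linarith [Ph_self b]⟩
  · obtain ⟨ξ, hξ, e⟩ := exists_ratio_hasDerivAt_eq_ratio_slope FF lam h
      continuous_FF.continuousOn (fun x _ => hasDerivAt_FF x) (fun t => lam t * lam t)
      (fun t => F2 t * lam t + lam t * F2 t) (continuous_lam.mul continuous_lam).continuousOn
      (fun x _ => (hasDerivAt_lam x).mul (hasDerivAt_lam x))
    refine ⟨ξ, hξ.1.le, hξ.2.le, ?_⟩
    refine mul_left_cancel₀ (mul_pos (sub_pos.2 (lam_mono h)) (lam_pos ξ)).ne' ?_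
    rw [← Ph_mul] at e
    linarith

theorem Ph_pos (a b : ℝ) : 0 < Ph a b := by
  have h : ∀ a b : ℝ, b ≤ a → 0 < Ph a b := fun a b h => by
    obtain ⟨ξ, -, -, e⟩ := Ph_mvt1 h
    exact (mul_pos_iff_of_pos_right (bt_pos ξ)).1 (by rw [e]; exact one_pos)
  rcases le_total a b with hab | hab
  · rw [Ph_comm]
    exact h b a hab
  · exact h a b hab
/-- Cauchy mean value theorem: `Ph a b = 1 / bt ξ`, `bt` decreases -/
theorem Ph_mono {a b c : ℝ} (h1 : c ≤ b) (h2 : b ≤ a) : Ph b c ≤ Ph a b := by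
  obtain ⟨ξ, hξ, -, e₁⟩ := Ph_mvt1 h2
  obtain ⟨η, -, hη, e₂⟩ := Ph_mvt1 h1
  have h3 : bt ξ ≤ bt η := bt_anti (hη.trans hξ)
  refine le_of_mul_le_mul_right ?_ (bt_pos η)
  rw [e₂, ← e₁]
  exact mul_le_mul_of_nonneg_left h3 (Ph_pos a b).le
/-- `Ph a b ≤ (lam a + lam b) / (2 F2 b)` and `Ph b c ≥ (lam b + lam c) / (2 F2 b)` (`F2_mono`) -/
theorem Ph_ratio {a b c : ℝ} (h1 : c ≤ b) (h2 : b ≤ a) :
    Ph a b * (lam b + lam c) ≤ Ph b c * (lam a + lam b) := by
  obtain ⟨ξ, hξ, -, e₁⟩ := Ph_mvt2 h2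
  obtain ⟨η, -, hη, e₂⟩ := Ph_mvt2 h1
  have h3 : F2 η ≤ F2 ξ := F2_mono (hη.trans hξ)
  have h4 := mul_le_mul_of_nonneg_left h3 (mul_pos (Ph_pos a b) (Ph_pos b c)).le
  rw [← e₁, ← e₂]
  linarith

theorem ker3_sorted {a b c : ℝ} (h1 : c ≤ b) (h2 : b ≤ a) :
    Ph a b ^ 2 * lam c + Ph a c ^ 2 * lam b + Ph b c ^ 2 * lam a ≤
      Ph a b * Ph a c * lam a + Ph a b * Ph b c * lam b + Ph a c * Ph b c * lam c := by
  rcases (h1.trans h2).eq_or_lt with e | hca
  · obtain rfl : c = b := le_antisymm h1 (e ▸ h2)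
    subst e
    linarith
  have hD : 0 < lam a - lam c := sub_pos.2 (lam_mono hca)
  have hab : lam b ≤ lam a := lam_mono.monotone h2
  have hrel : Ph a c * (lam a - lam c) = Ph a b * (lam a - lam b) + Ph b c * (lam b - lam c) := by
    rw [Ph_mul, Ph_mul, Ph_mul]; ring
  have hm := Ph_mono h1 h2
  have hr := Ph_ratio h1 h2
  have hZ := Ph_pos b c
  have hb := lam_pos b
  have hc := lam_pos c
  obtain ⟨D, hD'⟩ : ∃ D, lam a = lam c + D := ⟨lam a - lam c, by ring⟩
  obtain ⟨Δ, hΔ⟩ : ∃ Δ, Ph a b = Ph b c + Δ := ⟨Ph a b - Ph b c, by ring⟩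
  have hD0 : 0 < D := by linarith
  have hΔ0 : 0 ≤ Δ := by linarith
  obtain ⟨s, hs⟩ : ∃ s, lam b = lam c + D - s * D :=
    ⟨(lam a - lam b) / D, by rw [div_mul_cancel₀ _ hD0.ne']; linarith⟩
  have hs0 : 0 ≤ s := by
    have : 0 ≤ s * D := by linarith
    exact nonneg_of_mul_nonneg_left this hD0
  have hY : Ph a c = Ph b c + s * Δ := by
    refine mul_right_cancel₀ hD0.ne' ?_
    rw [hΔ, hD', hs] at hrel
    linarith
  have h3 : Δ * lam c ≤ Ph b c * D := by
    have := mul_nonneg hΔ0 hb.le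
    rw [hΔ, hD'] at hr
    linarith
  have h4 : 0 ≤ 2 * Ph b c * D - Δ * (lam c + D) + Δ * D * (1 + s) := by
    have := mul_nonneg (mul_nonneg hΔ0 hD0.le) hs0
    have := mul_pos hZ hD0
    linarith
  have h5 : 0 ≤ 1 - s + s ^ 2 := by nlinarith [sq_nonneg (s - 1 / 2)]
  have h6 := mul_nonneg (mul_nonneg hΔ0 h5) h4
  rw [hY, hΔ, hD', hs]
  linarith

/-- For `c ≤ b ≤ a`, `X = Ph a b = Z + Δ`, `Z = Ph b c`, `Ph a c = Z + sΔ`, `D = λa - λc`,
`s D = λa - λb`: (right - left) `λa λb λc = Δ (1 - s + s²) (2 Z D - Δ λa + Δ D (1 + s))`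
and `Δ λc ≤ Z D`. -/
theorem ker3 (a b c : ℝ) :
    Ph a b ^ 2 / (lam a * lam b) + Ph a c ^ 2 / (lam a * lam c) + Ph b c ^ 2 / (lam b * lam c) ≤
      Ph a b * Ph a c / (lam b * lam c) + Ph a b * Ph b c / (lam a * lam c) +
        Ph a c * Ph b c / (lam a * lam b) := by
  have ha := lam_pos a
  have hb := lam_pos b
  have hc := lam_pos c
  have key : Ph a b ^ 2 * lam c + Ph a c ^ 2 * lam b + Ph b c ^ 2 * lam a ≤
      Ph a b * Ph a c * lam a + Ph a b * Ph b c * lam b + Ph a c * Ph b c * lam c := by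
    have e1 := Ph_comm b a
    have e2 := Ph_comm c a
    have e3 := Ph_comm c b
    rcases le_total a b with h1 | h1 <;> rcases le_total b c with h2 | h2
    · have h := ker3_sorted h1 h2
      rw [e1, e2, e3] at h
      linarith
    · rcases le_total a c with h3 | h3
      · have h := ker3_sorted h3 h2
        rw [e1, e2] at h
        linarith
      · have h := ker3_sorted h3 h1
        rw [e1] at h
        linarith
    · rcases le_total a c with h3 | h3
      · have h := ker3_sorted h1 h3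
        rw [e2, e3] at h
        linarith
      · have h := ker3_sorted h2 h3
        rw [e3] at h
        linarith
    · exact ker3_sorted h2 h1
  have h := div_le_div_of_nonneg_right key (mul_pos (mul_pos ha hb) hc).le
  refine le_trans (le_of_eq ?_) (h.trans (le_of_eq ?_)) <;> field_simp

variable {A M : Mx m}

/-- pointwise gap -/
def gp1 (A M : Mx m) : ℝ := fip (mf (fun t => (lam t)⁻¹) A * dk FF A M * mf (fun t => (lam t)⁻¹) A)
  (dk FF A M) - fr2 M

theorem gp1_eq {U : Mx m} {d : Fin m → ℝ} (E : Eig A U d) (hM : M.IsSymm) :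
    gp1 A M = ∑ a, ∑ b, gk (d a) (d b) * (Uᵀ * M * U) a b ^ 2 := by
  rw [gp1, ← fip_conj E.hU E.hU, ← fr2_conj E.hU E.hU M]
  simp only [fip, fr2, K3.conj_mul_mf E, K3.conj_mf_mul E, K3.conj_dk E hM c1_FF.diff,
    ← Finset.sum_sub_distrib]
  refine Finset.sum_congr rfl fun a _ => Finset.sum_congr rfl fun b _ => ?_
  have ha := (lam_pos (d a)).ne'
  have hb := (lam_pos (d b)).ne'
  rw [gk]
  field_simp

theorem fr2_cm_le (hA : A.IsSymm) (hM : M.IsSymm) {g g' : ℝ → ℝ} (hg : C1 g g') {K : ℝ}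
    (hK : ∀ s t, |g' s - g' t| ≤ K * |ell s - ell t|) :
    fr2 (dk g A M - mf g' A * M) ≤ 3 * K ^ 2 * gp1 A M := by
  obtain ⟨U, d, E⟩ := exists_eig hA
  rw [gp1_eq E hM, ← fr2_conj E.hU E.hU]
  have e : fr2 (Uᵀ * (dk g A M - mf g' A * M) * U) =
      ∑ a, ∑ b, (dd g (d a) (d b) - g' (d a)) ^ 2 * (Uᵀ * M * U) a b ^ 2 := by
    simp only [fr2, K3.conj_sub, K3.conj_mf_mul E, K3.conj_dk E hM hg.diff]
    exact Finset.sum_congr rfl fun a _ => Finset.sum_congr rfl fun b _ => by ring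
  rw [e]
  refine K3.sym2_le (K := fun a b => (dd g (d a) (d b) - g' (d a)) ^ 2)
    (G := fun a b => gk (d a) (d b)) (w := fun a b => (Uᵀ * M * U) a b ^ 2)
    (fun a b => by rw [K3.conj_symm hM]) (fun a b => sq_nonneg _) fun a b => ?_
  have := ker_cm hg hK (d a) (d b)
  rw [dd_comm g (d b) (d a)]
  linarith

theorem fr2_J_le (hA : A.IsSymm) (hM : M.IsSymm) :
    fr2 (dk s2 A M - mf r1s A * M - (2 : ℝ) • (mf r1 A * (dk r0 A M - mf r1 A * M))) ≤
      3 / 400 * gp1 A M := by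
  obtain ⟨U, d, E⟩ := exists_eig hA
  rw [gp1_eq E hM, ← fr2_conj E.hU E.hU]
  have e : fr2 (Uᵀ * (dk s2 A M - mf r1s A * M -
      (2 : ℝ) • (mf r1 A * (dk r0 A M - mf r1 A * M))) * U) =
      ∑ a, ∑ b, (dd s2 (d a) (d b) - r1s (d a) -
        2 * (r1 (d a) * (dd r0 (d a) (d b) - r1 (d a)))) ^ 2 * (Uᵀ * M * U) a b ^ 2 := by
    simp only [fr2, K3.conj_sub, K3.conj_smul, K3.conj_mf_mul E, K3.conj_dk E hM c1_s2.diff,
      K3.conj_dk E hM c1_r0.diff]
    exact Finset.sum_congr rfl fun a _ => Finset.sum_congr rfl fun b _ => by ring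
  rw [e]
  refine K3.sym2_le (K := fun a b => (dd s2 (d a) (d b) - r1s (d a) -
        2 * (r1 (d a) * (dd r0 (d a) (d b) - r1 (d a)))) ^ 2)
    (G := fun a b => gk (d a) (d b)) (w := fun a b => (Uᵀ * M * U) a b ^ 2)
    (fun a b => by rw [K3.conj_symm hM]) (fun a b => sq_nonneg _) fun a b => ?_
  have := ker_J (d a) (d b)
  rw [dd_comm s2 (d b) (d a), dd_comm r0 (d b) (d a)]
  linarith

/-- Rotate all three indices to the eigenbasis of `A`; with `c l a b` totally symmetric both sides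
are sums of `c²` times a kernel, symmetrise and use `ker3`. -/
theorem boz_le (hA : A.IsSymm) {S : Fin m → Mx m} (hS : ∀ k, (S k).IsSymm)
    (hc : ∀ k i j, dk lam A (S k) i j = dk lam A (S j) i k) :
    ∑ k, fip (mf (fun t => (lam t)⁻¹) A * dk FF A (S k) * mf (fun t => (lam t)⁻¹) A) (dk FF A (S k)) ≤
      ∑ a, ∑ i, ∑ j, (∑ l, mf (fun t => (lam t)⁻¹) A i l * dk FF A (S l) j a) *
        (∑ l, mf (fun t => (lam t)⁻¹) A j l * dk FF A (S l) i a) := by
  obtain ⟨U, d, E⟩ := exists_eig hA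
  rw [K3.lhs_eq E, K3.rhs_eq E]
  have sC : ∀ k, (dk lam A (S k)).IsSymm := fun k => dk_isSymm hA (hS k) c1_lam.diff
  have h23 : ∀ p q r, K3.rot3 U (fun k => dk lam A (S k)) p q r =
      K3.rot3 U (fun k => dk lam A (S k)) p r q := K3.rot3_swap23 sC
  have h12 : ∀ p q r, K3.rot3 U (fun k => dk lam A (S k)) p q r =
      K3.rot3 U (fun k => dk lam A (S k)) q p r :=
    K3.rot3_swap12 fun k i j => by
      rw [← (sC k).apply, hc, (sC i).apply]
  have hF : ∀ p q r, K3.rot3 U (fun k => dk FF A (S k)) p q r =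
      Ph (d q) (d r) * K3.rot3 U (fun k => dk lam A (S k)) p q r := fun p q r => by
    simp only [K3.rot3, K3.conj_dk E (hS _) c1_FF.diff, K3.conj_dk E (hS _) c1_lam.diff,
      Finset.mul_sum]
    refine Finset.sum_congr rfl fun l _ => ?_
    have := (dd_lam_pos (d q) (d r)).ne'
    rw [Ph]
    field_simp
  have Pc : ∀ a b, Ph a b = Ph b a := fun a b => by rw [Ph, Ph, dd_comm FF, dd_comm lam]
  have key := K3.sym3_le (w := fun p q r => K3.rot3 U (fun k => dk lam A (S k)) p q r ^ 2)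
    (L := fun p a b => Ph (d a) (d b) ^ 2 / (lam (d a) * lam (d b)))
    (R := fun p q r => Ph (d q) (d r) * Ph (d p) (d r) / (lam (d p) * lam (d q)))
    (fun a b c => by rw [h12]) (fun a b c => by rw [h23]) (fun a b c => sq_nonneg _)
    fun a b c => by
      have := ker3 (d a) (d b) (d c)
      rw [Pc (d c) (d b), Pc (d c) (d a), Pc (d b) (d a), mul_comm (Ph (d b) (d c)) (Ph (d a) (d c)),
        mul_comm (Ph (d b) (d c)) (Ph (d a) (d b)), mul_comm (Ph (d a) (d c)) (Ph (d a) (d b))]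
      linarith
  refine le_of_eq_of_le ?_ (le_of_le_of_eq key ?_)
  · refine Finset.sum_congr rfl fun p _ => Finset.sum_congr rfl fun a _ =>
      Finset.sum_congr rfl fun b _ => ?_
    rw [hF]
    ring
  · refine Finset.sum_congr rfl fun p _ => Finset.sum_congr rfl fun q _ =>
      Finset.sum_congr rfl fun r _ => ?_
    rw [hF, hF, h12 q p r]
    ring

end Crest.Agent.R253
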