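import Crest.Agent.R253.MA
import Crest.Agent.R253.Ker
import Crest.Agent.R253.BochAux2
import Crest.Agent.R253.BochAux1

set_option autoImplicit false
set_option linter.unusedVariables false
set_option linter.unusedSectionVars false

open MeasureTheory Matrix Set Filter Topology
open Crest.Agent.R215 (gam)
open Crest.Agent.R203
open Crest.GeometryTopology.Isotropic

noncomputable section

namespace Crest.Agent.R253

variable {m : ℕ}

/-! The Bochner inequality. -/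

variable {V ψ : Vc m → ℝ} {g X : Vc m → Vc m} {κ₁ κ₂ α β : ℝ}

/-- Two integrations by parts (`SC.stein`); `∑ ∂_i g_j Ξ_i Ξ_j ≥ 0` a.e. (`SC.jac_at`). -/
theorem bochner_smooth (hV : SC V g κ₁ κ₂) (h1 : 0 < κ₁) (h2 : 0 < κ₂) {Ξ : Fin m → Vc m → ℝ}
    (hs : ∀ i, ContDiff ℝ 2 (Ξ i)) (ht : ∀ i, Tame (Ξ i)) (ht' : ∀ i k, Tame (pd k (Ξ i))) :
    ∫ x, ∑ i, ∑ j, pd i (Ξ j) x * pd j (Ξ i) x ∂mu V ≤
      ∫ x, (∑ i, (g x i * Ξ i x - pd i (Ξ i) x)) ^ 2 ∂mu V :=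
  Boch1.bochner_smooth hV h1 h2 hs ht ht'

theorem mu_dom (hV : SC V g κ₁ κ₂) (h1 : 2 ≤ κ₁) (h2 : 0 < κ₂) : ∃ C : ℝ, 0 ≤ C ∧
    ∀ f : Vc m → ℝ, PG f → (∀ x, 0 ≤ f x) →
      ∫ x, (1 + ‖x‖) ^ 2 * f x ∂mu V ≤ C * ∫ x, f x ∂gm m := Boch1.mu_dom hV h1 h2

/-- for `κ₁ ≥ 2`: Hermite truncations converge in `W^{1,2}(γ)`, hence in the norms of both sides -/
theorem bochner_two (hV : SC V g κ₁ κ₂) (h1 : 2 ≤ κ₁) (h2 : 0 < κ₂) {Ξ : Fin m → Vc m → ℝ}
    (ht : ∀ i, Tame (Ξ i)) : ∫ x, ∑ i, ∑ j, pd i (Ξ j) x * pd j (Ξ i) x ∂mu V ≤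
      ∫ x, (∑ i, (g x i * Ξ i x - pd i (Ξ i) x)) ^ 2 ∂mu V :=
  Boch1.bochner_two hV h1 h2 ht

/-- scaling `x = σ y` -/
theorem bochner_tame (hV : SC V g κ₁ κ₂) (h1 : 0 < κ₁) (h2 : 0 < κ₂) {Ξ : Fin m → Vc m → ℝ}
    (ht : ∀ i, Tame (Ξ i)) : ∫ x, ∑ i, ∑ j, pd i (Ξ j) x * pd j (Ξ i) x ∂mu V ≤
      ∫ x, (∑ i, (g x i * Ξ i x - pd i (Ξ i) x)) ^ 2 ∂mu V :=
  Boch1.bochner_tame hV h1 h2 ht

/-- `-div_μ (u ∘ X⁻¹)` read in Gauss space -/
def dv (g X u : Vc m → Vc m) (D : Fin m → Vc m → Vc m) (z : Vc m) : ℝ :=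
  ∑ i, (g (X z) i * u z i - ∑ l, (jac X z)⁻¹ i l * D l z i)

theorem BM.jac_inv_bdd (h : BM V g κ₁ κ₂ ψ X α β) :
    (∀ i j, AEStronglyMeasurable (fun z => (jac X z)⁻¹ i j) (gm m)) ∧
      ∀ᵐ z ∂gm m, ∀ i j, |(jac X z)⁻¹ i j| ≤ α⁻¹ := Bo2.jac_inv_bdd h

/-- `|g (X z)| ≤ C (1 + ‖z‖)` and `WD.zmul` -/
theorem BM.dv_l2 (h : BM V g κ₁ κ₂ ψ X α β) : ∃ C : ℝ, ∀ (u : Vc m → Vc m)
    (D : Fin m → Vc m → Vc m), VW u D → MemLp (dv g X u D) 2 (gm m) ∧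
      ∫ z, dv g X u D z ^ 2 ∂gm m ≤ C * (ip u u + ipk D D) := Bo2.dv_l2 h

/-- `bochner_tame` for `trunc (u i) n ∘ X⁻¹`, `pd_comp_inv`, and the limit -/
theorem BM.boch_vw (h : BM V g κ₁ κ₂ ψ X α β) {u : Vc m → Vc m} {D : Fin m → Vc m → Vc m}
    (hu : VW u D) : ∫ z, ∑ i, ∑ j, (∑ l, (jac X z)⁻¹ i l * D l z j) *
      (∑ l, (jac X z)⁻¹ j l * D l z i) ∂gm m ≤ ∫ z, dv g X u D z ^ 2 ∂gm m :=
  Bo2.boch_vw h (fun _ ht => bochner_tame h.hV h.k1 h.k2 ht) hu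

theorem bo3_l2_mul {a f : Vc m → ℝ} (ha : AEStronglyMeasurable a (gm m)) {c : ℝ}
    (hb : ∀ᵐ z ∂gm m, |a z| ≤ c) (hf : MemLp f 2 (gm m)) :
    MemLp (fun z => a z * f z) 2 (gm m) := by
  refine (hf.const_mul c).of_le (ha.mul hf.aestronglyMeasurable) ?_
  filter_upwards [hb] with z hz
  rw [Real.norm_eq_abs, Real.norm_eq_abs, abs_mul, abs_mul]
  exact mul_le_mul_of_nonneg_right (hz.trans (le_abs_self c)) (abs_nonneg _)

theorem BM.bo3_l2 (h : BM V g κ₁ κ₂ ψ X α β) (i l : Fin m) {f : Vc m → ℝ}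
    (hf : MemLp f 2 (gm m)) : MemLp (fun z => (jac X z)⁻¹ i l * f z) 2 (gm m) :=
  bo3_l2_mul (h.jac_inv_bdd.1 i l) (h.jac_inv_bdd.2.mono fun z hz => hz i l) hf

theorem BM.bo3_l2s (h : BM V g κ₁ κ₂ ψ X α β) (i : Fin m) {f : Fin m → Vc m → ℝ}
    (hf : ∀ l, MemLp (f l) 2 (gm m)) : MemLp (fun z => ∑ l, (jac X z)⁻¹ i l * f l z) 2 (gm m) :=
  memLp_finsetSum _ fun l _ => h.bo3_l2 i l (hf l)

theorem BM.bo3_gX (h : BM V g κ₁ κ₂ ψ X α β) (i : Fin m) : Tame fun z => g (X z) i :=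
  Tame.comp_lip (h.hV.tame h.k1.le h.k2 i) (h.hX.lipschitz h.a0.le h.b0)

theorem BM.bo3_tame (h : BM V g κ₁ κ₂ ψ X α β) {f p : Vc m → ℝ} (hf : Tame f) (hp : Tame p)
    (i : Fin m) : ∫ z, f z * (g (X z) i * p z) ∂gm m =
      ∑ l, ∫ z, pd l f z * ((jac X z)⁻¹ i l * p z) ∂gm m +
        ∫ z, f z * ∑ l, (jac X z)⁻¹ i l * pd l p z ∂gm m := by
  obtain ⟨φ, Y, hY, hYX, -, -⟩ := h.hX.conj h.a0 h.b0
  have hL := hY.lipschitz (inv_pos.2 h.b0).le (inv_pos.2 h.a0)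
  have hfp : Tame fun z => f z * p z := hf.mul hp
  have hF : Tame fun x => f (Y x) * p (Y x) := Tame.comp_lip hfp hL
  have hs := h.hV.stein h.k1 h.k2 hF i
  rw [h.integral_comp (hF.pg_pd i).measurable,
    h.integral_comp (u := fun x => f (Y x) * p (Y x) * g x i)
      (hF.mul (h.hV.tame h.k1.le h.k2 i)).pg.measurable] at hs
  have e1 : ∫ z, f z * (g (X z) i * p z) ∂gm m =
      ∫ z, f (Y (X z)) * p (Y (X z)) * g (X z) i ∂gm m := by
    refine integral_congr_ae (ae_of_all _ fun z => ?_)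
    simp only [hYX]
    ring
  have i1 : ∀ l, Integrable (fun z => pd l f z * ((jac X z)⁻¹ i l * p z)) (gm m) := fun l =>
    wd2_im (hf.pg_pd l).memLp_two (h.bo3_l2 i l hp.pg.memLp_two)
  have i2 : Integrable (fun z => f z * ∑ l, (jac X z)⁻¹ i l * pd l p z) (gm m) :=
    wd2_im hf.pg.memLp_two (h.bo3_l2s i fun l => (hp.pg_pd l).memLp_two)
  rw [e1, ← hs, ← integral_finsetSum _ fun l _ => i1 l,
    ← integral_add (integrable_finsetSum _ fun l _ => i1 l) i2]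
  refine integral_congr_ae ?_
  filter_upwards [h.pd_comp_inv hL hYX hfp, hf.ae_diff, hp.ae_diff] with z hz h1 h2
  rw [hz i, Finset.mul_sum, ← Finset.sum_add_distrib]
  refine Finset.sum_congr rfl fun l _ => ?_
  rw [pd_mul h1 h2]
  ring

theorem BM.bo3_wd (h : BM V g κ₁ κ₂ ψ X α β) {f p : Vc m → ℝ} {G : Fin m → Vc m → ℝ}
    (hf : WD f G) (hp : Tame p) (i : Fin m) : ∫ z, f z * (g (X z) i * p z) ∂gm m =
      ∑ l, ∫ z, G l z * ((jac X z)⁻¹ i l * p z) ∂gm m +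
        ∫ z, f z * ∑ l, (jac X z)⁻¹ i l * pd l p z ∂gm m := by
  have hn : ∀ n, MemLp (trunc f n) 2 (gm m) := fun n => (tame_trunc f n).pg.memLp_two
  have t1 := wd2_pair hn hf.l2 ((h.bo3_gX i).mul hp).pg.memLp_two (tendsto_trunc hf.l2)
  have t2 := wd2_pair hn hf.l2 (h.bo3_l2s i fun l => (hp.pg_pd l).memLp_two) (tendsto_trunc hf.l2)
  have t3 := tendsto_finsetSum Finset.univ fun l (_ : l ∈ Finset.univ) =>
    wd2_pair (fun n => ((tame_trunc f n).pg_pd l).memLp_two) (hf.l2d l)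
      (h.bo3_l2 i l hp.pg.memLp_two) (hf.tendsto_pd_trunc l)
  refine tendsto_nhds_unique t1 ?_
  exact (t3.add t2).congr fun n => (h.bo3_tame (tame_trunc f n) hp i).symm

theorem BM.bo3_jac (h : BM V g κ₁ κ₂ ψ X α β) :
    ∀ᵐ z ∂gm m, (jac X z).IsSymm ∧ IsUnit (jac X z).det := by
  filter_upwards [gm_ac (h.hX.ae_diff h.a0.le h.b0)] with z hz
  obtain ⟨h1, -, h3⟩ := h.hX.jac_at hz
  refine ⟨h1, ?_⟩
  rw [← Matrix.isUnit_iff_isUnit_det, ← Matrix.mulVec_injective_iff_isUnit]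
  intro v w e
  have e0 : jac X z *ᵥ (v - w) = 0 := by
    rw [Matrix.mulVec_sub]
    exact sub_eq_zero.2 e
  have h4 := (h3 (v - w)).1
  rw [e0, dotProduct_zero] at h4
  exact sub_eq_zero.1 (sc2_zero (nonpos_of_mul_nonpos_right h4 h.a0))

/-- for tame `u`, `SC.stein` for `(u i * p) ∘ X⁻¹`; then the limit -/
theorem BM.dv_dual (h : BM V g κ₁ κ₂ ψ X α β) {u : Vc m → Vc m} {D : Fin m → Vc m → Vc m}
    (hu : VW u D) {p : Vc m → ℝ} (hp : Tame p) : ∫ z, dv g X u D z * p z ∂gm m =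
      ∫ z, ∑ i, u z i * ∑ l, (jac X z)⁻¹ i l * pd l p z ∂gm m := by
  have i1 : ∀ i, Integrable (fun z => u z i * (g (X z) i * p z)) (gm m) := fun i =>
    wd2_im (hu i).l2 ((h.bo3_gX i).mul hp).pg.memLp_two
  have i2 : ∀ i l, Integrable (fun z => D l z i * ((jac X z)⁻¹ i l * p z)) (gm m) := fun i l =>
    wd2_im ((hu i).l2d l) (h.bo3_l2 i l hp.pg.memLp_two)
  have i3 : ∀ i, Integrable (fun z => u z i * ∑ l, (jac X z)⁻¹ i l * pd l p z) (gm m) := fun i =>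
    wd2_im (hu i).l2 (h.bo3_l2s i fun l => (hp.pg_pd l).memLp_two)
  have e : ∀ z, dv g X u D z * p z = ∑ i, (u z i * (g (X z) i * p z) -
      ∑ l, D l z i * ((jac X z)⁻¹ i l * p z)) := by
    intro z
    unfold dv
    rw [Finset.sum_mul]
    refine Finset.sum_congr rfl fun i _ => ?_
    rw [sub_mul, Finset.sum_mul]
    congr 1
    · ring
    · exact Finset.sum_congr rfl fun l _ => by ring
  have i4 : ∀ i, Integrable (fun z => u z i * (g (X z) i * p z) -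
      ∑ l, D l z i * ((jac X z)⁻¹ i l * p z)) (gm m) := fun i =>
    (i1 i).sub (integrable_finsetSum _ fun l _ => i2 i l)
  simp only [e]
  rw [integral_finsetSum _ fun i _ => i4 i, integral_finsetSum _ fun i _ => i3 i]
  refine Finset.sum_congr rfl fun i _ => ?_
  rw [integral_sub (i1 i) (integrable_finsetSum _ fun l _ => i2 i l),
    integral_finsetSum _ fun l _ => i2 i l, h.bo3_wd (hu i) hp i]
  ring

/-- `dv_dual` and `WD.var_dual` give `2 ∫ dv p - |ρ|² - |E|² ≤ ∫ p²`; take `p = trunc dv n`. -/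
theorem BM.dv_le (h : BM V g κ₁ κ₂ ψ X α β) {u ρ : Vc m → Vc m} {D E : Fin m → Vc m → Vc m}
    (hu : VW u D) (hρ : VW ρ E) (e : ∀ᵐ z ∂gm m, jac X z *ᵥ ρ z = u z) :
    ∫ z, dv g X u D z ^ 2 ∂gm m ≤ ip ρ ρ + ipk E E := by
  obtain ⟨C, hC⟩ := h.dv_l2
  have hd := (hC u D hu).1
  have key : ∀ p : Vc m → ℝ, Tame p → 2 * ∫ z, p z * dv g X u D z ∂gm m - ip ρ ρ - ipk E E ≤
      ∫ z, p z ^ 2 ∂gm m := by
    intro p hp
    have h1 := (wd_of_tame hp).var_dual hρ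
    have h2 : ∫ z, p z * dv g X u D z ∂gm m = ip (fun z j => pd j p z) ρ := by
      simp only [mul_comm (p _)]
      rw [h.dv_dual hu hp]
      refine integral_congr_ae ?_
      filter_upwards [e, h.bo3_jac] with z hz hj
      have e1 : ∑ i, u z i * ∑ l, (jac X z)⁻¹ i l * pd l p z =
          u z ⬝ᵥ (jac X z)⁻¹ *ᵥ fun j => pd j p z := rfl
      rw [e1, ← hz, ← dot_mulVec_symm hj.1, Matrix.mulVec_mulVec, Matrix.mul_nonsing_inv _ hj.2,
        Matrix.one_mulVec, dotProduct_comm]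
    rw [h2]
    nlinarith [sq_nonneg (∫ z, p z ∂gm m)]
  have t1 := wd2_pair (fun n => (tame_trunc (dv g X u D) n).pg.memLp_two) hd hd (tendsto_trunc hd)
  have t2 : ∀ n, 2 * ∫ z, trunc (dv g X u D) n z * dv g X u D z ∂gm m - ip ρ ρ - ipk E E ≤
      ∫ z, dv g X u D z ^ 2 ∂gm m := fun n =>
    (key _ (tame_trunc _ n)).trans
      (wd2_sq_le hd (tame_trunc _ n).pg.memLp_two _ (wd2_hc_trunc _ n))
  have t3 := le_of_tendsto' (((t1.const_mul 2).sub_const (ip ρ ρ)).sub_const (ipk E E)) t2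
  simp only [← sq] at t3
  linarith

/-- `u = FF(T) e_a`, `ρ = r0(T) e_a`, sum over `a`, `boz_le` -/
theorem BM.bochner (h : BM V g κ₁ κ₂ ψ X α β) {S : Fin m → Vc m → Mx m} (hF : Fld (TT α β X) S)
    (hc : ∀ᵐ z ∂gm m, ∀ k i j, Dg (TT α β X) S lam k z i j = Dg (TT α β X) S lam j z i k) :
    Gap (TT α β X) S + ∑ k, n2m (S k) ≤
      n2m (fun z => mf r0 (TT α β X z)) + ∑ k, n2m (Dg (TT α β X) S r0 k) := by
  set T := TT α β X with hT
  have hu : ∀ a, VW (fun z i => mf FF (T z) i a) fun l z i => Dg T S FF l z i a :=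
    fun a i => hF.chain c1_FF i a
  have hρ : ∀ a, VW (fun z i => mf r0 (T z) i a) fun l z i => Dg T S r0 l z i a :=
    fun a i => hF.chain c1_r0 i a
  have e : ∀ a, ∀ᵐ z ∂gm m, jac X z *ᵥ (fun i => mf r0 (T z) i a) = fun i => mf FF (T z) i a := by
    intro a
    filter_upwards [h.lam_TT] with z hz
    have e1 : mf lam (T z) * mf r0 (T z) = mf FF (T z) := by
      rw [← mf_mul (hF.symT z)]
      simp only [lam_mul_r0]
    funext i
    rw [← hz.1, ← e1]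
    rfl
  have b := Finset.sum_le_sum fun a (_ : a ∈ Finset.univ) =>
    (h.boch_vw (hu a)).trans (h.dv_le (hu a) (hρ a) (e a))
  have sq1 : ∀ {A : Vc m → Mx m}, L2m A →
      ∑ a, ip (fun z i => A z i a) (fun z i => A z i a) = n2m A := by
    intro A hA
    unfold ip n2m
    rw [← integral_finsetSum _ fun a _ =>
      L2v.integrable_dot (u := fun z i => A z i a) (w := fun z i => A z i a)
        (fun i => hA i a) (fun i => hA i a)]
    refine integral_congr_ae (ae_of_all _ fun z => ?_)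
    simp only [dotProduct, fr2, sq]
    exact Finset.sum_comm
  have r : ∑ a, (ip (fun z i => mf r0 (T z) i a) (fun z i => mf r0 (T z) i a) +
      ipk (fun l z i => Dg T S r0 l z i a) (fun l z i => Dg T S r0 l z i a)) =
      n2m (fun z => mf r0 (T z)) + ∑ k, n2m (Dg T S r0 k) := by
    rw [Finset.sum_add_distrib, sq1 (hF.l2_mf one_c_r0)]
    congr 1
    unfold ipk
    rw [Finset.sum_comm]
    exact Finset.sum_congr rfl fun k _ => sq1 (hF.l2_Dg c1_r0 k)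
  have i1 : ∀ a, Integrable (fun z => ∑ i, ∑ j, (∑ l, (jac X z)⁻¹ i l * Dg T S FF l z j a) *
      (∑ l, (jac X z)⁻¹ j l * Dg T S FF l z i a)) (gm m) := fun a =>
    integrable_finsetSum _ fun i _ => integrable_finsetSum _ fun j _ =>
      wd2_im (h.bo3_l2s i fun l => hF.l2_Dg c1_FF l j a) (h.bo3_l2s j fun l => hF.l2_Dg c1_FF l i a)
  have i2 : ∀ k, Integrable (fun z => fr2 (S k z)) (gm m) := fun k => (hF.l2S k).integrable_fr2
  have l : Gap T S + ∑ k, n2m (S k) = ∫ z, boz T S z ∂gm m := by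
    unfold Gap n2m
    rw [integral_sub hF.integrable_boz (integrable_finsetSum _ fun k _ => i2 k),
      integral_finsetSum _ fun k _ => i2 k]
    ring
  rw [l, ← r]
  refine le_trans ?_ b
  rw [← integral_finsetSum _ fun a _ => i1 a]
  refine integral_mono_ae hF.integrable_boz (integrable_finsetSum _ fun a _ => i1 a) ?_
  filter_upwards [h.lam_TT, hc] with z hz hz'
  have := boz_le (hF.symT z) (S := fun k => S k z) (fun k => hF.symS k z) hz'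
  rw [← hz.2]
  exact this

end Crest.Agent.R253
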