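import Crest.Agent.R253.LL

set_option autoImplicit false
set_option linter.unusedVariables false
set_option linter.unusedSectionVars false

open MeasureTheory Matrix Set Filter Topology
open Crest.Agent.R215 (gam)
open Crest.Agent.R203

noncomputable section

namespace Crest.Agent.R253.B4

variable {m : ℕ}

/-- probability measures are determined by bounded Lipschitz test functions -/
theorem ext_lip (μ ν : Measure (Vc m)) [IsProbabilityMeasure μ] [IsProbabilityMeasure ν]
    (h : ∀ (u : Vc m → ℝ) (K : NNReal) (B : ℝ), LipschitzWith K u → (∀ x, |u x| ≤ B) →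
      ∫ x, u x ∂ν = ∫ x, u x ∂μ) : ν = μ := by
  let μ' : ProbabilityMeasure (Vc m) := ⟨μ, inferInstance⟩
  let ν' : ProbabilityMeasure (Vc m) := ⟨ν, inferInstance⟩
  have h1 : Tendsto (fun _ : ℕ => ν') atTop (𝓝 μ') := by
    rw [tendsto_iff_forall_lipschitz_integral_tendsto]
    rintro f ⟨C, hC⟩ ⟨L, hL⟩
    have := h f L (|f 0| + C) hL (fun x => by
      have h2 := hC x 0
      rw [Real.dist_eq] at h2
      have h3 : |f x| ≤ |f x - f 0| + |f 0| := by
        have := abs_add_le (f x - f 0) (f 0)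
        simpa using this
      linarith)
    show Tendsto (fun _ : ℕ => ∫ ω, f ω ∂ν) atTop (𝓝 (∫ ω, f ω ∂μ))
    rw [this]
    exact tendsto_const_nhds
  have h2 : ν' = μ' := tendsto_nhds_unique tendsto_const_nhds h1
  exact congrArg Subtype.val h2

/-- clamp to `[0,1]` -/
def clp (t : ℝ) : ℝ := min 1 (max 0 t)

theorem clp_lip : LipschitzWith 1 clp := by
  unfold clp
  exact (LipschitzWith.id.const_max 0).const_min 1

theorem clp_mono : Monotone clp := fun a b hab =>
  min_le_min le_rfl (max_le_max le_rfl hab)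

theorem clp_abs (t : ℝ) : |clp t| ≤ 1 := by
  unfold clp
  rw [abs_le]
  constructor
  · have : (0 : ℝ) ≤ min 1 (max 0 t) := le_min zero_le_one (le_max_left _ _)
    linarith
  · exact min_le_left _ _

theorem clp_of_nonpos {t : ℝ} (h : t ≤ 0) : clp t = 0 := by
  unfold clp
  rw [max_eq_left h]
  simp

theorem clp_of_one_le {t : ℝ} (h : 1 ≤ t) : clp t = 1 := by
  unfold clp
  exact min_eq_left (le_max_of_le_right h)

theorem exists_tail (μ : Measure (Vc m)) [IsProbabilityMeasure μ] :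
    ∃ R : ℝ, ∫ x, clp (‖x‖ - R) ∂μ < 1 / 2 := by
  have h : Tendsto (fun n : ℕ => ∫ x, clp (‖x‖ - n) ∂μ) atTop (𝓝 (∫ x, (0 : ℝ) ∂μ)) := by
    refine tendsto_integral_of_dominated_convergence (fun _ => 1) (fun n => ?_)
      (integrable_const _) (fun n => ae_of_all _ fun x => clp_abs _) (ae_of_all _ fun x => ?_)
    · exact (clp_lip.continuous.comp (by fun_prop)).aestronglyMeasurable
    · refine tendsto_const_nhds.congr' ?_
      filter_upwards [eventually_ge_atTop ⌈‖x‖⌉₊] with n hn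
      have : ‖x‖ ≤ n := (Nat.le_ceil _).trans (by exact_mod_cast hn)
      rw [clp_of_nonpos (by linarith)]
  rw [integral_zero] at h
  obtain ⟨n, hn⟩ := (h.eventually (gt_mem_nhds (by norm_num : (0 : ℝ) < 1 / 2))).exists
  exact ⟨n, hn⟩

theorem exists_bulk (μ : Measure (Vc m)) [IsProbabilityMeasure μ] (L : ℝ) :
    ∃ S : ℝ, 1 / 2 < ∫ x, clp (S - L * ‖x‖) ∂μ := by
  have h : Tendsto (fun n : ℕ => ∫ x, clp (n - L * ‖x‖) ∂μ) atTop (𝓝 (∫ x, (1 : ℝ) ∂μ)) := by
    refine tendsto_integral_of_dominated_convergence (fun _ => 1) (fun n => ?_)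
      (integrable_const _) (fun n => ae_of_all _ fun x => clp_abs _) (ae_of_all _ fun x => ?_)
    · exact (clp_lip.continuous.comp (by fun_prop)).aestronglyMeasurable
    · refine tendsto_const_nhds.congr' ?_
      filter_upwards [eventually_ge_atTop ⌈1 + L * ‖x‖⌉₊] with n hn
      have : 1 + L * ‖x‖ ≤ n := (Nat.le_ceil _).trans (by exact_mod_cast hn)
      rw [clp_of_one_le (by linarith)]
  have h1 : ∫ x, (1 : ℝ) ∂μ = 1 := by simp
  rw [h1] at h
  obtain ⟨n, hn⟩ := (h.eventually (lt_mem_nhds (by norm_num : (1 / 2 : ℝ) < 1))).exists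
  exact ⟨n, hn⟩

/-- tightness: `X n 0` is eventually bounded -/
theorem bdd_zero (μ : Measure (Vc m)) [IsProbabilityMeasure μ] {L : NNReal}
    (X : ℕ → Vc m → Vc m) (hX : ∀ n, LipschitzWith L (X n))
    (hl : ∀ (u : Vc m → ℝ) (K : NNReal) (B : ℝ), LipschitzWith K u → (∀ x, |u x| ≤ B) →
      Tendsto (fun n => ∫ z, u (X n z) ∂gm m) atTop (𝓝 (∫ x, u x ∂μ))) :
    ∃ R : ℝ, ∀ᶠ n in atTop, ‖X n 0‖ ≤ R := by
  obtain ⟨R, hR⟩ := exists_tail μ
  obtain ⟨S, hS⟩ := exists_bulk (gm m) L
  refine ⟨R + S, ?_⟩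
  have hu : LipschitzWith (1 * 1) fun x : Vc m => clp (‖x‖ - R) := by
    refine clp_lip.comp (f := clp) (g := fun x : Vc m => ‖x‖ - R) ?_
    refine LipschitzWith.of_dist_le_mul fun x y => ?_
    rw [Real.dist_eq, dist_eq_norm]
    have := abs_norm_sub_norm_le x y
    simpa using this
  have h1 := (hl _ _ 1 hu (fun x => clp_abs _)).eventually (gt_mem_nhds hR)
  filter_upwards [h1] with n hn
  by_contra hc
  push Not at hc
  have h2 : ∫ x, clp (S - L * ‖x‖) ∂gm m ≤ ∫ z, clp (‖X n z‖ - R) ∂gm m := by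
    refine integral_mono ?_ ?_ fun z => clp_mono ?_
    · refine Integrable.of_bound (C := 1) ?_ (ae_of_all _ fun x => clp_abs _)
      exact (clp_lip.continuous.comp (by fun_prop)).aestronglyMeasurable
    · refine Integrable.of_bound (C := 1) ?_ (ae_of_all _ fun x => clp_abs _)
      have := (hX n).continuous
      exact (clp_lip.continuous.comp (by fun_prop)).aestronglyMeasurable
    · have h3 := (hX n).dist_le_mul z 0
      rw [dist_eq_norm, dist_eq_norm, sub_zero] at h3
      have h4 : ‖X n 0‖ ≤ ‖X n z‖ + ‖X n z - X n 0‖ := by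
        have := norm_sub_le (X n z) (X n z - X n 0)
        simpa using this
      linarith
  linarith

theorem dot_abs_le (v w : Vc m) : |v ⬝ᵥ w| ≤ m * (‖v‖ * ‖w‖) := by
  unfold dotProduct
  refine (Finset.abs_sum_le_sum_abs _ _).trans ?_
  have : ∀ i ∈ (Finset.univ : Finset (Fin m)), |v i * w i| ≤ ‖v‖ * ‖w‖ := fun i _ => by
    rw [abs_mul]
    exact mul_le_mul (norm_le_pi_norm v i) (norm_le_pi_norm w i) (abs_nonneg _) (norm_nonneg _)
  simpa using Finset.sum_le_card_nsmul _ _ _ this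

/-- limits along an ultrafilter of eventually bounded sequences -/
theorem ultra_lim {E : Type*} [NormedAddCommGroup E] [ProperSpace E] (U : Ultrafilter ℕ)
    (f : ℕ → E) {R : ℝ} (hf : ∀ᶠ n in (U : Filter ℕ), ‖f n‖ ≤ R) :
    ∃ x, Tendsto f U (𝓝 x) := by
  have hc : IsCompact (Metric.closedBall (0 : E) R) := isCompact_closedBall _ _
  obtain ⟨x, -, hx⟩ := hc.ultrafilter_le_nhds (U.map f) (by
    rw [le_principal_iff]
    show f ⁻¹' _ ∈ (U : Filter ℕ)
    filter_upwards [hf] with n hn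
    simpa using hn)
  exact ⟨x, hx⟩

/-- pointwise convergence on a dense set of equi-Lipschitz maps -/
theorem tendsto_of_dense {F : Filter ℕ} {L : NNReal} (X : ℕ → Vc m → Vc m) (Y : Vc m → Vc m)
    (hX : ∀ n, LipschitzWith L (X n)) (hY : LipschitzWith L Y) (d : ℕ → Vc m) (hd : DenseRange d)
    (h : ∀ j, Tendsto (fun n => X n (d j)) F (𝓝 (Y (d j)))) (z : Vc m) :
    Tendsto (fun n => X n z) F (𝓝 (Y z)) := by
  rw [Metric.tendsto_nhds]
  intro ε hε
  have hL : (0 : ℝ) ≤ L := L.2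
  obtain ⟨j, hj⟩ := hd.exists_dist_lt z (ε := ε / (3 * (L + 1))) (by positivity)
  filter_upwards [Metric.tendsto_nhds.1 (h j) (ε / 3) (by positivity)] with n hn
  have h1 := (hX n).dist_le_mul z (d j)
  have h2 := hY.dist_le_mul z (d j)
  have h3 : (L : ℝ) * dist z (d j) ≤ ε / 3 := by
    have h4 : (L : ℝ) * dist z (d j) ≤ (L + 1) * (ε / (3 * (L + 1))) :=
      mul_le_mul (by linarith) hj.le dist_nonneg (by positivity)
    have h5 : ((L : ℝ) + 1) * (ε / (3 * (L + 1))) = ε / 3 := by field_simp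
    linarith
  have h6 := dist_triangle4 (X n z) (X n (d j)) (Y (d j)) (Y z)
  rw [dist_comm (Y (d j))] at h6
  linarith

theorem bren_limit_aux {α β : ℝ} (μ : Measure (Vc m)) [IsProbabilityMeasure μ] (hα : 0 < α)
    (hβ : 0 < β)
    (ψ : ℕ → Vc m → ℝ) (X : ℕ → Vc m → Vc m) (h : ∀ n, SC (ψ n) (X n) α β)
    (hl : ∀ (u : Vc m → ℝ) (K : NNReal) (B : ℝ), LipschitzWith K u → (∀ x, |u x| ≤ B) →
      Tendsto (fun n => ∫ z, u (X n z) ∂gm m) atTop (𝓝 (∫ x, u x ∂μ))) :
    ∃ (ψ : Vc m → ℝ) (X : Vc m → Vc m), SC ψ X α β ∧ Measure.map X (gm m) = μ := by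
  set L : NNReal := Real.toNNReal (β * √(m : ℝ)) with hLdef
  have hX : ∀ n, LipschitzWith L (X n) := fun n => (h n).lipschitz hα.le hβ
  obtain ⟨R, hR⟩ := bdd_zero μ X hX hl
  let U : Ultrafilter ℕ := hyperfilter ℕ
  have hU : (U : Filter ℕ) ≤ atTop := Nat.hyperfilter_le_atTop
  have hRU : ∀ᶠ n in (U : Filter ℕ), ‖X n 0‖ ≤ R := hU hR
  have h1 : ∀ z, ∃ x, Tendsto (fun n => X n z) U (𝓝 x) := fun z => by
    refine ultra_lim U _ (R := R + L * ‖z‖) ?_
    filter_upwards [hRU] with n hn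
    have h3 := (hX n).dist_le_mul z 0
    rw [dist_eq_norm, dist_eq_norm, sub_zero] at h3
    have h4 : ‖X n z‖ ≤ ‖X n 0‖ + ‖X n z - X n 0‖ := by
      have := norm_add_le (X n 0) (X n z - X n 0)
      simpa using this
    linarith
  have h2 : ∀ z, ∃ x, Tendsto (fun n => ψ n z - ψ n 0) U (𝓝 x) := fun z => by
    refine ultra_lim U _ (R := m * (R * ‖z‖) + β / 2 * nsq z) ?_
    filter_upwards [hRU] with n hn
    have h3 := (h n).lo 0 z
    have h4 := (h n).up 0 z
    rw [sub_zero] at h3 h4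
    have h5 := dot_abs_le (X n 0) z
    have h6 : (m : ℝ) * (‖X n 0‖ * ‖z‖) ≤ m * (R * ‖z‖) := by gcongr
    have h7 := nsq_nonneg z
    have h8 : 0 ≤ α / 2 * nsq z := by positivity
    have h9 : 0 ≤ β / 2 * nsq z := by positivity
    rw [abs_le] at h5
    rw [Real.norm_eq_abs, abs_le]
    constructor <;> linarith [h5.1, h5.2]
  choose Y hY using h1
  choose φ hφ using h2
  have hdot : ∀ z w, Tendsto (fun n => X n z ⬝ᵥ w) U (𝓝 (Y z ⬝ᵥ w)) := fun z w => by
    have hc : Continuous fun v : Vc m => v ⬝ᵥ w := by fun_prop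
    exact (hc.tendsto _).comp (hY z)
  have hSC : SC φ Y α β := by
    constructor
    · intro z y
      refine le_of_tendsto_of_tendsto' (((hφ z).add (hdot z (y - z))).add_const _) (hφ y)
        fun n => ?_
      have := (h n).lo z y
      linarith
    · intro z y
      refine le_of_tendsto_of_tendsto' (hφ y) (((hφ z).add (hdot z (y - z))).add_const _)
        fun n => ?_
      have := (h n).up z y
      linarith
  have hYL : LipschitzWith L Y := hSC.lipschitz hα.le hβ
  refine ⟨φ, Y, hSC, ?_⟩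
  obtain ⟨d, hd⟩ := TopologicalSpace.exists_dense_seq (Vc m)
  let F : Filter ℕ := atTop ⊓ ⨅ j, comap (fun n => X n (d j)) (𝓝 (Y (d j)))
  have hUF : (U : Filter ℕ) ≤ F :=
    le_inf hU (le_iInf fun j => tendsto_iff_comap.1 (hY (d j)))
  have : F.NeBot := neBot_of_le hUF
  have : F.IsCountablyGenerated := inferInstance
  have hF : ∀ z, Tendsto (fun n => X n z) F (𝓝 (Y z)) :=
    tendsto_of_dense X Y hX hYL d hd fun j =>
      tendsto_iff_comap.2 (inf_le_right.trans (iInf_le _ j))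
  have hYm : Measurable Y := hYL.continuous.measurable
  have : IsProbabilityMeasure (Measure.map Y (gm m)) :=
    Measure.isProbabilityMeasure_map hYm.aemeasurable
  refine ext_lip μ _ fun u K B hu hB => ?_
  rw [integral_map hYm.aemeasurable hu.continuous.aestronglyMeasurable]
  have t1 : Tendsto (fun n => ∫ z, u (X n z) ∂gm m) F (𝓝 (∫ x, u x ∂μ)) :=
    (hl u K B hu hB).mono_left inf_le_left
  have t2 : Tendsto (fun n => ∫ z, u (X n z) ∂gm m) F (𝓝 (∫ z, u (Y z) ∂gm m)) := by
    refine tendsto_integral_filter_of_dominated_convergence (fun _ => B) ?_ ?_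
      (integrable_const _) (ae_of_all _ fun z => (hu.continuous.tendsto _).comp (hF z))
    · exact Eventually.of_forall fun n =>
        (hu.continuous.comp (hX n).continuous).aestronglyMeasurable
    · exact Eventually.of_forall fun n => ae_of_all _ fun z => hB _
  exact tendsto_nhds_unique t2 t1

end Crest.Agent.R253.B4
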