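import Crest.Agent.R253.LL
import Crest.Agent.R253.BrenAux4

set_option autoImplicit false
set_option linter.unusedVariables false
set_option linter.unusedSectionVars false

open MeasureTheory Matrix Set Filter Topology
open Crest.Agent.R215 (gam)
open Crest.Agent.R203
open Crest.GeometryTopology.Isotropic

noncomputable section

namespace Crest.Agent.R253

variable {m : ℕ}

/-! The Brenier map with two-sided Hessian bounds, through entropic transport. -/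

/-- Sinkhorn half step against the Gaussian -/
def PP (ε : ℝ) (ψ : Vc m → ℝ) (x : Vc m) : ℝ :=
  ε * Real.log (∫ z, Real.exp ((z ⬝ᵥ x - ψ z) / ε) ∂gm m)
/-- Sinkhorn half step against `e^{-V}` -/
def QQ (ε : ℝ) (V φ : Vc m → ℝ) (z : Vc m) : ℝ :=
  ε * Real.log (∫ x, Real.exp ((z ⬝ᵥ x - φ x) / ε) ∂mu V)
/-- density of the entropic coupling with respect to `γ ⊗ μ` -/
def cpl (ε : ℝ) (V φ : Vc m → ℝ) (z x : Vc m) : ℝ := Real.exp ((z ⬝ᵥ x - φ x - QQ ε V φ z) / ε)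
/-- barycentric projection -/
def XQ (ε : ℝ) (V φ : Vc m → ℝ) (z : Vc m) : Vc m := fun i => ∫ x, x i * cpl ε V φ z x ∂mu V

variable {V ψ φ : Vc m → ℝ} {g X Y : Vc m → Vc m} {κ₁ κ₂ α β a b ε : ℝ}

theorem br1_rescale (h : SC ψ X α β) (hε : 0 < ε) :
    SC (fun z => ε * ψ (ε⁻¹ • z)) (fun z => X (ε⁻¹ • z)) (ε⁻¹ * α) (ε⁻¹ * β) := by
  have e : ∀ (c : ℝ) (z y : Vc m), ε * (ψ (ε⁻¹ • z) + X (ε⁻¹ • z) ⬝ᵥ (ε⁻¹ • y - ε⁻¹ • z) +
      c / 2 * nsq (ε⁻¹ • y - ε⁻¹ • z)) =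
      ε * ψ (ε⁻¹ • z) + X (ε⁻¹ • z) ⬝ᵥ (y - z) + ε⁻¹ * c / 2 * nsq (y - z) := fun c z y => by
    have e1 : nsq (ε⁻¹ • (y - z)) = ε⁻¹ * (ε⁻¹ * nsq (y - z)) :=
      (smul_dotProduct _ _ _).trans (congrArg _ (dotProduct_smul _ _ _))
    rw [← smul_sub, dotProduct_smul, e1, smul_eq_mul]
    field_simp
  exact ⟨fun z y => (e α z y).ge.trans (mul_le_mul_of_nonneg_left (h.lo _ _) hε.le),
    fun z y => (mul_le_mul_of_nonneg_left (h.up _ _) hε.le).trans (e β z y).le⟩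

theorem br1_core (hV : SC V g κ₁ κ₂) (h1 : 0 < κ₁) (h2 : 0 < κ₂) (h : SC φ Y a b) (ha : 0 < a)
    (hb : 0 < b) (hε : 0 < ε) :
    SC (QQ ε V φ) (XQ ε V φ) (b + ε * κ₂)⁻¹ (a + ε * κ₁)⁻¹ ∧
      ∀ z, ∫ x, cpl ε V φ z x ∂mu V = 1 ∧ Integrable (fun x => cpl ε V φ z x) (mu V) ∧
        Integrable (fun x => nsq (x - XQ ε V φ z) * cpl ε V φ z x) (mu V) ∧
        ∫ x, nsq (x - XQ ε V φ z) * cpl ε V φ z x ∂mu V ≤ m * (ε * (a + ε * κ₁)⁻¹) := by
  have hU := (h.smul (inv_nonneg.2 hε.le) 0).add hV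
  have p1 : 0 < ε⁻¹ * a + κ₁ := by positivity
  have p2 : 0 < ε⁻¹ * b + κ₂ := by positivity
  have hw := hU.wt p1 p2
  have hl := hU.ll p1 p2
  obtain ⟨w, hw'⟩ : ∃ w : Vc m → ℝ, w = fun x => Real.exp (-(ε⁻¹ * φ x + 0 + V x)) := ⟨_, rfl⟩
  rw [← hw'] at hw hl
  have k1 : ∀ z x, Real.exp ((z ⬝ᵥ x - φ x) / ε) * Real.exp (-V x) =
      Real.exp ((ε⁻¹ • z) ⬝ᵥ x) * w x := fun z x => by
    rw [hw', ← Real.exp_add, ← Real.exp_add, smul_dotProduct, smul_eq_mul]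
    congr 1
    ring
  have k2 : QQ ε V φ = fun z => ε * Real.log (llZ w (ε⁻¹ • z)) := funext fun z => by
    change ε * Real.log _ = _
    rw [hV.integral_mu]
    simp only [k1]
    rfl
  have k3 : ∀ (u : ℝ) z x, u * cpl ε V φ z x * Real.exp (-V x) =
      u * (Real.exp ((ε⁻¹ • z) ⬝ᵥ x) * w x) / llZ w (ε⁻¹ • z) := fun u z x => by
    change u * Real.exp ((z ⬝ᵥ x - φ x - QQ ε V φ z) / ε) * _ = _
    rw [k2, sub_div, Real.exp_sub, mul_div_cancel_left₀ _ hε.ne', Real.exp_log (hw.llZ_pos _), ← k1]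
    ring
  have k4 : XQ ε V φ = fun z => llM w (ε⁻¹ • z) := funext fun z => funext fun i => by
    change ∫ x, x i * cpl ε V φ z x ∂mu V = _
    rw [hV.integral_mu]
    simp only [k3, integral_div]
    rfl
  have k5 : ∀ (z : Vc m) (f : Vc m → ℝ), PG f →
      Integrable (fun x => f x * cpl ε V φ z x) (mu V) := fun z f hf => by
    have hlin : SC (fun x => -((ε⁻¹ • z) ⬝ᵥ x)) (fun _ => -(ε⁻¹ • z)) 0 0 :=
      ⟨fun x y => by rw [neg_dotProduct, dotProduct_sub]; linarith,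
        fun x y => by rw [neg_dotProduct, dotProduct_sub]; linarith⟩
    have hi := ((hU.add hlin).integrable_exp (by positivity) (by positivity) hf 0).div_const
      (llZ w (ε⁻¹ • z))
    have hm : Measurable V :=
      (continuous_iff_continuousAt.2 fun x => (hV.hasFDerivAt x).continuousAt).measurable
    refine (integrable_withDensity_iff (hm.neg.exp.ennreal_ofReal)
      (Eventually.of_forall fun _ => ENNReal.ofReal_lt_top)).2 (hi.congr (Eventually.of_forall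
        fun x => ?_))
    beta_reduce
    rw [ENNReal.toReal_ofReal (Real.exp_pos _).le, Pi.neg_apply, k3, hw', zero_mul, Real.exp_zero,
      mul_one,
      ← Real.exp_add]
    congr 3
    ring
  have q1 : ε⁻¹ * (ε⁻¹ * a + κ₁)⁻¹ = (a + ε * κ₁)⁻¹ := by field_simp
  have q2 : ε⁻¹ * (ε⁻¹ * b + κ₂)⁻¹ = (b + ε * κ₂)⁻¹ := by field_simp
  refine ⟨by rw [k2, k4, ← q1, ← q2]; exact br1_rescale hl hε, fun z => ⟨?_, ?_, ?_, ?_⟩⟩
  · have e := k3 1 z
    simp only [one_mul] at e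
    rw [hV.integral_mu]
    simp only [e, integral_div]
    exact div_self (hw.llZ_pos _).ne'
  · simpa only [one_mul] using k5 z _ (PG.const 1)
  · exact k5 z _ (PG.sum Finset.univ fun i _ =>
      ((PG.coord i).sub (PG.const _)).mul ((PG.coord i).sub (PG.const _)))
  · rw [hV.integral_mu]
    simp only [k3, integral_div]
    rw [div_le_iff₀ (hw.llZ_pos _), k4, ← q1, mul_inv_cancel_left₀ hε.ne']
    exact hw.var_le hl _

/-- `SC.ll` for `U = ψ/ε + |z|²/2 + c`, rescaled by `SC.comp`, `SC.smul`. -/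
theorem PP_sc (h : SC ψ X α β) (hα : 0 < α) (hβ : 0 < β) (hε : 0 < ε) :
    ∃ Y, SC (PP ε ψ) Y (β + ε)⁻¹ (α + ε)⁻¹ := by
  have h0 := (sc_nsq (m := m) 1).smul zero_le_one (m / 2 * Real.log (2 * Real.pi))
  simp only [one_mul] at h0
  have h1 := (br1_core h0 one_pos one_pos h hα hβ hε).1
  rw [mul_one] at h1
  refine ⟨_, (funext fun x => ?_ : QQ ε _ ψ = PP ε ψ) ▸ h1⟩
  change ε * Real.log _ = ε * Real.log _
  rw [gm_eq_mu]
  simp only [dotProduct_comm x]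

theorem QQ_sc (hV : SC V g κ₁ κ₂) (h1 : 0 < κ₁) (h2 : 0 < κ₂) (h : SC φ Y a b) (ha : 0 < a)
    (hb : 0 < b) (hε : 0 < ε) :
    SC (QQ ε V φ) (XQ ε V φ) (b + ε * κ₂)⁻¹ (a + ε * κ₁)⁻¹ ∧
      ∀ z, ∫ x, cpl ε V φ z x ∂mu V = 1 ∧ Integrable (fun x => cpl ε V φ z x) (mu V) ∧
        Integrable (fun x => nsq (x - XQ ε V φ z) * cpl ε V φ z x) (mu V) ∧
        ∫ x, nsq (x - XQ ε V φ z) * cpl ε V φ z x ∂mu V ≤ m * (ε * (a + ε * κ₁)⁻¹) :=
  br1_core hV h1 h2 h ha hb hε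

theorem b4748_jensen {Ω : Type} [MeasurableSpace Ω] {ν : Measure Ω} [IsProbabilityMeasure ν]
    {u : Ω → ℝ} (hu : Integrable u ν) (he : Integrable (fun z => Real.exp (u z)) ν) :
    Real.exp (∫ z, u z ∂ν) ≤ ∫ z, Real.exp (u z) ∂ν :=
  convexOn_exp.map_integral_le Real.continuous_exp.continuousOn isClosed_univ
    (ae_of_all _ fun _ => mem_univ _) hu he

theorem b4748_int (h : SC ψ X α β) (hα : 0 ≤ α) (hβ : 0 < β) (hε : 0 < ε) (x : Vc m) :
    Integrable (fun z => Real.exp ((z ⬝ᵥ x - ψ z) / ε)) (gm m) := by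
  have cψ := (h.tame_pot hα hβ).continuous
  have ha : 0 ≤ (∑ i, |x i - X 0 i|) / ε := by positivity
  refine ((integrable_exp_norm ha).mul_const (Real.exp (-ψ 0 / ε))).mono'
    (Continuous.aestronglyMeasurable (by fun_prop)) (ae_of_all _ fun z => ?_)
  rw [Real.norm_of_nonneg (Real.exp_pos _).le, ← Real.exp_add, Real.exp_le_exp, div_mul_eq_mul_div,
    ← add_div, div_le_div_iff_of_pos_right hε]
  have h1 := h.lo 0 z
  have h2 : 0 ≤ α / 2 * nsq (z - 0) := mul_nonneg (by positivity) (nsq_nonneg _)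
  have h3 : (x - X 0) ⬝ᵥ z ≤ (∑ i, |x i - X 0 i|) * ‖z‖ := by
    rw [Finset.sum_mul]
    refine Finset.sum_le_sum fun i _ => (le_abs_self _).trans ?_
    rw [abs_mul]
    exact mul_le_mul_of_nonneg_left (norm_le_pi_norm z i) (abs_nonneg _)
  rw [sub_dotProduct, dotProduct_comm x] at h3
  rw [sub_zero] at h1 h2
  linarith

theorem b4748_exp (h : SC ψ X α β) (hα : 0 ≤ α) (hβ : 0 < β) (hε : 0 < ε) (x : Vc m) :
    Real.exp (PP ε ψ x / ε) = ∫ z, Real.exp ((z ⬝ᵥ x - ψ z) / ε) ∂gm m := by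
  rw [PP, mul_div_cancel_left₀ _ hε.ne', Real.exp_log]
  exact integral_exp_pos (b4748_int h hα hβ hε x)

theorem b4748_pt (t : ℝ) {l : ℝ} (hl : 0 < l) :
    |Real.exp t - 1| ≤ l / 2 * (Real.exp t - 1 - t) + l⁻¹ * (Real.exp t + 1) := by
  have h1 : Real.exp t = Real.exp (t / 2) ^ 2 := by
    rw [sq, ← Real.exp_add, add_halves]
  have h2 := Real.add_one_le_exp (t / 2)
  have h0 := Real.exp_pos (t / 2)
  rw [h1]
  set s := Real.exp (t / 2)
  have h3 : |s ^ 2 - 1| = |s - 1| * (s + 1) := by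
    rw [show s ^ 2 - 1 = (s - 1) * (s + 1) by ring, abs_mul, abs_of_pos (by linarith : 0 < s + 1)]
  have h4 : l / 2 * (s - 1) ^ 2 ≤ l / 2 * (s ^ 2 - 1 - t) :=
    mul_le_mul_of_nonneg_left (by nlinarith) (by positivity)
  have h5 : l⁻¹ * ((s + 1) ^ 2 / 2) ≤ l⁻¹ * (s ^ 2 + 1) :=
    mul_le_mul_of_nonneg_left (by nlinarith [sq_nonneg (s - 1)]) (by positivity)
  have h6 : l / 2 * |s - 1| ^ 2 + l⁻¹ * ((s + 1) ^ 2 / 2) - |s - 1| * (s + 1) =
      l⁻¹ / 2 * (l * |s - 1| - (s + 1)) ^ 2 := by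
    field_simp
    ring
  have h7 : 0 ≤ l⁻¹ / 2 * (l * |s - 1| - (s + 1)) ^ 2 := by positivity
  rw [sq_abs] at h6
  linarith

theorem b4748_pinsker {Ω : Type} [MeasurableSpace Ω] {ν : Measure Ω} [IsProbabilityMeasure ν]
    {t : Ω → ℝ} (ht : Integrable t ν) (he : Integrable (fun z => Real.exp (t z)) ν)
    (h1 : ∫ z, Real.exp (t z) ∂ν = 1) :
    (∫ z, |Real.exp (t z) - 1| ∂ν) ^ 2 ≤ 4 * -∫ z, t z ∂ν := by
  have i1 : Integrable (fun z => Real.exp (t z) - 1) ν := he.sub (integrable_const _)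
  have i2 : Integrable (fun z => Real.exp (t z) - 1 - t z) ν := i1.sub ht
  have i3 : Integrable (fun z => Real.exp (t z) + 1) ν := he.add (integrable_const _)
  have key : ∀ l : ℝ, 0 < l →
      ∫ z, |Real.exp (t z) - 1| ∂ν ≤ l / 2 * -∫ z, t z ∂ν + l⁻¹ * 2 := by
    intro l hl
    refine (integral_mono i1.abs ((i2.const_mul (l / 2)).add (i3.const_mul l⁻¹))
      fun z => b4748_pt (t z) hl).trans (le_of_eq ?_)
    simp only [Pi.add_apply]
    rw [integral_add (i2.const_mul _) (i3.const_mul _), integral_const_mul, integral_const_mul,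
      integral_sub i1 ht, integral_sub he (integrable_const _),
      integral_add he (integrable_const _), h1, integral_const, probReal_univ, one_smul]
    ring
  have h0 : 0 ≤ ∫ z, |Real.exp (t z) - 1| ∂ν := integral_nonneg fun z => abs_nonneg _
  have hj := b4748_jensen ht he
  rw [h1, Real.exp_le_one_iff] at hj
  set I := ∫ z, |Real.exp (t z) - 1| ∂ν
  rcases h0.eq_or_lt with h0 | h0
  · rw [← h0]
    linarith
  · have h2 := mul_le_mul_of_nonneg_left (key (4 / I) (by positivity)) h0.le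
    have h3 : I * (4 / I / 2 * -∫ z, t z ∂ν + (4 / I)⁻¹ * 2) = 2 * -∫ z, t z ∂ν + I * I / 2 := by
      field_simp
      ring
    rw [h3] at h2
    linarith

/-- the semi-dual functional is bounded above (Jensen, `E z = 0`) -/
theorem dual_le (hV : SC V g κ₁ κ₂) (h1 : 0 < κ₁) (h2 : 0 < κ₂) (hn : ∫ x, Real.exp (-V x) = 1)
    (h : SC ψ X α β) (hα : 0 < α) (hβ : 0 < β) (hε : 0 < ε) :
    -∫ z, ψ z ∂gm m - ∫ x, PP ε ψ x ∂mu V ≤ 0 := by
  have := hV.prob hn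
  obtain ⟨Y, hY⟩ := PP_sc h hα hβ hε
  have iP : Integrable (PP ε ψ) (mu V) :=
    hV.integrable_mu h1 h2 (hY.tame_pot (by positivity) (by positivity)).pg
  have iψ : Integrable ψ (gm m) := (h.tame_pot hα.le hβ).pg.integrable
  have key : ∀ x, -∫ z, ψ z ∂gm m ≤ PP ε ψ x := by
    intro x
    have i1 : ∀ i, Integrable (fun z : Vc m => z i * x i) (gm m) := fun i =>
      (PG.coord i).integrable.mul_const _
    have i2 : Integrable (fun z : Vc m => z ⬝ᵥ x) (gm m) := integrable_finsetSum _ fun i _ => i1 i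
    have e1 : ∫ z : Vc m, z ⬝ᵥ x ∂gm m = 0 := by
      unfold dotProduct
      rw [integral_finsetSum _ fun i _ => i1 i]
      refine Finset.sum_eq_zero fun i _ => ?_
      have := (Tame.const (ι := Fin m) 1).stein i
      simp only [pd, lineDeriv, deriv_const', integral_zero, mul_one] at this
      rw [integral_mul_const, ← this, zero_mul]
    have h3 := b4748_jensen ((i2.sub iψ).div_const ε) (b4748_int h hα.le hβ hε x)
    simp only [Pi.sub_apply] at h3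
    rw [integral_div, integral_sub i2 iψ, e1, zero_sub, ← b4748_exp h hα.le hβ hε,
      Real.exp_le_exp, div_le_div_iff_of_pos_right hε] at h3
    exact h3
  have h4 := integral_mono (integrable_const _) iP key
  rw [integral_const, probReal_univ, one_smul] at h4
  linarith

/-- first half step gains: with `φ = PP ε ψ`, `σ z = exp((QQ φ z - ψ z)/ε)` has `γ`-mean one
(Fubini), and `log σ ≤ σ - 1`. -/
theorem gain_Q (hV : SC V g κ₁ κ₂) (h1 : 0 < κ₁) (h2 : 0 < κ₂) (hn : ∫ x, Real.exp (-V x) = 1)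
    (h : SC ψ X α β) (hα : 0 < α) (hβ : 0 < β) (hε : 0 < ε) :
    ∫ z, QQ ε V (PP ε ψ) z ∂gm m ≤ ∫ z, ψ z ∂gm m := by
  have := hV.prob hn
  obtain ⟨Y, hY⟩ := PP_sc h hα hβ hε
  obtain ⟨hQ, hc⟩ := QQ_sc hV h1 h2 hY (by positivity) (by positivity) hε
  have tψ := h.tame_pot hα.le hβ
  have tP := hY.tame_pot (by positivity) (by positivity)
  have tQ := hQ.tame_pot (by positivity) (by positivity)
  have cψ := tψ.continuous
  have cP := tP.continuous
  set k : Vc m → Vc m → ℝ := fun z x => Real.exp ((z ⬝ᵥ x - ψ z) / ε) * Real.exp (-(PP ε ψ x / ε))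
    with hk
  have k1 : ∀ x, ∫ z, k z x ∂gm m = 1 := fun x => by
    simp only [hk]
    rw [integral_mul_const, ← b4748_exp h hα.le hβ hε, ← Real.exp_add, add_neg_cancel,
      Real.exp_zero]
  have k2 : ∀ z, ∫ x, k z x ∂mu V = Real.exp ((QQ ε V (PP ε ψ) z - ψ z) / ε) := fun z => by
    have e : ∀ x, k z x = Real.exp ((QQ ε V (PP ε ψ) z - ψ z) / ε) * cpl ε V (PP ε ψ) z x := by
      intro x
      simp only [hk, cpl, ← Real.exp_add]
      congr 1
      ring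
    simp only [e]
    rw [integral_const_mul, (hc z).1, mul_one]
  have ik : Integrable (Function.uncurry k) ((gm m).prod (mu V)) := by
    have ck : Continuous (Function.uncurry k) := by
      simp only [hk, Function.uncurry_def]
      fun_prop
    rw [integrable_prod_iff' ck.aestronglyMeasurable]
    refine ⟨ae_of_all _ fun x => ?_, ?_⟩
    · exact (b4748_int h hα.le hβ hε x).mul_const (Real.exp (-(PP ε ψ x / ε)))
    refine (integrable_const (1 : ℝ)).congr (ae_of_all _ fun x => ?_)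
    show 1 = ∫ z, ‖k z x‖ ∂gm m
    rw [← k1 x]
    exact integral_congr_ae (ae_of_all _ fun z => (Real.norm_of_nonneg (by positivity)).symm)
  have h3 := integral_integral_swap ik
  have h4 := ik.integral_prod_left
  simp only [Function.uncurry_apply_pair, k1, k2, integral_const, probReal_univ, one_smul] at h3 h4
  have h5 := b4748_jensen ((tQ.pg.integrable.sub tψ.pg.integrable).div_const ε) h4
  simp only [Pi.sub_apply] at h5
  rw [h3, Real.exp_le_one_iff, integral_div, integral_sub tQ.pg.integrable tψ.pg.integrable,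
    div_nonpos_iff] at h5
  rcases h5 with h5 | h5
  · linarith [h5.2]
  · linarith [h5.1]

/-- second half step: `ρ x = ∫ cpl z x dγ = exp((PP (QQ φ) x - φ x)/ε)` has `μ`-mean one,
`-log ρ ≥ 1 - ρ + (√ρ - 1)²` and `∫|ρ - 1| ≤ 2 ‖√ρ - 1‖₂`. -/
theorem gain_P (hV : SC V g κ₁ κ₂) (h1 : 0 < κ₁) (h2 : 0 < κ₂) (hn : ∫ x, Real.exp (-V x) = 1)
    (h : SC φ Y a b) (ha : 0 < a) (hb : 0 < b) (hε : 0 < ε) :
    Integrable (fun p : Vc m × Vc m => cpl ε V φ p.1 p.2) ((gm m).prod (mu V)) ∧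
    ε * (∫ x, |∫ z, cpl ε V φ z x ∂gm m - 1| ∂mu V) ^ 2 ≤
      4 * (∫ x, φ x ∂mu V - ∫ x, PP ε (QQ ε V φ) x ∂mu V) := by
  have := hV.prob hn
  obtain ⟨hQ, hc⟩ := QQ_sc hV h1 h2 h ha hb hε
  have hq1 : 0 < (b + ε * κ₂)⁻¹ := by positivity
  have hq2 : 0 < (a + ε * κ₁)⁻¹ := by positivity
  obtain ⟨Y', hY⟩ := PP_sc hQ hq1 hq2 hε
  have tφ := h.tame_pot ha.le hb
  have tQ := hQ.tame_pot hq1.le hq2
  have tP := hY.tame_pot (by positivity) (by positivity)
  have iφ := hV.integrable_mu h1 h2 tφ.pg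
  have iP := hV.integrable_mu h1 h2 tP.pg
  have cφ := tφ.continuous
  have cQ := tQ.continuous
  have ik : Integrable (fun p : Vc m × Vc m => cpl ε V φ p.1 p.2) ((gm m).prod (mu V)) := by
    have ck : Continuous fun p : Vc m × Vc m => cpl ε V φ p.1 p.2 := by
      unfold cpl
      fun_prop
    rw [integrable_prod_iff ck.aestronglyMeasurable]
    refine ⟨ae_of_all _ fun z => (hc z).2.1, ?_⟩
    refine (integrable_const (1 : ℝ)).congr (ae_of_all _ fun z => ?_)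
    show 1 = ∫ x, ‖cpl ε V φ z x‖ ∂mu V
    rw [← (hc z).1]
    exact integral_congr_ae (ae_of_all _ fun x => (Real.norm_of_nonneg (Real.exp_pos _).le).symm)
  refine ⟨ik, ?_⟩
  set t : Vc m → ℝ := fun x => (PP ε (QQ ε V φ) x - φ x) / ε with ht
  have k1 : ∀ x, ∫ z, cpl ε V φ z x ∂gm m = Real.exp (t x) := fun x => by
    have e : ∀ z, cpl ε V φ z x =
        Real.exp ((z ⬝ᵥ x - QQ ε V φ z) / ε) * Real.exp (-(φ x / ε)) := by
      intro z
      simp only [cpl, ← Real.exp_add]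
      congr 1
      ring
    simp only [e]
    rw [integral_mul_const, ← b4748_exp hQ hq1.le hq2 hε, ← Real.exp_add, ht]
    congr 1
    ring
  have h3 := integral_integral_swap (f := cpl ε V φ) ik
  have h4 := ik.integral_prod_right
  simp only [k1, fun z => (hc z).1, integral_const, probReal_univ, one_smul] at h3 h4 ⊢
  have it : Integrable t (mu V) := (iP.sub iφ).div_const ε
  have et : ∫ x, φ x ∂mu V - ∫ x, PP ε (QQ ε V φ) x ∂mu V = -(ε * ∫ x, t x ∂mu V) := by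
    simp only [ht]
    rw [integral_div, integral_sub iP iφ]
    field_simp
    ring
  have h5 := mul_le_mul_of_nonneg_left (b4748_pinsker it h4 h3.symm) hε.le
  rw [et]
  linarith

theorem br3_lo (h2 : 0 < κ₂) (hε : 0 < ε) (hε1 : ε ≤ 1) :
    (1 + 2 * κ₂)⁻¹ ≤ (((1 + 2 * κ₂)⁻¹ + ε)⁻¹ + ε * κ₂)⁻¹ := by
  refine inv_anti₀ (by positivity) ?_
  have hA : 0 < 1 + 2 * κ₂ := by positivity
  have e : ((1 + 2 * κ₂)⁻¹ + ε)⁻¹ = (1 + 2 * κ₂) / (1 + ε * (1 + 2 * κ₂)) := by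
    field_simp
  rw [e, ← le_sub_iff_add_le, div_le_iff₀ (by positivity)]
  have h3 : 0 ≤ ε * (ε * κ₂ * (1 + 2 * κ₂)) := by positivity
  have h4 : ε * (ε * κ₂ * (1 + 2 * κ₂)) ≤ ε * (1 * κ₂ * (1 + 2 * κ₂)) := by gcongr
  nlinarith [mul_pos hε h2, mul_pos (mul_pos hε h2) h2]

theorem br3_up (h1 : 0 < κ₁) (hε : 0 < ε) : ((1 + κ₁⁻¹ + ε)⁻¹ + ε * κ₁)⁻¹ ≤ 1 + κ₁⁻¹ := by
  have hk : 0 < κ₁⁻¹ := inv_pos.2 h1
  have hkk : κ₁ * κ₁⁻¹ = 1 := mul_inv_cancel₀ h1.ne'
  refine inv_le_of_inv_le₀ (by positivity) ?_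
  rw [← sub_le_iff_le_add', inv_sub_inv (by positivity) (by positivity),
    div_le_iff₀ (by positivity)]
  have e : ε * κ₁ * ((1 + κ₁⁻¹) * (1 + κ₁⁻¹ + ε)) = ε * ((κ₁ + 1) * (1 + κ₁⁻¹ + ε)) := by
    rw [mul_assoc, ← mul_assoc κ₁, mul_add κ₁, hkk, mul_one]
  rw [e, add_sub_cancel_left]
  refine le_mul_of_one_le_right hε.le ?_
  nlinarith

theorem br3_opt {I K σ : ℝ} (hK : 0 ≤ K) (hσ : 0 ≤ σ)
    (h : ∀ s, 0 < s → I ≤ K * (σ ^ 2 / (2 * s) + s / 2)) : I ≤ K * σ := by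
  rcases hσ.eq_or_lt with rfl | hσ
  · refine le_of_forall_pos_le_add fun η hη => (h (η / (K + 1)) (by positivity)).trans ?_
    have : K * (η / (K + 1)) ≤ η := by
      rw [← mul_div_assoc, div_le_iff₀ (by positivity)]
      nlinarith
    have h2 : 0 ≤ K * (η / (K + 1)) := by positivity
    simp only [ne_eq, OfNat.ofNat_ne_zero, not_false_eq_true, zero_pow, zero_div, zero_add, mul_zero]
    rw [← mul_div_assoc]
    linarith
  · refine (h σ hσ).trans (le_of_eq ?_)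
    field_simp
    ring

/-- a coupling concentrated near the graph of `X` whose second marginal is close to `μ` -/
theorem br3_cpl (γ μ : Measure (Vc m)) [IsProbabilityMeasure γ] [IsProbabilityMeasure μ]
    {c : Vc m → Vc m → ℝ} {σ : ℝ} (hX : Continuous X)
    (hint : Integrable (fun p : Vc m × Vc m => c p.1 p.2) (γ.prod μ)) (hc : ∀ z x, 0 ≤ c z x)
    (hσ : 0 ≤ σ)
    (hz : ∀ z, ∫ x, c z x ∂μ = 1 ∧ Integrable (fun x => c z x) μ ∧
      Integrable (fun x => nsq (x - X z) * c z x) μ ∧ ∫ x, nsq (x - X z) * c z x ∂μ ≤ σ ^ 2)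
    {u : Vc m → ℝ} {K : NNReal} {B : ℝ} (hu : LipschitzWith K u) (hB : ∀ x, |u x| ≤ B) :
    |∫ x, u x ∂μ - ∫ z, u (X z) ∂γ| ≤ B * ∫ x, |∫ z, c z x ∂γ - 1| ∂μ + K * σ := by
  have huc := hu.continuous
  have hint2 : Integrable (fun p : Vc m × Vc m => u p.2 * c p.1 p.2) (γ.prod μ) :=
    hint.bdd_mul (c := B) (huc.comp continuous_snd).aestronglyMeasurable
      (Eventually.of_forall fun p => hB p.2)
  have hρ : Integrable (fun x => ∫ z, c z x ∂γ) μ := hint.integral_prod_right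
  have hui : Integrable u μ := (integrable_const B).mono' huc.aestronglyMeasurable
    (Eventually.of_forall hB)
  have huX : Integrable (fun z => u (X z)) γ := (integrable_const B).mono'
    (huc.comp hX).aestronglyMeasurable (Eventually.of_forall fun z => hB _)
  have hswap : ∫ x, u x * ∫ z, c z x ∂γ ∂μ = ∫ z, ∫ x, u x * c z x ∂μ ∂γ := by
    rw [integral_integral_swap (f := fun z x => u x * c z x) hint2]
    simp only [integral_const_mul]
  have e1 : |∫ x, u x ∂μ - ∫ x, u x * ∫ z, c z x ∂γ ∂μ| ≤ B * ∫ x, |∫ z, c z x ∂γ - 1| ∂μ := by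
    rw [← integral_sub hui (hρ.bdd_mul (c := B) huc.aestronglyMeasurable (Eventually.of_forall hB)),
      ← integral_const_mul, ← Real.norm_eq_abs]
    refine norm_integral_le_of_norm_le ((hρ.sub (integrable_const 1)).abs.const_mul B)
      (Eventually.of_forall fun x => ?_)
    rw [Real.norm_eq_abs, ← mul_one_sub, abs_mul, abs_sub_comm]
    exact mul_le_mul_of_nonneg_right (hB x) (abs_nonneg _)
  have e2 : ∀ z, |∫ x, u x * c z x ∂μ - u (X z)| ≤ K * σ := by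
    intro z
    obtain ⟨a1, a2, a3, a4⟩ := hz z
    have b1 : ∫ x, u x * c z x ∂μ - u (X z) = ∫ x, (u x - u (X z)) * c z x ∂μ := by
      simp only [sub_mul]
      rw [integral_sub (a2.bdd_mul (c := B) huc.aestronglyMeasurable (Eventually.of_forall hB))
        (a2.const_mul _), integral_const_mul, a1, mul_one]
    refine br3_opt K.coe_nonneg hσ fun s hs => ?_
    rw [b1, ← Real.norm_eq_abs]
    refine (norm_integral_le_of_norm_le
      (g := fun x => K * ((2 * s)⁻¹ * (nsq (x - X z) * c z x) + s / 2 * c z x))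
      (((a3.const_mul _).add (a2.const_mul _)).const_mul _)
      (Eventually.of_forall fun x => ?_)).trans ?_
    · rw [norm_mul, Real.norm_of_nonneg (hc z x), ← mul_assoc, ← add_mul, ← mul_assoc]
      refine mul_le_mul_of_nonneg_right ?_ (hc z x)
      refine (hu.norm_sub_le x (X z)).trans (mul_le_mul_of_nonneg_left ?_ K.coe_nonneg)
      have c1 := norm_sq_le_nsq (x - X z)
      rw [inv_mul_eq_div, div_add_div _ _ (by positivity) two_ne_zero, le_div_iff₀ (by positivity)]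
      nlinarith [sq_nonneg (‖x - X z‖ - s)]
    · rw [integral_const_mul, integral_add (a3.const_mul _) (a2.const_mul _), integral_const_mul,
        integral_const_mul, a1, mul_one, inv_mul_eq_div]
      gcongr
  have e3 : |∫ z, ∫ x, u x * c z x ∂μ ∂γ - ∫ z, u (X z) ∂γ| ≤ K * σ := by
    rw [← integral_sub hint2.integral_prod_left huX, ← Real.norm_eq_abs]
    simpa using norm_integral_le_of_norm_le_const (μ := γ) (C := K * σ)
      (f := fun z => ∫ x, u x * c z x ∂μ - u (X z)) (Eventually.of_forall e2)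
  rw [hswap] at e1
  exact (abs_sub_le _ _ _).trans (add_le_add e1 e3)

/-- Approximate Brenier maps.  The class `SC · · α β` is invariant under `QQ ∘ PP`; take `ψ₀` within
`ε²` of the supremum of the semi-dual functional and `X = XQ ε V (PP ε ψ₀)`. -/
theorem approx_bren (hV : SC V g κ₁ κ₂) (h1 : 0 < κ₁) (h2 : 0 < κ₂)
    (hn : ∫ x, Real.exp (-V x) = 1) (hε : 0 < ε) (hε1 : ε ≤ 1) :
    ∃ (ψ : Vc m → ℝ) (X : Vc m → Vc m), SC ψ X (1 + 2 * κ₂)⁻¹ (1 + κ₁⁻¹) ∧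
      ∀ (u : Vc m → ℝ) (K : NNReal) (B : ℝ), LipschitzWith K u → (∀ x, |u x| ≤ B) →
        |∫ x, u x ∂mu V - ∫ z, u (X z) ∂gm m| ≤ (2 * B + K * √(m * (1 + κ₁⁻¹))) * √ε := by
  have hprob := hV.prob hn
  have hk1 : 0 < κ₁⁻¹ := inv_pos.2 h1
  have hα : 0 < (1 + 2 * κ₂)⁻¹ := by positivity
  have hβ : 0 < 1 + κ₁⁻¹ := by positivity
  let D : (Vc m → ℝ) → ℝ := fun ψ => -∫ z, ψ z ∂gm m - ∫ x, PP ε ψ x ∂mu V
  let S : Set ℝ := {d | ∃ (ψ : Vc m → ℝ) (X : Vc m → Vc m),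
    SC ψ X (1 + 2 * κ₂)⁻¹ (1 + κ₁⁻¹) ∧ d = D ψ}
  have hne : S.Nonempty := ⟨_, _, _, (sc_nsq 1).weaken (inv_le_one_of_one_le₀ (by linarith))
    (by linarith), rfl⟩
  have hbd : BddAbove S := ⟨0, by
    rintro _ ⟨ψ, X, h, rfl⟩
    exact dual_le hV h1 h2 hn h hα hβ hε⟩
  obtain ⟨_, ⟨ψ₀, X₀, h₀, rfl⟩, hsup⟩ := exists_lt_of_lt_csSup hne
    (show sSup S - ε ^ 2 < sSup S by nlinarith)
  obtain ⟨Y, hφ⟩ := PP_sc h₀ hα hβ hε
  have ha : 0 < (1 + κ₁⁻¹ + ε)⁻¹ := by positivity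
  have hb : 0 < ((1 + 2 * κ₂)⁻¹ + ε)⁻¹ := by positivity
  obtain ⟨hsc, hz⟩ := QQ_sc hV h1 h2 hφ ha hb hε
  have hup := br3_up h1 hε
  have h₁ := hsc.weaken (br3_lo h2 hε hε1) hup
  obtain ⟨hint, hgain⟩ := gain_P hV h1 h2 hn hφ ha hb hε
  have hQ := gain_Q hV h1 h2 hn h₀ hα hβ hε
  have hle : D (QQ ε V (PP ε ψ₀)) ≤ sSup S := le_csSup hbd ⟨_, _, h₁, rfl⟩
  have hρ : ∫ x, |∫ z, cpl ε V (PP ε ψ₀) z x ∂gm m - 1| ∂mu V ≤ 2 * √ε := by
    have h3 : ε * (∫ x, |∫ z, cpl ε V (PP ε ψ₀) z x ∂gm m - 1| ∂mu V) ^ 2 ≤ ε * (4 * ε) := by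
      simp only [D] at hle hsup
      nlinarith
    have h4 := le_of_mul_le_mul_left h3 hε
    refine le_of_sq_le_sq ?_ (by positivity)
    rw [mul_pow, Real.sq_sqrt hε.le]
    linarith
  refine ⟨_, _, h₁, fun u K B hu hB => ?_⟩
  have key := br3_cpl (gm m) (mu V) (c := cpl ε V (PP ε ψ₀)) (X := XQ ε V (PP ε ψ₀))
    (σ := √(m * (1 + κ₁⁻¹)) * √ε) (h₁.lipschitz hα.le hβ).continuous hint
    (fun z x => (Real.exp_pos _).le) (by positivity) (fun z => by
      obtain ⟨e1, e2, e3, e4⟩ := hz z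
      refine ⟨e1, e2, e3, e4.trans ?_⟩
      rw [mul_pow, Real.sq_sqrt hε.le, Real.sq_sqrt (by positivity), mul_assoc, mul_comm _ ε]
      gcongr) hu hB
  have hB0 : 0 ≤ B := (abs_nonneg _).trans (hB 0)
  have := mul_le_mul_of_nonneg_left hρ hB0
  nlinarith

/-- Compactness: `X n 0` is bounded (tightness), the `X n` are equi-Lipschitz; normalise
`ψ n 0 = 0` and pass to the limit along a subsequence or an ultrafilter. -/
theorem bren_limit (μ : Measure (Vc m)) [IsProbabilityMeasure μ] (hα : 0 < α) (hβ : 0 < β)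
    (ψ : ℕ → Vc m → ℝ) (X : ℕ → Vc m → Vc m) (h : ∀ n, SC (ψ n) (X n) α β)
    (hl : ∀ (u : Vc m → ℝ) (K : NNReal) (B : ℝ), LipschitzWith K u → (∀ x, |u x| ≤ B) →
      Tendsto (fun n => ∫ z, u (X n z) ∂gm m) atTop (𝓝 (∫ x, u x ∂μ))) :
    ∃ (ψ : Vc m → ℝ) (X : Vc m → Vc m), SC ψ X α β ∧ Measure.map X (gm m) = μ :=
  B4.bren_limit_aux μ hα hβ ψ X h hl

theorem brenier (hV : SC V g κ₁ κ₂) (h1 : 0 < κ₁) (h2 : 0 < κ₂) (hn : ∫ x, Real.exp (-V x) = 1) :
    ∃ (ψ : Vc m → ℝ) (X : Vc m → Vc m), SC ψ X (1 + 2 * κ₂)⁻¹ (1 + κ₁⁻¹) ∧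
      Measure.map X (gm m) = mu V := by
  have hprob := hV.prob hn
  have hk1 : 0 < κ₁⁻¹ := inv_pos.2 h1
  have hpos : ∀ n : ℕ, (0 : ℝ) < 1 / ((n : ℝ) + 1) := fun n => by positivity
  have hle : ∀ n : ℕ, 1 / ((n : ℝ) + 1) ≤ 1 := fun n =>
    (div_le_one (by positivity)).2 (by linarith [(Nat.cast_nonneg n : (0 : ℝ) ≤ n)])
  choose ψ X hsc hX using fun n : ℕ => approx_bren hV h1 h2 hn (hpos n) (hle n)
  refine bren_limit (mu V) (by positivity) (by positivity) ψ X hsc fun u K B hu hB => ?_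
  rw [tendsto_iff_norm_sub_tendsto_zero]
  refine squeeze_zero (fun _ => norm_nonneg _)
    (g := fun n : ℕ => (2 * B + K * √(m * (1 + κ₁⁻¹))) * √(1 / ((n : ℝ) + 1))) (fun n => ?_) ?_
  · rw [Real.norm_eq_abs, abs_sub_comm]
    exact hX n u K B hu hB
  · have := ((tendsto_one_div_add_atTop_nhds_zero_nat (𝕜 := ℝ)).sqrt).const_mul
      (2 * B + K * √(m * (1 + κ₁⁻¹)))
    simpa using this

end Crest.Agent.R253
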