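import Crest.Agent.R253.FldA
import Crest.Agent.R253.Ker

set_option autoImplicit false
set_option linter.unusedVariables false
set_option linter.unusedSectionVars false

open MeasureTheory Matrix Set Filter Topology
open Crest.Agent.R215 (gam)
open Crest.Agent.R203
open Crest.GeometryTopology.Isotropic

noncomputable section

namespace Crest.Agent.R253

variable {m : ℕ}

/-! Basic facts on the chaos decomposition `T = L + R` of a centred field. -/

variable {T : Vc m → Mx m} {S : Fin m → Vc m → Mx m} {θ : Vc m} {v : ℝ} {g g' : ℝ → ℝ}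

theorem Fld.Mk_symm (h : Fld T S) (k : Fin m) : (Mk S k).IsSymm := by
  refine IsSymm.ext fun i j => ?_
  show ∫ z, S k z j i ∂gm m = ∫ z, S k z i j ∂gm m
  exact integral_congr_ae (ae_of_all _ fun z => (h.symS k z).apply i j)
theorem Fld.VV_symm (h : Fld T S) : (VV S).IsSymm := by
  show (∑ k, Mk S k * Mk S k)ᵀ = ∑ k, Mk S k * Mk S k
  rw [transpose_sum]
  refine Finset.sum_congr rfl fun k _ => ?_
  rw [transpose_mul, (h.Mk_symm k).eq]
theorem cA_Lz_apply (S : Fin m → Vc m → Mx m) (z : Vc m) (i j : Fin m) :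
    Lz S z i j = ∑ l, Mk S l i j * z l := by
  show (∑ l, z l • Mk S l) i j = _
  rw [Matrix.sum_apply]
  exact Finset.sum_congr rfl fun l _ => mul_comm _ _
theorem mw_Lz (S : Fin m → Vc m → Mx m) : MW (Lz S) fun k _ => Mk S k := by
  intro i j
  have h1 := wd_sum Finset.univ (F := fun l (z : Vc m) => Mk S l i j * z l)
    (G := fun l k (_ : Vc m) => Mk S l i j * if l = k then 1 else 0)
    fun l _ => (wd_coord l).const_mul (Mk S l i j)
  have e1 : (fun z : Vc m => Lz S z i j) = fun z => ∑ l, Mk S l i j * z l :=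
    funext fun z => cA_Lz_apply S z i j
  have e2 : (fun k (_ : Vc m) => Mk S k i j) =
      fun k (_ : Vc m) => ∑ l, Mk S l i j * if l = k then 1 else 0 := by
    funext k z
    simp
  show WD (fun z : Vc m => Lz S z i j) fun k (_ : Vc m) => Mk S k i j
  rw [e1, e2]
  exact h1
theorem Fld.mw_R (h : Fld T S) : MW (Rz T S) (DR S) := by
  exact fun i j => (h.wd i j).sub (mw_Lz S i j)
theorem Fld.l2R (h : Fld T S) : L2m (Rz T S) := by
  exact fun i j => (h.mw_R i j).l2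
theorem Fld.l2DR (h : Fld T S) (k : Fin m) : L2m (DR S k) := by
  exact fun i j => (h.mw_R i j).l2d k
theorem Fld.l2Om (h : Fld T S) : L2m (Om S) := by
  exact l2m_sum Finset.univ (F := fun k z => DR S k z * Mk S k)
    fun k _ => (h.l2DR k).mul_const (Mk S k)
theorem Fld.l2O5 (h : Fld T S) : L2m (O5 T S) := by
  exact l2m_sum Finset.univ (F := fun k z => cm T S r1 r2 k z * Mk S k)
    fun k _ => (h.l2_cm c1_r1 k).mul_const (Mk S k)
theorem Fld.l2J (h : Fld T S) (k : Fin m) : L2m (Jk T S k) := by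
  exact (h.l2_cm c1_s2 k).sub ((h.l2_mul one_c_r1 (h.l2_cm c1_r0 k)).smul 2)
theorem cA_mean_mulVec {A : Vc m → Mx m} (hA : L2m A) (h0 : ∀ i j, ∫ z, A z i j ∂gm m = 0)
    (θ : Vc m) (i : Fin m) : ∫ z, (A z *ᵥ θ) i ∂gm m = 0 := by
  show ∫ z, ∑ j, A z i j * θ j ∂gm m = 0
  rw [integral_finsetSum _ fun j _ => ((hA i j).integrable one_le_two).mul_const (θ j)]
  refine Finset.sum_eq_zero fun j _ => ?_
  rw [integral_mul_const, h0, zero_mul]
theorem Fld.cA_mean_DR (h : Fld T S) (k i j : Fin m) : ∫ z, DR S k z i j ∂gm m = 0 := by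
  show ∫ z, (S k z i j - ∫ y, S k y i j ∂gm m) ∂gm m = 0
  rw [integral_sub ((h.l2S k i j).integrable one_le_two) (integrable_const _), integral_const,
    probReal_univ, one_smul, sub_self]
theorem cA_mean_Lz (S : Fin m → Vc m → Mx m) (i j : Fin m) : ∫ z, Lz S z i j ∂gm m = 0 := by
  simp only [cA_Lz_apply]
  rw [integral_finsetSum _ fun l _ =>
    ((wd_coord l).l2.integrable one_le_two).const_mul (Mk S l i j)]
  refine Finset.sum_eq_zero fun l _ => ?_
  rw [integral_const_mul, integral_coord, mul_zero]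
theorem cA_ip_zero {A : Vc m → Mx m} (hA : L2m A) (h0 : ∀ i j, ∫ z, A z i j ∂gm m = 0)
    (c θ : Vc m) : ip (fun _ => c) (fun z => A z *ᵥ θ) = 0 := by
  rw [ip_const_left c (hA.mulVec θ)]
  refine Finset.sum_eq_zero fun i _ => ?_
  show c i * ∫ z, (A z *ᵥ θ) i ∂gm m = 0
  rw [cA_mean_mulVec hA h0, mul_zero]
theorem Fld.hi2 (h : Fld T S) (hc : Cen T) (θ : Vc m) :
    Hi2 (fun z => Rz T S z *ᵥ θ) fun k z => DR S k z *ᵥ θ := by
  refine ⟨h.mw_R.mulVec θ, cA_mean_mulVec h.l2R (fun i j => ?_) θ,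
    fun k => cA_mean_mulVec (h.l2DR k) (h.cA_mean_DR k) θ⟩
  show ∫ z, (T z i j - Lz S z i j) ∂gm m = 0
  rw [integral_sub ((h.l2T i j).integrable one_le_two) ((mw_Lz S i j).l2.integrable one_le_two),
    hc i j, cA_mean_Lz, sub_zero]
theorem Fld.mean_DR (h : Fld T S) (k : Fin m) (c θ : Vc m) :
    ip (fun _ => c) (fun z => DR S k z *ᵥ θ) = 0 := by
  exact cA_ip_zero (h.l2DR k) (h.cA_mean_DR k) c θ
theorem Fld.mean_Om (h : Fld T S) (c θ : Vc m) : ip (fun _ => c) (fun z => Om S z *ᵥ θ) = 0 := by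
  refine cA_ip_zero h.l2Om (fun i j => ?_) c θ
  have e : ∀ z, Om S z i j = ∑ k, (DR S k z * Mk S k) i j := fun z => Matrix.sum_apply _ _ _ _
  simp only [e]
  rw [integral_finsetSum _ fun k _ => ((h.l2DR k).mul_const (Mk S k) i j).integrable one_le_two]
  exact Finset.sum_eq_zero fun k _ =>
    cA_mean_mulVec (h.l2DR k) (h.cA_mean_DR k) (fun l => Mk S k l j) i
theorem Fld.two_rho_le (h : Fld T S) (hc : Cen T) (θ : Vc m) : 2 * rho T S θ ^ 2 ≤ dR S θ ^ 2 := by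
  have h1 := (h.hi2 hc θ).gap
  rw [← nr_sq, ← nrk_sq] at h1
  exact h1

/-- Stein's identity against the linear part -/
theorem Fld.ip_L (h : Fld T S) (θ : Vc m) {u : Vc m → Vc m} {D : Fin m → Vc m → Vc m} (hu : VW u D) :
    ip (fun z => Lz S z *ᵥ θ) u = ipk (fun k _ => Mk S k *ᵥ θ) D := by
  have e : ∀ z, (Lz S z *ᵥ θ) ⬝ᵥ u z = ∑ k, ∑ i, (Mk S k *ᵥ θ) i * (z k * u z i) := by
    intro z
    show ((∑ k, z k • Mk S k) *ᵥ θ) ⬝ᵥ u z = _
    rw [sum_mulVec, sum_dotProduct]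
    refine Finset.sum_congr rfl fun k _ => ?_
    rw [smul_mulVec, smul_dotProduct, smul_eq_mul, dotProduct, Finset.mul_sum]
    exact Finset.sum_congr rfl fun i _ => by ring
  have hi : ∀ k i, Integrable (fun z => (Mk S k *ᵥ θ) i * (z k * u z i)) (gm m) :=
    fun k i => (wd2_im (wd_coord k).l2 (hu i).l2).const_mul _
  show ∫ z, (Lz S z *ᵥ θ) ⬝ᵥ u z ∂gm m = ∑ k, ip (fun _ => Mk S k *ᵥ θ) (D k)
  simp only [e]
  rw [integral_finsetSum _ fun k _ => integrable_finsetSum _ fun i _ => hi k i]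
  refine Finset.sum_congr rfl fun k _ => ?_
  rw [integral_finsetSum _ fun i _ => hi k i, ip_const_left _ (hu.l2d k)]
  refine Finset.sum_congr rfl fun i _ => ?_
  rw [integral_const_mul, ← (hu i).stein k]

theorem Fld.nrkM_sum (h : Fld T S) (hd : Dir S θ v) : ∑ k, nsq (Mk S k *ᵥ θ) = v := by
  have e : θ ⬝ᵥ VV S *ᵥ θ = v := by rw [hd.eig, dotProduct_smul, hd.unit, smul_eq_mul, mul_one]
  rw [← e, VV, sum_mulVec, dotProduct_sum]
  refine Finset.sum_congr rfl fun k _ => ?_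
  rw [← mulVec_mulVec, dot_mulVec_symm (h.Mk_symm k)]
  rfl
theorem nrkM_split (S : Fin m → Vc m → Mx m) (k : Fin m) (z w : Vc m) :
    S k z *ᵥ w = Mk S k *ᵥ w + DR S k z *ᵥ w := by
  rw [← add_mulVec, DR, add_sub_cancel]
theorem nrkM_add_right {u w x : Vc m → Vc m} (h : L2v u) (h' : L2v w) (h'' : L2v x) :
    ip x (fun z => u z + w z) = ip x u + ip x w := by
  rw [ip_comm, ip_add_left h h' h'', ip_comm u, ip_comm w]
theorem Fld.nrkM (h : Fld T S) (hd : Dir S θ v) :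
    0 ≤ v ∧ ipk (fun k (_ : Vc m) => Mk S k *ᵥ θ) (fun k _ => Mk S k *ᵥ θ) = v ∧
      nrk (fun k (_ : Vc m) => Mk S k *ᵥ θ) = √v := by
  have e : ipk (fun k (_ : Vc m) => Mk S k *ᵥ θ) (fun k _ => Mk S k *ᵥ θ) = v := by
    rw [← h.nrkM_sum hd]
    simp [ipk, ip, nsq]
  exact ⟨e ▸ ipk_self_nonneg _, e, by rw [nrk, e]⟩
theorem Fld.nrkS_MS (h : Fld T S) (hd : Dir S θ v) :
    ipk (fun k (_ : Vc m) => Mk S k *ᵥ θ) (fun k z => S k z *ᵥ θ) = v := by
  rw [← (h.nrkM hd).2.1]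
  refine Finset.sum_congr rfl fun k _ => ?_
  simp only [nrkM_split S k]
  rw [nrkM_add_right (l2v_const _) ((h.l2DR k).mulVec θ) (l2v_const _), h.mean_DR, add_zero]
theorem Fld.nrkS (h : Fld T S) (hd : Dir S θ v) :
    ipk (fun k z => S k z *ᵥ θ) (fun k z => S k z *ᵥ θ) = v + dR S θ ^ 2 ∧
      nrk (fun k z => S k z *ᵥ θ) ≤ √v + dR S θ := by
  have e : (fun k z => S k z *ᵥ θ) = fun k z => Mk S k *ᵥ θ + DR S k z *ᵥ θ := by
    funext k z
    exact nrkM_split S k z θ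
  constructor
  · rw [dR, nrk_sq, ← (h.nrkM hd).2.1, e, ipk, ipk, ipk, ← Finset.sum_add_distrib]
    refine Finset.sum_congr rfl fun k _ => ?_
    have a := l2v_const (m := m) (Mk S k *ᵥ θ)
    have b := (h.l2DR k).mulVec θ
    rw [ip_add_left a b (a.add b), nrkM_add_right a b a, nrkM_add_right a b b,
      ip_comm (fun z => DR S k z *ᵥ θ) (fun _ => Mk S k *ᵥ θ), h.mean_DR]
    ring
  · rw [e, ← (h.nrkM hd).2.2]
    exact nrk_add_le (fun k => l2v_const _) fun k => (h.l2DR k).mulVec θ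
theorem Fld.Ex_id (h : Fld T S) (hc : Cen T) (θ : Vc m) : Ex T θ (fun t => t) = 0 := by
  have e : Ex T θ (fun t => t) = ip (fun _ => θ) fun z => T z *ᵥ θ := by
    simp only [Ex, ip, mf_id (h.symT _)]
  have e2 : (fun i => ∫ z, (T z *ᵥ θ) i ∂gm m) = 0 := by
    funext i
    simp only [mulVec, dotProduct]
    rw [integral_finsetSum _ fun j _ => ((h.l2T i j).integrable one_le_two).mul_const _]
    simp [integral_mul_const, hc i]
  rw [e, ip_const_left θ (h.l2T.mulVec θ), e2, dotProduct_zero]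
theorem Ex_sq_split (T : Vc m → Mx m) (S : Fin m → Vc m → Mx m) (θ : Vc m) :
    (fun z => T z *ᵥ θ) = fun z => Lz S z *ᵥ θ + Rz T S z *ᵥ θ := by
  funext z
  rw [← add_mulVec, Rz, add_sub_cancel]
theorem Fld.Ex_sq_RT (h : Fld T S) (θ : Vc m) :
    ip (fun z => Rz T S z *ᵥ θ) (fun z => T z *ᵥ θ) = rho T S θ ^ 2 := by
  have a := ((mw_Lz S).mulVec θ).l2
  have b := h.l2R.mulVec θ
  rw [rho, nr_sq, Ex_sq_split T S θ, nrkM_add_right a b b, ip_comm _ fun z => Lz S z *ᵥ θ,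
    h.ip_L θ (h.mw_R.mulVec θ)]
  simp [ipk, h.mean_DR]
theorem Fld.Ex_sq (h : Fld T S) (hc : Cen T) (hd : Dir S θ v) :
    Ex T θ (fun t => t ^ 2) = v + rho T S θ ^ 2 := by
  have e := h.ip_mf θ (f := fun t => t) (g := fun t => t) continuous_id continuous_id
  simp only [mf_id (h.symT _), ← pow_two] at e
  have a := ((mw_Lz S).mulVec θ).l2
  have b := h.l2R.mulVec θ
  have e2 := ip_add_left a b (h.l2T.mulVec θ)
  rw [← Ex_sq_split T S θ, h.Ex_sq_RT, h.ip_L θ (h.wd.mulVec θ), h.nrkS_MS hd] at e2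
  rw [← e, e2]
theorem Fld.ip_RT (h : Fld T S) (hc : Cen T) (θ : Vc m) :
    ip (fun z => Rz T S z *ᵥ θ) (fun z => T z *ᵥ θ) = rho T S θ ^ 2 := h.Ex_sq_RT θ
theorem Fld.nr_mf (h : Fld T S) (hg : Continuous g) (θ : Vc m) :
    nr (fun z => mf g (T z) *ᵥ θ) = √(Ex T θ fun t => g t ^ 2) := by
  rw [nr, h.ip_mf θ hg hg]
  simp only [pow_two]
theorem Fld.nr_Om_aux (h : Fld T S) (hd : Dir S θ v) (A : Fin m → Vc m → Mx m) :
    nr (fun z => (∑ k, A k z * Mk S k) *ᵥ θ)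
      = √v * (nr (fun z => (∑ k, A k z * Mk S k) *ᵥ θ) / √v) := by
  rcases (h.nrkM hd).1.eq_or_lt with h0 | h0
  · have e : ∀ k, Mk S k *ᵥ θ = 0 := fun k => by
      refine sc2_zero ?_
      rw [h0, ← h.nrkM_sum hd]
      exact Finset.single_le_sum (f := fun k => nsq (Mk S k *ᵥ θ)) (fun k _ => nsq_nonneg _)
        (Finset.mem_univ k)
    have e2 : (fun z => (∑ k, A k z * Mk S k) *ᵥ θ) = fun _ => 0 := by
      funext z
      simp [sum_mulVec, ← mulVec_mulVec, e]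
    rw [e2, ← h0]
    simp [nr, ip]
  · rw [mul_div_cancel₀ _ (Real.sqrt_pos.2 h0).ne']
/-- if `v = 0` then `M_k θ = 0` -/
theorem Fld.nr_Om (h : Fld T S) (hd : Dir S θ v) : nr (fun z => Om S z *ᵥ θ) = √v * om S θ v :=
  h.nr_Om_aux hd (DR S)
theorem Fld.nr_O5 (h : Fld T S) (hd : Dir S θ v) :
    nr (fun z => O5 T S z *ᵥ θ) = √v * c5 T S θ v := h.nr_Om_aux hd (cm T S r1 r2)
theorem Fld.sum_SM (h : Fld T S) (hd : Dir S θ v) (z : Vc m) :
    ∑ k, S k z *ᵥ (Mk S k *ᵥ θ) = v • θ + Om S z *ᵥ θ := by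
  rw [← hd.eig, VV, Om, sum_mulVec, sum_mulVec, ← Finset.sum_add_distrib]
  refine Finset.sum_congr rfl fun k _ => ?_
  rw [nrkM_split S k z, mulVec_mulVec, mulVec_mulVec]

end Crest.Agent.R253
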