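import Crest.Agent.R253.CoreA

set_option autoImplicit false
set_option linter.unusedVariables false
set_option linter.unusedSectionVars false

open MeasureTheory Matrix Set Filter Topology
open Crest.Agent.R215 (gam)
open Crest.Agent.R203
open Crest.GeometryTopology.Isotropic

noncomputable section

namespace Crest.Agent.R253

variable {m : ℕ}

variable {T : Vc m → Mx m} {S : Fin m → Vc m → Mx m} {θ : Vc m} {v : ℝ} {g g' : ℝ → ℝ}

theorem Fld.cb1_l2 (h : Fld T S) (hg : Continuous g) (θ : Vc m) : L2v fun z => mf g (T z) *ᵥ θ :=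
  (h.l2_mf hg).mulVec θ

theorem cb1_l2L (S : Fin m → Vc m → Mx m) (θ : Vc m) : L2v fun z => Lz S z *ᵥ θ :=
  ((mw_Lz S).mulVec θ).l2

theorem Fld.cb1_RL (h : Fld T S) (hg : Continuous g) (θ : Vc m) :
    ip (fun z => Rz T S z *ᵥ θ) (fun z => mf g (T z) *ᵥ θ) +
      ip (fun z => Lz S z *ᵥ θ) (fun z => mf g (T z) *ᵥ θ) = Ex T θ fun t => t * g t := by
  rw [← ip_add_left (h.l2R.mulVec θ) (cb1_l2L S θ) (h.cb1_l2 hg θ),
    ← h.ip_mf θ (f := fun t => t) continuous_id hg]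
  congr 1
  funext z
  rw [mf_id (h.symT z), Rz, ← Matrix.add_mulVec, sub_add_cancel]

theorem Fld.cb1_comb (h : Fld T S) {u : Vc m → Vc m} (hu : L2v u) {f k : ℝ → ℝ}
    (hf : Continuous f) (hg : Continuous g) (c : ℝ) (e : ∀ t, k t = f t + c * g t) (θ : Vc m) :
    ip u (fun z => mf k (T z) *ᵥ θ) =
      ip u (fun z => mf f (T z) *ᵥ θ) + c * ip u (fun z => mf g (T z) *ᵥ θ) := by
  rw [ip_comm u, ip_comm u, ip_comm u, ← ip_smul_left,
    ← ip_add_left (h.cb1_l2 hf θ) ((h.cb1_l2 hg θ).smul c) hu]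
  congr 1
  funext z
  rw [show k = fun t => f t + c * g t from funext e, mf_add (h.symT z), mf_const_mul (h.symT z),
    Matrix.add_mulVec, Matrix.smul_mulVec]

theorem PosFun.cb1_comb {E : (ℝ → ℝ) → ℝ} (h : PosFun E) {f k : ℝ → ℝ} (hf : Continuous f)
    (hg : Continuous g) (c : ℝ) (e : ∀ t, k t = f t + c * g t) : E k = E f + c * E g := by
  rw [show k = fun t => f t + c * g t from funext e,
    h.add f (fun t => c * g t) hf (continuous_const.mul hg), h.smul c g hg]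

theorem cb1_ip6 {a b c d e f q r : Vc m → Vc m} (ha : L2v a) (hb : L2v b) (hc : L2v c)
    (hd : L2v d) (he : L2v e) (hf : L2v f) (hq : L2v q) (hr : L2v r)
    (hpt : ∀ z, a z ⬝ᵥ b z - c z ⬝ᵥ c z + d z ⬝ᵥ e z =
      a z ⬝ᵥ f z - 2 * (d z ⬝ᵥ q z) - r z ⬝ᵥ r z) :
    ip a b - ip c c + ip d e = ip a f - 2 * ip d q - ip r r := by
  have i1 : Integrable (fun z => a z ⬝ᵥ b z - c z ⬝ᵥ c z) (gm m) :=
    (ha.integrable_dot hb).sub (hc.integrable_dot hc)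
  have i2 : Integrable (fun z => 2 * (d z ⬝ᵥ q z)) (gm m) := (hd.integrable_dot hq).const_mul 2
  have i3 : Integrable (fun z => a z ⬝ᵥ f z - 2 * (d z ⬝ᵥ q z)) (gm m) :=
    (ha.integrable_dot hf).sub i2
  unfold ip
  rw [← integral_sub (ha.integrable_dot hb) (hc.integrable_dot hc),
    ← integral_add i1 (hd.integrable_dot he), ← integral_const_mul,
    ← integral_sub (ha.integrable_dot hf) i2, ← integral_sub i3 (hr.integrable_dot hr)]
  exact integral_congr_ae (Eventually.of_forall hpt)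

theorem cb1_alg {P : Mx m} (hP : P.IsSymm) (M D J c : Vc m) :
    M ⬝ᵥ (J + (2 : ℝ) • (P *ᵥ c) + P *ᵥ (P *ᵥ (M + D))) -
        (P *ᵥ (M + D) + c) ⬝ᵥ (P *ᵥ (M + D) + c) + D ⬝ᵥ (P *ᵥ (P *ᵥ (M + D))) =
      M ⬝ᵥ J - 2 * (D ⬝ᵥ (P *ᵥ c)) - c ⬝ᵥ c := by
  have h1 := dot_mulVec_symm hP (M + D) (P *ᵥ (M + D))
  have h2 := dot_mulVec_symm hP (M + D) c
  generalize P *ᵥ (M + D) = y at h1 h2 ⊢
  simp only [add_dotProduct, dotProduct_add, dotProduct_smul, smul_eq_mul] at h1 h2 ⊢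
  rw [dotProduct_comm c y]
  linarith

theorem Fld.cb1_K2 (h : Fld T S) (θ : Vc m) :
    K2 T S θ = ipk (fun k _ => Mk S k *ᵥ θ) (fun k z => Jk T S k z *ᵥ θ) -
      2 * ipk (fun k z => DR S k z *ᵥ θ) (fun k z => mf r1 (T z) *ᵥ (cm T S r0 r1 k z *ᵥ θ)) -
      ipk (fun k z => cm T S r0 r1 k z *ᵥ θ) (fun k z => cm T S r0 r1 k z *ᵥ θ) := by
  unfold K2 ipk
  rw [Finset.mul_sum, ← Finset.sum_sub_distrib, ← Finset.sum_add_distrib, ← Finset.sum_sub_distrib,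
    ← Finset.sum_sub_distrib]
  refine Finset.sum_congr rfl fun k _ => ?_
  refine cb1_ip6 (l2v_const _) ((h.l2_Dg c1_s2 k).mulVec θ)
    ((h.l2_Dg c1_r0 k).mulVec θ) ((h.l2DR k).mulVec θ)
    ((h.l2_mul one_c_r1s (h.l2S k)).mulVec θ) ((h.l2J k).mulVec θ)
    (h.l2v_mul one_c_r1 ((h.l2_cm c1_r0 k).mulVec θ)) ((h.l2_cm c1_r0 k).mulVec θ) fun z => ?_
  have hs := h.symT z
  have e0 : mf r1s (T z) = mf r1 (T z) * mf r1 (T z) := by
    rw [← mf_mul hs]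
    congr 1
    funext t
    rw [r1s, sq]
  have e1 : Mk S k *ᵥ θ + DR S k z *ᵥ θ = S k z *ᵥ θ := by
    rw [← Matrix.add_mulVec, DR, add_sub_cancel]
  have e2 : (mf r1s (T z) * S k z) *ᵥ θ =
      mf r1 (T z) *ᵥ (mf r1 (T z) *ᵥ (Mk S k *ᵥ θ + DR S k z *ᵥ θ)) := by
    rw [e1, e0, Matrix.mulVec_mulVec, Matrix.mulVec_mulVec]
  have e3 : Dg T S r0 k z *ᵥ θ =
      mf r1 (T z) *ᵥ (Mk S k *ᵥ θ + DR S k z *ᵥ θ) + cm T S r0 r1 k z *ᵥ θ := by
    rw [e1, Matrix.mulVec_mulVec, ← Matrix.add_mulVec, cm, add_sub_cancel]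
  have e4 : Dg T S s2 k z *ᵥ θ = Jk T S k z *ᵥ θ +
      (2 : ℝ) • (mf r1 (T z) *ᵥ (cm T S r0 r1 k z *ᵥ θ)) +
      mf r1 (T z) *ᵥ (mf r1 (T z) *ᵥ (Mk S k *ᵥ θ + DR S k z *ᵥ θ)) := by
    rw [← e2, Matrix.mulVec_mulVec, ← Matrix.smul_mulVec, ← Matrix.add_mulVec, ← Matrix.add_mulVec,
      Jk, sub_add_cancel, cm, sub_add_cancel]
  beta_reduce
  rw [e2, e3, e4]
  exact cb1_alg (mf_isSymm hs r1) _ _ _ _

end Crest.Agent.R253
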