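import Crest.Agent.R253.CoreA
import Crest.Agent.R253.CoreBAux1

set_option autoImplicit false
set_option linter.unusedVariables false
set_option linter.unusedSectionVars false

open MeasureTheory Matrix Set Filter Topology
open Crest.Agent.R215 (gam)
open Crest.Agent.R203
open Crest.GeometryTopology.Isotropic

noncomputable section

namespace Crest.Agent.R253

variable {m : ℕ}

/-! Bounds for `AA`. -/

variable {T : Vc m → Mx m} {S : Fin m → Vc m → Mx m} {θ : Vc m} {v : ℝ} {g g' : ℝ → ℝ}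

/-- `2 FF - r0² - 1 = t sg - qq` (`stein_sg`), `T = L + R`, `sg = s1 + s2`, `ip_L`. -/
theorem Fld.AA_split (h : Fld T S) (hθ : θ ⬝ᵥ θ = 1) :
    AA T S θ = BB T S θ sg + K2 T S θ + La T S θ := by
  have hE := h.posFun hθ
  have c0 : Continuous fun t => r0 t * r0 t := one_c_r0.mul one_c_r0
  have c1 : Continuous fun t => t * sg t := continuous_id.mul c1_sg.cont
  have e1 := h.ip_mf θ one_c_r0 one_c_r0
  have e2 := h.cb1_RL c1_sg.cont θ
  have e3 := h.cb1_comb (k := sg) (cb1_l2L S θ) c1_s1.cont c1_s2.cont 1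
    (fun t => by rw [s1]; ring) θ
  have e4 := h.ip_L θ ((h.chain c1_s2).mulVec θ)
  have e5 := hE.cb1_comb (k := fun t => t * sg t + r0 t * r0 t) c1 c0 1 fun t => by ring
  have e6 := hE.cb1_comb (k := fun t => qq t - 1) (g := fun _ => 1) one_c_qq continuous_const (-1)
    fun t => by ring
  have e7 := hE.cb1_comb (k := fun t => t * sg t + r0 t * r0 t) (f := fun t => qq t - 1)
    (one_c_qq.sub continuous_const) c1_FF.cont 2 fun t => by linarith [stein_sg t]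
  rw [hE.one] at e6
  unfold AA BB K2 La
  linarith

/-- `K2 = ⟨M θ, J θ⟩ - 2 ⟨DR θ, r1(T) cm θ⟩ - |cm θ|²`, `cm = cm r0 r1`. -/
theorem Fld.K2_bd (h : Fld T S) (hd : Dir S θ v) :
    -(√v * cJ T S θ + dR S θ * cL T S θ r0 r1 + cL T S θ r0 r1 ^ 2) ≤ K2 T S θ ∧
      K2 T S θ ≤ √v * cJ T S θ + dR S θ * cL T S θ r0 r1 := by
  have hc : ∀ k, L2v fun z => cm T S r0 r1 k z *ᵥ θ := fun k => (h.l2_cm c1_r0 k).mulVec θ
  have e1 := abs_ipk_le (D := fun k (_ : Vc m) => Mk S k *ᵥ θ) (E := fun k z => Jk T S k z *ᵥ θ)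
    (fun k => l2v_const _) fun k => (h.l2J k).mulVec θ
  have e2 := abs_ipk_le (D := fun k z => DR S k z *ᵥ θ)
    (E := fun k z => mf r1 (T z) *ᵥ (cm T S r0 r1 k z *ᵥ θ))
    (fun k => (h.l2DR k).mulVec θ) fun k => h.l2v_mul one_c_r1 (hc k)
  have e3 := nrk_mono (D := fun k z => mf r1 (T z) *ᵥ (cm T S r0 r1 k z *ᵥ θ)) hc
    (c := 1 / 2) (by norm_num) fun k z => nsq_mf_mulVec_le (h.symT z)
      (fun t => by rw [abs_of_nonneg (r1_nonneg t)]; exact r1_le t) _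
  have e4 := nrk_sq fun k z => cm T S r0 r1 k z *ᵥ θ
  have e5 : 0 ≤ dR S θ := Real.sqrt_nonneg _
  have e6 := mul_le_mul_of_nonneg_left e3 e5
  rw [(h.nrkM hd).2.2] at e1
  rw [h.cb1_K2, ← e4]
  unfold cJ dR cL at *
  obtain ⟨a1, a2⟩ := abs_le.1 e1
  obtain ⟨a3, a4⟩ := abs_le.1 e2
  constructor
  · linarith
  · nlinarith [sq_nonneg (nrk fun k z => cm T S r0 r1 k z *ᵥ θ)]

theorem cb_ipk_add_right {D E F : Fin m → Vc m → Vc m} (hD : ∀ k, L2v (D k))
    (hE : ∀ k, L2v (E k)) (hF : ∀ k, L2v (F k)) :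
    ipk D (fun k z => E k z + F k z) = ipk D E + ipk D F := by
  rw [ipk, ipk, ipk, ← Finset.sum_add_distrib]
  exact Finset.sum_congr rfl fun k _ => nrkM_add_right (hE k) (hF k) (hD k)

theorem cb_ip_smul_right (c : ℝ) (u w : Vc m → Vc m) : ip u (fun z => c • w z) = c * ip u w := by
  rw [ip_comm, ip_smul_left, ip_comm]

theorem cb_ipk_smul_right (c : ℝ) (D E : Fin m → Vc m → Vc m) :
    ipk D (fun k z => c • E k z) = c * ipk D E := by
  rw [ipk, ipk, Finset.mul_sum]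
  exact Finset.sum_congr rfl fun k _ => cb_ip_smul_right c _ _

theorem cb_ip_sum_left {κ : Type} (s : Finset κ) {F : κ → Vc m → Vc m} {w : Vc m → Vc m}
    (hF : ∀ j, L2v (F j)) (hw : L2v w) :
    ip (fun z => ∑ j ∈ s, F j z) w = ∑ j ∈ s, ip (F j) w := by
  simp only [ip, sum_dotProduct]
  exact integral_finsetSum _ fun j _ => (hF j).integrable_dot hw

theorem Fld.cb_quad (h : Fld T S) {D : Fin m → Vc m → Vc m} (hD : ∀ k, L2v (D k)) {w : ℝ → ℝ}
    (hw : Continuous w) {a b : ℝ} (hab : ∀ t, a ≤ w t ∧ w t ≤ b) :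
    a * ipk D D ≤ ipk D (fun k z => mf w (T z) *ᵥ D k z) ∧
      ipk D (fun k z => mf w (T z) *ᵥ D k z) ≤ b * ipk D D := by
  have e : ∀ c : ℝ, c * ipk D D = ipk D (fun k z => mf (fun _ => c) (T z) *ᵥ D k z) := by
    intro c
    rw [← cb_ipk_smul_right]
    simp only [mf_const (h.symT _), smul_mulVec, one_mulVec]
  have mono : ∀ f f' : ℝ → ℝ, Continuous f → Continuous f' → (∀ t, f t ≤ f' t) →
      ipk D (fun k z => mf f (T z) *ᵥ D k z) ≤ ipk D (fun k z => mf f' (T z) *ᵥ D k z) := by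
    intro f f' hf hf' hle
    refine Finset.sum_le_sum fun k _ => ?_
    exact integral_mono ((hD k).integrable_dot (h.l2v_mul hf (hD k)))
      ((hD k).integrable_dot (h.l2v_mul hf' (hD k))) fun z => quad_mf_mono (h.symT z) hle _
  rw [e a, e b]
  exact ⟨mono _ _ continuous_const hw fun t => (hab t).1,
    mono _ _ hw continuous_const fun t => (hab t).2⟩

/-- `D_k s1(T) = S_k qq(T) + (cm s1 qq)ᵀ` (symmetry of `Dg`), `sum_SM`, `mean_Om`. -/
theorem Fld.La_lo (h : Fld T S) (hd : Dir S θ v) (c : ℝ) :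
    |La T S θ - (v - 1) * Ex T θ qq| ≤
      √v * om S θ v * √(Ex T θ fun t => (qq t - c) ^ 2) + √v * cR T S θ s1 qq := by
  have cq := one_c_qq
  have cq' : Continuous fun t => qq t - c := cq.sub continuous_const
  have hq := (h.l2_mf cq).mulVec θ
  have hq' := (h.l2_mf cq').mulVec θ
  have hO := h.l2Om.mulVec θ
  have hcm : ∀ k, L2v fun z => (cm T S s1 qq k z)ᵀ *ᵥ θ := fun k =>
    (h.l2_cm c1_s1 k).transpose.mulVec θ
  have hSq : ∀ k, L2v fun z => S k z *ᵥ (mf qq (T z) *ᵥ θ) := fun k => by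
    simp only [mulVec_mulVec]
    exact (h.l2_mul' cq (h.l2S k)).mulVec θ
  have e1 : (fun k z => Dg T S s1 k z *ᵥ θ) =
      fun k z => S k z *ᵥ (mf qq (T z) *ᵥ θ) + (cm T S s1 qq k z)ᵀ *ᵥ θ := by
    funext k z
    have hs : (Dg T S s1 k z)ᵀ = Dg T S s1 k z :=
      (dk_isSymm (h.symT z) (h.symS k z) c1_s1.diff).eq
    rw [cm, transpose_sub, transpose_mul, hs, (h.symS k z).eq, (mf_isSymm (h.symT z) qq).eq,
      mulVec_mulVec, ← add_mulVec, add_sub_cancel]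
  have e2 : ipk (fun k _ => Mk S k *ᵥ θ) (fun k z => S k z *ᵥ (mf qq (T z) *ᵥ θ)) =
      ip (fun z => v • θ + Om S z *ᵥ θ) fun z => mf qq (T z) *ᵥ θ := by
    simp only [← h.sum_SM hd]
    rw [cb_ip_sum_left _ (fun k => (h.l2S k).mulVec _) hq, ipk]
    refine Finset.sum_congr rfl fun k _ => ?_
    simp only [ip, dot_mulVec_symm (h.symS k _)]
  have e3 : (fun z => mf qq (T z) *ᵥ θ) =
      fun z => mf (fun t => qq t - c) (T z) *ᵥ θ + c • θ := by
    funext z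
    rw [mf_sub (h.symT z), mf_const (h.symT z), sub_mulVec, smul_mulVec, one_mulVec,
      sub_add_cancel]
  have e4 : ip (fun z => Om S z *ᵥ θ) (fun z => mf qq (T z) *ᵥ θ) =
      ip (fun z => Om S z *ᵥ θ) fun z => mf (fun t => qq t - c) (T z) *ᵥ θ := by
    rw [e3, nrkM_add_right hq' (l2v_const _) hO, ip_comm _ fun _ => c • θ, h.mean_Om, add_zero]
  have e5 : ip (fun _ => θ) (fun z => mf qq (T z) *ᵥ θ) = Ex T θ qq := rfl
  have e : La T S θ - (v - 1) * Ex T θ qq =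
      ip (fun z => Om S z *ᵥ θ) (fun z => mf (fun t => qq t - c) (T z) *ᵥ θ) +
        ipk (fun k _ => Mk S k *ᵥ θ) fun k z => (cm T S s1 qq k z)ᵀ *ᵥ θ := by
    rw [La, h.ip_L θ ((h.chain c1_s1).mulVec θ), e1,
      cb_ipk_add_right (fun k => l2v_const _) hSq hcm, e2,
      ip_add_left (l2v_const _) hO hq, ip_smul_left v (fun _ => θ), e5, e4]
    ring
  have b1 := abs_ip_le hO hq'
  have b2 := abs_ipk_le (D := fun k _ => Mk S k *ᵥ θ) (fun k => l2v_const _) hcm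
  rw [h.nr_Om hd, h.nr_mf cq'] at b1
  rw [(h.nrkM hd).2.2] at b2
  rw [e]
  exact (abs_add_le _ _).trans (add_le_add b1 b2)

/-- With `f = (g(T) - c T) θ`, `Df = (g' - c)(T) S θ + cm θ`:
`BB = c ρ² + ⟨DR θ, (u - c/3)(T) S θ⟩ + ⟨DR θ, cm θ⟩/3 - β₃/3`, `u = g'/3 - r1s`, `S = M + DR`;
centre `u` at `(u₁+u₂)/2` in the `M` part (`mean_DR`); `Hi2.beta3`. -/
theorem Fld.BB_bd (h : Fld T S) (hc : Cen T) (hd : Dir S θ v) (hg : C1 g g') {c o u₁ u₂ : ℝ}
    (ho : ∀ t, |g' t - c| ≤ o) (hu : ∀ t, u₁ ≤ g' t / 3 - r1s t ∧ g' t / 3 - r1s t ≤ u₂) :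
    c * rho T S θ ^ 2 + (u₁ - c / 3) * dR S θ ^ 2 - ((u₂ - u₁) / 2 * (√v * dR S θ) +
        dR S θ * cL T S θ g g' / 3 + √(dR S θ ^ 2 - 3 / 2 * rho T S θ ^ 2) *
          (o * (√v + dR S θ) + cL T S θ g g') / 3) ≤ BB T S θ g ∧
      BB T S θ g ≤ c * rho T S θ ^ 2 + (u₂ - c / 3) * dR S θ ^ 2 + ((u₂ - u₁) / 2 * (√v * dR S θ) +
        dR S θ * cL T S θ g g' / 3 + √(dR S θ ^ 2 - 3 / 2 * rho T S θ ^ 2) *
          (o * (√v + dR S θ) + cL T S θ g g') / 3) := by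
  have ho0 : 0 ≤ o := (abs_nonneg _).trans (ho 0)
  have hu0 : 0 ≤ (u₂ - u₁) / 2 := by linarith [(hu 0).1, (hu 0).2]
  have cg := hg.c
  have cr := one_c_r1s
  have c1 : Continuous fun t => g' t - c := cg.sub continuous_const
  have c2 : Continuous fun t => g' t / 3 - r1s t - c / 3 :=
    ((cg.div_const 3).sub cr).sub continuous_const
  have c3 : Continuous fun t => g' t / 3 - r1s t - (u₁ + u₂) / 2 :=
    ((cg.div_const 3).sub cr).sub continuous_const
  have hD : ∀ k, L2v fun z => DR S k z *ᵥ θ := fun k => (h.l2DR k).mulVec θ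
  have hS : ∀ k, L2v fun z => S k z *ᵥ θ := fun k => (h.l2S k).mulVec θ
  have hM : ∀ k, L2v fun _ : Vc m => Mk S k *ᵥ θ := fun k => l2v_const _
  have hcm : ∀ k, L2v fun z => cm T S g g' k z *ᵥ θ := fun k => (h.l2_cm hg k).mulVec θ
  have hR := h.l2R.mulVec θ
  have hgT := (h.l2_mf hg.cont).mulVec θ
  have hT := h.l2T.mulVec θ
  have hW := ((h.chain hg).mulVec θ).sub ((h.wd.mulVec θ).smul c)
  have eE : (fun k z => Dg T S g k z *ᵥ θ - c • S k z *ᵥ θ) =
      fun k z => mf (fun t => g' t - c) (T z) *ᵥ (S k z *ᵥ θ) + cm T S g g' k z *ᵥ θ := by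
    funext k z
    rw [cm, mf_sub (h.symT z), mf_const (h.symT z), sub_mulVec, sub_mulVec, smul_mulVec,
      one_mulVec, mulVec_mulVec]
    abel
  have hb := (h.hi2 hc θ).beta3 hW
  rw [eE] at hb
  have n1 : nrk (fun k z => mf (fun t => g' t - c) (T z) *ᵥ (S k z *ᵥ θ) + cm T S g g' k z *ᵥ θ)
      ≤ o * (√v + dR S θ) + cL T S θ g g' := by
    refine (nrk_add_le (fun k => h.l2v_mul c1 (hS k)) hcm).trans (add_le_add ?_ le_rfl)
    exact (nrk_mono hS ho0 fun k z => nsq_mf_mulVec_le (h.symT z) ho _).trans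
      (mul_le_mul_of_nonneg_left (h.nrkS hd).2 ho0)
  have hb' := hb.trans (mul_le_mul_of_nonneg_left n1 (Real.sqrt_nonneg _))
  rw [← nrk_sq, ← nr_sq, cb_ipk_add_right hD (fun k => h.l2v_mul c1 (hS k)) hcm] at hb'
  have i1 : ip (fun z => Rz T S z *ᵥ θ) (fun z => mf g (T z) *ᵥ θ - c • T z *ᵥ θ) =
      ip (fun z => Rz T S z *ᵥ θ) (fun z => mf g (T z) *ᵥ θ) - c * rho T S θ ^ 2 := by
    rw [ip_comm, ip_sub_left hgT (hT.smul c) hR, ip_smul_left, ip_comm (fun z => T z *ᵥ θ),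
      h.ip_RT hc, ip_comm]
  have eS : (fun k z => mf (fun t => g' t - c) (T z) *ᵥ (S k z *ᵥ θ)) = fun k z =>
      (3 : ℝ) • ((mf r1s (T z) * S k z) *ᵥ θ +
        (mf (fun t => g' t / 3 - r1s t - c / 3) (T z) *ᵥ (DR S k z *ᵥ θ) +
          (mf (fun t => g' t / 3 - r1s t - (u₁ + u₂) / 2) (T z) *ᵥ (Mk S k *ᵥ θ) +
            ((u₁ + u₂) / 2 - c / 3) • Mk S k *ᵥ θ))) := by
    funext k z
    have a1 : mf (fun t => g' t - c) (T z) =
        (3 : ℝ) • (mf r1s (T z) + mf (fun t => g' t / 3 - r1s t - c / 3) (T z)) := by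
      rw [← mf_add (h.symT z), ← mf_const_mul (h.symT z)]
      congr 1
      funext t
      ring
    have a2 : mf (fun t => g' t / 3 - r1s t - c / 3) (T z) =
        mf (fun t => g' t / 3 - r1s t - (u₁ + u₂) / 2) (T z) +
          ((u₁ + u₂) / 2 - c / 3) • (1 : Mx m) := by
      rw [← mf_const (h.symT z), ← mf_add (h.symT z)]
      congr 1
      funext t
      ring
    have a3 : mf (fun t => g' t / 3 - r1s t - c / 3) (T z) *ᵥ (Mk S k *ᵥ θ) =
        mf (fun t => g' t / 3 - r1s t - (u₁ + u₂) / 2) (T z) *ᵥ (Mk S k *ᵥ θ) +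
          ((u₁ + u₂) / 2 - c / 3) • Mk S k *ᵥ θ := by
      rw [a2, add_mulVec, smul_mulVec, one_mulVec]
    rw [← a3, ← mulVec_add, add_comm (DR S k z *ᵥ θ), ← nrkM_split, ← mulVec_mulVec, ← add_mulVec,
      a1, smul_mulVec]
  have hrS : ∀ k, L2v fun z => (mf r1s (T z) * S k z) *ᵥ θ := fun k =>
    (h.l2_mul cr (h.l2S k)).mulVec θ
  have h2 := fun k => h.l2v_mul c2 (hD k)
  have h3 := fun k => h.l2v_mul c3 (hM k)
  have h4 := fun k => (hM k).smul ((u₁ + u₂) / 2 - c / 3)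
  have i0 : ipk (fun k z => DR S k z *ᵥ θ) (fun k (_ : Vc m) => Mk S k *ᵥ θ) = 0 :=
    Finset.sum_eq_zero fun k _ => by rw [ip_comm, h.mean_DR]
  rw [i1, eS, cb_ipk_smul_right,
    cb_ipk_add_right hD hrS (fun k => (h2 k).add ((h3 k).add (h4 k))),
    cb_ipk_add_right hD h2 (fun k => (h3 k).add (h4 k)), cb_ipk_add_right hD h3 h4,
    cb_ipk_smul_right, i0] at hb'
  obtain ⟨q1, q2⟩ := h.cb_quad hD c2 (a := u₁ - c / 3) (b := u₂ - c / 3) fun t =>
    ⟨by linarith [(hu t).1], by linarith [(hu t).2]⟩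
  rw [← nrk_sq] at q1 q2
  have n3 : nrk (fun k z => mf (fun t => g' t / 3 - r1s t - (u₁ + u₂) / 2) (T z) *ᵥ (Mk S k *ᵥ θ))
      ≤ (u₂ - u₁) / 2 * √v := by
    rw [← (h.nrkM hd).2.2]
    exact nrk_mono hM hu0 fun k z => nsq_mf_mulVec_le (h.symT z)
      (fun t => abs_le.2 ⟨by linarith [(hu t).1], by linarith [(hu t).2]⟩) _
  have b3 := (abs_ipk_le hD h3).trans (mul_le_mul_of_nonneg_left n3 (Real.sqrt_nonneg _))
  have b4 := abs_ipk_le hD hcm
  rw [abs_le] at hb' b3 b4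
  simp only [BB, rho, dR, cL] at *
  constructor <;> linarith [hb'.1, hb'.2, b3.1, b3.2, b4.1, b4.2]

theorem cb_mean_mulVec {A : Vc m → Mx m} (hA : L2m A) (θ : Vc m) :
    (fun i => ∫ z, (A z *ᵥ θ) i ∂gm m) = (of fun i j => ∫ z, A z i j ∂gm m) *ᵥ θ := by
  funext i
  simp only [mulVec, dotProduct, of_apply]
  rw [integral_finsetSum _ fun j _ => ((hA i j).integrable one_le_two).mul_const _]
  simp only [integral_mul_const]

/-- `⟨L θ, ee(T) θ⟩ = ∑ₖ M_k θ ⬝ W_k θ` -/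
theorem Fld.ip_L_ee (h : Fld T S) (hd : Dir S θ v) :
    |ip (fun z => Lz S z *ᵥ θ) fun z => mf ee (T z) *ᵥ θ| ≤ √v * vr T θ := by
  obtain ⟨C, hC⟩ := h.mf_bdd one_c_ee
  have hA : ∀ k, L2m fun z => z k • mf ee (T z) := fun k i j => by
    have := fa_bdd_mul (measurable_mf h.measT h.symT one_c_ee i j) (fun z => hC z i j)
      (wd_coord k).l2
    simpa only [Matrix.smul_apply, smul_eq_mul, mul_comm] using this
  have e : ip (fun z => Lz S z *ᵥ θ) (fun z => mf ee (T z) *ᵥ θ) =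
      ipk (fun k _ => Mk S k *ᵥ θ) fun k _ => Wk T k *ᵥ θ := by
    have e1 : ∀ k, ip (fun _ => Mk S k *ᵥ θ) (fun _ => Wk T k *ᵥ θ) =
        ip (fun _ => Mk S k *ᵥ θ) fun z => (z k • mf ee (T z)) *ᵥ θ := fun k => by
      rw [ip_const_left _ ((hA k).mulVec θ), cb_mean_mulVec (hA k)]
      simp only [ip, integral_const, probReal_univ, one_smul]
      rfl
    have e2 : ∀ z : Vc m, Lz S z = ∑ k, z k • Mk S k := fun z => by
      ext i j
      simp only [Lz, lmat_apply, Matrix.sum_apply, Matrix.smul_apply, smul_eq_mul]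
    simp only [ipk, e1]
    simp only [ip]
    rw [← integral_finsetSum _ fun k _ => (l2v_const _).integrable_dot ((hA k).mulVec θ)]
    simp only [e2, sum_mulVec, sum_dotProduct, smul_mulVec, smul_dotProduct, dotProduct_smul]
  have n : nrk (fun k (_ : Vc m) => Wk T k *ᵥ θ) = vr T θ := by
    simp [nrk, ipk, ip, vr, nsq]
  rw [e, ← n, ← (h.nrkM hd).2.2]
  exact abs_ipk_le (fun k => l2v_const _) fun k => l2v_const _

/-- `BB sg + La = BB sh + Ex (t (s1 - ee/4) - qq) + ⟨L θ, ee(T) θ⟩/4`, `GG_le`, `Ex_id`. -/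
theorem Fld.hi_bd (h : Fld T S) (hc : Cen T) (hd : Dir S θ v) :
    BB T S θ sh + Ex T θ GG - √v * vr T θ / 4 ≤ BB T S θ sg + La T S θ := by
  have hE := h.posFun hd.unit
  have cw : Continuous fun t => s1 t - ee t / 4 := c1_s1.cont.sub (one_c_ee.div_const 4)
  have c1 : Continuous fun t => t * (s1 t - ee t / 4) := continuous_id.mul cw
  have e1 := h.cb1_comb (k := sg) (h.l2R.mulVec θ) c1_sh.cont cw 1
    (fun t => by rw [sh, s1]; ring) θ
  have e2 := h.cb1_comb (k := s1) (cb1_l2L S θ) cw one_c_ee (1 / 4) (fun t => by ring) θ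
  have e3 := h.cb1_RL cw θ
  have e4 := hE.cb1_comb (k := fun t => t * (s1 t - ee t / 4) - qq t) c1 one_c_qq (-1)
    fun t => by ring
  have e5 := hE.cb1_comb (k := fun t => GG t + ee 0 / 8 * t) (g := fun t => t) continuous_GG
    continuous_id (ee 0 / 8) fun t => rfl
  have e6 := hE.mono (fun t => GG t + ee 0 / 8 * t) (fun t => t * (s1 t - ee t / 4) - qq t)
    (continuous_GG.add (continuous_const.mul continuous_id)) (c1.sub one_c_qq) GG_le
  have e7 := (abs_le.1 (h.ip_L_ee hd)).1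
  rw [h.Ex_id hc] at e5
  unfold BB La
  linarith

end Crest.Agent.R253
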