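import Crest.Agent.R253.CoreA

set_option autoImplicit false
set_option linter.unusedVariables false
set_option linter.unusedSectionVars false

open MeasureTheory Matrix Set Filter Topology
open Crest.Agent.R215 (gam)
open Crest.Agent.R203
open Crest.GeometryTopology.Isotropic

noncomputable section

namespace Crest.Agent.R253

variable {m : ℕ}

/-! Upper bound for the variance in the direction `θ`. -/

variable {T : Vc m → Mx m} {S : Fin m → Vc m → Mx m} {θ : Vc m} {v : ℝ}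

/-- the remainder field -/
def A0 (T : Vc m → Mx m) (S : Fin m → Vc m → Mx m) (θ : Vc m) (v c : ℝ) (z : Vc m) : Vc m :=
  mf (fun t => r1 t - 1 / 4) (T z) *ᵥ (Rz T S z *ᵥ θ) +
    (v - 1) • mf (fun t => r2 t - c) (T z) *ᵥ θ + mf r2 (T z) *ᵥ (Om S z *ᵥ θ) + O5 T S z *ᵥ θ

def B0 (T : Vc m → Mx m) (S : Fin m → Vc m → Mx m) (θ : Vc m) (k : Fin m) (z : Vc m) : Vc m :=
  mf (fun t => r1 t - 1 / 4) (T z) *ᵥ (DR S k z *ᵥ θ) + cm T S r0 r1 k z *ᵥ θ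

theorem Fld.l2A0 (h : Fld T S) (θ : Vc m) (v c : ℝ) : L2v (A0 T S θ v c) := by
  exact (((h.l2v_mul (c1_r0.c.sub continuous_const) (h.l2R.mulVec θ)).add
    (((h.l2_mf (c1_r1.c.sub continuous_const)).mulVec θ).smul _)).add
      (h.l2v_mul c1_r1.c (h.l2Om.mulVec θ))).add (h.l2O5.mulVec θ)
theorem Fld.l2B0 (h : Fld T S) (θ : Vc m) (k : Fin m) : L2v (B0 T S θ k) := by
  exact (h.l2v_mul (c1_r0.c.sub continuous_const) ((h.l2DR k).mulVec θ)).add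
    ((h.l2_cm c1_r0 k).mulVec θ)

theorem cc1_ip_sum {F : Fin m → Vc m → Vc m} {W : Vc m → Vc m} (hF : ∀ k, L2v (F k)) (hW : L2v W) :
    ip (fun z => ∑ k, F k z) W = ∑ k, ip (F k) W := by
  simp only [ip, sum_dotProduct]
  exact integral_finsetSum _ fun k _ => (hF k).integrable_dot hW

/-- `WD.ibp` for the entries of `r1(T) M_k θ` and `W` -/
theorem Fld.ibp_r1L (h : Fld T S) (θ : Vc m) {W : Vc m → Vc m} {E : Fin m → Vc m → Vc m}
    (hW : VW W E) : ip (fun z => mf r1 (T z) *ᵥ (Lz S z *ᵥ θ)) W =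
      ∑ k, ip (fun z => Dg T S r1 k z *ᵥ (Mk S k *ᵥ θ)) W +
        ipk (fun k z => mf r1 (T z) *ᵥ (Mk S k *ᵥ θ)) E := by
  have hu := fun k => (h.chain c1_r1).mulVec (Mk S k *ᵥ θ)
  have hz : ∀ k, L2v fun z => z k • mf r1 (T z) *ᵥ (Mk S k *ᵥ θ) := fun k i => ((hu k i).zmul k).1
  simp only [Lz, lmat, sum_mulVec, mulVec_sum, smul_mulVec, mulVec_smul]
  rw [cc1_ip_sum hz hW.l2, ipk, ← Finset.sum_add_distrib]
  refine Finset.sum_congr rfl fun k _ => ?_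
  rw [ip_eq_sum (hz k) hW.l2, ip_eq_sum ((hu k).l2d k) hW.l2, ip_eq_sum (hu k).l2 (hW.l2d k),
    ← Finset.sum_add_distrib]
  exact Finset.sum_congr rfl fun i _ => (hu k i).ibp (hW i) k

/-- `lam - r0 = t r1 - r2`, `ibp_r1L`, `Dg r1 = r2(T) S + cm`, `sum_SM`, `Dg r0 = r1(T) S + cm`. -/
theorem Fld.err_eq (h : Fld T S) (hd : Dir S θ v) (c : ℝ) {W : Vc m → Vc m}
    {E : Fin m → Vc m → Vc m} (hW : VW W E) :
    ip (fun z => mf lam (T z) *ᵥ θ) W - ip (fun z => mf r0 (T z) *ᵥ θ) W -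
        ipk (fun k z => Dg T S r0 k z *ᵥ θ) E =
      c * (v - 1) * ip (fun _ => θ) W + ip (A0 T S θ v c) W - ipk (B0 T S θ) E -
        (ipk (fun k z => DR S k z *ᵥ θ) E - ip (fun z => Rz T S z *ᵥ θ) W) / 4 := by
  have hu := fun k => (h.chain c1_r1).mulVec (Mk S k *ᵥ θ)
  have l1 := (h.l2_mf continuous_lam).mulVec θ
  have l2 := (h.l2_mf c1_r0.cont).mulVec θ
  have l3 := l2v_sum Finset.univ fun k _ => (hu k).l2d k
  have l4 : L2v fun z => mf r1 (T z) *ᵥ (Lz S z *ᵥ θ) :=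
    h.l2v_mul c1_r0.c ((mw_Lz S).mulVec θ).l2
  have l5 := (l2v_const θ).smul (c * (v - 1))
  have l6 := h.l2A0 θ v c
  have l7 := (h.l2R.mulVec θ).smul (1 / 4)
  have e1 : ∀ z, mf lam (T z) *ᵥ θ - mf r0 (T z) *ᵥ θ + ∑ k, Dg T S r1 k z *ᵥ (Mk S k *ᵥ θ) =
      mf r1 (T z) *ᵥ (Lz S z *ᵥ θ) + (c * (v - 1)) • θ + A0 T S θ v c z +
        (1 / 4 : ℝ) • Rz T S z *ᵥ θ := fun z => by
    have a1 : mf lam (T z) = mf r1 (T z) * T z + mf r0 (T z) - mf r2 (T z) := by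
      conv_rhs => enter [1, 1, 2]; rw [← mf_id (h.symT z)]
      rw [← mf_mul (h.symT z), ← mf_add (h.symT z), ← mf_sub (h.symT z)]
      congr 1
      funext t
      rw [r2]
      ring
    have a2 : ∑ k, Dg T S r1 k z *ᵥ (Mk S k *ᵥ θ) =
        O5 T S z *ᵥ θ + mf r2 (T z) *ᵥ (v • θ + Om S z *ᵥ θ) := by
      rw [← h.sum_SM hd z, O5, sum_mulVec, mulVec_sum, ← Finset.sum_add_distrib]
      refine Finset.sum_congr rfl fun k _ => ?_
      simp only [cm, ← mulVec_mulVec, sub_mulVec, sub_add_cancel]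
    simp only [a1, a2, A0, Rz, mf_sub (h.symT z), mf_const (h.symT z), sub_mulVec, add_mulVec,
      ← mulVec_mulVec, mulVec_add, mulVec_sub, mulVec_smul, smul_mulVec, one_mulVec]
    module
  have e2 : ∀ k z, Dg T S r0 k z *ᵥ θ = mf r1 (T z) *ᵥ (Mk S k *ᵥ θ) + B0 T S θ k z +
      (1 / 4 : ℝ) • DR S k z *ᵥ θ := fun k z => by
    simp only [B0, cm, DR, mf_sub (h.symT z), mf_const (h.symT z), sub_mulVec, ← mulVec_mulVec,
      mulVec_sub, smul_mulVec, one_mulVec]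
    module
  have f1 := congrArg (fun u => ip u W) (funext e1)
  rw [ip_add_left (l1.sub l2) l3 hW.l2, ip_sub_left l1 l2 hW.l2,
    cc1_ip_sum (fun k => (hu k).l2d k) hW.l2, ip_add_left ((l4.add l5).add l6) l7 hW.l2,
    ip_add_left (l4.add l5) l6 hW.l2, ip_add_left l4 l5 hW.l2, ip_smul_left, ip_smul_left,
    h.ibp_r1L θ hW] at f1
  have f2 : ipk (fun k z => Dg T S r0 k z *ᵥ θ) E =
      ipk (fun k z => mf r1 (T z) *ᵥ (Mk S k *ᵥ θ)) E + ipk (B0 T S θ) E +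
        1 / 4 * ipk (fun k z => DR S k z *ᵥ θ) E := by
    simp only [ipk, Finset.mul_sum, ← Finset.sum_add_distrib]
    refine Finset.sum_congr rfl fun k _ => ?_
    rw [funext (e2 k), ip_add_left ((hu k).l2.add (h.l2B0 θ k)) (((h.l2DR k).mulVec θ).smul _)
      (hW.l2d k), ip_add_left (hu k).l2 (h.l2B0 θ k) (hW.l2d k), ip_smul_left]
  linarith

theorem cc_r1 (t : ℝ) : |r1 t - 1 / 4| ≤ 1 / 4 :=
  abs_le.2 ⟨by linarith [r1_nonneg t], by linarith [r1_le t]⟩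

theorem cc_r2 (t : ℝ) : |r2 t| ≤ 9 / 100 :=
  abs_le.2 ⟨by linarith [r2_nonneg t], r2_le t⟩

theorem cc_c1 : Continuous fun t => r1 t - 1 / 4 := one_c_r1.sub continuous_const

theorem cc_c2 (c : ℝ) : Continuous fun t => r2 t - c := one_c_r2.sub continuous_const

theorem cc_nr_smul {u : Vc m → Vc m} (hu : L2v u) (c : ℝ) : nr (fun z => c • u z) ≤ |c| * nr u :=
  nr_mono hu (abs_nonneg c) fun z => by
    simp only [nsq, smul_dotProduct, dotProduct_smul, smul_eq_mul, sq_abs]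
    exact le_of_eq (by ring)

theorem cc_nr_mf (h : Fld T S) {g : ℝ → ℝ} {K : ℝ} (hK : ∀ t, |g t| ≤ K) {u : Vc m → Vc m}
    (hu : L2v u) : nr (fun z => mf g (T z) *ᵥ u z) ≤ K * nr u :=
  nr_mono hu ((abs_nonneg _).trans (hK 0)) fun z => nsq_mf_mulVec_le (h.symT z) hK _

theorem cc_ip_unit (hθ : θ ⬝ᵥ θ = 1) : ip (fun _ : Vc m => θ) (fun _ => θ) = 1 := by
  simp [ip, hθ]

theorem cc_nr_unit (hθ : θ ⬝ᵥ θ = 1) : nr (fun _ : Vc m => θ) = 1 := by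
  rw [nr, cc_ip_unit hθ, Real.sqrt_one]

theorem cc_ip_add_right {x u w : Vc m → Vc m} (hx : L2v x) (hu : L2v u) (hw : L2v w) :
    ip x (fun z => u z + w z) = ip x u + ip x w := by
  rw [ip_comm, ip_add_left hu hw hx, ip_comm u, ip_comm w]

theorem cc_ip_sub_right {x u w : Vc m → Vc m} (hx : L2v x) (hu : L2v u) (hw : L2v w) :
    ip x (fun z => u z - w z) = ip x u - ip x w := by
  rw [ip_comm, ip_sub_left hu hw hx, ip_comm u, ip_comm w]

theorem cc_ip_smul_right (c : ℝ) (x u : Vc m → Vc m) : ip x (fun z => c • u z) = c * ip x u := by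
  rw [ip_comm, ip_smul_left, ip_comm u]

theorem cc_ipk_comm (D E : Fin m → Vc m → Vc m) : ipk D E = ipk E D :=
  Finset.sum_congr rfl fun k _ => ip_comm _ _

theorem cc_ipk_sub_right {X D E : Fin m → Vc m → Vc m} (hX : ∀ k, L2v (X k)) (hD : ∀ k, L2v (D k))
    (hE : ∀ k, L2v (E k)) : ipk X (fun k z => D k z - E k z) = ipk X D - ipk X E := by
  simp only [ipk, ← Finset.sum_sub_distrib]
  exact Finset.sum_congr rfl fun k _ => cc_ip_sub_right (hX k) (hD k) (hE k)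

theorem Fld.nr_A0 (h : Fld T S) (hd : Dir S θ v) (c : ℝ) :
    nr (A0 T S θ v c) ≤ rho T S θ / 4 + |v - 1| * √(Ex T θ fun t => (r2 t - c) ^ 2) +
      9 / 100 * (√v * om S θ v) + √v * c5 T S θ v := by
  have lR := h.l2R.mulVec θ
  have lO := h.l2Om.mulVec θ
  have l5 := h.l2O5.mulVec θ
  have l1 := h.l2v_mul cc_c1 lR
  have l2 := (h.l2_mf (cc_c2 c)).mulVec θ
  have l3 := h.l2v_mul one_c_r2 lO
  have t1 := nr_add_le ((l1.add (l2.smul (v - 1))).add l3) l5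
  have t2 := nr_add_le (l1.add (l2.smul (v - 1))) l3
  have t3 := nr_add_le l1 (l2.smul (v - 1))
  have b1 := cc_nr_mf h cc_r1 lR
  have b2 := cc_nr_smul l2 (v - 1)
  have b3 := cc_nr_mf h cc_r2 lO
  rw [h.nr_mf (cc_c2 c)] at b2
  rw [h.nr_Om hd] at b3
  rw [h.nr_O5 hd] at t1
  have e : nr (A0 T S θ v c) = nr fun z => mf (fun t => r1 t - 1 / 4) (T z) *ᵥ (Rz T S z *ᵥ θ) +
    (v - 1) • mf (fun t => r2 t - c) (T z) *ᵥ θ + mf r2 (T z) *ᵥ (Om S z *ᵥ θ) + O5 T S z *ᵥ θ :=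
    rfl
  rw [e, rho]
  linarith

theorem Fld.nrk_B0 (h : Fld T S) (θ : Vc m) : nrk (B0 T S θ) ≤ dR S θ / 4 + cL T S θ r0 r1 := by
  have lD := fun k => (h.l2DR k).mulVec θ
  have l1 := fun k => h.l2v_mul cc_c1 (lD k)
  have l2 := fun k => (h.l2_cm c1_r0 k).mulVec θ
  have t1 := nrk_add_le l1 l2
  have b1 : nrk (fun k z => mf (fun t => r1 t - 1 / 4) (T z) *ᵥ (DR S k z *ᵥ θ)) ≤
      1 / 4 * nrk fun k z => DR S k z *ᵥ θ :=
    nrk_mono lD (by norm_num) fun k z => nsq_mf_mulVec_le (h.symT z) cc_r1 _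
  have e : nrk (B0 T S θ) = nrk fun k z =>
      mf (fun t => r1 t - 1 / 4) (T z) *ᵥ (DR S k z *ᵥ θ) + cm T S r0 r1 k z *ᵥ θ := rfl
  rw [e, dR, cL]
  linarith

theorem Fld.mean_A0 (h : Fld T S) (hd : Dir S θ v) (c : ℝ) :
    |ip (fun _ => θ) (A0 T S θ v c) - (v - 1) * (Ex T θ r2 - c)| ≤ rho T S θ / 4 +
      √(Ex T θ fun t => (r2 t - c) ^ 2) * (√v * om S θ v) + √v * c5 T S θ v := by
  have lθ : L2v fun _ : Vc m => θ := l2v_const θ
  have lR := h.l2R.mulVec θ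
  have lO := h.l2Om.mulVec θ
  have l5 := h.l2O5.mulVec θ
  have l1 := h.l2v_mul cc_c1 lR
  have l2 := (h.l2_mf (cc_c2 c)).mulVec θ
  have l3 := h.l2v_mul one_c_r2 lO
  have e : ip (fun _ => θ) (A0 T S θ v c) = ip (fun _ => θ) fun z =>
      mf (fun t => r1 t - 1 / 4) (T z) *ᵥ (Rz T S z *ᵥ θ) +
      (v - 1) • mf (fun t => r2 t - c) (T z) *ᵥ θ + mf r2 (T z) *ᵥ (Om S z *ᵥ θ) + O5 T S z *ᵥ θ :=
    rfl
  have e2 : ip (fun _ => θ) (fun z => mf (fun t => r2 t - c) (T z) *ᵥ θ) = Ex T θ r2 - c := by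
    have P := h.posFun hd.unit
    have h1 := P.add r2 (fun _ => -c * 1) one_c_r2 continuous_const
    have h2 := P.smul (-c) (fun _ => 1) continuous_const
    rw [h2, P.one] at h1
    have h3 : (fun t => r2 t - c) = fun t => r2 t + -c * 1 := by funext t; ring
    change Ex T θ (fun t => r2 t - c) = _
    rw [h3, h1]
    ring
  have e3 : ip (fun _ => θ) (fun z => mf r2 (T z) *ᵥ (Om S z *ᵥ θ)) =
      ip (fun z => mf (fun t => r2 t - c) (T z) *ᵥ θ) fun z => Om S z *ᵥ θ := by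
    have h1 : (fun z => mf (fun t => r2 t - c) (T z) *ᵥ θ) =
        fun z => mf r2 (T z) *ᵥ θ - c • θ := by
      funext z
      rw [mf_sub (h.symT z) r2 fun _ => c, mf_const (h.symT z), sub_mulVec, smul_mulVec,
        one_mulVec]
    rw [h1, ip_sub_left ((h.l2_mf one_c_r2).mulVec θ) (l2v_const _) lO, h.mean_Om, sub_zero]
    simp only [ip]
    exact integral_congr_ae (Eventually.of_forall fun z =>
      dot_mulVec_symm (mf_isSymm (h.symT z) r2) _ _)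
  rw [e, cc_ip_add_right lθ ((l1.add (l2.smul (v - 1))).add l3) l5,
    cc_ip_add_right lθ (l1.add (l2.smul (v - 1))) l3, cc_ip_add_right lθ l1 (l2.smul (v - 1)),
    cc_ip_smul_right, e2, e3]
  have a1 := abs_ip_le lθ l1
  have a3 := abs_ip_le l2 lO
  have a5 := abs_ip_le lθ l5
  have b1 := cc_nr_mf h cc_r1 lR
  rw [cc_nr_unit hd.unit, one_mul] at a1 a5
  rw [h.nr_mf (cc_c2 c), h.nr_Om hd] at a3
  rw [h.nr_O5 hd] at a5
  rw [rho]
  have := abs_le.1 a1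
  have := abs_le.1 a3
  have := abs_le.1 a5
  exact abs_le.2 ⟨by linarith [this.1], by linarith [this.2]⟩

theorem cc_fin {x y β A B A' B' a b s : ℝ} (ha : 0 ≤ a) (hb : 0 ≤ b) (hA : A ≤ A') (hB : B ≤ B')
    (hx : |x| ≤ A * a) (hy : |y| ≤ B * b) (hβ : |β| ≤ s * √(a ^ 2 + b ^ 2)) :
    2 * (x - y - β / 4) - a ^ 2 - b ^ 2 ≤ (√(A' ^ 2 + B' ^ 2) + s / 4) ^ 2 := by
  have h1 : A' * a + B' * b ≤ √(A' ^ 2 + B' ^ 2) * √(a ^ 2 + b ^ 2) := by
    rw [← Real.sqrt_mul (by positivity)]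
    exact (le_abs_self _).trans (Real.abs_le_sqrt (by nlinarith [sq_nonneg (A' * b - B' * a)]))
  have h2 : √(a ^ 2 + b ^ 2) ^ 2 = a ^ 2 + b ^ 2 := Real.sq_sqrt (by positivity)
  have h3 := mul_le_mul_of_nonneg_right hA ha
  have h4 := mul_le_mul_of_nonneg_right hB hb
  have h5 := (abs_le.1 hx).2
  have h6 := (abs_le.1 hy).1
  have h7 := (abs_le.1 hβ).1
  nlinarith [sq_nonneg (√(A' ^ 2 + B' ^ 2) + s / 4 - √(a ^ 2 + b ^ 2))]

/-- `WD.var_le`: write the test field as `u = r0(T) θ + c (v-1) θ + W₁` and expand with `err_eq`;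
`2 ⟨lam(T) θ, r0(T) θ⟩ - |r0(T) θ|² - |D r0(T) θ|² = AA + 1`; `Hi2.beta1`, Cauchy–Schwarz. -/
theorem Fld.var_bd (h : Fld T S) (hc : Cen T) (hd : Dir S θ v) {c : ℝ} (c0 : 0 ≤ c)
    {f : Vc m → ℝ} (hf : WD f fun k z => (mf lam (T z) *ᵥ θ) k) :
    ∫ z, f z ^ 2 ∂gm m - (∫ z, f z ∂gm m) ^ 2 ≤
      1 + AA T S θ + (v - 1) ^ 2 * (2 * c * Ex T θ r2 - c ^ 2) + 2 * c * |v - 1| * (rho T S θ / 4 +
        √(Ex T θ fun t => (r2 t - c) ^ 2) * (√v * om S θ v) + √v * c5 T S θ v) +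
      (√((rho T S θ / 4 + |v - 1| * √(Ex T θ fun t => (r2 t - c) ^ 2) +
          9 / 100 * (√v * om S θ v) + √v * c5 T S θ v) ^ 2 + (dR S θ / 4 + cL T S θ r0 r1) ^ 2) +
        √(dR S θ ^ 2 - 5 / 3 * rho T S θ ^ 2) / 4) ^ 2 := by
  refine hf.var_le fun u D hu => ?_
  change 2 * ip (fun z => mf lam (T z) *ᵥ θ) u - ip u u - ipk D D ≤ _
  have hp : VW (fun z => mf r0 (T z) *ᵥ θ) fun k z => Dg T S r0 k z *ᵥ θ :=
    (h.chain c1_r0).mulVec θ
  have lθ : L2v fun _ : Vc m => θ := l2v_const θ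
  have lL := (h.l2_mf c1_lam.cont).mulVec θ
  have lA := h.l2A0 θ v c
  have lB := h.l2B0 θ
  have H := h.hi2 hc θ
  have hLp : ip (fun z => mf lam (T z) *ᵥ θ) (fun z => mf r0 (T z) *ᵥ θ) = Ex T θ FF := by
    rw [h.ip_mf θ c1_lam.cont one_c_r0]
    simp only [lam_mul_r0]
  have hu' := hu.sub hp
  have hW : VW (fun z => (u z - mf r0 (T z) *ᵥ θ) - (c * (v - 1)) • θ)
      fun k z => D k z - Dg T S r0 k z *ᵥ θ := by
    simpa only [smul_zero, sub_zero] using hu'.sub ((vw_const θ).smul (c * (v - 1)))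
  have err := h.err_eq hd c hu'
  have e1 := cc_ip_sub_right lL hu.l2 hp.l2
  have e2 := cc_ip_sub_right hp.l2 hu.l2 hp.l2
  have e3 := cc_ip_sub_right hu'.l2 hu.l2 hp.l2
  have e4 := ip_sub_left hu.l2 hp.l2 hu.l2
  have e5 := ip_comm (fun z => u z - mf r0 (T z) *ᵥ θ) fun z => mf r0 (T z) *ᵥ θ
  have f2 := cc_ipk_sub_right hp.l2d hu.l2d hp.l2d
  have f3 := cc_ipk_sub_right hu'.l2d hu.l2d hp.l2d
  have f4 := cc_ipk_sub_right hu.l2d hu.l2d hp.l2d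
  have f5 := cc_ipk_comm (fun k z => D k z - Dg T S r0 k z *ᵥ θ) fun k z => Dg T S r0 k z *ᵥ θ
  have f6 := cc_ipk_comm (fun k z => D k z - Dg T S r0 k z *ᵥ θ) D
  have f7 := cc_ipk_comm D fun k z => Dg T S r0 k z *ᵥ θ
  have g : ∀ {x : Vc m → Vc m}, L2v x →
      ip x (fun z => (u z - mf r0 (T z) *ᵥ θ) - (c * (v - 1)) • θ) =
        ip x (fun z => u z - mf r0 (T z) *ᵥ θ) - c * (v - 1) * ip (fun _ => θ) x := fun {x} hx => by
    rw [cc_ip_sub_right hx hu'.l2 (lθ.smul _), cc_ip_smul_right, ip_comm x fun _ => θ]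
  have g1 := g lθ
  have g2 := g lA
  have g3 := g H.vw.l2
  have g4 := g hW.l2
  have g5 := g hu'.l2
  have g6 := ip_comm (fun z => (u z - mf r0 (T z) *ᵥ θ) - (c * (v - 1)) • θ)
    fun z => u z - mf r0 (T z) *ᵥ θ
  have hR0 : ip (fun _ => θ) (fun z => Rz T S z *ᵥ θ) = 0 := by
    rw [ip_const_left θ H.vw.l2]
    simp only [H.m0, dotProduct, mul_zero, Finset.sum_const_zero]
  rw [cc_ip_unit hd.unit] at g1
  rw [hR0] at g3
  have β := H.beta1 hW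
  rw [← nrk_sq, ← nr_sq, ← nr_sq, ← nrk_sq] at β
  have fin := cc_fin (Real.sqrt_nonneg _) (Real.sqrt_nonneg _) (h.nr_A0 hd c) (h.nrk_B0 θ)
    (abs_ip_le lA hW.l2) (abs_ipk_le lB hW.l2d) β
  have n1 := nr_sq fun z => (u z - mf r0 (T z) *ᵥ θ) - (c * (v - 1)) • θ
  have n2 := nrk_sq fun k z => D k z - Dg T S r0 k z *ᵥ θ
  have mean := h.mean_A0 hd c
  have mean' : c * (v - 1) * (ip (fun _ => θ) (A0 T S θ v c) - (v - 1) * (Ex T θ r2 - c)) ≤
      c * |v - 1| * (rho T S θ / 4 +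
        √(Ex T θ fun t => (r2 t - c) ^ 2) * (√v * om S θ v) + √v * c5 T S θ v) := by
    refine (le_abs_self _).trans ?_
    rw [abs_mul, abs_mul, abs_of_nonneg c0]
    exact mul_le_mul_of_nonneg_left mean (by positivity)
  have g1' : c * (v - 1) * ip (fun _ => θ) (fun z => (u z - mf r0 (T z) *ᵥ θ) - (c * (v - 1)) • θ) =
      c * (v - 1) * ip (fun _ => θ) (fun z => u z - mf r0 (T z) *ᵥ θ) - (c * (v - 1)) ^ 2 := by
    rw [g1]; ring
  rw [AA]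
  change 2 * (_ - _ - _ / 4) - nr _ ^ 2 - nrk _ ^ 2 ≤
    (_ + √(dR S θ ^ 2 - 5 / 3 * rho T S θ ^ 2) / 4) ^ 2 at fin
  linarith

end Crest.Agent.R253
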