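import Crest.Agent.R253.CoreA

set_option autoImplicit false
set_option linter.unusedVariables false
set_option linter.unusedSectionVars false

open MeasureTheory Matrix Set Filter Topology
open Crest.Agent.R215 (gam)
open Crest.Agent.R203
open Crest.GeometryTopology.Isotropic

noncomputable section

namespace Crest.Agent.R253

variable {m : ℕ}

/-! Sums over an eigenbasis of `VV`. -/

variable {T : Vc m → Mx m} {S : Fin m → Vc m → Mx m} {U : Mx m} {d : Fin m → ℝ} {g g' : ℝ → ℝ}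

/-- the columns of `U` -/
def col (U : Mx m) (a : Fin m) : Vc m := fun i => U i a

theorem dir_col (E : Eig (VV S) U d) (a : Fin m) : Dir S (col U a) (d a) := by
  refine ⟨col_dot_self E.hU a, funext fun i => ?_⟩
  have := congrFun (congrFun E.mul_U i) a
  rw [mul_diagonal, mul_apply] at this
  simp only [Pi.smul_apply, smul_eq_mul, col, mulVec, dotProduct]
  rw [this, mul_comm]

theorem cd1_trace (N : Mx m) (c : Fin m → ℝ) :
    trace (N * diagonal c * Nᵀ) = ∑ a, c a * ∑ i, N i a * N i a := by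
  simp only [trace, diag, Finset.mul_sum]
  rw [Finset.sum_comm]
  refine Finset.sum_congr rfl fun i _ => ?_
  rw [mul_apply]
  refine Finset.sum_congr rfl fun a _ => ?_
  rw [mul_diagonal, transpose_apply]
  ring

/-- The block vectors `(M_k θ_a / √d_a)_k` (for `d_a > 0`) are orthonormal; Bessel's inequality for
every row of the block matrix `(B_k)_k`. -/
theorem bessel_blocks {M : Fin m → Mx m} (hM : ∀ k, (M k).IsSymm) (E : Eig (∑ k, M k * M k) U d)
    (B : Fin m → Mx m) :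
    ∑ a, nsq ((∑ k, B k * M k) *ᵥ col U a) / d a ≤ ∑ k, fr2 (B k) := by
  set C := ∑ k, B k * M k with hC
  set N := C * U with hN
  set D : Mx m := diagonal fun a => (d a)⁻¹ with hD
  set W := N * D * Uᵀ with hW
  have hDt : Dᵀ = D := diagonal_transpose _
  have hWt : Wᵀ = U * D * Nᵀ := by
    rw [hW, transpose_mul, transpose_mul, transpose_transpose, hDt, Matrix.mul_assoc]
  have h0 : ∑ a, nsq (C *ᵥ col U a) / d a = trace (N * D * Nᵀ) := by
    rw [hD, cd1_trace]
    refine Finset.sum_congr rfl fun a _ => ?_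
    rw [div_eq_inv_mul]
    rfl
  have h1 : ∑ k, fip (B k) (W * M k) = trace (N * D * Nᵀ) := by
    have : ∀ k, fip (B k) (W * M k) = trace (B k * M k * Wᵀ) := fun k => by
      rw [fip_eq_trace, transpose_mul, (hM k).eq, Matrix.mul_assoc]
    simp only [this]
    rw [← trace_sum, ← Finset.sum_mul, ← hC, hWt, hN]
    simp only [Matrix.mul_assoc]
  have h2 : ∑ k, fr2 (W * M k) = trace (N * D * Nᵀ) := by
    have : ∀ k, fr2 (W * M k) = trace (W * (M k * M k) * Wᵀ) := fun k => by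
      rw [fr2_eq_fip, fip_eq_trace, transpose_mul, (hM k).eq]
      simp only [Matrix.mul_assoc]
    simp only [this]
    have e : D * diagonal d * D = D := by
      rw [hD, diagonal_mul_diagonal, diagonal_mul_diagonal]
      congr 1
      funext a
      by_cases ha : d a = 0
      · simp [ha]
      · rw [inv_mul_cancel₀ ha, one_mul]
    rw [← trace_sum, ← Finset.sum_mul, ← Finset.mul_sum, hWt, hW]
    congr 1
    calc N * D * Uᵀ * (∑ k, M k * M k) * (U * D * Nᵀ)
        = N * (D * (Uᵀ * (∑ k, M k * M k) * U) * D) * Nᵀ := by simp only [Matrix.mul_assoc]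
      _ = N * D * Nᵀ := by rw [E.conj, e]
  have h3 : 0 ≤ ∑ k, fr2 (B k - W * M k) := Finset.sum_nonneg fun k _ => fr2_nonneg _
  simp only [fr2_sub, Finset.sum_add_distrib, Finset.sum_sub_distrib, ← Finset.mul_sum] at h3
  rw [h0]
  linarith

theorem Fld.Gap_eq (h : Fld T S) : Gap T S = ∑ k, ∫ z, gp1 (T z) (S k z) ∂gm m ∧
    ∀ k, Integrable (fun z => gp1 (T z) (S k z)) (gm m) := by
  have hc : Continuous fun t => (lam t)⁻¹ := continuous_lam.inv₀ fun t => (lam_pos t).ne'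
  have hi : ∀ k, Integrable (fun z => gp1 (T z) (S k z)) (gm m) := fun k =>
    ((h.l2_mul' hc (h.l2_mul hc (h.l2_Dg c1_FF k))).integrable_fip (h.l2_Dg c1_FF k)).sub
      (h.l2S k).integrable_fr2
  refine ⟨?_, hi⟩
  rw [← integral_finsetSum _ fun k _ => hi k]
  simp only [Gap, boz, ← Finset.sum_sub_distrib]
  rfl
theorem Fld.Gap_nonneg (h : Fld T S) : 0 ≤ Gap T S := by
  rw [h.Gap_eq.1]
  refine Finset.sum_nonneg fun k _ => integral_nonneg fun z => ?_
  obtain ⟨U, d, E⟩ := exists_eig (h.symT z)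
  simp only [gp1_eq E (h.symS k z)]
  exact Finset.sum_nonneg fun a _ => Finset.sum_nonneg fun b _ =>
    mul_nonneg (gk_nonneg _ _) (sq_nonneg _)

theorem Fld.sum_rho (h : Fld T S) (hU : U * Uᵀ = 1) :
    ∑ a, rho T S (col U a) ^ 2 = n2m (Rz T S) := sum_nr_sq h.l2R hU
theorem Fld.cd1_bessel (h : Fld T S) (E : Eig (VV S) U d) {B : Fin m → Vc m → Mx m}
    (hB : ∀ k, L2m (B k)) :
    ∑ a, (nr (fun z => (∑ k, B k z * Mk S k) *ᵥ col U a) / √(d a)) ^ 2 ≤ ∑ k, n2m (B k) := by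
  have hC : L2m fun z => ∑ k, B k z * Mk S k := l2m_sum _ fun k _ => (hB k).mul_const _
  have hi : ∀ a, Integrable (fun z => nsq ((∑ k, B k z * Mk S k) *ᵥ col U a) / d a) (gm m) :=
    fun a => ((hC.mulVec _).integrable_dot (hC.mulVec _)).div_const _
  have e : ∀ a, (nr (fun z => (∑ k, B k z * Mk S k) *ᵥ col U a) / √(d a)) ^ 2 =
      ∫ z, nsq ((∑ k, B k z * Mk S k) *ᵥ col U a) / d a ∂gm m := fun a => by
    rw [div_pow, nr_sq, Real.sq_sqrt (h.nrkM (dir_col E a)).1, integral_div]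
    rfl
  simp only [e, n2m]
  rw [← integral_finsetSum _ fun a _ => hi a,
    ← integral_finsetSum _ fun k _ => (hB k).integrable_fr2]
  exact integral_mono (integrable_finsetSum _ fun a _ => hi a)
    (integrable_finsetSum _ fun k _ => (hB k).integrable_fr2)
    fun z => bessel_blocks h.Mk_symm E fun k => B k z
theorem Fld.sum_om (h : Fld T S) (E : Eig (VV S) U d) :
    ∑ a, om S (col U a) (d a) ^ 2 ≤ ∑ a, dR S (col U a) ^ 2 := by
  refine (h.cd1_bessel E h.l2DR).trans (le_of_eq ?_)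
  simp only [dR, nrk_sq, ipk, ← nr_sq]
  rw [Finset.sum_comm]
  exact Finset.sum_congr rfl fun k _ => (sum_nr_sq (h.l2DR k) E.hU).symm
theorem Fld.sum_c5 (h : Fld T S) (E : Eig (VV S) U d) :
    ∑ a, c5 T S (col U a) (d a) ^ 2 ≤ 3 * (45 / 1000) ^ 2 * Gap T S := by
  refine (h.cd1_bessel E (h.l2_cm c1_r1)).trans ?_
  rw [h.Gap_eq.1, Finset.mul_sum]
  refine Finset.sum_le_sum fun k _ => ?_
  rw [← integral_const_mul]
  exact integral_mono (h.l2_cm c1_r1 k).integrable_fr2 ((h.Gap_eq.2 k).const_mul _)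
    fun z => fr2_cm_le (h.symT z) (h.symS k z) c1_r1 lip_r2
theorem cd2_ip {A : Vc m → Mx m} (h : L2m A) (hU : U * Uᵀ = 1) :
    ∑ a, ip (fun z => A z *ᵥ col U a) (fun z => A z *ᵥ col U a) = n2m A := by
  simp only [← nr_sq]
  exact sum_nr_sq h hU
theorem cd2_ipk {A : Fin m → Vc m → Mx m} (h : ∀ k, L2m (A k)) (hU : U * Uᵀ = 1) :
    ∑ a, ipk (fun k z => A k z *ᵥ col U a) (fun k z => A k z *ᵥ col U a) = ∑ k, n2m (A k) := by
  simp only [ipk]
  rw [Finset.sum_comm]
  exact Finset.sum_congr rfl fun k _ => cd2_ip (h k) hU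
theorem cd2_gap (h : Fld T S) (hU : U * Uᵀ = 1) {A : Fin m → Vc m → Mx m} (hA : ∀ k, L2m (A k))
    {c : ℝ} (hle : ∀ k z, fr2 (A k z) ≤ c * gp1 (T z) (S k z)) :
    ∑ a, nrk (fun k z => A k z *ᵥ col U a) ^ 2 ≤ c * Gap T S := by
  simp only [nrk_sq]
  rw [cd2_ipk hA hU, h.Gap_eq.1, Finset.mul_sum]
  refine Finset.sum_le_sum fun k _ => ?_
  rw [← integral_const_mul]
  exact integral_mono (hA k).integrable_fr2 ((h.Gap_eq.2 k).const_mul c) (hle k)
theorem cd2_fr2_transpose (A : Mx m) : fr2 Aᵀ = fr2 A := by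
  simp only [fr2, transpose_apply]
  exact Finset.sum_comm
theorem Fld.sum_cL (h : Fld T S) (hU : U * Uᵀ = 1) (hg : C1 g g') {K : ℝ}
    (hK : ∀ s t, |g' s - g' t| ≤ K * |ell s - ell t|) :
    ∑ a, cL T S (col U a) g g' ^ 2 ≤ 3 * K ^ 2 * Gap T S ∧
      ∑ a, cR T S (col U a) g g' ^ 2 ≤ 3 * K ^ 2 * Gap T S := 
  ⟨cd2_gap h hU (h.l2_cm hg) fun k z => fr2_cm_le (h.symT z) (h.symS k z) hg hK,
    cd2_gap h hU (fun k => (h.l2_cm hg k).transpose) fun k z =>
      (cd2_fr2_transpose _).trans_le (fr2_cm_le (h.symT z) (h.symS k z) hg hK)⟩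
theorem Fld.sum_cJ (h : Fld T S) (hU : U * Uᵀ = 1) :
    ∑ a, cJ T S (col U a) ^ 2 ≤ 3 / 400 * Gap T S := 
  cd2_gap h hU h.l2J fun k z => fr2_J_le (h.symT z) (h.symS k z)

/-- Parity: `W_k = E z_k O`, `O z = (ee(T z) - ee(T (-z)))/2`, `ee(T(-z)) = ee(-T(-z))`,
`|O z| ≤ |T z + T(-z)|/2 = |R z + R(-z)|/2` (`fr2_mf_sub_le`, `ee_lip`), `bessel_one`. -/
theorem Fld.sum_vr (h : Fld T S) (hU : U * Uᵀ = 1) :
    ∑ a, vr T (col U a) ^ 2 ≤ ∑ a, rho T S (col U a) ^ 2 := by
  have hE := h.l2_mf c1_ee.cont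
  have hN : L2m fun z => mf ee (T (-z)) := fun i j => memLp_comp_neg (hE i j)
  have hO := (hE.sub hN).smul (1 / 2)
  have hR : L2m fun z => Rz T S (-z) := fun i j => memLp_comp_neg (h.l2R i j)
  have e1 : ∑ a, vr T (col U a) ^ 2 = ∑ i, ∑ j, ∑ k, Wk T k i j ^ 2 := by
    have : ∀ a, vr T (col U a) ^ 2 = ∑ k, nsq (Wk T k *ᵥ col U a) := fun a =>
      Real.sq_sqrt (Finset.sum_nonneg fun k _ => ip_self_nonneg_aux _)
    simp only [this]
    rw [Finset.sum_comm]
    refine (Finset.sum_congr rfl fun k _ => sum_nr_sq_aux (Wk T k) hU).trans ?_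
    simp only [fr2]
    rw [Finset.sum_comm]
    exact Finset.sum_congr rfl fun i _ => Finset.sum_comm
  have e2 : ∀ k i j, Wk T k i j =
      ∫ z, z k * ((1 / 2 : ℝ) • (mf ee (T z) - mf ee (T (-z)))) i j ∂gm m := fun k i j => by
    have i1 : Integrable (fun z => z k * mf ee (T z) i j) (gm m) :=
      (PG.coord k).memLp_two.integrable_mul (hE i j)
    have i2 : Integrable (fun z => z k * mf ee (T (-z)) i j) (gm m) :=
      (PG.coord k).memLp_two.integrable_mul (hN i j)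
    have a1 := integral_comp_neg fun z : Vc m => z k * mf ee (T z) i j
    simp only [Pi.neg_apply, neg_mul, integral_neg] at a1
    have a2 : ∀ z : Vc m, z k * ((1 / 2 : ℝ) • (mf ee (T z) - mf ee (T (-z)))) i j =
        1 / 2 * (z k * mf ee (T z) i j - z k * mf ee (T (-z)) i j) := fun z => by
      simp only [Matrix.smul_apply, Matrix.sub_apply, smul_eq_mul]
      ring
    simp only [a2]
    rw [integral_const_mul, integral_sub i1 i2, Wk, of_apply]
    linarith
  have e3 : ∑ i, ∑ j, ∑ k, Wk T k i j ^ 2 ≤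
      n2m fun z => (1 / 2 : ℝ) • (mf ee (T z) - mf ee (T (-z))) := by
    simp only [n2m, fr2]
    rw [integral_finsetSum _ fun i _ => integrable_finsetSum _ fun j _ => (hO i j).integrable_sq]
    refine Finset.sum_le_sum fun i _ => ?_
    rw [integral_finsetSum _ fun j _ => (hO i j).integrable_sq]
    refine Finset.sum_le_sum fun j _ => ?_
    simp only [e2]
    exact (le_add_of_nonneg_left (sq_nonneg _)).trans (bessel_one (hO i j))
  rw [e1, h.sum_rho hU]
  refine e3.trans ?_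
  have a1 := integral_comp_neg fun z => fr2 (Rz T S z)
  have a2 : ∫ z, (1 / 2 : ℝ) * (fr2 (Rz T S z) + fr2 (Rz T S (-z))) ∂gm m = n2m (Rz T S) := by
    rw [integral_const_mul, integral_add h.l2R.integrable_fr2 hR.integrable_fr2, a1, n2m]
    ring
  rw [← a2]
  refine integral_mono hO.integrable_fr2
    ((h.l2R.integrable_fr2.add hR.integrable_fr2).const_mul _) fun z => ?_
  have b1 := fr2_mf_sub_le (K := 1) (h := ee) (h.symT z) (h.symT (-z)).neg
    fun x y _ _ => by simpa using ee_lip x y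
  have b2 : T z - -T (-z) = Rz T S z + Rz T S (-z) := by
    simp only [Rz, Lz, lmat_neg]
    abel
  rw [mf_neg_even (h.symT (-z)) ee_neg, b2, fr2_add] at b1
  have b3 := fr2_nonneg (Rz T S z - Rz T S (-z))
  rw [fr2_sub] at b3
  simp only [fr2_smul]
  linarith

theorem Fld.sum_AA (h : Fld T S) (hc : Cen T) (E : Eig (VV S) U d) :
    ∑ a, (AA T S (col U a) + (dR S (col U a) ^ 2 - rho T S (col U a) ^ 2)) =
      2 * ∫ z, trace (mf FF (T z)) ∂gm m - n2m T - m - (n2m (fun z => mf r0 (T z)) +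
        ∑ k, n2m (Dg T S r0 k) - ∑ k, n2m (S k)) := by
  have e1 : ∀ a, dR S (col U a) ^ 2 - rho T S (col U a) ^ 2 =
      ipk (fun k z => S k z *ᵥ col U a) (fun k z => S k z *ᵥ col U a) -
        Ex T (col U a) fun t => t ^ 2 := fun a => by
    rw [(h.nrkS (dir_col E a)).1, h.Ex_sq hc (dir_col E a)]
    ring
  have e2 : ∑ a, Ex T (col U a) (fun t => t ^ 2) = n2m T := by
    refine (h.sum_Ex (continuous_pow 2) E.hU).trans (integral_congr_ae (ae_of_all _ fun z => ?_))
    simp only [mf_sq (h.symT z), fr2_eq_fip, fip_of_symm (h.symT z)]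
  have e3 : ∑ a, Ex T (col U a) FF = _ := h.sum_Ex continuous_FF E.hU
  simp only [e1, AA, Finset.sum_add_distrib, Finset.sum_sub_distrib, ← Finset.mul_sum]
  rw [e2, e3, cd2_ipk h.l2S E.hU, cd2_ipk (h.l2_Dg c1_r0) E.hU, cd2_ip (h.l2_mf c1_r0.cont) E.hU]
  simp only [Finset.sum_const, Finset.card_univ, Fintype.card_fin, nsmul_eq_mul, mul_one]
  ring

/-- Hadamard's inequality in the basis `U` -/
theorem hadamard {C : Mx m} (hC : C.PosDef) (hU : U * Uᵀ = 1) : (∀ a, 0 < col U a ⬝ᵥ C *ᵥ col U a) ∧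
    Real.log C.det ≤ ∑ a, Real.log (col U a ⬝ᵥ C *ᵥ col U a) := by
  have hpos : ∀ {V : Mx m}, V * Vᵀ = 1 → ∀ a, 0 < col V a ⬝ᵥ C *ᵥ col V a := fun {V} hV a => by
    refine hC.dotProduct_mulVec_pos (x := col V a) fun h0 => ?_
    have h1 : col V a ⬝ᵥ col V a = 1 := col_dot_self hV a
    rw [h0, zero_dotProduct] at h1
    exact zero_ne_one h1
  refine ⟨hpos hU, ?_⟩
  obtain ⟨V, e, E⟩ := exists_eig (isHermitian_iff_isSymm.1 hC.isHermitian)
  have he : ∀ b, 0 < e b := fun b => by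
    have h1 := hpos E.hU b
    have h2 := conj_diag_eq_quad C V b
    rw [E.conj, diagonal_apply_eq] at h2
    rw [h2]
    exact h1
  have hW := orth_mul E.hU hU
  rw [E.det_eq, Real.log_prod fun b _ => (he b).ne']
  calc ∑ b, Real.log (e b) = ∑ b, ∑ a, (Vᵀ * U) b a ^ 2 * Real.log (e b) :=
        Finset.sum_congr rfl fun b _ => by rw [← Finset.sum_mul, orth_row_sum hW, one_mul]
    _ = ∑ a, ∑ b, (Vᵀ * U) b a ^ 2 * Real.log (e b) := Finset.sum_comm
    _ ≤ _ := Finset.sum_le_sum fun a _ => by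
        have h1 := strictConcaveOn_log_Ioi.concaveOn.le_map_sum (t := Finset.univ)
          (w := fun b => (Vᵀ * U) b a ^ 2) (p := e) (fun b _ => sq_nonneg _) (orth_col_sum hW a)
          fun b _ => he b
        have h2 : col U a ⬝ᵥ C *ᵥ col U a = ∑ b, (Vᵀ * U) b a ^ 2 * e b :=
          (conj_diag_eq_quad C U a).symm.trans (E.diag_conj U a)
        rw [h2]
        simpa only [smul_eq_mul] using h1

theorem quad_covG {X : Vc m → Vc m} (hX : ∀ i, Tame fun z => X z i) (θ : Vc m) :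
    θ ⬝ᵥ covG X *ᵥ θ = ∫ z, (θ ⬝ᵥ X z) ^ 2 ∂gm m - (∫ z, θ ⬝ᵥ X z ∂gm m) ^ 2 := by
  have hP : ∀ i, PG fun z => X z i := fun i => (hX i).pg
  set μ : Vc m := fun i => ∫ y, X y i ∂gm m with hμ
  have hY : PG fun z => θ ⬝ᵥ X z := PG.sum _ fun i _ => (hP i).const_mul (θ i)
  have hQ : ∀ i j, PG fun z => θ i * ((X z i - μ i) * (X z j - μ j) * θ j) := fun i j =>
    ((((hP i).sub (PG.const _)).mul ((hP j).sub (PG.const _))).mul (PG.const _)).const_mul _
  have h1 : ∫ z, θ ⬝ᵥ X z ∂gm m = θ ⬝ᵥ μ := by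
    simp only [dotProduct]
    rw [integral_finsetSum _ fun i _ => ((hP i).const_mul (θ i)).integrable]
    exact Finset.sum_congr rfl fun i _ => integral_const_mul _ _
  have h2 : θ ⬝ᵥ covG X *ᵥ θ = ∫ z, (θ ⬝ᵥ X z - θ ⬝ᵥ μ) ^ 2 ∂gm m := by
    have e : ∀ z, (θ ⬝ᵥ X z - θ ⬝ᵥ μ) ^ 2 =
        ∑ i, ∑ j, θ i * ((X z i - μ i) * (X z j - μ j) * θ j) := fun z => by
      rw [← dotProduct_sub, sq, dotProduct, Finset.sum_mul_sum]
      refine Finset.sum_congr rfl fun i _ => Finset.sum_congr rfl fun j _ => ?_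
      simp only [Pi.sub_apply]
      ring
    simp only [e]
    rw [integral_finsetSum _ fun i _ => (PG.sum _ fun j _ => hQ i j).integrable]
    simp only [dotProduct, mulVec, Finset.mul_sum]
    refine Finset.sum_congr rfl fun i _ => ?_
    rw [integral_finsetSum _ fun j _ => (hQ i j).integrable]
    refine Finset.sum_congr rfl fun j _ => ?_
    rw [integral_const_mul, integral_mul_const]
    rfl
  have h3 : ∀ z, (θ ⬝ᵥ X z - θ ⬝ᵥ μ) ^ 2 =
      ((θ ⬝ᵥ X z) ^ 2 - 2 * (θ ⬝ᵥ μ) * (θ ⬝ᵥ X z)) + (θ ⬝ᵥ μ) ^ 2 := fun z => by ring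
  rw [h2]
  simp only [h3]
  rw [integral_add ((hY.pow 2).sub (hY.const_mul _)).integrable (integrable_const _),
    integral_sub (hY.pow 2).integrable (hY.const_mul _).integrable, integral_const_mul, h1]
  simp only [integral_const, probReal_univ, smul_eq_mul]
  ring

end Crest.Agent.R253
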