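import Crest.Agent.R253.NumI

set_option autoImplicit false
set_option linter.unusedVariables false
set_option linter.unusedSectionVars false

open MeasureTheory Matrix Set Filter Topology
open Crest.Agent.R215 (gam)
open Crest.Agent.R203
open Crest.GeometryTopology.Isotropic

noncomputable section

namespace Crest.Agent.R253

variable {m : ℕ}

/-! The numerical certificate in one direction. -/

/-- `w = √v`, `x1, x2` the two polarisation norms, `y1, y2` moments, `c1 … c5` commutator norms -/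
theorem num_final {E : (ℝ → ℝ) → ℝ} (hE : PosFun E)
    {v w ρ d x1 x2 ω ϱ c1 cJ cs ch cr c5 y1 y2 A C : ℝ}
    (hw : 0 ≤ w) (hv : v = w ^ 2) (hρ : 0 ≤ ρ) (hd : 0 ≤ d) (hx1 : 0 ≤ x1) (hx2 : 0 ≤ x2)
    (hω : 0 ≤ ω) (hϱ : 0 ≤ ϱ) (h1 : 0 ≤ c1) (hJ : 0 ≤ cJ) (hs : 0 ≤ cs) (hh : 0 ≤ ch) (hr : 0 ≤ cr)
    (h5 : 0 ≤ c5) (hy1 : 0 ≤ y1) (hy2 : 0 ≤ y2)
    (g2 : 2 * ρ ^ 2 ≤ d ^ 2) (e1 : x1 ^ 2 = d ^ 2 - 5 / 3 * ρ ^ 2) (e2 : x2 ^ 2 = d ^ 2 - 3 / 2 * ρ ^ 2)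
    (m1 : E (fun t => t) = 0) (m2 : E (fun t => t ^ 2) = v + ρ ^ 2)
    (f1 : y1 ^ 2 = E fun t => (r2 t - 11 / 200) ^ 2) (f2 : y2 ^ 2 = E fun t => (qq t - 8 / 25) ^ 2)
    (lo1 : (v - 1) * E qq - (w * ω * y2 + w * c1) + (38 / 100 * ρ ^ 2 + (0 - 38 / 100 / 3) * d ^ 2 -
      ((7 / 100 - 0) / 2 * (w * d) + d * cs / 3 + x2 * (38 / 100 * (w + d) + cs) / 3)) -
      (w * cJ + d * cr + cr ^ 2) ≤ A)
    (lo2 : A ≤ (v - 1) * E qq + (w * ω * y2 + w * c1) + (38 / 100 * ρ ^ 2 +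
      (7 / 100 - 38 / 100 / 3) * d ^ 2 +
      ((7 / 100 - 0) / 2 * (w * d) + d * cs / 3 + x2 * (38 / 100 * (w + d) + cs) / 3)) +
      (w * cJ + d * cr))
    (hi : E GG - w * ϱ / 4 + (1 / 8 * ρ ^ 2 + (-87 / 1000 - 1 / 8 / 3) * d ^ 2 -
      ((-48 / 1000 - -87 / 1000) / 2 * (w * d) + d * ch / 3 + x2 * (3 / 8 * (w + d) + ch) / 3)) -
      (w * cJ + d * cr + cr ^ 2) ≤ A)
    (hC0 : 0 < C)
    (hC : C ≤ 1 + A + (v - 1) ^ 2 * (2 * (11 / 200) * E r2 - (11 / 200) ^ 2) +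
      2 * (11 / 200) * |v - 1| * (ρ / 4 + y1 * (w * ω) + w * c5) +
      (√((ρ / 4 + |v - 1| * y1 + 9 / 100 * (w * ω) + w * c5) ^ 2 + (d / 4 + cr) ^ 2) + x1 / 4) ^ 2) :
    1 / 200 * (ρ ^ 2 + stv v) ≤ A + (d ^ 2 - ρ ^ 2) - Real.log C + 12 / 100 * (ω ^ 2 - d ^ 2) +
      21 / 100 * (ϱ ^ 2 - ρ ^ 2) + 366 / 100 * c1 ^ 2 + 24 * cJ ^ 2 + 583 / 1000 * cs ^ 2 +
      594 / 1000 * ch ^ 2 + 866 / 100 * cr ^ 2 + 411 / 10 * c5 ^ 2 :=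
  NF.fin ⟨hE, hw, hv, hρ, hd, hx1, hx2, hω, hϱ, h1, hJ, hs, hh, hr, h5, hy1, hy2, g2, e1, e2, m1, m2,
    f1, f2, lo1, lo2, hi, hC0, hC⟩

end Crest.Agent.R253
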