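import Crest.Agent.R253.CoreB
import Crest.Agent.R253.CoreC
import Crest.Agent.R253.CoreD
import Crest.Agent.R253.NumF
import Crest.Agent.R253.Boch

set_option autoImplicit false
set_option linter.unusedVariables false
set_option linter.unusedSectionVars false

open MeasureTheory Matrix Set Filter Topology
open Crest.Agent.R215 (gam)
open Crest.Agent.R203
open Crest.GeometryTopology.Isotropic

noncomputable section

namespace Crest.Agent.R253

variable {m : ℕ}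

/-! The stable inequality for a centred field. -/

variable {T : Vc m → Mx m} {S : Fin m → Vc m → Mx m}

theorem ce_sq_nonneg {E : (ℝ → ℝ) → ℝ} (hE : PosFun E) {g : ℝ → ℝ} (hg : Continuous g) :
    0 ≤ E fun t => g t ^ 2 := by
  have h1 := hE.smul 0 (fun _ => 1) continuous_const
  have h2 := hE.mono (fun _ => 0 * 1) (fun t => g t ^ 2) continuous_const (hg.pow 2) fun t => by
    rw [zero_mul]; positivity
  rw [h1, zero_mul] at h2
  exact h2

theorem ce_wd {X : Vc m → Vc m} (hX : ∀ i, Tame fun z => X z i) (θ : Vc m) :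
    WD (fun z => θ ⬝ᵥ X z) fun k z => (θ ᵥ* jac X z) k :=
  wd_sum Finset.univ (F := fun i z => θ i * X z i) (G := fun i k z => θ i * jac X z i k)
    fun i _ => (wd_of_tame (hX i)).const_mul (θ i)

/-- `num_final` with `E = Ex T θ` -/
theorem Fld.dir_ineq (h : Fld T S) (hc : Cen T) {θ : Vc m} {v : ℝ} (hd : Dir S θ v) {f : Vc m → ℝ}
    (hf : WD f fun k z => (mf lam (T z) *ᵥ θ) k)
    (h0 : 0 < ∫ z, f z ^ 2 ∂gm m - (∫ z, f z ∂gm m) ^ 2) :
    1 / 200 * (rho T S θ ^ 2 + stv v) ≤ AA T S θ + (dR S θ ^ 2 - rho T S θ ^ 2) -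
      Real.log (∫ z, f z ^ 2 ∂gm m - (∫ z, f z ∂gm m) ^ 2) +
      12 / 100 * (om S θ v ^ 2 - dR S θ ^ 2) + 21 / 100 * (vr T θ ^ 2 - rho T S θ ^ 2) +
      366 / 100 * cR T S θ s1 qq ^ 2 + 24 * cJ T S θ ^ 2 + 583 / 1000 * cL T S θ sg sg1 ^ 2 +
      594 / 1000 * cL T S θ sh sh1 ^ 2 + 866 / 100 * cL T S θ r0 r1 ^ 2 +
      411 / 10 * c5 T S θ v ^ 2 := by
  have hE := h.posFun hd.unit
  obtain ⟨v0, -, -⟩ := h.nrkM hd
  have g2 := h.two_rho_le hc θ
  have hρ : 0 ≤ rho T S θ := Real.sqrt_nonneg _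
  have sp := h.AA_split hd.unit
  obtain ⟨k1, k2⟩ := h.K2_bd hd
  obtain ⟨l1, l2⟩ := abs_le.1 (h.La_lo hd (8 / 25))
  obtain ⟨b1, b2⟩ := h.BB_bd hc hd c1_sg (c := 38 / 100) (o := 38 / 100) (u₁ := 0) (u₂ := 7 / 100)
    sg1_osc fun t => ⟨u_nonneg t, u_le t⟩
  obtain ⟨b3, -⟩ := h.BB_bd hc hd c1_sh (c := 1 / 8) (o := 3 / 8) (u₁ := -87 / 1000)
    (u₂ := -48 / 1000) sh1_osc fun t => ⟨uh_ge t, uh_le t⟩
  have hi := h.hi_bd hc hd
  have vb := h.var_bd hc hd (c := 11 / 200) (by norm_num) hf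
  have sρ := sq_nonneg (rho T S θ)
  refine num_final hE (w := √v) (x1 := √(dR S θ ^ 2 - 5 / 3 * rho T S θ ^ 2))
    (x2 := √(dR S θ ^ 2 - 3 / 2 * rho T S θ ^ 2))
    (y1 := √(Ex T θ fun t => (r2 t - 11 / 200) ^ 2))
    (y2 := √(Ex T θ fun t => (qq t - 8 / 25) ^ 2))
    (Real.sqrt_nonneg _) (Real.sq_sqrt v0).symm hρ (Real.sqrt_nonneg _) (Real.sqrt_nonneg _)
    (Real.sqrt_nonneg _) (div_nonneg (Real.sqrt_nonneg _) (Real.sqrt_nonneg _))
    (Real.sqrt_nonneg _) (Real.sqrt_nonneg _) (Real.sqrt_nonneg _) (Real.sqrt_nonneg _)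
    (Real.sqrt_nonneg _) (Real.sqrt_nonneg _)
    (div_nonneg (Real.sqrt_nonneg _) (Real.sqrt_nonneg _)) (Real.sqrt_nonneg _)
    (Real.sqrt_nonneg _) g2 (Real.sq_sqrt (by linarith)) (Real.sq_sqrt (by linarith))
    (h.Ex_id hc θ) (h.Ex_sq hc hd)
    (Real.sq_sqrt (ce_sq_nonneg hE (one_c_r2.sub continuous_const)))
    (Real.sq_sqrt (ce_sq_nonneg hE (one_c_qq.sub continuous_const))) ?_ ?_ ?_ h0 vb
  · linarith
  · linarith
  · linarith

/-- sum `dir_ineq` over an eigenbasis of `VV S`; the commutator terms cost at most `Gap` -/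
theorem Fld.core (h : Fld T S) (hc : Cen T) {X : Vc m → Vc m} (hX : ∀ i, Tame fun z => X z i)
    (hj : ∀ᵐ z ∂gm m, mf lam (T z) = jac X z) (hC : (covG X).PosDef)
    (hB : Gap T S + ∑ k, n2m (S k) ≤ n2m (fun z => mf r0 (T z)) + ∑ k, n2m (Dg T S r0 k)) :
    1 / 200 * (n2m (Rz T S) + trace (mf stv (VV S))) ≤
      2 * ∫ z, trace (mf FF (T z)) ∂gm m - n2m T - m - Real.log (covG X).det := by
  obtain ⟨U, d, E⟩ := exists_eig h.VV_symm
  obtain ⟨hp, hl⟩ := hadamard hC E.hU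
  have hw : ∀ θ : Vc m, WD (fun z => θ ⬝ᵥ X z) fun k z => (mf lam (T z) *ᵥ θ) k := fun θ => by
    refine (ce_wd hX θ).congr (ae_eq_refl _) fun k => ?_
    filter_upwards [hj] with z hz
    rw [← hz, ← mulVec_transpose, (mf_isSymm (h.symT z) lam).eq]
  have key := Finset.sum_le_sum (s := Finset.univ) fun a _ =>
    h.dir_ineq hc (dir_col E a) (hw (col U a)) (by rw [← quad_covG hX]; exact hp a)
  simp only [← quad_covG hX] at key
  have a1 := h.sum_AA hc E
  have a2 := h.sum_rho E.hU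
  have a3 := h.sum_om E
  have a4 := h.sum_vr E.hU
  have a5 := (h.sum_cL E.hU c1_s1 lip_qq).2
  have a6 := h.sum_cJ E.hU
  have a7 := (h.sum_cL E.hU c1_sg lip_sg1).1
  have a8 := (h.sum_cL E.hU c1_sh lip_sh1).1
  have a9 := (h.sum_cL E.hU c1_r0 lip_r1).1
  have a10 := h.sum_c5 E
  have a11 := h.Gap_nonneg
  have a12 := (E.mf stv).trace_eq
  simp only [Finset.sum_add_distrib, Finset.sum_sub_distrib, ← Finset.mul_sum] at key a1
  rw [a12]
  linarith

/-- `covG X ≥ (E jac X)² > 0`, or `densCov` of a positive density -/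
theorem BM.cov_posDef {V ψ : Vc m → ℝ} {g X : Vc m → Vc m} {κ₁ κ₂ α β : ℝ}
    (h : BM V g κ₁ κ₂ ψ X α β) : (covG X).PosDef := by
  have hX := h.hX.tame h.a0.le h.b0
  refine PosDef.of_dotProduct_mulVec_pos ?_ fun θ hθ => ?_
  · refine isHermitian_of_isSymm ?_
    ext i j
    simp only [covG, transpose_apply, of_apply, mul_comm]
  rw [star_trivial, quad_covG hX]
  have hw := ce_wd hX θ
  have hb := bessel_one hw.l2
  by_contra hn
  have hz : ∀ k, ∫ z, (θ ᵥ* jac X z) k ∂gm m = 0 := fun k => by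
    rw [hw.stein k]
    have h1 := Finset.single_le_sum (f := fun k => (∫ z, z k * (θ ⬝ᵥ X z) ∂gm m) ^ 2)
      (fun _ _ => sq_nonneg _) (Finset.mem_univ k)
    exact pow_eq_zero_iff two_ne_zero |>.1 (le_antisymm (by linarith) (sq_nonneg _))
  have hi : ∀ k, Integrable (fun z => (θ ᵥ* jac X z) k * θ k) (gm m) := fun k =>
    ((hw.l2d k).integrable one_le_two).mul_const _
  have h1 : ∫ z, ∑ k, (θ ᵥ* jac X z) k * θ k ∂gm m = 0 := by
    rw [integral_finsetSum _ fun k _ => hi k]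
    exact Finset.sum_eq_zero fun k _ => by rw [integral_mul_const, hz k, zero_mul]
  have h2 : ∫ _z, α * nsq θ ∂gm m ≤ ∫ z, ∑ k, (θ ᵥ* jac X z) k * θ k ∂gm m := by
    refine integral_mono_ae (integrable_const _) (integrable_finsetSum _ fun k _ => hi k) ?_
    filter_upwards [gm_ac.ae_le (h.hX.ae_diff h.a0.le h.b0)] with z hz
    have := ((h.hX.jac_at hz).2.2 θ).1
    rw [dotProduct_mulVec] at this
    exact this
  rw [h1, integral_const, probReal_univ, one_smul] at h2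
  have h3 : nsq θ ≤ 0 := by
    by_contra h4
    exact absurd h2 (not_le.2 (mul_pos h.a0 (not_le.1 h4)))
  exact hθ (sc2_zero h3)

/-- `M = Mk S`; `|jac X - lam(L)| ≤ |T - L|` by `fr2_mf_sub_le`, `lam_lip` -/
theorem BM.stable {V ψ : Vc m → ℝ} {g X : Vc m → Vc m} {κ₁ κ₂ α β : ℝ}
    (h : BM V g κ₁ κ₂ ψ X α β) (hc : Cen (TT α β X)) : ∃ M : Fin m → Mx m, (∀ k, (M k).IsSymm) ∧
      n2m (fun z => jac X z - mf lam (lmat M z)) + trace (mf stv (∑ k, M k * M k)) ≤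
        400 * dfc fun x => Real.exp (-V x) := by
  obtain ⟨S, hF, hs⟩ := h.exists_fld
  have hj : ∀ᵐ z ∂gm m, mf lam (TT α β X z) = jac X z := h.lam_TT.mono fun z hz => hz.1
  have hcore := hF.core hc (h.hX.tame h.a0.le h.b0) hj h.cov_posDef (h.bochner hF hs)
  rw [← h.two_dfc] at hcore
  refine ⟨Mk S, hF.Mk_symm, ?_⟩
  have h1 : n2m (fun z => jac X z - mf lam (lmat (Mk S) z)) ≤ n2m (Rz (TT α β X) S) := by
    refine integral_mono_of_nonneg (Eventually.of_forall fun z => fr2_nonneg _)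
      hF.l2R.integrable_fr2 ?_
    filter_upwards [hj] with z hz
    have := fr2_mf_sub_le (hF.symT z) (lmat_isSymm hF.Mk_symm z) (h := lam) (K := 1)
      fun x y _ _ => by rw [one_mul]; exact lam_lip x y
    rw [hz, one_pow, one_mul] at this
    exact this
  have h2 : trace (mf stv (∑ k, Mk S k * Mk S k)) = trace (mf stv (VV S)) := rfl
  rw [h2]
  linarith

end Crest.Agent.R253
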