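import Crest.Agent.R203.GsC
import Crest.Agent.R203.MatB
import Crest.Agent.R203.GibB
import Crest.Prelude.Def_Isotropic

/-!
# Row 253 (helper47): definitions

Route: `μ = e^{-V}` log-concave, `X = ∇ψ` its Brenier map from the standard Gaussian,
`H = D²ψ = lam(T)` (`lam` = hazard rate of the Gaussian), position `E T = 0`.
-/

set_option autoImplicit false
set_option linter.unusedVariables false
set_option linter.unusedSectionVars false

open MeasureTheory Matrix Set Filter Topology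
open Crest.Agent.R215 (gam)
open Crest.Agent.R203

noncomputable section

namespace Crest.Agent.R253

abbrev Vc (m : ℕ) := Fin m → ℝ
abbrev Mx (m : ℕ) := Matrix (Fin m) (Fin m) ℝ
/-- standard Gaussian measure -/
abbrev gm (m : ℕ) : Measure (Vc m) := gam (Fin m)

variable {m : ℕ}

/-- squared Euclidean norm -/
def nsq (v : Vc m) : ℝ := v ⬝ᵥ v

/-- `ψ` is `α`-strongly convex and `β`-smooth with gradient field `X`. -/
structure SC (ψ : Vc m → ℝ) (X : Vc m → Vc m) (α β : ℝ) : Prop where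
  lo : ∀ z y, ψ z + X z ⬝ᵥ (y - z) + α / 2 * nsq (y - z) ≤ ψ y
  up : ∀ z y, ψ y ≤ ψ z + X z ⬝ᵥ (y - z) + β / 2 * nsq (y - z)

/-- the measure with a given real density -/
def md (f : Vc m → ℝ) : Measure (Vc m) := volume.withDensity fun x => ENNReal.ofReal (f x)

/-- the measure `e^{-V} dx` -/
def mu (V : Vc m → ℝ) : Measure (Vc m) := md fun x => Real.exp (-V x)

/-- Jacobian matrix (junk where it does not exist) -/
def jac (X : Vc m → Vc m) (z : Vc m) : Mx m := of fun i j => pd j (fun y => X y i) z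

/-- covariance matrix of a Gaussian vector field -/
def covG (X : Vc m → Vc m) : Mx m := of fun i j =>
  ∫ z, (X z i - ∫ y, X y i ∂gm m) * (X z j - ∫ y, X y j ∂gm m) ∂gm m

/-- deficit in the entropy inequality -/
def dfc (f : Vc m → ℝ) : ℝ := Crest.GeometryTopology.Isotropic.diffEntropy f - m -
  Real.log (Crest.GeometryTopology.Isotropic.densCov f).det / 2

/-- log-concave probability densities, as in the statement -/
structure LC (f : Vc m → ℝ) : Prop where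
  meas : Measurable f
  nonneg : ∀ x, 0 ≤ f x
  one : ∫ x, f x = 1
  cvx : Convex ℝ {x | 0 < f x}
  ccv : ConcaveOn ℝ {x | 0 < f x} fun x => Real.log (f x)

/-- the extremal densities -/
def expD (M : Mx m) (b : Vc m) (x : Vc m) : ℝ := |M.det|⁻¹ *
  Set.indicator {y : Vc m | ∀ i, 0 ≤ (M⁻¹.mulVec (y - b)) i}
    (fun y => Real.exp (- ∑ i, (M⁻¹.mulVec (y - b)) i)) x

/-! ### one-dimensional functions -/

def bt (t : ℝ) : ℝ := lam t - t
def ell (t : ℝ) : ℝ := Real.log (lam t)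
def r0 (t : ℝ) : ℝ := FF t / lam t
def r1 (t : ℝ) : ℝ := 1 - bt t * r0 t
def r2 (t : ℝ) : ℝ := t * r1 t + r0 t - lam t
def r3 (t : ℝ) : ℝ := t * r2 t + 2 * r1 t - F2 t
def qq (t : ℝ) : ℝ := r1 t + r0 t * r2 t
def q1 (t : ℝ) : ℝ := r2 t + r1 t * r2 t + r0 t * r3 t
def r1s (t : ℝ) : ℝ := r1 t ^ 2
def s2 (t : ℝ) : ℝ := ∫ u in (0 : ℝ)..t, r1s u
def sg (t : ℝ) : ℝ := r0 t + r0 t * r1 t
def sg1 (t : ℝ) : ℝ := qq t + r1s t
def s1 (t : ℝ) : ℝ := sg t - s2 t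
def ee (t : ℝ) : ℝ := √(5 + t ^ 2)
def e1 (t : ℝ) : ℝ := t / ee t
def e2 (t : ℝ) : ℝ := 5 / ee t ^ 3
def sh (t : ℝ) : ℝ := s2 t + ee t / 4
def sh1 (t : ℝ) : ℝ := r1s t + e1 t / 4
def GG (t : ℝ) : ℝ := 2 * FF t - r0 t ^ 2 - 1 - 13 / 100 * t ^ 2 - 3 / 8 * (t * ee t)
/-- inverse of `lam`, clamped to `[a, b]` -/
def linv (a b x : ℝ) : ℝ := Function.invFun lam (max a (min b x))
/-- the two-point gap kernel -/
def gk (a b : ℝ) : ℝ := dd FF a b ^ 2 / (lam a * lam b) - 1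

/-! ### weak derivatives in Gauss space -/

/-- `f ∈ W^{1,2}(γ)` with weak gradient `g` (through Hermite coefficients) -/
structure WD (f : Vc m → ℝ) (g : Fin m → Vc m → ℝ) : Prop where
  l2 : MemLp f 2 (gm m)
  l2d : ∀ k, MemLp (g k) 2 (gm m)
  co : ∀ k α, hc (g k) α = hc f (α + Pi.single k 1)

/-- square integrable vector fields -/
def L2v (u : Vc m → Vc m) : Prop := ∀ i, MemLp (fun z => u z i) 2 (gm m)
/-- square integrable matrix fields -/
def L2m (A : Vc m → Mx m) : Prop := ∀ i j, MemLp (fun z => A z i j) 2 (gm m)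
/-- vector fields in `W^{1,2}` -/
def VW (u : Vc m → Vc m) (D : Fin m → Vc m → Vc m) : Prop :=
  ∀ i, WD (fun z => u z i) fun k z => D k z i
/-- matrix fields in `W^{1,2}` -/
def MW (T : Vc m → Mx m) (S : Fin m → Vc m → Mx m) : Prop :=
  ∀ i j, WD (fun z => T z i j) fun k z => S k z i j

def ip (u w : Vc m → Vc m) : ℝ := ∫ z, u z ⬝ᵥ w z ∂gm m
def ipk (u w : Fin m → Vc m → Vc m) : ℝ := ∑ k, ip (u k) (w k)
def nr (u : Vc m → Vc m) : ℝ := √(ip u u)
def nrk (u : Fin m → Vc m → Vc m) : ℝ := √(ipk u u)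
/-- `∫ |A|²` -/
def n2m (A : Vc m → Mx m) : ℝ := ∫ z, fr2 (A z) ∂gm m

/-- Fréchet derivative of the functional calculus at `A` in direction `M` (basis free). -/
def dk (g : ℝ → ℝ) (A M : Mx m) : Mx m :=
  of fun i j => deriv (fun s : ℝ => mf g (A + s • M) i j) 0

/-- `C¹` functions given with their derivative -/
structure C1 (g g' : ℝ → ℝ) : Prop where
  d : ∀ t, HasDerivAt g (g' t) t
  c : Continuous g'

/-- bounded symmetric matrix fields in `W^{1,2}` -/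
structure Fld (T : Vc m → Mx m) (S : Fin m → Vc m → Mx m) : Prop where
  symT : ∀ z, (T z).IsSymm
  symS : ∀ k z, (S k z).IsSymm
  measT : ∀ i j, Measurable fun z => T z i j
  measS : ∀ k i j, Measurable fun z => S k z i j
  bdd : ∃ B, ∀ z, fr2 (T z) ≤ B
  wd : MW T S

/-- centred fields -/
def Cen (T : Vc m → Mx m) : Prop := ∀ i j, ∫ z, T z i j ∂gm m = 0

section data

variable (T : Vc m → Mx m) (S : Fin m → Vc m → Mx m)

def Mk (k : Fin m) : Mx m := of fun i j => ∫ z, S k z i j ∂gm m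
def Lz (z : Vc m) : Mx m := lmat (Mk S) z
def Rz (z : Vc m) : Mx m := T z - Lz S z
def DR (k : Fin m) (z : Vc m) : Mx m := S k z - Mk S k
def VV : Mx m := ∑ k, Mk S k * Mk S k
/-- `D_k g(T)` -/
def Dg (g : ℝ → ℝ) (k : Fin m) (z : Vc m) : Mx m := dk g (T z) (S k z)
/-- left commutator term `D_k g(T) - g'(T) S_k` -/
def cm (g g' : ℝ → ℝ) (k : Fin m) (z : Vc m) : Mx m := Dg T S g k z - mf g' (T z) * S k z
def Jk (k : Fin m) (z : Vc m) : Mx m :=
  cm T S s2 r1s k z - (2 : ℝ) • (mf r1 (T z) * cm T S r0 r1 k z)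
def Om (z : Vc m) : Mx m := ∑ k, DR S k z * Mk S k
def O5 (z : Vc m) : Mx m := ∑ k, cm T S r1 r2 k z * Mk S k
def Wk (k : Fin m) : Mx m := of fun i j => ∫ z, z k * mf ee (T z) i j ∂gm m
def Hi (z : Vc m) : Mx m := mf (fun t => (lam t)⁻¹) (T z)
/-- `∑ₖ tr (H⁻¹ D_kF H⁻¹ D_kF)` -/
def boz (z : Vc m) : ℝ := ∑ k, fip (Hi T z * Dg T S FF k z * Hi T z) (Dg T S FF k z)
def Gap : ℝ := ∫ z, (boz T S z - ∑ k, fr2 (S k z)) ∂gm m

variable (θ : Vc m)

def Ex (g : ℝ → ℝ) : ℝ := ∫ z, θ ⬝ᵥ mf g (T z) *ᵥ θ ∂gm m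
def rho : ℝ := nr fun z => Rz T S z *ᵥ θ
def dR : ℝ := nrk fun k z => DR S k z *ᵥ θ
def om (v : ℝ) : ℝ := (nr fun z => Om S z *ᵥ θ) / √v
def c5 (v : ℝ) : ℝ := (nr fun z => O5 T S z *ᵥ θ) / √v
def cL (g g' : ℝ → ℝ) : ℝ := nrk fun k z => cm T S g g' k z *ᵥ θ
def cR (g g' : ℝ → ℝ) : ℝ := nrk fun k z => (cm T S g g' k z)ᵀ *ᵥ θ
def cJ : ℝ := nrk fun k z => Jk T S k z *ᵥ θ
def vr : ℝ := √(∑ k, nsq (Wk T k *ᵥ θ))
def AA : ℝ := 2 * Ex T θ FF - ip (fun z => mf r0 (T z) *ᵥ θ) (fun z => mf r0 (T z) *ᵥ θ)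
  - ipk (fun k z => Dg T S r0 k z *ᵥ θ) (fun k z => Dg T S r0 k z *ᵥ θ) - 1
def BB (g : ℝ → ℝ) : ℝ := ip (fun z => Rz T S z *ᵥ θ) (fun z => mf g (T z) *ᵥ θ)
  - ipk (fun k z => DR S k z *ᵥ θ) (fun k z => (mf r1s (T z) * S k z) *ᵥ θ)
def K2 : ℝ := ipk (fun k z => Mk S k *ᵥ θ) (fun k z => Dg T S s2 k z *ᵥ θ)
  - ipk (fun k z => Dg T S r0 k z *ᵥ θ) (fun k z => Dg T S r0 k z *ᵥ θ)
  + ipk (fun k z => DR S k z *ᵥ θ) (fun k z => (mf r1s (T z) * S k z) *ᵥ θ)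
def La : ℝ := ip (fun z => Lz S z *ᵥ θ) (fun z => mf s1 (T z) *ᵥ θ) - Ex T θ qq

end data

/-- a unit eigenvector of `VV S` with eigenvalue `v` -/
structure Dir (S : Fin m → Vc m → Mx m) (θ : Vc m) (v : ℝ) : Prop where
  unit : θ ⬝ᵥ θ = 1
  eig : VV S *ᵥ θ = v • θ

/-- normalised positive functionals on continuous functions -/
structure PosFun (E : (ℝ → ℝ) → ℝ) : Prop where
  add : ∀ f g, Continuous f → Continuous g → E (fun t => f t + g t) = E f + E g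
  smul : ∀ (c : ℝ) f, Continuous f → E (fun t => c * f t) = c * E f
  mono : ∀ f g, Continuous f → Continuous g → (∀ t, f t ≤ g t) → E f ≤ E g
  one : E (fun _ => 1) = 1

/-- the stability gauge -/
def stv (v : ℝ) : ℝ := min ((v - 1) ^ 2) 1

end Crest.Agent.R253
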