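import Crest.Agent.R253.Defs

set_option autoImplicit false
set_option linter.unusedVariables false
set_option linter.unusedSectionVars false

open MeasureTheory Matrix Set Filter Topology
open Crest.Agent.R215 (gam)
open Crest.Agent.R203
open Crest.GeometryTopology.Isotropic

noncomputable section

namespace Crest.Agent.R253

variable {m : ℕ}

/-! One-dimensional functions: exact identities and qualitative facts. -/

theorem bt_pos (t : ℝ) : 0 < bt t := sub_pos.2 (lt_lam t)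
theorem c1_bt : C1 bt fun t => F2 t - 1 := 
  ⟨fun t => (hasDerivAt_lam t).sub (hasDerivAt_id' t), continuous_F2.sub continuous_const⟩
theorem c1_FF : C1 FF lam := ⟨hasDerivAt_FF, continuous_lam⟩
theorem c1_lam : C1 lam F2 := ⟨hasDerivAt_lam, continuous_F2⟩
theorem c1_ell : C1 ell bt := ⟨hasDerivAt_log_lam, continuous_lam.sub continuous_id⟩
theorem one_c_bt : Continuous bt := continuous_lam.sub continuous_id
theorem one_c_r0 : Continuous r0 := continuous_FF.div continuous_lam fun t => (lam_pos t).ne'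
theorem one_c_r1 : Continuous r1 := continuous_const.sub (one_c_bt.mul one_c_r0)
theorem one_c_r2 : Continuous r2 := ((continuous_id.mul one_c_r1).add one_c_r0).sub continuous_lam
theorem one_c_r3 : Continuous r3 :=
  ((continuous_id.mul one_c_r2).add (continuous_const.mul one_c_r1)).sub continuous_F2
theorem one_c_qq : Continuous qq := one_c_r1.add (one_c_r0.mul one_c_r2)
theorem one_c_r1s : Continuous r1s := one_c_r1.pow 2
theorem one_ee_pos (t : ℝ) : 0 < ee t := Real.sqrt_pos.2 (by positivity)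
theorem one_ee_sq (t : ℝ) : ee t ^ 2 = 5 + t ^ 2 := Real.sq_sqrt (by positivity)
theorem one_c_ee : Continuous ee := by unfold ee; fun_prop
theorem one_c_e1 : Continuous e1 := continuous_id.div one_c_ee fun t => (one_ee_pos t).ne'
theorem c1_r0 : C1 r0 r1 := by
  refine ⟨fun t => ((hasDerivAt_FF t).div (hasDerivAt_lam t) (lam_pos t).ne').congr_deriv ?_,
    one_c_r1⟩
  have := (lam_pos t).ne'
  unfold r1 r0 bt F2
  field_simp
theorem c1_r1 : C1 r1 r2 := by
  refine ⟨fun t => (((c1_bt.d t).mul (c1_r0.d t)).const_sub 1).congr_deriv ?_, one_c_r2⟩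
  unfold r2 r1 bt F2
  ring
theorem c1_r2 : C1 r2 r3 := by
  refine ⟨fun t => ((((hasDerivAt_id' t).mul (c1_r1.d t)).add (c1_r0.d t)).sub
    (hasDerivAt_lam t)).congr_deriv ?_, one_c_r3⟩
  unfold r3
  ring
theorem c1_qq : C1 qq q1 := by
  refine ⟨fun t => ((c1_r1.d t).add ((c1_r0.d t).mul (c1_r2.d t))).congr_deriv ?_,
    (one_c_r2.add (one_c_r1.mul one_c_r2)).add (one_c_r0.mul one_c_r3)⟩
  unfold q1
  ring
theorem c1_r1s : C1 r1s fun t => 2 * r1 t * r2 t := by
  refine ⟨fun t => ((c1_r1.d t).pow 2).congr_deriv ?_,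
    (continuous_const.mul one_c_r1).mul one_c_r2⟩
  push_cast
  ring
theorem c1_s2 : C1 s2 r1s := 
  ⟨fun t => intervalIntegral.integral_hasDerivAt_right (one_c_r1s.intervalIntegrable 0 t)
    (one_c_r1s.stronglyMeasurableAtFilter _ _) one_c_r1s.continuousAt, one_c_r1s⟩
theorem c1_sg : C1 sg sg1 := by
  refine ⟨fun t => ((c1_r0.d t).add ((c1_r0.d t).mul (c1_r1.d t))).congr_deriv ?_,
    one_c_qq.add one_c_r1s⟩
  unfold sg1 qq r1s
  ring
theorem c1_s1 : C1 s1 qq := by
  refine ⟨fun t => ((c1_sg.d t).sub (c1_s2.d t)).congr_deriv ?_, one_c_qq⟩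
  unfold sg1
  ring
theorem c1_ee : C1 ee e1 := by
  refine ⟨fun t => (((hasDerivAt_pow 2 t).const_add 5).sqrt (by positivity)).congr_deriv ?_,
    one_c_e1⟩
  have := (one_ee_pos t).ne'
  unfold e1
  unfold ee at this ⊢
  push_cast
  field_simp
theorem c1_e1 : C1 e1 e2 := by
  refine ⟨fun t => ((hasDerivAt_id' t).div (c1_ee.d t) (one_ee_pos t).ne').congr_deriv ?_,
    continuous_const.div (one_c_ee.pow 3) fun t => (pow_pos (one_ee_pos t) 3).ne'⟩
  have := (one_ee_pos t).ne'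
  have h := one_ee_sq t
  unfold e2 e1
  field_simp
  linarith
theorem c1_sh : C1 sh sh1 := 
  ⟨fun t => (c1_s2.d t).add ((c1_ee.d t).div_const 4), one_c_r1s.add (one_c_e1.div_const 4)⟩
theorem C1.cont {g g' : ℝ → ℝ} (h : C1 g g') : Continuous g := 
  continuous_iff_continuousAt.2 fun t => (h.d t).continuousAt
theorem C1.diff {g g' : ℝ → ℝ} (h : C1 g g') : Differentiable ℝ g := 
  fun t => (h.d t).differentiableAt
theorem C1.deriv_eq {g g' : ℝ → ℝ} (h : C1 g g') : deriv g = g' := funext fun t => (h.d t).deriv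
theorem continuous_GG : Continuous GG := by
  have := continuous_FF
  have := one_c_r0
  have := one_c_ee
  unfold GG
  fun_prop

theorem lam_mul_r0 (t : ℝ) : lam t * r0 t = FF t := mul_div_cancel₀ _ (lam_pos t).ne'
theorem r0_pos (t : ℝ) : 0 < r0 t := div_pos (FF_pos t) (lam_pos t)
theorem stein_sg (t : ℝ) : 2 * FF t - r0 t ^ 2 - 1 = t * sg t - qq t := by
  rw [← lam_mul_r0]
  unfold sg qq r2 r1 bt
  ring
theorem lam_sub_r0 (t : ℝ) : lam t - r0 t = t * r1 t - r2 t := by
  unfold r2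
  ring
theorem ee_neg (t : ℝ) : ee (-t) = ee t := by
  unfold ee
  rw [neg_sq]
theorem abs_e1_le (t : ℝ) : |e1 t| ≤ 1 := by
  unfold e1
  rw [abs_div, abs_of_pos (one_ee_pos t), div_le_one (one_ee_pos t)]
  exact Real.abs_le_sqrt (by linarith)
theorem one_lip {g g' : ℝ → ℝ} (h : C1 g g') (hb : ∀ t, |g' t| ≤ 1) (s t : ℝ) :
    |g s - g t| ≤ |s - t| := by
  have := convex_univ.norm_image_sub_le_of_norm_hasDerivWithin_le (𝕜 := ℝ) (C := 1)
    (fun x _ => (h.d x).hasDerivWithinAt) (fun x _ => hb x) (mem_univ t) (mem_univ s)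
  simpa using this
theorem ee_lip (s t : ℝ) : |ee s - ee t| ≤ |s - t| := one_lip c1_ee abs_e1_le s t
theorem lam_lip (s t : ℝ) : |lam s - lam t| ≤ |s - t| := 
  one_lip c1_lam (fun t => abs_le.2 ⟨by linarith [F2_pos t], (F2_lt_one t).le⟩) s t
theorem bt_anti : Antitone bt := 
  antitone_of_deriv_nonpos c1_bt.diff fun t => by
    rw [c1_bt.deriv_eq]
    linarith [F2_lt_one t]
theorem ell_mono : StrictMono ell := 
  strictMono_of_deriv_pos fun t => by
    rw [c1_ell.deriv_eq]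
    exact bt_pos t
theorem convex_lam : ConvexOn ℝ univ lam := 
  Monotone.convexOn_univ_of_deriv c1_lam.diff (by rw [c1_lam.deriv_eq]; exact F2_mono)
theorem one_sampford (t : ℝ) : 0 < (lam t - t) ^ 2 + F2 t - 1 := by
  have hd : ∀ t, HasDerivAt (fun t => ((lam t - t) ^ 2 + F2 t - 1) * gq t)
      (2 * (lam t - t) * (F2 t - 1) * gq t) t := fun t => by
    have h1 := (((((hasDerivAt_lam t).sub (hasDerivAt_id' t)).pow 2).add
      (hasDerivAt_F2 t)).sub_const 1).mul (hasDerivAt_gq t)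
    refine h1.congr_deriv ?_
    simp only [Pi.sub_apply, Pi.add_apply, Pi.pow_apply]
    rw [← lam_mul_gq t]
    unfold F2
    push_cast
    ring
  have ha : StrictAnti fun t => ((lam t - t) ^ 2 + F2 t - 1) * gq t :=
    strictAnti_of_deriv_neg fun t => by
      rw [(hd t).deriv]
      have h1 : 0 < lam t - t := sub_pos.2 (lt_lam t)
      have h2 : 0 < 1 - F2 t := sub_pos.2 (F2_lt_one t)
      nlinarith [mul_pos (mul_pos h1 h2) (gq_pos t)]
  exact pos_of_mul_pos_left
    ((mul_nonneg (sampford (t + 1)) (gq_pos _).le).trans_lt (ha (lt_add_one t))) (gq_pos t).le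
theorem F2_strictMono : StrictMono F2 := 
  strictMono_of_deriv_pos fun t => by
    rw [(hasDerivAt_F2 t).deriv]
    have h := mul_pos (lam_pos t) (one_sampford t)
    unfold F2 at h ⊢
    nlinarith
theorem dd_lam_pos (a b : ℝ) : 0 < dd lam a b := by
  rcases eq_or_ne a b with rfl | h
  · rw [dd_same, c1_lam.deriv_eq]
    exact F2_pos a
  · rw [dd_of_ne _ h]
    rcases lt_or_gt_of_ne h with h | h
    · exact div_pos_of_neg_of_neg (sub_neg.2 (lam_mono h)) (sub_neg.2 h)
    · exact div_pos (sub_pos.2 (lam_mono h)) (sub_pos.2 h)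
theorem one_dd_mono (a : ℝ) : StrictMono (dd lam a) := fun b c h => by
  rw [dd_comm, dd_comm lam a c, dd_eq_integral c1_lam.d c1_lam.c, dd_eq_integral c1_lam.d c1_lam.c]
  have hc := continuous_F2
  refine intervalIntegral.integral_lt_integral_of_continuousOn_of_le_of_exists_lt zero_lt_one
    (by fun_prop) (by fun_prop) (fun x hx => F2_mono ?_)
    ⟨1, right_mem_Icc.2 zero_le_one, F2_strictMono (by linarith)⟩
  nlinarith [hx.1]
theorem dd_lam_inj {a b c : ℝ} (h : dd lam a b = dd lam a c) : b = c := one_dd_mono a |>.injective h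

theorem one2_surj {y : ℝ} (hy : 0 < y) : ∃ t, lam t = y := by
  obtain ⟨t, ht⟩ := (tendsto_lam_atBot.eventually (gt_mem_nhds hy)).exists
  exact mem_range_of_exists_le_of_exists_ge continuous_lam ⟨t, ht.le⟩ ⟨y, (lt_lam y).le⟩

theorem lam_linv {a b : ℝ} (ha : 0 < a) (x : ℝ) : lam (linv a b x) = max a (min b x) :=
  Function.invFun_eq (one2_surj (ha.trans_le (le_max_left _ _)))

theorem one2_grow {t₀ s t : ℝ} (hs : t₀ ≤ s) (hst : s ≤ t) : F2 t₀ * (t - s) ≤ lam t - lam s := by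
  rcases hst.eq_or_lt with rfl | hlt
  · simp
  obtain ⟨c, hc, h⟩ := exists_hasDerivAt_eq_slope lam F2 hlt continuous_lam.continuousOn
    fun x _ => hasDerivAt_lam x
  rw [eq_div_iff (sub_pos.2 hlt).ne'] at h
  rw [← h]
  exact mul_le_mul_of_nonneg_right (F2_mono (hs.trans hc.1.le)) (sub_pos.2 hlt).le

theorem linv_lip {a b : ℝ} (ha : 0 < a) :
    ∃ K B : ℝ, 0 ≤ K ∧ (∀ x y, |linv a b x - linv a b y| ≤ K * |x - y|) ∧ ∀ x, |linv a b x| ≤ B := by
  obtain ⟨t₀, ht₀⟩ := one2_surj ha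
  have hF := F2_pos t₀
  have h0 : ∀ x, t₀ ≤ linv a b x := fun x =>
    lam_mono.le_iff_le.1 (by rw [ht₀, lam_linv ha]; exact le_max_left _ _)
  have h1 : ∀ s t, t₀ ≤ s → t₀ ≤ t → F2 t₀ * |s - t| ≤ |lam s - lam t| := fun s t hs ht => by
    rcases le_total s t with h | h
    · rw [abs_sub_comm, abs_of_nonneg (sub_nonneg.2 h), abs_sub_comm]
      exact (one2_grow hs h).trans (le_abs_self _)
    · rw [abs_of_nonneg (sub_nonneg.2 h)]
      exact (one2_grow ht h).trans (le_abs_self _)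
  refine ⟨(F2 t₀)⁻¹, |t₀| + |max a b|, by positivity, fun x y => ?_, fun x => ?_⟩
  · rw [le_inv_mul_iff₀ hF]
    refine (h1 _ _ (h0 x) (h0 y)).trans ?_
    rw [lam_linv ha, lam_linv ha]
    refine (abs_max_sub_max_le_max _ _ _ _).trans (max_le (by simp) ?_)
    exact (abs_min_sub_min_le_max _ _ _ _).trans (max_le (by simp) le_rfl)
  · have h2 : linv a b x ≤ max a b := by
      refine (lt_lam _).le.trans ?_
      rw [lam_linv ha]
      exact max_le_max le_rfl (min_le_left _ _)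
    have h3 := h0 x
    have h4 := neg_abs_le t₀
    have h5 := le_abs_self (max a b)
    have h6 := abs_nonneg t₀
    have h7 := abs_nonneg (max a b)
    rw [abs_le]
    constructor <;> linarith

/-- the real-variable lemma behind the boundary condition of the Brouwer argument -/
theorem ell_boundary (m : ℕ) (C : ℝ) : ∃ R : ℝ, 0 < R ∧ ∀ s t : Fin m → ℝ,
    (∀ i, |ell (t i) - s i| ≤ C) → ∑ i, s i ^ 2 = R ^ 2 → 0 < ∑ i, s i * t i := by
  obtain ⟨t₀, ht₀⟩ := one2_surj (Real.exp_pos (-C))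
  have he₀ : ell t₀ = -C := by rw [ell, ht₀, Real.log_exp]
  obtain ⟨S, hS0, hS1, hS2⟩ : ∃ S : ℝ, 0 ≤ S ∧ C + ell 1 ≤ S ∧ C - ell (-1) ≤ S :=
    ⟨max 0 (max (C + ell 1) (C - ell (-1))), le_max_left _ _,
      (le_max_left _ _).trans (le_max_right _ _), (le_max_right _ _).trans (le_max_right _ _)⟩
  obtain ⟨T, hT0, hT1, hT2⟩ : ∃ T : ℝ, 0 ≤ T ∧ -T ≤ t₀ ∧ Real.exp C ≤ T :=
    ⟨|t₀| + Real.exp C, by positivity, by linarith [neg_abs_le t₀, Real.exp_pos C],
      by linarith [abs_nonneg t₀]⟩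
  have hK : 0 ≤ S + S * T := by positivity
  have key : ∀ s t : ℝ, |ell t - s| ≤ C → |s| - (S + S * T) ≤ s * t := fun s t h => by
    rw [abs_le] at h
    rcases le_total 0 s with hs | hs
    · rw [abs_of_nonneg hs]
      rcases le_total S s with h1 | h1
      · have : 1 ≤ t := ell_mono.le_iff_le.1 (by linarith)
        nlinarith
      · have : t₀ ≤ t := ell_mono.le_iff_le.1 (by linarith)
        nlinarith [mul_nonneg hs (show 0 ≤ t + T by linarith),
          mul_nonneg (sub_nonneg.2 h1) hT0]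
    · rw [abs_of_nonpos hs]
      rcases le_total s (-S) with h1 | h1
      · have : t ≤ -1 := ell_mono.le_iff_le.1 (by linarith)
        nlinarith
      · have h2 : lam t ≤ Real.exp C := by
          rw [← Real.log_le_iff_le_exp (lam_pos t)]
          change ell t ≤ C
          linarith
        have h3 := lt_lam t
        nlinarith [mul_nonneg (neg_nonneg.2 hs) (show 0 ≤ T - t by linarith),
          mul_nonneg (show 0 ≤ s + S by linarith) hT0]
  refine ⟨m * (S + S * T) + 1, by positivity, fun s t h hR => ?_⟩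
  have h1 : m * (S + S * T) + 1 ≤ ∑ i, |s i| := by
    refine le_of_pow_le_pow_left₀ (n := 2) (by norm_num)
      (Finset.sum_nonneg fun i _ => abs_nonneg _) ?_
    rw [← hR]
    refine le_trans (le_of_eq ?_) (Finset.sum_sq_le_sq_sum_of_nonneg fun i _ => abs_nonneg (s i))
    exact Finset.sum_congr rfl fun i _ => (sq_abs _).symm
  have h2 : ∑ i, (|s i| - (S + S * T)) ≤ ∑ i, s i * t i :=
    Finset.sum_le_sum fun i _ => key _ _ (h i)
  rw [Finset.sum_sub_distrib, Finset.sum_const, Finset.card_univ, Fintype.card_fin,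
    nsmul_eq_mul] at h2
  linarith

/-- at a global minimum the second derivative is nonnegative -/
theorem maxp_second {z z1 : ℝ → ℝ} {c t0 : ℝ} (h1 : ∀ t, HasDerivAt z (z1 t) t)
    (h2 : HasDerivAt z1 c t0) (hm : ∀ t, z t0 ≤ z t) : z1 t0 = 0 ∧ 0 ≤ c := by
  have h0 : z1 t0 = 0 :=
    IsLocalMin.hasDerivAt_eq_zero (Eventually.of_forall hm) (h1 t0)
  refine ⟨h0, not_lt.1 fun hc => ?_⟩
  have h3 : ∀ᶠ t in 𝓝[>] t0, slope z1 t0 t < 0 :=
    (h2.tendsto_slope.mono_left (nhdsGT_le_nhdsNE t0)).eventually (gt_mem_nhds hc)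
  obtain ⟨u, hu, hsub⟩ := mem_nhdsGT_iff_exists_Ioo_subset.1 h3
  have hu' : t0 < u := hu
  obtain ⟨ξ, hξ, e⟩ := exists_hasDerivAt_eq_slope z z1 hu'
    (fun t _ => (h1 t).continuousAt.continuousWithinAt) fun t _ => h1 t
  have h4 : slope z1 t0 ξ < 0 := hsub hξ
  rw [slope_def_field, h0, sub_zero, div_neg_iff] at h4
  have h5 : 0 ≤ z1 ξ := e ▸ div_nonneg (sub_nonneg.2 (hm u)) (sub_nonneg.2 hu'.le)
  rcases h4 with h4 | h4
  · linarith [h4.2, hξ.1]
  · linarith [h4.1]

theorem maxp_growth {ε : ℝ} (hε : 0 < ε) (C : ℝ) (n : ℕ) :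
    Tendsto (fun t : ℝ => -(C * (1 + |t|) ^ n) + ε * Real.exp (t ^ 2 / 4)) (cocompact ℝ) atTop := by
  have h1 : Tendsto (fun t : ℝ => 1 + |t|) (cocompact ℝ) atTop :=
    tendsto_atTop_add_const_left _ _ (tendsto_norm_cocompact_atTop (E := ℝ))
  have h2 : ∀ᶠ u : ℝ in atTop, (|C| + 1) / ε ≤ Real.exp u / u ^ (n + 1) :=
    (Real.tendsto_exp_div_pow_atTop (n + 1)).eventually_ge_atTop _
  refine tendsto_atTop_mono' _ ?_ h1
  filter_upwards [h1.eventually h2, h1.eventually (eventually_ge_atTop 7)] with t ht h7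
  set u := 1 + |t| with hu
  have hu0 : 0 < u := by linarith
  have h3 : (|C| + 1) * u ^ (n + 1) ≤ ε * Real.exp u := by
    rw [div_le_div_iff₀ hε (pow_pos hu0 _)] at ht
    linarith
  have h4 : Real.exp u ≤ Real.exp (t ^ 2 / 4) := by
    refine Real.exp_le_exp.2 ?_
    rw [← sq_abs t]
    nlinarith
  have h5 : 1 ≤ u ^ n := one_le_pow₀ (by linarith)
  have h6 : C * u ^ n ≤ |C| * u ^ n := mul_le_mul_of_nonneg_right (le_abs_self C) (by linarith)
  have h8 : |C| * u ^ n ≤ |C| * u ^ (n + 1) :=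
    mul_le_mul_of_nonneg_left (by rw [pow_succ]; nlinarith) (abs_nonneg C)
  have h9 : u ≤ u ^ (n + 1) := by rw [pow_succ]; nlinarith
  have h10 := mul_le_mul_of_nonneg_left h4 hε.le
  show u ≤ _
  nlinarith

/-- Maximum principle for `-y'' + t y' + k y`: add `ε e^{t²/4}` and look at a minimum. -/
theorem maxp {y y1 y2 : ℝ → ℝ} {k : ℝ} (hk : 1 ≤ k) (h1 : ∀ t, HasDerivAt y (y1 t) t)
    (h2 : ∀ t, HasDerivAt y1 (y2 t) t) (hg : ∃ (C : ℝ) (n : ℕ), ∀ t, -(C * (1 + |t|) ^ n) ≤ y t)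
    (h : ∀ t, 0 ≤ -y2 t + t * y1 t + k * y t) (t : ℝ) : 0 ≤ y t := by
  obtain ⟨C, n, hg⟩ := hg
  have hw1 : ∀ t : ℝ, HasDerivAt (fun t : ℝ => Real.exp (t ^ 2 / 4))
      (t / 2 * Real.exp (t ^ 2 / 4)) t := fun t => by
    refine (((hasDerivAt_pow 2 t).div_const 4).exp).congr_deriv ?_
    push_cast
    ring
  have hw2 : ∀ t : ℝ, HasDerivAt (fun t : ℝ => t / 2 * Real.exp (t ^ 2 / 4))
      ((1 / 2 + t ^ 2 / 4) * Real.exp (t ^ 2 / 4)) t := fun t => by
    refine (((hasDerivAt_id' t).div_const 2).mul (hw1 t)).congr_deriv ?_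
    ring
  have key : ∀ ε : ℝ, 0 < ε → 0 ≤ y t + ε * Real.exp (t ^ 2 / 4) := by
    intro ε hε
    have d1 : ∀ t, HasDerivAt (fun t => y t + ε * Real.exp (t ^ 2 / 4))
        (y1 t + ε * (t / 2 * Real.exp (t ^ 2 / 4))) t :=
      fun t => (h1 t).add ((hw1 t).const_mul ε)
    have hc : Continuous fun t => y t + ε * Real.exp (t ^ 2 / 4) :=
      continuous_iff_continuousAt.2 fun t => (d1 t).continuousAt
    obtain ⟨t0, hm⟩ := hc.exists_forall_le
      (tendsto_atTop_mono (fun t => by linarith [hg t]) (maxp_growth hε C n))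
    obtain ⟨e1, e2⟩ := maxp_second d1 ((h2 t0).add ((hw2 t0).const_mul ε)) hm
    refine le_trans ?_ (hm t)
    have hE : 0 < ε * Real.exp (t0 ^ 2 / 4) := mul_pos hε (Real.exp_pos _)
    have h3 := h t0
    have e3 : y1 t0 = -(t0 / 2) * (ε * Real.exp (t0 ^ 2 / 4)) := by linarith
    rw [e3] at h3
    set E := ε * Real.exp (t0 ^ 2 / 4) with hEdef
    have e4 : ε * ((1 / 2 + t0 ^ 2 / 4) * Real.exp (t0 ^ 2 / 4)) = (1 / 2 + t0 ^ 2 / 4) * E := by
      rw [hEdef]; ring
    rw [e4] at e2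
    have h4 : 0 ≤ k * (y t0 + E) := by
      nlinarith [mul_nonneg (sq_nonneg t0) hE.le, mul_nonneg (sub_nonneg.2 hk) hE.le]
    by_contra hn
    nlinarith [not_le.1 hn]
  refine le_of_forall_pos_le_add fun δ hδ => ?_
  have := key (δ / Real.exp (t ^ 2 / 4)) (div_pos hδ (Real.exp_pos _))
  rw [div_mul_cancel₀ _ (Real.exp_pos _).ne'] at this
  linarith

theorem maxp_lam_zero : 1 / 3 ≤ lam 0 := by
  have h : √(2 * Real.pi) ≤ 6 := by
    rw [Real.sqrt_le_left (by norm_num)]
    linarith [Real.pi_le_four]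
  have h1 : (6 : ℝ)⁻¹ ≤ (√(2 * Real.pi))⁻¹ := inv_anti₀ (Real.sqrt_pos.2 (by positivity)) h
  unfold lam gp
  rw [gq_zero]
  norm_num at h1 ⊢
  linarith

/-- for `t ≤ 0`: `FF t ≤ gq (-t) / gq t`; for `t ≥ 0`: `FF t ≤ FF 0 + t lam t`. -/
theorem r0_le (t : ℝ) : r0 t ≤ 3 + |t| := by
  have hl := lam_pos t
  unfold r0
  rw [div_le_iff₀ hl]
  rcases le_total t 0 with h | h
  · have h1 : FF t ≤ gq (-t) / gq t := by
      have h2 := Real.log_le_sub_one_of_pos (inv_pos.2 (gq_pos t))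
      rw [Real.log_inv] at h2
      have h3 : gq (-t) / gq t = (gq t)⁻¹ - 1 := by
        have := (gq_pos t).ne'
        have h4 : gq (-t) = 1 - gq t := by linarith [gq_add_neg t]
        rw [h4]; field_simp
      rw [h3]; exact h2
    have h2 : 1 / 3 ≤ lam (-t) := maxp_lam_zero.trans (lam_mono.monotone (by linarith))
    have h3 : gq (-t) ≤ 3 * gp t := by
      have := lam_mul_gq (-t)
      rw [gp_neg] at this
      nlinarith [gq_pos (-t)]
    have h4 : gq (-t) / gq t ≤ 3 * lam t := by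
      unfold lam
      rw [← mul_div_assoc]
      exact div_le_div_of_nonneg_right h3 (gq_pos t).le
    nlinarith [abs_nonneg t]
  · have h0 : FF 0 ≤ 1 := by
      unfold FF
      rw [gq_zero, one_div, Real.log_inv, neg_neg]
      linarith [Real.log_two_lt_d9]
    have h2 : 1 / 3 ≤ lam t := maxp_lam_zero.trans (lam_mono.monotone h)
    rw [abs_of_nonneg h]
    rcases h.eq_or_lt with rfl | h'
    · linarith
    obtain ⟨c, hc, e⟩ := exists_hasDerivAt_eq_slope FF lam h' continuous_FF.continuousOn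
      fun x _ => hasDerivAt_FF x
    rw [sub_zero, eq_div_iff h'.ne'] at e
    have h3 : lam c ≤ lam t := lam_mono.monotone hc.2.le
    nlinarith
/-- `-r3 + t r2 + 2 r1 = F2 ∈ (0,1)` and `maxp` -/
theorem r1_nonneg (t : ℝ) : 0 ≤ r1 t := by
  refine maxp (k := 2) (by norm_num) c1_r1.d c1_r2.d ⟨6, 2, fun t => ?_⟩ (fun t => ?_) t
  · have h1 : bt t ≤ 2 * (1 + |t|) := by
      unfold bt
      linarith [lam_le t, neg_abs_le t, abs_nonneg t]
    have h2 : r0 t ≤ 3 * (1 + |t|) := by linarith [r0_le t, abs_nonneg t]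
    have h3 := mul_le_mul h1 h2 (r0_pos t).le (by positivity)
    unfold r1
    nlinarith
  · unfold r3
    linarith [F2_pos t]
theorem r1_le (t : ℝ) : r1 t ≤ 1 / 2 := by
  have := maxp (y := fun t => 1 / 2 - r1 t) (y1 := fun t => -r2 t) (y2 := fun t => -r3 t) (k := 2)
    (by norm_num) (fun t => (c1_r1.d t).const_sub _) (fun t => (c1_r2.d t).neg)
    ⟨1, 0, fun t => by
      have := mul_pos (bt_pos t) (r0_pos t)
      unfold r1
      linarith⟩
    (fun t => by
      unfold r3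
      linarith [F2_lt_one t]) t
  linarith
/-- `(N + 3) r2 = lam'' ≥ 0` (`sampford`) and `maxp` -/
theorem r2_nonneg (t : ℝ) : 0 ≤ r2 t := by
  have d3 : ∀ t, HasDerivAt r3 (1 * r2 t + t * r3 t + 2 * r2 t - (F2 t * (2 * lam t - t) - lam t)) t :=
    fun t => (((hasDerivAt_id' t).mul (c1_r2.d t)).add ((c1_r1.d t).const_mul 2)).sub
      (hasDerivAt_F2 t)
  refine maxp (k := 3) (by norm_num) c1_r2.d d3 ⟨2, 1, fun t => ?_⟩ (fun t => ?_) t
  · have h1 : -|t| * r1 t ≤ t * r1 t := mul_le_mul_of_nonneg_right (neg_abs_le t) (r1_nonneg t)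
    have h2 : |t| * r1 t ≤ |t| * (1 / 2) := mul_le_mul_of_nonneg_left (r1_le t) (abs_nonneg t)
    unfold r2
    linarith [lam_le t, r0_pos t, abs_nonneg t]
  · have h := mul_nonneg (lam_pos t).le (sampford t)
    unfold F2 at h ⊢
    nlinarith
theorem qq_nonneg (t : ℝ) : 0 ≤ qq t :=
  add_nonneg (r1_nonneg t) (mul_nonneg (r0_pos t).le (r2_nonneg t))
theorem u_nonneg (t : ℝ) : 0 ≤ sg1 t / 3 - r1s t := by
  have h1 := mul_nonneg (r0_pos t).le (r2_nonneg t)
  have h2 := mul_nonneg (r1_nonneg t) (sub_nonneg.2 (r1_le t))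
  unfold sg1 qq r1s
  nlinarith

/-- a derivative bound by `bt` is a Lipschitz bound with respect to `ell` -/
theorem lip_ell {g g' : ℝ → ℝ} (hg : C1 g g') {K : ℝ} (h : ∀ t, |g' t| ≤ K * bt t) (s t : ℝ) :
    |g s - g t| ≤ K * |ell s - ell t| := by
  have h1 : Monotone fun t => K * ell t - g t :=
    monotone_of_hasDerivAt_nonneg (fun t => ((c1_ell.d t).const_mul K).sub (hg.d t))
      fun t => sub_nonneg.2 (abs_le.1 (h t)).2
  have h2 : Monotone fun t => K * ell t + g t :=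
    monotone_of_hasDerivAt_nonneg (fun t => ((c1_ell.d t).const_mul K).add (hg.d t))
      fun t => by
        have := (abs_le.1 (h t)).1
        simp only [Pi.zero_apply]
        linarith
  have key : ∀ s t, s ≤ t → |g s - g t| ≤ K * |ell s - ell t| := fun s t hst => by
    have a1 := h1 hst
    have a2 := h2 hst
    simp only at a1 a2
    rw [abs_of_nonpos (sub_nonpos.2 (ell_mono.monotone hst)), abs_le]
    constructor <;> linarith
  rcases le_total s t with hst | hst
  · exact key s t hst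
  · rw [abs_sub_comm, abs_sub_comm (ell s)]
    exact key t s hst

end Crest.Agent.R253
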