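import Crest.Agent.R253.Ip
import Crest.Agent.R253.One

set_option autoImplicit false
set_option linter.unusedVariables false
set_option linter.unusedSectionVars false

open MeasureTheory Matrix Set Filter Topology
open Crest.Agent.R215 (gam)
open Crest.Agent.R203
open Crest.GeometryTopology.Isotropic

noncomputable section

namespace Crest.Agent.R253

variable {m : ℕ}

/-! The derivative of the functional calculus. -/

variable {A M N U : Mx m} {d : Fin m → ℝ} {g g' h : ℝ → ℝ}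

theorem dk_hasDerivAt (E : Eig A U d) (hM : M.IsSymm) (hg : Differentiable ℝ g) (i j : Fin m) :
    HasDerivAt (fun s : ℝ => mf g (A + s • M) i j) (dkm g U d M i j) 0 := by
  have hs : ∀ s : ℝ, (A + s • M).IsSymm := fun s => E.isSymm.add (hM.smul s)
  have hA : ∀ i j, HasDerivAt (fun s : ℝ => (A + s • M) i j) (M i j) 0 := fun i j => by
    have := ((hasDerivAt_id (0 : ℝ)).mul_const (M i j)).const_add (A i j)
    simpa only [Matrix.add_apply, Matrix.smul_apply, smul_eq_mul, id, one_mul] using this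
  have F : Eig (A + (0 : ℝ) • M) U d := by simpa using E
  exact hasDerivAt_mf (A := fun s : ℝ => A + s • M) (Eventually.of_forall hs) hA F hg i j

theorem dk_eq (E : Eig A U d) (hM : M.IsSymm) (hg : Differentiable ℝ g) :
    dk g A M = dkm g U d M := by
  ext i j
  exact (dk_hasDerivAt E hM hg i j).deriv

theorem dk_hasDerivAt' (hA : A.IsSymm) (hM : M.IsSymm) (hg : Differentiable ℝ g) (i j : Fin m) :
    HasDerivAt (fun s : ℝ => mf g (A + s • M) i j) (dk g A M i j) 0 := by
  obtain ⟨U, d, E⟩ := exists_eig hA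
  rw [dk_eq E hM hg]
  exact dk_hasDerivAt E hM hg i j

theorem dk_isSymm (hA : A.IsSymm) (hM : M.IsSymm) (hg : Differentiable ℝ g) :
    (dk g A M).IsSymm := by
  refine Matrix.IsSymm.ext fun i j => ?_
  simp only [dk, of_apply]
  congr 1
  funext s
  exact (mf_isSymm (hA.add (hM.smul s)) g).apply i j

theorem dk_sub_right (hA : A.IsSymm) (hM : M.IsSymm) (hN : N.IsSymm) (hg : Differentiable ℝ g) :
    dk g A (M - N) = dk g A M - dk g A N := by
  obtain ⟨U, d, E⟩ := exists_eig hA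
  rw [dk_eq E hM hg, dk_eq E hN hg, dk_eq E (hM.sub hN) hg]
  unfold dkm
  rw [← Matrix.sub_mul, ← Matrix.mul_sub]
  congr 2
  ext a b
  simp only [of_apply, Matrix.sub_apply, Matrix.sub_mul, mul_sub]

theorem dk_add_fun (hA : A.IsSymm) (hM : M.IsSymm) (hg : Differentiable ℝ g)
    (hh : Differentiable ℝ h) : dk (fun t => g t + h t) A M = dk g A M + dk h A M := by
  ext i j
  have h1 := (dk_hasDerivAt' hA hM hg i j).add (dk_hasDerivAt' hA hM hh i j)
  have e : (fun s : ℝ => mf (fun t => g t + h t) (A + s • M) i j) =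
      (fun s : ℝ => mf g (A + s • M) i j) + fun s : ℝ => mf h (A + s • M) i j := by
    funext s
    rw [mf_add (hA.add (hM.smul s))]
    rfl
  rw [← e] at h1
  exact h1.deriv

theorem dk_const_mul (hA : A.IsSymm) (hM : M.IsSymm) (hg : Differentiable ℝ g) (c : ℝ) :
    dk (fun t => c * g t) A M = c • dk g A M := by
  ext i j
  have h1 := (dk_hasDerivAt' hA hM hg i j).const_mul c
  have e : (fun s : ℝ => mf (fun t => c * g t) (A + s • M) i j) =
      fun s : ℝ => c * mf g (A + s • M) i j := by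
    funext s
    rw [mf_const_mul (hA.add (hM.smul s))]
    rfl
  rw [← e] at h1
  exact h1.deriv

theorem dk_id (hA : A.IsSymm) (hM : M.IsSymm) : dk (fun t => t) A M = M := by
  ext i j
  have h1 := ((hasDerivAt_id (0 : ℝ)).mul_const (M i j)).const_add (A i j)
  have e : (fun s : ℝ => mf (fun t => t) (A + s • M) i j) = fun s : ℝ => A i j + id s * M i j := by
    funext s
    rw [mf_id (hA.add (hM.smul s))]
    rfl
  rw [← e, one_mul] at h1
  exact h1.deriv

theorem mf_congr (hA : A.IsSymm) (e : ∀ t, t ^ 2 ≤ fr2 A → g t = h t) : mf g A = mf h A := by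
  obtain ⟨U, d, E⟩ := exists_eig hA
  rw [E.mf_eq g, E.mf_eq h]
  congr 3
  funext i
  exact e _ (E.sq_le i)

theorem dk_congr (hA : A.IsSymm) (hM : M.IsSymm) (hg : Differentiable ℝ g) (hh : Differentiable ℝ h)
    (e : ∀ t, t ^ 2 ≤ fr2 A + 1 → g t = h t) : dk g A M = dk h A M := by
  obtain ⟨U, d, E⟩ := exists_eig hA
  rw [dk_eq E hM hg, dk_eq E hM hh]
  unfold dkm
  congr 3
  funext a b
  congr 1
  have ha : d a ^ 2 < fr2 A + 1 := by linarith [E.sq_le a]
  have hb : d b ^ 2 < fr2 A + 1 := by linarith [E.sq_le b]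
  by_cases hab : d a = d b
  · rw [← hab, dd_same, dd_same]
    apply Filter.EventuallyEq.deriv_eq
    have : ∀ᶠ t in 𝓝 (d a), t ^ 2 < fr2 A + 1 :=
      (continuous_pow 2).continuousAt.eventually_lt continuousAt_const ha
    filter_upwards [this] with t ht using e t ht.le
  · rw [dd_of_ne _ hab, dd_of_ne _ hab, e _ ha.le, e _ hb.le]

theorem fr2_dk_le (hA : A.IsSymm) (hM : M.IsSymm) (hg : C1 g g') {K : ℝ}
    (hK : ∀ t, t ^ 2 ≤ fr2 A → |g' t| ≤ K) : fr2 (dk g A M) ≤ K ^ 2 * fr2 M := by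
  obtain ⟨U, d, E⟩ := exists_eig hA
  rw [dk_eq E hM hg.diff, fr2_dkm E.hU, ← fr2_conj E.hU E.hU M]
  unfold fr2
  rw [Finset.mul_sum]
  refine Finset.sum_le_sum fun a _ => ?_
  rw [Finset.mul_sum]
  refine Finset.sum_le_sum fun b _ => ?_
  refine mul_le_mul_of_nonneg_right ?_ (sq_nonneg _)
  have h1 : |dd g (d a) (d b)| ≤ K := by
    refine abs_dd_le hg.diff fun t ht => ?_
    rw [hg.deriv_eq]
    refine hK t ?_
    have ha := E.sq_le a
    have hb := E.sq_le b
    rcases mem_uIcc.1 ht with ⟨h1, h2⟩ | ⟨h1, h2⟩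
    · rcases le_total 0 t with h0 | h0
      · nlinarith
      · nlinarith
    · rcases le_total 0 t with h0 | h0
      · nlinarith
      · nlinarith
  exact sq_le_sq' (by linarith [(abs_le.1 h1).1]) (abs_le.1 h1).2

theorem quad_mf_mono (hA : A.IsSymm) (e : ∀ t, g t ≤ h t) (v : Vc m) :
    v ⬝ᵥ mf g A *ᵥ v ≤ v ⬝ᵥ mf h A *ᵥ v := by
  obtain ⟨U, d, E⟩ := exists_eig hA
  rw [(E.mf g).quad, (E.mf h).quad]
  exact Finset.sum_le_sum fun a _ => mul_le_mul_of_nonneg_left (e _) (sq_nonneg _)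

theorem dot_mulVec_symm (hA : A.IsSymm) (v w : Vc m) : v ⬝ᵥ A *ᵥ w = (A *ᵥ v) ⬝ᵥ w := by
  rw [dotProduct_mulVec, ← mulVec_transpose, hA.eq]

theorem nsq_mf_mulVec_le (hA : A.IsSymm) {K : ℝ} (hK : ∀ t, |g t| ≤ K) (v : Vc m) :
    nsq (mf g A *ᵥ v) ≤ K ^ 2 * nsq v := by
  have h1 : nsq (mf g A *ᵥ v) = v ⬝ᵥ mf (fun t => g t * g t) A *ᵥ v := by
    rw [nsq, ← dot_mulVec_symm (mf_isSymm hA g), mulVec_mulVec, mf_mul hA]
  have h2 : K ^ 2 * nsq v = v ⬝ᵥ mf (fun _ => K ^ 2) A *ᵥ v := by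
    rw [mf_const hA, nsq, smul_mulVec, one_mulVec, dotProduct_smul, smul_eq_mul]
  rw [h1, h2]
  refine quad_mf_mono hA (fun t => ?_) v
  have := abs_le.1 (hK t)
  nlinarith [this.1, this.2]

theorem mf_neg_even (hA : A.IsSymm) (e : ∀ t, g (-t) = g t) : mf g (-A) = mf g A := by
  obtain ⟨U, d, E⟩ := exists_eig hA
  rw [E.neg.mf_eq g, E.mf_eq g]
  simp only [e]

/-- a `C¹` function agrees on `[-R, R]` with a bounded one with bounded derivative -/
theorem C1.exists_bdd (hg : C1 g g') (R : ℝ) : ∃ (k k' : ℝ → ℝ) (K : ℝ), C1 k k' ∧ 0 ≤ K ∧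
    (∀ t, |k' t| ≤ K) ∧ ∀ t, |t| ≤ R → k t = g t := by
  have hc : Continuous fun t : ℝ => g' (max (-|R|) (min |R| t)) := hg.c.comp (by fun_prop)
  obtain ⟨C, hC⟩ := (isCompact_Icc (a := -|R|) (b := |R|)).exists_bound_of_continuousOn
    hg.c.continuousOn
  have hR := abs_nonneg R
  refine ⟨fun t => g 0 + ∫ s in (0 : ℝ)..t, g' (max (-|R|) (min |R| s)),
    fun t => g' (max (-|R|) (min |R| t)), max C 0, ⟨fun t => ?_, hc⟩, le_max_right _ _,
    fun t => ?_, fun t ht => ?_⟩
  · exact (hc.integral_hasStrictDerivAt 0 t).hasDerivAt.const_add (g 0)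
  · refine le_trans ?_ (le_max_left _ _)
    exact hC _ ⟨le_max_left _ _, max_le (by linarith) (min_le_left _ _)⟩
  · have ht' : |t| ≤ |R| := ht.trans (le_abs_self R)
    have h1 : ∫ s in (0 : ℝ)..t, g' (max (-|R|) (min |R| s)) = ∫ s in (0 : ℝ)..t, g' s := by
      refine intervalIntegral.integral_congr fun s hs => ?_
      have hs' : -|R| ≤ s ∧ s ≤ |R| := by
        have := abs_le.1 ht'
        rcases mem_uIcc.1 hs with ⟨h1, h2⟩ | ⟨h1, h2⟩
        · exact ⟨by linarith, by linarith⟩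
        · exact ⟨by linarith, by linarith⟩
      simp only [min_eq_right hs'.2, max_eq_right hs'.1]
    simp only [h1]
    rw [intervalIntegral.integral_eq_sub_of_hasDerivAt (fun s _ => hg.d s)
      (hg.c.intervalIntegrable _ _)]
    ring

/-- limit of difference quotients of `measurable_mf` -/
theorem measurable_dk {α : Type} [MeasurableSpace α] {A M : α → Mx m}
    (hA : ∀ i j, Measurable fun t => A t i j) (hM : ∀ i j, Measurable fun t => M t i j)
    (sA : ∀ t, (A t).IsSymm) (sM : ∀ t, (M t).IsSymm) (hg : Differentiable ℝ g) (i j : Fin m) :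
    Measurable fun t => dk g (A t) (M t) i j := by
  have hs : ∀ s : ℝ, Measurable fun t => mf g (A t + s • M t) i j := fun s =>
    measurable_mf (A := fun t => A t + s • M t)
      (fun k l => (hA k l).add ((hM k l).const_mul s)) (fun t => (sA t).add ((sM t).smul s))
      hg.continuous i j
  have hu : Tendsto (fun n : ℕ => (1 : ℝ) / ((n : ℝ) + 1)) atTop (𝓝[≠] 0) := by
    refine tendsto_nhdsWithin_iff.2 ⟨tendsto_one_div_add_atTop_nhds_zero_nat, ?_⟩
    refine Eventually.of_forall fun n => ?_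
    have : (0 : ℝ) < 1 / ((n : ℝ) + 1) := by positivity
    exact this.ne'
  refine measurable_of_tendsto_metrizable
    (f := fun (n : ℕ) t => ((1 : ℝ) / ((n : ℝ) + 1))⁻¹ •
      (mf g (A t + (0 + (1 : ℝ) / ((n : ℝ) + 1)) • M t) i j - mf g (A t + (0 : ℝ) • M t) i j))
    (fun n => ((hs (0 + (1 : ℝ) / ((n : ℝ) + 1))).sub (hs 0)).const_mul _) ?_
  rw [tendsto_pi_nhds]
  intro t
  exact (hasDerivAt_iff_tendsto_slope_zero.1 (dk_hasDerivAt' (sA t) (sM t) hg i j)).comp hu

theorem dk2_has (hA : A.IsSymm) (hM : M.IsSymm) (hg : Differentiable ℝ g) (i j : Fin m) :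
    HasDerivAt (fun s : ℝ => mf g (A + s • M) i j) (dk g A M i j) 0 := by
  obtain ⟨U, d, E⟩ := exists_eig (hA.add (hM.smul (0 : ℝ)))
  exact (hasDerivAt_mf (A := fun s : ℝ => A + s • M) (M := M)
    (Eventually.of_forall fun s => hA.add (hM.smul s))
    (fun i j => (hasDerivAt_mul_const (M i j)).const_add (A i j)) E hg i j).differentiableAt.hasDerivAt

theorem dk2_mul_id (hA : A.IsSymm) (hM : M.IsSymm) (hg : Differentiable ℝ g) :
    dk (fun t => g t * t) A M = dk g A M * A + mf g A * M := by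
  ext i j
  have h1 := HasDerivAt.fun_sum (u := Finset.univ) fun k _ => (dk2_has hA hM hg i k).fun_mul
    ((hasDerivAt_mul_const (x := (0 : ℝ)) (M k j)).const_add (A k j))
  have h2 : (fun s : ℝ => mf (fun t => g t * t) (A + s • M) i j) =
      fun s : ℝ => ∑ k, mf g (A + s • M) i k * (A k j + s * M k j) := funext fun s => by
    rw [mf_mul (hA.add (hM.smul s)), mf_id (hA.add (hM.smul s))]
    rfl
  change deriv _ 0 = _
  rw [h2, h1.deriv, Finset.sum_add_distrib]
  simp only [zero_mul, add_zero, zero_smul]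
  rfl

theorem dk2_poly {α : Type} {F : Filter α} {A : α → Mx m} {A₀ : Mx m} (hA : Tendsto A F (𝓝 A₀))
    (hs : ∀ t, (A t).IsSymm) (h₀ : A₀.IsSymm) (hM : M.IsSymm) (q : Polynomial ℝ) :
    ∃ p, C1 p (fun t => q.eval t) ∧ Tendsto (fun t => dk p (A t) M) F (𝓝 (dk p A₀ M)) := by
  have h1 : ∀ (c : ℝ) (n : ℕ), Tendsto (fun t => dk (fun x => c * x ^ (n + 1)) (A t) M) F
      (𝓝 (dk (fun x => c * x ^ (n + 1)) A₀ M)) := fun c n => by
    induction n with
    | zero =>
      simp only [zero_add, pow_one, dk_const_mul (hs _) hM differentiable_fun_id,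
        dk_const_mul h₀ hM differentiable_fun_id, dk_id (hs _) hM, dk_id h₀ hM]
      exact tendsto_const_nhds
    | succ n ih =>
      have hd : Differentiable ℝ fun x : ℝ => c * x ^ (n + 1) := by fun_prop
      simp only [pow_succ _ (n + 1), ← mul_assoc, dk2_mul_id (hs _) hM hd, dk2_mul_id h₀ hM hd]
      exact (ih.mul hA).add
        ((tendsto_mf hA (Eventually.of_forall hs) h₀ hd.continuous).mul tendsto_const_nhds)
  induction q using Polynomial.induction_on' with
  | add q r ih ih' =>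
    obtain ⟨p, a1, a2⟩ := ih
    obtain ⟨p', b1, b2⟩ := ih'
    have d1 : Differentiable ℝ p := fun t => (a1.d t).differentiableAt
    have d2 : Differentiable ℝ p' := fun t => (b1.d t).differentiableAt
    refine ⟨fun t => p t + p' t, ⟨fun t => ?_, (q + r).continuous⟩, ?_⟩
    · rw [Polynomial.eval_add]
      exact (a1.d t).fun_add (b1.d t)
    · simp only [dk_add_fun (hs _) hM d1 d2, dk_add_fun h₀ hM d1 d2]
      exact a2.add b2
  | monomial n c =>
    refine ⟨_, ⟨fun t => ?_, Polynomial.continuous _⟩, h1 (c / (n + 1)) n⟩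
    refine ((hasDerivAt_pow (n + 1) t).const_mul _).congr_deriv ?_
    rw [Polynomial.eval_monomial, Nat.add_sub_cancel, Nat.cast_succ, ← mul_assoc,
      div_mul_cancel₀ _ (Nat.cast_add_one_ne_zero n)]

/-- Continuity in the base point: true for monomials (`dk (t^n) A M = ∑ A^i M A^(n-1-i)`), hence
for polynomials; approximate `g'` uniformly on a compact interval (Weierstrass), `fr2_dk_le`. -/
theorem tendsto_dk {α : Type} {F : Filter α} {A : α → Mx m} {A₀ : Mx m} (hA : Tendsto A F (𝓝 A₀))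
    (hs : ∀ t, (A t).IsSymm) (h₀ : A₀.IsSymm) (hM : M.IsSymm) (hg : C1 g g') :
    Tendsto (fun t => dk g (A t) M) F (𝓝 (dk g A₀ M)) := by
  refine tendsto_pi_nhds.2 fun i => tendsto_pi_nhds.2 fun j => Metric.tendsto_nhds.2 fun ε hε => ?_
  have f0 := fr2_nonneg A₀
  have f1 := fr2_nonneg M
  obtain ⟨δ, hδ, hδ'⟩ : ∃ δ : ℝ, 0 < δ ∧ δ ^ 2 * fr2 M ≤ (ε / 3) ^ 2 := by
    refine ⟨ε / 3 / (fr2 M + 1), by positivity, ?_⟩
    rw [div_pow, div_mul_eq_mul_div, div_le_iff₀ (by positivity)]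
    exact mul_le_mul_of_nonneg_left (by nlinarith) (by positivity)
  obtain ⟨q, hq⟩ := exists_polynomial_near_of_continuousOn (-(fr2 A₀ + 2)) (fr2 A₀ + 2) g'
    hg.c.continuousOn δ hδ
  obtain ⟨p, p1, p2⟩ := dk2_poly hA hs h₀ hM q
  have hr : C1 (fun t => g t - p t) fun t => g' t - q.eval t :=
    ⟨fun t => (hg.d t).fun_sub (p1.d t), hg.c.sub p1.c⟩
  have key : ∀ B : Mx m, B.IsSymm → fr2 B ≤ fr2 A₀ + 1 →
      |dk g B M i j - dk p B M i j| ≤ ε / 3 := fun B hB hle => by
    have e := dk_add_fun hB hM (fun t => (p1.d t).differentiableAt)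
      fun t => (hr.d t).differentiableAt
    simp only [add_sub_cancel] at e
    rw [show dk g B M = _ from e, Matrix.add_apply, add_sub_cancel_left]
    refine abs_le_of_sq_le_sq ((sq_le_fr2 _ i j).trans
      ((fr2_dk_le hB hM hr fun t ht => ?_).trans hδ')) (by positivity)
    rw [abs_sub_comm]
    exact (hq t (abs_le.1 (abs_le_of_sq_le_sq (by nlinarith) (by positivity)))).le
  filter_upwards [Metric.tendsto_nhds.1 (tendsto_pi_nhds.1 (tendsto_pi_nhds.1 p2 i) j) (ε / 3)
    (by positivity), ((continuous_fr2.tendsto A₀).comp hA).eventually_le_const (lt_add_one _)]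
    with t h1 h2
  rw [Real.dist_eq] at h1 ⊢
  have k1 := abs_le.1 (key _ (hs t) h2)
  have k2 := abs_le.1 (key _ h₀ (le_add_of_nonneg_right zero_le_one))
  have k3 := abs_lt.1 h1
  exact abs_lt.2 ⟨by linarith, by linarith⟩

theorem tame_mf {T : Vc m → Mx m} (hT : ∀ i j, Tame fun z => T z i j) (hs : ∀ z, (T z).IsSymm)
    (hg : C1 g g') {K : ℝ} (hK : ∀ t, |g' t| ≤ K) (i j : Fin m) :
    Tame (fun z => mf g (T z) i j) ∧ ∀ k, ∀ᵐ z ∂gm m, pd k (fun y => mf g (T y) i j) z =
      dk g (T z) (of fun a b => pd k (fun y => T y a b) z) i j := by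
  have hd : Differentiable ℝ g := fun t => (hg.d t).differentiableAt
  refine ⟨?_, fun k => ?_⟩
  · choose C n hC h using hT
    have K0 : 0 ≤ K := (abs_nonneg _).trans (hK 0)
    have C0 : 0 ≤ ∑ p : Fin m × Fin m, C p.1 p.2 := Finset.sum_nonneg fun p _ => hC p.1 p.2
    refine ⟨K * m * ∑ p : Fin m × Fin m, C p.1 p.2, ∑ p : Fin m × Fin m, n p.1 p.2,
      by positivity, fun x y => ?_⟩
    have h1 : ∀ a b, |T x a b - T y a b| ≤ (∑ p : Fin m × Fin m, C p.1 p.2) *
        (1 + ‖x‖ + ‖y‖) ^ (∑ p : Fin m × Fin m, n p.1 p.2) * ‖x - y‖ := fun a b =>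
      (h a b x y).trans (mul_le_mul_of_nonneg_right (mul_le_mul
        (Finset.single_le_sum (f := fun p : Fin m × Fin m => C p.1 p.2) (fun p _ => hC p.1 p.2)
          (Finset.mem_univ (a, b)))
        (pow_le_pow_right₀ (by linarith [norm_nonneg x, norm_nonneg y])
          (Finset.single_le_sum (f := fun p : Fin m × Fin m => n p.1 p.2) (fun p _ => Nat.zero_le _)
            (Finset.mem_univ (a, b)))) (by positivity) C0) (norm_nonneg _))
    rw [mul_assoc (K * m), mul_assoc (K * m)]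
    have h0 := (abs_nonneg _).trans (h1 i j)
    generalize (∑ p : Fin m × Fin m, C p.1 p.2) *
      (1 + ‖x‖ + ‖y‖) ^ (∑ p : Fin m × Fin m, n p.1 p.2) * ‖x - y‖ = δ at h1 h0
    have h2 : fr2 (T x - T y) ≤ ∑ _a : Fin m, ∑ _b : Fin m, δ ^ 2 :=
      Finset.sum_le_sum fun a _ => Finset.sum_le_sum fun b _ => sq_le_sq' (abs_le.1 (h1 a b)).1
        (abs_le.1 (h1 a b)).2
    have h3 := fr2_mf_sub_le (hs x) (hs y) (h := g) (K := K) fun u v _ _ => by
      rw [← dd_mul, abs_mul]
      exact mul_le_mul_of_nonneg_right (abs_dd_le hd fun t _ => (hg.d t).deriv ▸ hK t) (abs_nonneg _)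
    refine abs_le_of_sq_le_sq ((sq_le_fr2 _ i j).trans (h3.trans
      ((mul_le_mul_of_nonneg_left h2 (sq_nonneg K)).trans (le_of_eq ?_)))) (by positivity)
    simp only [Finset.sum_const, Finset.card_univ, Fintype.card_fin, nsmul_eq_mul]
    ring
  · filter_upwards [ae_all_iff.2 fun a => ae_all_iff.2 fun b => (hT a b).ae_diff] with z hz
    obtain ⟨U, d, E⟩ := exists_eig (hs z)
    obtain ⟨D, h1, h2⟩ := hasFDerivAt_mf (Eventually.of_forall hs)
      (fun a b => (hz a b).hasFDerivAt) E hd i j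
    have h3 : (of fun a b => pd k (fun y => T y a b) z).IsSymm := Matrix.IsSymm.ext fun a b =>
      congrArg (fun f => pd k f z) (funext fun y => (hs y).apply a b)
    rw [pd_of_hasFDerivAt h1, h2, dk_eq E h3 hd]
    simp only [pd_eq_fderiv (hz _ _)]

end Crest.Agent.R253
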