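import Crest.Agent.R253.Dk

set_option autoImplicit false
set_option linter.unusedVariables false
set_option linter.unusedSectionVars false

open MeasureTheory Matrix Set Filter Topology
open Crest.Agent.R215 (gam)
open Crest.Agent.R203
open Crest.GeometryTopology.Isotropic

noncomputable section

namespace Crest.Agent.R253

variable {m : ℕ}

/-! Bounded symmetric Sobolev fields: chain rule and square integrability. -/

variable {T : Vc m → Mx m} {S : Fin m → Vc m → Mx m} {g g' : ℝ → ℝ} {A B : Vc m → Mx m}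

theorem L2m.add (h : L2m A) (h' : L2m B) : L2m fun z => A z + B z := by
  exact fun i j => (h i j).add (h' i j)
theorem L2m.sub (h : L2m A) (h' : L2m B) : L2m fun z => A z - B z := by
  exact fun i j => (h i j).sub (h' i j)
theorem L2m.smul (h : L2m A) (c : ℝ) : L2m fun z => c • A z := by
  exact fun i j => (h i j).const_mul c
theorem L2m.transpose (h : L2m A) : L2m fun z => (A z)ᵀ := by
  exact fun i j => h j i
theorem L2m.mul_const (h : L2m A) (C : Mx m) : L2m fun z => A z * C := by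
  intro i j
  simp only [mul_apply]
  exact memLp_finsetSum _ fun k _ => (h i k).mul_const _
theorem l2m_const (C : Mx m) : L2m fun _ : Vc m => C := by
  exact fun i j => memLp_const _
theorem l2m_sum {κ : Type} (s : Finset κ) {F : κ → Vc m → Mx m} (h : ∀ j ∈ s, L2m (F j)) :
    L2m fun z => ∑ j ∈ s, F j z := by
  intro i k
  simp only [Matrix.sum_apply]
  exact memLp_finsetSum _ fun j hj => h j hj i k
theorem L2m.integrable_fip (h : L2m A) (h' : L2m B) :
    Integrable (fun z => fip (A z) (B z)) (gm m) := by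
  unfold fip
  exact integrable_finsetSum _ fun i _ => integrable_finsetSum _ fun j _ => wd2_im (h i j) (h' i j)
theorem L2m.integrable_fr2 (h : L2m A) : Integrable (fun z => fr2 (A z)) (gm m) := by
  simp only [fr2_eq_fip]
  exact h.integrable_fip h
theorem l2m_of_fr2_le (hm : ∀ i j, Measurable fun z => A z i j) (h : L2m B) {c : ℝ}
    (hle : ∀ z, fr2 (A z) ≤ c * fr2 (B z)) : L2m A := by
  intro i j
  refine (memLp_two_iff_integrable_sq (hm i j).aestronglyMeasurable).2 ?_
  refine (h.integrable_fr2.const_mul c).mono' ((hm i j).pow_const 2).aestronglyMeasurable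
    (ae_of_all _ fun z => ?_)
  rw [Real.norm_eq_abs, abs_of_nonneg (sq_nonneg _)]
  exact (sq_le_fr2 _ i j).trans (hle z)

theorem Fld.fa_bdd (h : Fld T S) (hg : Continuous g) :
    ∃ K, ∀ z t, t ^ 2 ≤ fr2 (T z) → |g t| ≤ K := by
  obtain ⟨B, hB⟩ := h.bdd
  obtain ⟨K, hK⟩ := (isCompact_Icc (a := -√B) (b := √B)).exists_bound_of_continuousOn
    hg.continuousOn
  exact ⟨K, fun z t ht => hK t (abs_le.1 (Real.abs_le_sqrt (ht.trans (hB z))))⟩

theorem fa_bdd_mul {a f : Vc m → ℝ} (ha : Measurable a) {C : ℝ} (hC : ∀ z, |a z| ≤ C)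
    (hf : MemLp f 2 (gm m)) : MemLp (fun z => a z * f z) 2 (gm m) :=
  hf.of_le_mul (c := C) (ha.aestronglyMeasurable.mul hf.1) (ae_of_all _ fun z => by
    rw [norm_mul]
    exact mul_le_mul_of_nonneg_right (hC z) (norm_nonneg _))

theorem Fld.mf_bdd (h : Fld T S) (hg : Continuous g) : ∃ C, ∀ z i j, |mf g (T z) i j| ≤ C := by
  obtain ⟨K, hK⟩ := h.fa_bdd hg
  refine ⟨√(m * K ^ 2), fun z i j => Real.abs_le_sqrt ((sq_le_fr2 _ i j).trans ?_)⟩
  obtain ⟨U, d, E⟩ := exists_eig (h.symT z)
  rw [(E.mf g).fr2_eq]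
  calc ∑ a, g (d a) ^ 2 ≤ ∑ _a : Fin m, K ^ 2 := Finset.sum_le_sum fun a _ =>
        sq_le_sq' (abs_le.1 (hK z _ (E.sq_le a))).1 (abs_le.1 (hK z _ (E.sq_le a))).2
    _ = m * K ^ 2 := by simp
theorem Fld.l2T (h : Fld T S) : L2m T := by
  exact fun i j => (h.wd i j).l2
theorem Fld.l2S (h : Fld T S) (k : Fin m) : L2m (S k) := by
  exact fun i j => (h.wd i j).l2d k
theorem Fld.l2_mf (h : Fld T S) (hg : Continuous g) : L2m fun z => mf g (T z) := by
  obtain ⟨C, hC⟩ := h.mf_bdd hg
  exact fun i j => MemLp.of_bound (measurable_mf h.measT h.symT hg i j).aestronglyMeasurable C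
    (ae_of_all _ fun z => hC z i j)
theorem Fld.l2_mul (h : Fld T S) (hg : Continuous g) (hA : L2m A) :
    L2m fun z => mf g (T z) * A z := by
  obtain ⟨C, hC⟩ := h.mf_bdd hg
  intro i j
  simp only [mul_apply]
  exact memLp_finsetSum _ fun k _ =>
    fa_bdd_mul (measurable_mf h.measT h.symT hg i k) (fun z => hC z i k) (hA k j)
theorem Fld.l2_mul' (h : Fld T S) (hg : Continuous g) (hA : L2m A) :
    L2m fun z => A z * mf g (T z) := by
  obtain ⟨C, hC⟩ := h.mf_bdd hg
  intro i j
  simp only [mul_apply]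
  refine memLp_finsetSum _ fun k _ => ?_
  simp only [mul_comm (A _ i k)]
  exact fa_bdd_mul (measurable_mf h.measT h.symT hg k j) (fun z => hC z k j) (hA i k)
theorem Fld.l2v_mul (h : Fld T S) (hg : Continuous g) {u : Vc m → Vc m} (hu : L2v u) :
    L2v fun z => mf g (T z) *ᵥ u z := by
  obtain ⟨C, hC⟩ := h.mf_bdd hg
  intro i
  simp only [mulVec, dotProduct]
  exact memLp_finsetSum _ fun k _ =>
    fa_bdd_mul (measurable_mf h.measT h.symT hg i k) (fun z => hC z i k) (hu k)
theorem Fld.l2_Dg (h : Fld T S) (hg : C1 g g') (k : Fin m) : L2m (Dg T S g k) := by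
  obtain ⟨K, hK⟩ := h.fa_bdd hg.c
  exact l2m_of_fr2_le (fun i j => measurable_dk h.measT (h.measS k) h.symT (h.symS k)
    (fun t => (hg.d t).differentiableAt) i j) (h.l2S k)
    fun z => fr2_dk_le (h.symT z) (h.symS k z) hg (hK z)
theorem Fld.l2_cm (h : Fld T S) (hg : C1 g g') (k : Fin m) : L2m (cm T S g g' k) := by
  exact (h.l2_Dg hg k).sub (h.l2_mul hg.c (h.l2S k))
theorem Fld.integrable_boz (h : Fld T S) : Integrable (boz T S) (gm m) := by
  have hc : Continuous fun t => (lam t)⁻¹ := continuous_lam.inv₀ fun t => (lam_pos t).ne'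
  have hF : C1 FF lam := ⟨hasDerivAt_FF, continuous_lam⟩
  exact integrable_finsetSum _ fun k _ =>
    (h.l2_mul' hc (h.l2_mul hc (h.l2_Dg hF k))).integrable_fip (h.l2_Dg hF k)
theorem Fld.fa_int (h : Fld T S) (θ : Vc m) (hg : Continuous g) :
    Integrable (fun z => θ ⬝ᵥ mf g (T z) *ᵥ θ) (gm m) :=
  (l2v_const θ).integrable_dot ((h.l2_mf hg).mulVec θ)
theorem Fld.posFun (h : Fld T S) {θ : Vc m} (hθ : θ ⬝ᵥ θ = 1) : PosFun (Ex T θ) := by
  refine ⟨fun f g hf hg => ?_, fun c f hf => ?_, fun f g hf hg e => ?_, ?_⟩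
  · unfold Ex
    rw [← integral_add (h.fa_int θ hf) (h.fa_int θ hg)]
    refine integral_congr_ae (ae_of_all _ fun z => ?_)
    simp only [mf_add (h.symT z), add_mulVec, dotProduct_add]
  · unfold Ex
    rw [← integral_const_mul]
    refine integral_congr_ae (ae_of_all _ fun z => ?_)
    simp only [mf_const_mul (h.symT z), smul_mulVec, dotProduct_smul, smul_eq_mul]
  · exact integral_mono (h.fa_int θ hf) (h.fa_int θ hg) fun z => quad_mf_mono (h.symT z) e θ
  · unfold Ex
    have e : ∀ z, θ ⬝ᵥ mf (fun _ => 1) (T z) *ᵥ θ = 1 := fun z => by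
      rw [mf_const (h.symT z), one_smul, one_mulVec, hθ]
    simp [e]
theorem Fld.ip_mf (h : Fld T S) (θ : Vc m) {f : ℝ → ℝ} (hf : Continuous f) (hg : Continuous g) :
    ip (fun z => mf f (T z) *ᵥ θ) (fun z => mf g (T z) *ᵥ θ) = Ex T θ fun t => f t * g t := by
  unfold ip Ex
  refine integral_congr_ae (ae_of_all _ fun z => ?_)
  simp only
  rw [← dot_mulVec_symm (mf_isSymm (h.symT z) f), mulVec_mulVec, mf_mul (h.symT z)]
theorem Fld.sum_Ex (h : Fld T S) (hg : Continuous g) {U : Mx m} (hU : U * Uᵀ = 1) :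
    ∑ a, Ex T (fun i => U i a) g = ∫ z, trace (mf g (T z)) ∂gm m := by
  unfold Ex
  rw [← integral_finsetSum _ fun a _ => h.fa_int _ hg]
  refine integral_congr_ae (ae_of_all _ fun z => ?_)
  simp only [← conj_diag_eq_quad]
  exact trace_conj hU _

theorem chn_sq {F : ℕ → Vc m → Mx m} {G : Vc m → Mx m} (hF : ∀ n, L2m (F n)) (hG : L2m G)
    (h : ∀ a b, Tendsto (fun n => ∫ z, (F n z a b - G z a b) ^ 2 ∂gm m) atTop (𝓝 0)) :
    Tendsto (fun n => ∫ z, fr2 (F n z - G z) ∂gm m) atTop (𝓝 0) := by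
  have h1 := tendsto_finsetSum Finset.univ fun a _ => tendsto_finsetSum Finset.univ fun b _ => h a b
  simp only [Finset.sum_const_zero] at h1
  refine h1.congr fun n => ?_
  have hi : ∀ a b, Integrable (fun z => (F n z a b - G z a b) ^ 2) (gm m) := fun a b =>
    ((hF n a b).sub (hG a b)).integrable_sq
  simp only [fr2, Matrix.sub_apply]
  rw [integral_finsetSum _ fun a _ => integrable_finsetSum _ fun b _ => hi a b]
  exact Finset.sum_congr rfl fun a _ => (integral_finsetSum _ fun b _ => hi a b).symm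

theorem chn_sub {u : ℕ → Vc m → ℝ} (hu : ∀ n, Integrable (u n) (gm m)) (h0 : ∀ n z, 0 ≤ u n z)
    (h : Tendsto (fun n => ∫ z, u n z ∂gm m) atTop (𝓝 0)) :
    ∃ φ : ℕ → ℕ, StrictMono φ ∧ ∀ᵐ z ∂gm m, Tendsto (fun n => u (φ n) z) atTop (𝓝 0) := by
  refine (tendstoInMeasure_of_tendsto_eLpNorm (g := fun _ => (0 : ℝ)) one_ne_zero
    (fun n => (hu n).1) aestronglyMeasurable_const ?_).exists_seq_tendsto_ae
  have h1 := ENNReal.tendsto_ofReal h
  rw [ENNReal.ofReal_zero] at h1
  refine h1.congr fun n => ?_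
  have e : (u n - fun _ => (0 : ℝ)) = u n := funext fun z => sub_zero _
  rw [e, eLpNorm_one_eq_lintegral_enorm, ← ofReal_integral_norm_eq_lintegral_enorm (hu n)]
  simp only [Real.norm_of_nonneg (h0 n _)]

theorem chn_bdd (h : Fld T S) (hg : C1 g g') {K : ℝ} (hK : ∀ t, |g' t| ≤ K) :
    MW (fun z => mf g (T z)) (Dg T S g) := by
  intro i j
  set Tn : ℕ → Vc m → Mx m := fun n z => of fun a b => trunc (fun y => T y a b) n z with hTn
  set Sn : ℕ → Fin m → Vc m → Mx m :=
    fun n k z => of fun a b => pd k (trunc (fun y => T y a b) n) z with hSn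
  have e : ∀ a b, (fun y => T y b a) = fun y => T y a b := fun a b =>
    funext fun y => (h.symT y).apply a b
  have sT : ∀ n z, (Tn n z).IsSymm := fun n z => IsSymm.ext fun a b => by
    simp only [hTn, of_apply, e a b]
  have sS : ∀ n k z, (Sn n k z).IsSymm := fun n k z => IsSymm.ext fun a b => by
    simp only [hSn, of_apply, e a b]
  have lT : ∀ n, L2m (Tn n) := fun n a b => (tame_trunc _ n).pg.memLp_two
  have lS : ∀ n k, L2m (Sn n k) := fun n k a b => (tame_pd_trunc _ n k).pg.memLp_two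
  have mT : ∀ n a b, Measurable fun z => Tn n z a b := fun n a b =>
    (contDiff_trunc _ n).continuous.measurable
  have cT := chn_sq lT h.l2T fun a b => tendsto_trunc (h.wd a b).l2
  have cS := fun k => chn_sq (fun n => lS n k) (h.l2S k) fun a b => (h.wd a b).tendsto_pd_trunc k
  have iT : ∀ n, Integrable (fun z => fr2 (Tn n z - T z)) (gm m) := fun n =>
    ((lT n).sub h.l2T).integrable_fr2
  have iS : ∀ n k, Integrable (fun z => fr2 (Sn n k z - S k z)) (gm m) := fun n k =>
    ((lS n k).sub (h.l2S k)).integrable_fr2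
  obtain ⟨φ, hφ, hae⟩ := chn_sub iT (fun n z => fr2_nonneg _) cT
  have lip : ∀ x y, |g x - g y| ≤ K * |x - y| := fun x y =>
    convex_univ.norm_image_sub_le_of_norm_hasDerivWithin_le (𝕜 := ℝ)
      (fun x _ => (hg.d x).hasDerivWithinAt) (fun x _ => hK x) (mem_univ y) (mem_univ x)
  have wn : ∀ n, WD (fun z => mf g (Tn n z) i j) fun k z => dk g (Tn n z) (Sn n k z) i j := by
    intro n
    obtain ⟨t1, t2⟩ := tame_mf (T := Tn n) (fun a b => tame_trunc _ n) (sT n) hg hK i j
    exact (wd_of_tame t1).congr (EventuallyEq.refl _ _) t2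
  refine wd_of_tendsto (fun n => wn (φ n)) (h.l2_mf hg.cont i j) (fun k => h.l2_Dg hg k i j) ?_
    fun k => ?_
  · have h1 := (cT.comp hφ.tendsto_atTop).const_mul (K ^ 2)
    rw [mul_zero] at h1
    refine squeeze_zero (fun n => integral_nonneg fun z => sq_nonneg _) (fun n => ?_) h1
    rw [Function.comp_apply, ← integral_const_mul]
    exact integral_mono_of_nonneg (ae_of_all _ fun z => sq_nonneg _) ((iT _).const_mul _)
      (ae_of_all _ fun z => (sq_le_fr2 (mf g (Tn (φ n) z) - mf g (T z)) i j).trans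
        (fr2_mf_sub_le (sT _ z) (h.symT z) fun x y _ _ => lip x y))
  · set w : ℕ → Vc m → ℝ :=
      fun n z => (dk g (Tn n z) (S k z) i j - dk g (T z) (S k z) i j) ^ 2 with hw
    have mw : ∀ n, AEStronglyMeasurable (w n) (gm m) := fun n =>
      (((measurable_dk (mT n) (h.measS k) (sT n) (h.symS k) hg.diff i j).sub
        (measurable_dk h.measT (h.measS k) h.symT (h.symS k) hg.diff i j)).pow_const
          2).aestronglyMeasurable
    have bw : ∀ n z, ‖w n z‖ ≤ 4 * K ^ 2 * fr2 (S k z) := fun n z => by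
      have a1 := (sq_le_fr2 _ i j).trans (fr2_dk_le (sT n z) (h.symS k z) hg fun t _ => hK t)
      have a2 := (sq_le_fr2 _ i j).trans (fr2_dk_le (h.symT z) (h.symS k z) hg fun t _ => hK t)
      rw [Real.norm_of_nonneg (sq_nonneg _)]
      nlinarith [sq_nonneg (dk g (Tn n z) (S k z) i j + dk g (T z) (S k z) i j)]
    have ib := (h.l2S k).integrable_fr2.const_mul (4 * K ^ 2)
    have h2 := tendsto_integral_of_dominated_convergence (F := fun n => w (φ n))
      (f := fun _ => (0 : ℝ)) _ (fun n => mw _) ib (fun n => ae_of_all _ (bw _)) (by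
        filter_upwards [hae] with z hz
        have a1 := tendsto_dk (tendsto_of_fr2 hz) (fun n => sT _ z) (h.symT z) (h.symS k z) hg
        have a2 := ((tendsto_pi_nhds.1 (tendsto_pi_nhds.1 a1 i) j).sub_const
          (dk g (T z) (S k z) i j)).pow 2
        simpa using a2)
    have h1 := (((cS k).comp hφ.tendsto_atTop).const_mul (2 * K ^ 2)).add (h2.const_mul 2)
    rw [integral_zero, mul_zero, mul_zero, add_zero] at h1
    refine squeeze_zero (fun n => integral_nonneg fun z => sq_nonneg _) (fun n => ?_) h1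
    have i1 := (iS (φ n) k).const_mul (2 * K ^ 2)
    have i2 := (ib.mono' (mw (φ n)) (ae_of_all _ (bw _))).const_mul 2
    rw [Function.comp_apply, ← integral_const_mul, ← integral_const_mul, ← integral_add i1 i2]
    refine integral_mono_of_nonneg (ae_of_all _ fun z => sq_nonneg _) (i1.add i2)
      (ae_of_all _ fun z => ?_)
    have a1 := (sq_le_fr2 _ i j).trans
      (fr2_dk_le (sT (φ n) z) ((sS (φ n) k z).sub (h.symS k z)) hg fun t _ => hK t)
    rw [dk_sub_right (sT _ z) (sS _ k z) (h.symS k z) hg.diff, Matrix.sub_apply] at a1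
    simp only [hw, Dg]
    nlinarith [sq_nonneg (dk g (Tn (φ n) z) (Sn (φ n) k z) i j - 2 * dk g (Tn (φ n) z) (S k z) i j +
      dk g (T z) (S k z) i j)]

/-- **Chain rule.**  Replace `g` by `C1.exists_bdd`; truncate the entries of `T` (`trunc`, the
truncations are symmetric), use `tame_mf`, `wd_of_tame`, pass to an a.e. convergent subsequence,
`fr2_mf_sub_le`, `fr2_dk_le`, `tendsto_dk` with dominated convergence, `wd_of_tendsto`. -/
theorem Fld.chain (h : Fld T S) (hg : C1 g g') : MW (fun z => mf g (T z)) (Dg T S g) := by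
  obtain ⟨B, hB⟩ := h.bdd
  obtain ⟨k, k', K, hk, -, hK, e⟩ := hg.exists_bdd (B + 2)
  have e' : ∀ z t, t ^ 2 ≤ fr2 (T z) + 1 → g t = k t := fun z t ht =>
    (e t (by nlinarith [hB z, sq_abs t, sq_nonneg (|t| - 1), abs_nonneg t])).symm
  have e1 : (fun z => mf g (T z)) = fun z => mf k (T z) :=
    funext fun z => mf_congr (h.symT z) fun t ht => e' z t (by linarith)
  have e2 : Dg T S g = Dg T S k := funext fun l => funext fun z =>
    dk_congr (h.symT z) (h.symS l z) hg.diff hk.diff (e' z)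
  rw [e1, e2]
  exact chn_bdd h hk hK

end Crest.Agent.R253
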