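import Crest.Agent.R253.Defs

/-! Row 253: continuity and exponential decay of log-concave densities (auxiliary file of `Lc`). -/

set_option autoImplicit false
set_option linter.unusedVariables false

open MeasureTheory Set Filter Topology

noncomputable section

namespace Crest.Agent.R253.Lc1

variable {m : ℕ} {f : Vc m → ℝ}

theorem interior_nonempty (h : LC f) : (interior {x | 0 < f x}).Nonempty := by
  by_contra hn
  rw [not_nonempty_iff_eq_empty] at hn
  have h0 := h.cvx.addHaar_frontier (volume : Measure (Vc m))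
  rw [frontier, hn, sdiff_empty] at h0
  have h1 : f =ᵐ[volume] 0 := by
    filter_upwards [measure_eq_zero_iff_ae_notMem.1 h0] with x hx
    exact le_antisymm (not_lt.1 fun h' => hx (subset_closure h')) (h.nonneg x)
  have h2 := h.one
  rw [integral_congr_ae h1] at h2
  simp at h2

theorem cont_int (h : LC f) {x : Vc m} (hx : x ∈ interior {x | 0 < f x}) : ContinuousAt f x := by
  have h1 := (h.ccv.continuousOn_interior.continuousAt (isOpen_interior.mem_nhds hx)).rexp
  refine h1.congr ?_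
  filter_upwards [mem_interior_iff_mem_nhds.1 hx] with y hy using Real.exp_log hy

theorem ae_cont (h : LC f) : ∀ᵐ x ∂(volume : Measure (Vc m)), ContinuousAt f x := by
  filter_upwards [measure_eq_zero_iff_ae_notMem.1 (h.cvx.addHaar_frontier (volume : Measure (Vc m)))]
    with x hx
  by_cases h1 : x ∈ interior {x | 0 < f x}
  · exact cont_int h h1
  · have h2 : x ∉ closure {x | 0 < f x} := fun h2 => hx ⟨h2, h1⟩
    refine (continuousAt_const (y := (0 : ℝ))).congr ?_
    filter_upwards [isClosed_closure.isOpen_compl.mem_nhds h2] with y hy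
    exact (le_antisymm (not_lt.1 fun h' => hy (subset_closure h')) (h.nonneg y)).symm

theorem mid (h : LC f) (x y : Vc m) : f (x + y) * f (x - y) ≤ f x ^ 2 := by
  rcases (h.nonneg (x + y)).eq_or_lt with h1 | h1
  · rw [← h1, zero_mul]; positivity
  rcases (h.nonneg (x - y)).eq_or_lt with h2 | h2
  · rw [← h2, mul_zero]; positivity
  have e : (1 / 2 : ℝ) • (x + y) + (1 / 2 : ℝ) • (x - y) = x := by module
  have h3 := h.cvx h1 h2 (a := 1 / 2) (b := 1 / 2) (by norm_num) (by norm_num) (by norm_num)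
  have h4 := h.ccv.2 h1 h2 (by norm_num : (0 : ℝ) ≤ 1 / 2) (by norm_num : (0 : ℝ) ≤ 1 / 2) (by norm_num)
  rw [e] at h3 h4
  have h5 : 0 < f x := h3
  simp only [smul_eq_mul] at h4
  rw [← Real.log_le_log_iff (by positivity) (by positivity), Real.log_mul h1.ne' h2.ne', Real.log_pow]
  push_cast
  linarith

theorem dom (h : LC f) : ∃ C κ : ℝ, 0 < κ ∧ ∀ x, f x ≤ C * Real.exp (-(κ * ‖x‖)) := by
  obtain ⟨x₀, hx₀⟩ := interior_nonempty h
  have hp : 0 < f x₀ := interior_subset (s := {x | 0 < f x}) hx₀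
  have hi : Integrable f := Integrable.of_integral_ne_zero (by rw [h.one]; norm_num)
  obtain ⟨r, hr, hb⟩ := Metric.eventually_nhds_iff.1
    ((cont_int h hx₀).eventually (lt_mem_nhds (half_lt_self hp)))
  obtain ⟨v, hv⟩ : ∃ v : ℝ, v = (volume : Measure (Vc m)).real (Metric.ball 0 (r / 2)) := ⟨_, rfl⟩
  have hv0 : 0 < v := by
    rw [hv]
    exact ENNReal.toReal_pos (Metric.measure_ball_pos _ _ (by positivity)).ne' measure_ball_lt_top.ne
  have key : ∀ (x : Vc m) (s : Set (Vc m)), Metric.ball ((1 / 2 : ℝ) • (x + x₀)) (r / 2) ⊆ s →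
      √(f x₀ / 2 * f x) * v ≤ ∫ y in s, f y := by
    intro x s hs
    refine le_trans ?_ (setIntegral_mono_set hi.integrableOn (ae_of_all _ h.nonneg) hs.eventuallyLE)
    have e : v = (volume : Measure (Vc m)).real (Metric.ball ((1 / 2 : ℝ) • (x + x₀)) (r / 2)) := by
      rw [hv, Measure.real, Measure.real, Measure.addHaar_ball_center _ ((1 / 2 : ℝ) • (x + x₀))]
    rw [e]
    refine setIntegral_ge_of_const_le_real measurableSet_ball measure_ball_lt_top.ne (fun y hy => ?_)
      hi.integrableOn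
    have h1 := mid h y (x - y)
    rw [add_sub_cancel] at h1
    have h2 : dist (y - (x - y)) x₀ < r := by
      rw [Metric.mem_ball, dist_eq_norm] at hy
      have : y - (x - y) - x₀ = (2 : ℝ) • (y - (1 / 2 : ℝ) • (x + x₀)) := by module
      rw [dist_eq_norm, this, norm_smul, Real.norm_eq_abs, abs_two]
      linarith
    have h3 := hb h2
    refine Real.sqrt_le_iff.2 ⟨h.nonneg y, le_trans ?_ h1⟩
    rw [mul_comm]
    exact mul_le_mul_of_nonneg_left h3.le (h.nonneg x)
  obtain ⟨C, hC⟩ : ∃ C : ℝ, ∀ x, f x ≤ C := by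
    refine ⟨(1 / v) ^ 2 / (f x₀ / 2), fun x => ?_⟩
    have h1 := key x univ (subset_univ _)
    rw [Measure.restrict_univ, h.one, ← le_div_iff₀ hv0] at h1
    rw [le_div_iff₀ (by positivity), mul_comm]
    exact (Real.sqrt_le_iff.1 h1).2
  have ht := tendsto_setIntegral_of_antitone (μ := (volume : Measure (Vc m))) (f := f)
    (s := fun n : ℕ => {y | (n : ℝ) ≤ ‖y - x₀‖})
    (fun n => measurableSet_le measurable_const (by fun_prop))
    (fun a b hab y (hy : (b : ℝ) ≤ ‖y - x₀‖) => show (a : ℝ) ≤ ‖y - x₀‖ from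
      le_trans (Nat.cast_le.2 hab) hy) ⟨0, hi.integrableOn⟩
  have he : (⋂ n : ℕ, {y : Vc m | (n : ℝ) ≤ ‖y - x₀‖}) = ∅ := by
    refine eq_empty_of_forall_notMem fun y hy => ?_
    obtain ⟨n, hn⟩ := exists_nat_gt ‖y - x₀‖
    exact absurd (mem_iInter.1 hy n) (not_le.2 hn)
  rw [he, setIntegral_empty] at ht
  obtain ⟨n, hn⟩ := (ht.eventually (gt_mem_nhds
    (show 0 < √(f x₀ / 2 * (f x₀ * Real.exp (-1))) * v by positivity))).exists
  obtain ⟨R, hR⟩ : ∃ R : ℝ, R = 2 * n + r := ⟨_, rfl⟩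
  have hR0 : 0 < R := by rw [hR]; positivity
  have far : ∀ x, R ≤ ‖x - x₀‖ → f x ≤ f x₀ * Real.exp (-1) := by
    intro x hx
    have h1 := (key x {y | (n : ℝ) ≤ ‖y - x₀‖} fun y hy => by
      rw [Metric.mem_ball, dist_eq_norm] at hy
      have e : x - x₀ = (2 : ℝ) • ((y - x₀) - (y - (1 / 2 : ℝ) • (x + x₀))) := by module
      rw [e, norm_smul, Real.norm_eq_abs, abs_two] at hx
      have := norm_sub_le (y - x₀) (y - (1 / 2 : ℝ) • (x + x₀))
      change (n : ℝ) ≤ ‖y - x₀‖
      linarith).trans hn.le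
    have h2 := (Real.sqrt_le_sqrt_iff (by positivity)).1 (le_of_mul_le_mul_right h1 hv0)
    exact le_of_mul_le_mul_left h2 (by positivity)
  have hC0 : 0 ≤ C := (h.nonneg 0).trans (hC 0)
  have main : ∀ x, f x ≤ C * Real.exp (1 - ‖x - x₀‖ / R) := by
    intro x
    rcases le_total R ‖x - x₀‖ with hx | hx
    · rcases (h.nonneg x).eq_or_lt with h1 | h1
      · rw [← h1]; positivity
      have hρ : 0 < ‖x - x₀‖ := hR0.trans_le hx
      obtain ⟨t, ht⟩ : ∃ t : ℝ, t = R / ‖x - x₀‖ := ⟨_, rfl⟩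
      have t0 : 0 < t := by rw [ht]; positivity
      have t1 : t ≤ 1 := by rw [ht]; exact (div_le_one hρ).2 hx
      have h3 := h.cvx hp h1 (a := 1 - t) (b := t) (by linarith) t0.le (by ring)
      have h4 := h.ccv.2 hp h1 (by linarith : (0 : ℝ) ≤ 1 - t) t0.le (by ring)
      have h5 := far ((1 - t) • x₀ + t • x) (by
        have e : (1 - t) • x₀ + t • x - x₀ = t • (x - x₀) := by module
        rw [e, norm_smul, Real.norm_eq_abs, abs_of_pos t0, ht, div_mul_cancel₀ _ hρ.ne'])
      have h6 := Real.log_le_log h3 h5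
      rw [Real.log_mul hp.ne' (Real.exp_pos _).ne', Real.log_exp] at h6
      simp only [smul_eq_mul] at h4
      have h7 : Real.log (f x) ≤ Real.log (f x₀) + -(‖x - x₀‖ / R) := by
        have e : t * (‖x - x₀‖ / R) = 1 := by rw [ht]; field_simp
        refine le_of_mul_le_mul_left ?_ t0
        nlinarith
      have h8 := Real.exp_le_exp.2 h7
      rw [Real.exp_log h1, Real.exp_add, Real.exp_log hp] at h8
      exact h8.trans (mul_le_mul (hC x₀) (Real.exp_le_exp.2 (by linarith)) (Real.exp_pos _).le hC0)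
    · refine (hC x).trans (le_mul_of_one_le_right hC0 (Real.one_le_exp ?_))
      rw [sub_nonneg]
      exact (div_le_one hR0).2 hx
  refine ⟨C * Real.exp (1 + ‖x₀‖ / R), 1 / R, by positivity, fun x => (main x).trans ?_⟩
  rw [mul_assoc, ← Real.exp_add]
  refine mul_le_mul_of_nonneg_left (Real.exp_le_exp.2 ?_) hC0
  have h1 : ‖x‖ ≤ ‖x - x₀‖ + ‖x₀‖ := by simpa using norm_add_le (x - x₀) x₀
  have h2 := div_le_div_of_nonneg_right h1 hR0.le
  rw [add_div] at h2
  have h3 : 1 / R * ‖x‖ = ‖x‖ / R := by ring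
  linarith

end Crest.Agent.R253.Lc1
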