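import Crest.Agent.R253.Sc

/-! Row 253 (helper46): `FF` pushes the Gaussian to the exponential law; moments. -/

set_option autoImplicit false
set_option linter.unusedVariables false
set_option linter.unusedSectionVars false

open MeasureTheory Matrix Set Filter Topology ProbabilityTheory
open Crest.Agent.R215 (gam)
open Crest.Agent.R203

noncomputable section

namespace Crest.Agent.R253.L5

variable {m : ℕ}

/-- the exponential density -/
def ed (x : ℝ) : ℝ := Set.indicator (Ici 0) (fun y => Real.exp (-y)) x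

theorem ed_nonneg (x : ℝ) : 0 ≤ ed x :=
  Set.indicator_nonneg (fun y _ => (Real.exp_pos _).le) x

theorem meas_ed : Measurable ed :=
  Measurable.indicator (by fun_prop) measurableSet_Ici

theorem int_ed : Integrable ed := by
  unfold ed
  rw [integrable_indicator_iff measurableSet_Ici, integrableOn_Ici_iff_integrableOn_Ioi]
  exact integrableOn_exp_neg_Ioi 0

theorem FF_inj : Function.Injective FF :=
  (strictMono_of_deriv_pos fun t => by rw [(hasDerivAt_FF t).deriv]; exact lam_pos t).injective

theorem FF_surj {y : ℝ} (hy : 0 < y) : ∃ t, FF t = y := by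
  have h0 : 0 < Real.exp (-y) := Real.exp_pos _
  have h1 : Real.exp (-y) < 1 := Real.exp_lt_one_iff.2 (by linarith)
  obtain ⟨a, ha⟩ := (tendsto_gq_atTop.eventually (gt_mem_nhds h0)).exists
  obtain ⟨b, hb⟩ :=
    (tendsto_gq_atTop.eventually (gt_mem_nhds (show 0 < 1 - Real.exp (-y) by linarith))).exists
  have hb' : Real.exp (-y) < gq (-b) := by linarith [gq_add_neg b]
  obtain ⟨t, ht⟩ := intermediate_value_univ a (-b) continuous_gq ⟨ha.le, hb'.le⟩
  exact ⟨t, by unfold FF; rw [ht, Real.log_exp, neg_neg]⟩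

theorem exp_neg_FF (t : ℝ) : Real.exp (-FF t) = gq t := by
  unfold FF; rw [neg_neg, Real.exp_log (gq_pos t)]

/-- the exponential law -/
def nu : Measure ℝ := volume.withDensity fun x => ENNReal.ofReal (ed x)

theorem map_FF : Measure.map FF (gaussianReal 0 1) = nu := by
  ext s hs
  have hm : MeasurableSet (FF ⁻¹' s) := continuous_FF.measurable hs
  rw [Measure.map_apply continuous_FF.measurable hs, nu, withDensity_apply _ hs,
    gaussianReal_apply _ one_ne_zero]
  have e1 : FF '' (FF ⁻¹' s) = s ∩ Ioi 0 := by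
    ext y
    constructor
    · rintro ⟨t, ht, rfl⟩
      exact ⟨ht, FF_pos t⟩
    · rintro ⟨hy, hy0⟩
      obtain ⟨t, rfl⟩ := FF_surj hy0
      exact ⟨t, hy, rfl⟩
  have e2 := lintegral_image_eq_lintegral_abs_deriv_mul hm
    (fun t _ => (hasDerivAt_FF t).hasDerivWithinAt) FF_inj.injOn
    (fun x => ENNReal.ofReal (Real.exp (-x)))
  rw [e1] at e2
  have e3 : ∫⁻ x in s, ENNReal.ofReal (ed x) = ∫⁻ x in s ∩ Ioi 0, ENNReal.ofReal (Real.exp (-x)) := by
    rw [inter_comm, ← Measure.restrict_restrict measurableSet_Ioi,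
      ← lintegral_indicator measurableSet_Ioi]
    refine lintegral_congr_ae (ae_restrict_of_ae ?_)
    filter_upwards [compl_mem_ae_iff.2 (measure_singleton (0 : ℝ))] with x hx
    have hx' : x ≠ 0 := hx
    by_cases h : 0 < x
    · rw [indicator_of_mem (show x ∈ Ioi (0 : ℝ) from h), ed,
        indicator_of_mem (show x ∈ Ici (0 : ℝ) from h.le)]
    · rw [indicator_of_notMem (show x ∉ Ioi (0 : ℝ) from h), ed,
        indicator_of_notMem (show x ∉ Ici (0 : ℝ) from fun h' => h (lt_of_le_of_ne h' hx'.symm))]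
      simp
  rw [e3, e2]
  refine lintegral_congr fun t => ?_
  rw [← ENNReal.ofReal_mul (abs_nonneg _), abs_of_pos (lam_pos t), exp_neg_FF, lam_mul_gq,
    gp_eq_pdf, gaussianPDF]

instance : IsProbabilityMeasure nu := by
  rw [← map_FF]
  exact Measure.isProbabilityMeasure_map continuous_FF.measurable.aemeasurable

theorem nu_apply {s : Set ℝ} (hs : MeasurableSet s) : nu s = ENNReal.ofReal (∫ x in s, ed x) := by
  rw [nu, withDensity_apply _ hs, ofReal_integral_eq_lintegral_ofReal int_ed.integrableOn
    (ae_of_all _ ed_nonneg)]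

theorem pi_nu : (Measure.pi fun _ : Fin m => nu) = md fun x => ∏ i, ed (x i) := by
  refine Measure.pi_eq fun s hs => ?_
  rw [md, withDensity_apply _ (MeasurableSet.univ_pi hs), volume_pi, Measure.restrict_pi_pi,
    ← ofReal_integral_eq_lintegral_ofReal, integral_fintype_prod_eq_prod
      (f := fun _ x => ed x), ENNReal.ofReal_prod_of_nonneg]
  · exact Finset.prod_congr rfl fun i _ => (nu_apply (hs i)).symm
  · exact fun i _ => integral_nonneg fun x => ed_nonneg _
  · exact Integrable.fintype_prod (f := fun _ x => ed x) fun i => int_ed.restrict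
  · exact ae_of_all _ fun x => Finset.prod_nonneg fun i _ => ed_nonneg _

theorem expD_one (x : Vc m) : expD (1 : Mx m) 0 x =
    Set.indicator {y : Vc m | ∀ i, 0 ≤ y i} (fun y => Real.exp (-∑ i, y i)) x := by
  simp [expD]

theorem expD_prod : expD (1 : Mx m) 0 = fun x => ∏ i, ed (x i) := by
  funext x
  rw [expD_one]
  by_cases h : ∀ i, 0 ≤ x i
  · rw [indicator_of_mem (show x ∈ {y : Vc m | ∀ i, 0 ≤ y i} from h), ← Finset.sum_neg_distrib,
      Real.exp_sum]
    exact Finset.prod_congr rfl fun i _ => by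
      rw [ed, indicator_of_mem (show x i ∈ Ici (0 : ℝ) from h i)]
  · rw [indicator_of_notMem (show x ∉ {y : Vc m | ∀ i, 0 ≤ y i} from h)]
    push Not at h
    obtain ⟨i, hi⟩ := h
    exact (Finset.prod_eq_zero (Finset.mem_univ i) (by
      rw [ed, indicator_of_notMem (show x i ∉ Ici (0 : ℝ) from not_le.2 hi)])).symm

theorem map_xi : Measure.map (fun (z : Vc m) i => FF (z i)) (gm m) = md (expD (1 : Mx m) 0) := by
  rw [expD_prod, ← pi_nu, gm, gam,
    Measure.pi_map_pi fun _ => continuous_FF.measurable.aemeasurable]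
  simp only [map_FF]

theorem meas_expD : Measurable (expD (1 : Mx m) 0) := by
  rw [expD_prod]
  exact Finset.measurable_prod _ fun i _ => meas_ed.comp (measurable_pi_apply i)

theorem expD_nonneg (x : Vc m) : 0 ≤ expD (1 : Mx m) 0 x := by
  rw [expD_prod]
  exact Finset.prod_nonneg fun i _ => ed_nonneg _

theorem expD_le (x : Vc m) : expD (1 : Mx m) 0 x ≤ 1 * Real.exp (-(1 * ‖x‖)) := by
  rw [expD_one, one_mul, one_mul]
  by_cases h : ∀ i, 0 ≤ x i
  · rw [indicator_of_mem (show x ∈ {y : Vc m | ∀ i, 0 ≤ y i} from h)]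
    refine Real.exp_le_exp.2 (neg_le_neg ((norm_le_sum_abs x).trans_eq ?_))
    exact Finset.sum_congr rfl fun i _ => abs_of_nonneg (h i)
  · rw [indicator_of_notMem (show x ∉ {y : Vc m | ∀ i, 0 ≤ y i} from h)]
    exact (Real.exp_pos _).le

theorem expD_log (x : Vc m) : expD (1 : Mx m) 0 x * Real.log (expD (1 : Mx m) 0 x) =
    -((∑ i, x i) * expD (1 : Mx m) 0 x) := by
  rw [expD_one]
  by_cases h : ∀ i, 0 ≤ x i
  · rw [indicator_of_mem (show x ∈ {y : Vc m | ∀ i, 0 ≤ y i} from h), Real.log_exp]
    ring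
  · rw [indicator_of_notMem (show x ∉ {y : Vc m | ∀ i, 0 ≤ y i} from h)]
    simp

theorem pg_FF (i : Fin m) : PG fun z : Vc m => FF (z i) := by
  refine ⟨continuous_FF.measurable.comp (measurable_pi_apply i), 2, 2, zero_le_two, fun z => ?_⟩
  have h1 : |z i| ≤ ‖z‖ := by simpa using norm_le_pi_norm z i
  have h2 := FF_le (z i)
  have h3 : z i ^ 2 ≤ ‖z‖ ^ 2 := by
    rw [← sq_abs]; exact pow_le_pow_left₀ (abs_nonneg _) h1 2
  rw [abs_of_pos (FF_pos _)]
  nlinarith [norm_nonneg z]

/-- moments of the exponential law -/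
theorem moment (k : ℕ) : ∫ t, FF t ^ k ∂gaussianReal 0 1 = k.factorial := by
  have h1 : ∫ t, FF t ^ k ∂gaussianReal 0 1 = ∫ x, x ^ k ∂nu := by
    rw [← map_FF, integral_map continuous_FF.measurable.aemeasurable (by fun_prop)]
  rw [h1, nu, integral_withDensity_eq_integral_toReal_smul meas_ed.ennreal_ofReal
    (ae_of_all _ fun _ => ENNReal.ofReal_lt_top), ← Real.Gamma_nat_eq_factorial,
    Real.Gamma_eq_integral (by positivity), ← integral_Ici_eq_integral_Ioi,
    ← integral_indicator measurableSet_Ici]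
  refine integral_congr_ae (ae_of_all _ fun x => ?_)
  simp only [ENNReal.toReal_ofReal (ed_nonneg x), smul_eq_mul, add_sub_cancel_right,
    Real.rpow_natCast]
  by_cases h : x ∈ Ici (0 : ℝ)
  · rw [ed, indicator_of_mem h, indicator_of_mem h]
  · rw [ed, indicator_of_notMem h, indicator_of_notMem h, zero_mul]

theorem int_pow (i : Fin m) (k : ℕ) : ∫ z : Vc m, FF (z i) ^ k ∂gm m = k.factorial := by
  rw [← moment k, gm, gam]
  exact integral_comp_eval (μ := fun _ : Fin m => gaussianReal 0 1) (f := fun t => FF t ^ k)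
    (continuous_FF.pow k).aestronglyMeasurable

theorem int_one (i : Fin m) : ∫ z : Vc m, FF (z i) ∂gm m = 1 := by
  simpa using int_pow i 1

theorem int_cen (i : Fin m) : ∫ z : Vc m, (FF (z i) - 1) ∂gm m = 0 := by
  rw [integral_sub (pg_FF i).integrable (integrable_const _), int_one]
  simp

theorem int_mul (i j : Fin m) :
    ∫ z : Vc m, (FF (z i) - 1) * (FF (z j) - 1) ∂gm m = if i = j then 1 else 0 := by
  split_ifs with h
  · subst h
    have e : ∀ z : Vc m, (FF (z i) - 1) * (FF (z i) - 1) = FF (z i) ^ 2 - 2 * FF (z i) + 1 :=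
      fun z => by ring
    simp only [e]
    rw [integral_add (((pg_FF i).pow 2).sub ((pg_FF i).const_mul 2)).integrable
        (integrable_const _),
      integral_sub ((pg_FF i).pow 2).integrable ((pg_FF i).const_mul 2).integrable,
      integral_const_mul, int_pow, int_one]
    simp [Nat.factorial]
  · have hI : iIndepFun (fun i (z : Vc m) => FF (z i) - 1) (gm m) :=
      iIndepFun_pi (μ := fun _ : Fin m => gaussianReal 0 1) (X := fun _ t => FF t - 1)
        fun _ => (continuous_FF.sub continuous_const).measurable.aemeasurable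
    have hc : ∀ k : Fin m, AEStronglyMeasurable (fun z : Vc m => FF (z k) - 1) (gm m) :=
      fun k => ((continuous_FF.comp (continuous_apply k)).sub continuous_const).aestronglyMeasurable
    rw [(hI.indepFun h).integral_fun_mul_eq_mul_integral (hc i) (hc j), int_cen, zero_mul]

/-- integrals against the extremal density -/
theorem int_expD {u : Vc m → ℝ} (hu : Measurable u) :
    ∫ x, u x * expD (1 : Mx m) 0 x = ∫ z, u (fun i => FF (z i)) ∂gm m := by
  rw [← integral_md meas_expD expD_nonneg, ← map_xi, integral_map]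
  · exact (measurable_pi_lambda _ fun i =>
      continuous_FF.measurable.comp (measurable_pi_apply i)).aemeasurable
  · exact hu.aestronglyMeasurable

open Crest.GeometryTopology.Isotropic in
theorem dfc_one : ∫ x, expD (1 : Mx m) 0 x = 1 ∧ dfc (expD (1 : Mx m) 0) = 0 := by
  refine ⟨by simpa using int_expD (m := m) (u := fun _ => 1) measurable_const, ?_⟩
  have hm : ∀ i, densMean (expD (1 : Mx m) 0) i = 1 := fun i => by
    rw [densMean, int_expD (u := fun x => x i) (measurable_pi_apply i), int_one]
  have hc : densCov (expD (1 : Mx m) 0) = 1 := by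
    ext i j
    rw [densCov, of_apply, hm, hm, int_expD (u := fun x => (x i - 1) * (x j - 1)) (by fun_prop),
      int_mul, one_apply]
  have he : diffEntropy (expD (1 : Mx m) 0) = m := by
    rw [diffEntropy]
    simp only [expD_log]
    rw [integral_neg, neg_neg, int_expD (u := fun x => ∑ i, x i) (by fun_prop),
      integral_finsetSum _ fun i _ => (pg_FF i).integrable]
    simp [int_one]
  rw [dfc, hc, he]
  simp

end Crest.Agent.R253.L5
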