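import Crest.Agent.R253.Sc
import Crest.Agent.R253.BrenAux4
import Crest.Agent.R253.LcAux1
import Crest.Agent.R253.LcAux5

set_option autoImplicit false
set_option linter.unusedVariables false
set_option linter.unusedSectionVars false

open MeasureTheory Matrix Set Filter Topology
open Crest.Agent.R215 (gam)
open Crest.Agent.R203
open Crest.GeometryTopology.Isotropic

noncomputable section

namespace Crest.Agent.R253

variable {m : ℕ}

/-! Log-concave densities: decay, continuity, limits, affine images, the extremal densities. -/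

/-- densities with a given exponential majorant -/
structure Dom (C κ : ℝ) (f : Vc m → ℝ) : Prop where
  meas : Measurable f
  nonneg : ∀ x, 0 ≤ f x
  pos : 0 < κ
  le : ∀ x, f x ≤ C * Real.exp (-(κ * ‖x‖))

/-- density of the affine image `A x + b` -/
def aff (A : Mx m) (b : Vc m) (f : Vc m → ℝ) (x : Vc m) : ℝ := |A.det|⁻¹ * f (A⁻¹ *ᵥ (x - b))

/-- the vector of independent exponential variables `FF (z i)` -/
def xi (z : Vc m) : Vc m := fun i => FF (z i)

variable {f : Vc m → ℝ} {C κ : ℝ}

/-- a convex set of positive measure has interior (`Convex.addHaar_frontier`, or the affine span) -/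
theorem LC.interior_nonempty (h : LC f) : (interior {x | 0 < f x}).Nonempty :=
  Lc1.interior_nonempty h

/-- `log f` is concave, hence continuous on the interior of `{f > 0}` (`ConcaveOn.continuousOn_interior`);
`f = 0` near points outside the closure; the frontier is null (`Convex.addHaar_frontier`). -/
theorem LC.ae_cont (h : LC f) : ∀ᵐ x ∂(volume : Measure (Vc m)), ContinuousAt f x :=
  Lc1.ae_cont h

/-- midpoint form of log-concavity -/
theorem LC.mid (h : LC f) (x y : Vc m) : f (x + y) * f (x - y) ≤ f x ^ 2 := Lc1.mid h x y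

/-- Take a ball `B(x₀, r)` (sup norm) on which `f ≥ c > 0`.  (1) `f ≥ √(c f x)` on the ball of radius `r/2` around
`(x + x₀)/2`, so `f ≤ C₀`.  (2) The convex set `K = {f ≥ c/e}` has measure `≤ e/c` and contains `B(x₀,r)`; if
`x ∈ K` it contains the balls of radius `r/2` around `x₀ + t (x - x₀)`, `0 ≤ t ≤ 1/2`, of which about
`‖x - x₀‖/(2r)` are disjoint: `K ⊆ B(x₀, R)`.  (3) Concavity on the ray from `x₀`: for `‖x - x₀‖ ≥ R + 1`,
`log f x ≤ log f x₀ - ‖x - x₀‖/(R+1)`. -/
theorem LC.dom (h : LC f) : ∃ C κ, Dom C κ f := by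
  obtain ⟨C, κ, h1, h2⟩ := Lc1.dom h
  exact ⟨C, κ, h.meas, h.nonneg, h1, h2⟩

theorem lc2_base (hκ : 0 < κ) (k : ℕ) :
    Integrable fun x : Vc m => (1 + ‖x‖) ^ k * Real.exp (-(κ * ‖x‖)) := by
  have h0 := integrable_one_add_norm (E := Vc m) (μ := volume) (r := ((m + 1 : ℕ) : ℝ)) (by simp)
  refine (h0.const_mul ((k + (m + 1)).factorial * Real.exp κ / κ ^ (k + (m + 1)))).mono'
    (by fun_prop) (Eventually.of_forall fun x => ?_)
  have h1 : 0 < 1 + ‖x‖ := by positivity
  have h2 := Real.pow_div_factorial_le_exp (κ * (1 + ‖x‖)) (by positivity) (k + (m + 1))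
  rw [div_le_iff₀ (by positivity), mul_pow, mul_add κ, mul_one, Real.exp_add, pow_add (1 + ‖x‖)] at h2
  rw [Real.norm_of_nonneg (by positivity), Real.rpow_neg h1.le, Real.rpow_natCast, Real.exp_neg,
    ← div_eq_mul_inv, ← div_eq_mul_inv, div_div, div_le_div_iff₀ (by positivity) (by positivity)]
  linarith

theorem lc2_mul_log {t : ℝ} (ht : 0 ≤ t) : |t * Real.log t| ≤ 2 * √t + t ^ 2 := by
  rcases ht.eq_or_lt with rfl | ht'
  · simp
  rcases le_total t 1 with h1 | h1
  · have hs : 0 < √t := Real.sqrt_pos.2 ht'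
    have h2 := (Real.abs_log_mul_self_lt (√t) hs (Real.sqrt_le_one.2 h1)).le
    have e : t * Real.log t = 2 * √t * (Real.log (√t) * √t) := by
      rw [Real.log_sqrt ht]
      nth_rw 1 [← Real.mul_self_sqrt ht]
      ring
    rw [e, abs_mul, abs_of_pos (by positivity : 0 < 2 * √t)]
    nlinarith [sq_nonneg t]
  · rw [abs_of_nonneg (mul_nonneg ht (Real.log_nonneg h1))]
    nlinarith [Real.log_le_sub_one_of_pos ht', Real.sqrt_nonneg t]

theorem lc2_pg_nsq : PG (nsq : Vc m → ℝ) :=
  PG.sum Finset.univ fun i _ => (PG.coord i).mul (PG.coord i)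

theorem Dom.integrable (h : Dom C κ f) {u : Vc m → ℝ} (hu : PG u) :
    Integrable fun x => u x * f x := by
  obtain ⟨hm, D, k, hD, hb⟩ := hu
  have hC : 0 ≤ C := by simpa using (h.nonneg 0).trans (h.le 0)
  refine ((lc2_base h.pos k).const_mul (D * C)).mono' (hm.mul h.meas).aestronglyMeasurable
    (Eventually.of_forall fun x => ?_)
  rw [norm_mul, Real.norm_eq_abs, Real.norm_of_nonneg (h.nonneg x)]
  exact (mul_le_mul (hb x) (h.le x) (h.nonneg x) (by positivity)).trans (le_of_eq (by ring))

/-- `|t log t| ≤ 2 √t + t²` -/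
theorem Dom.integrable_ent (h : Dom C κ f) : Integrable fun x => f x * Real.log (f x) := by
  have hC : 0 ≤ C := by simpa using (h.nonneg 0).trans (h.le 0)
  have h1 : Dom (√C) (κ / 2) fun x => √(f x) := by
    refine ⟨h.meas.sqrt, fun x => Real.sqrt_nonneg _, half_pos h.pos, fun x => ?_⟩
    refine Real.sqrt_le_iff.2 ⟨by positivity, (h.le x).trans (le_of_eq ?_)⟩
    rw [mul_pow, Real.sq_sqrt hC, sq, ← Real.exp_add]
    congr 2
    ring
  have h2 : Dom (C ^ 2) (2 * κ) fun x => f x ^ 2 := by
    refine ⟨h.meas.pow_const 2, fun x => sq_nonneg _, mul_pos two_pos h.pos, fun x => ?_⟩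
    refine (pow_le_pow_left₀ (h.nonneg x) (h.le x) 2).trans (le_of_eq ?_)
    rw [mul_pow, sq (Real.exp _), ← Real.exp_add]
    congr 2
    ring
  refine ((h1.integrable (PG.const 2)).add (h2.integrable (PG.const 1))).mono'
    (h.meas.mul h.meas.log).aestronglyMeasurable (Eventually.of_forall fun x => ?_)
  rw [Pi.add_apply, one_mul]
  exact lc2_mul_log (h.nonneg x)

/-- a bound depending only on the majorant -/
theorem dom_moment (C κ : ℝ) (hκ : 0 < κ) : ∃ B : ℝ, ∀ f : Vc m → ℝ, Dom C κ f →
    ∫ x, nsq x * f x ≤ B := by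
  refine ⟨∫ x : Vc m, nsq x * (C * Real.exp (-(κ * ‖x‖))), fun f h => ?_⟩
  have hC : 0 ≤ C := by simpa using (h.nonneg 0).trans (h.le 0)
  have h1 : Dom C κ fun x : Vc m => C * Real.exp (-(κ * ‖x‖)) :=
    ⟨by fun_prop, fun x => by positivity, hκ, fun x => le_rfl⟩
  exact integral_mono (h.integrable lc2_pg_nsq) (h1.integrable lc2_pg_nsq) fun x =>
    mul_le_mul_of_nonneg_left (h.le x) (nsq_nonneg x)

theorem SC.dom {V : Vc m → ℝ} {g : Vc m → Vc m} {a b : ℝ} (h : SC V g a b) (ha : 0 < a)
    (hb : 0 < b) : ∃ C κ, Dom C κ fun x => Real.exp (-V x) := by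
  have hc : Continuous V := continuous_iff_continuousAt.2 fun z => (h.hasFDerivAt z).continuousAt
  refine ⟨Real.exp (-V 0 + (m * ‖g 0‖ + 1) ^ 2 / (2 * a)), 1, by fun_prop,
    fun x => (Real.exp_pos _).le, one_pos, fun x => ?_⟩
  rw [← Real.exp_add, Real.exp_le_exp]
  have h1 := h.lo 0 x
  have h2 := (abs_le.1 (sc2_dot (g 0) x)).1
  have h3 := mul_le_mul_of_nonneg_left (norm_sq_le_nsq x) ha.le
  have h4 : (m * ‖g 0‖ + 1) * ‖x‖ - a / 2 * ‖x‖ ^ 2 ≤ (m * ‖g 0‖ + 1) ^ 2 / (2 * a) := by
    rw [le_div_iff₀ (by positivity)]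
    nlinarith [sq_nonneg (m * ‖g 0‖ + 1 - a * ‖x‖)]
  rw [sub_zero] at h1
  linarith

/-- `v ⬝ Cov v = ∫ (v ⬝ (x - mean))² f > 0` because hyperplanes are null -/
theorem Dom.cov_posDef (h : Dom C κ f) (h1 : ∫ x, f x = 1) : (densCov f).PosDef := by
  refine PosDef.of_dotProduct_mulVec_pos (IsHermitian.ext fun i j => ?_) fun v hv => ?_
  · simp only [densCov, of_apply, star_trivial, mul_comm (_ - densMean f j)]
  set c := densMean f
  have i2 : ∀ i, ∀ j ∈ (Finset.univ : Finset (Fin m)), Integrable fun y : Vc m => v i * v j *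
      ((y i - c i) * (y j - c j) * f y) := fun i j _ =>
    (h.integrable (((PG.coord i).sub (PG.const _)).mul ((PG.coord j).sub (PG.const _)))).const_mul _
  have e1 : ∀ y : Vc m, (v ⬝ᵥ (y - c)) ^ 2 * f y =
      ∑ i, ∑ j, v i * v j * ((y i - c i) * (y j - c j) * f y) := fun y => by
    rw [sq, dotProduct, Finset.sum_mul_sum, Finset.sum_mul]
    refine Finset.sum_congr rfl fun i _ => ?_
    rw [Finset.sum_mul]
    exact Finset.sum_congr rfl fun j _ => by simp only [Pi.sub_apply]; ring
  have i3 : Integrable fun y : Vc m => (v ⬝ᵥ (y - c)) ^ 2 * f y := by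
    simp only [e1]
    exact integrable_finsetSum _ fun i _ => integrable_finsetSum _ (i2 i)
  have e2 : star v ⬝ᵥ densCov f *ᵥ v = ∫ y, (v ⬝ᵥ (y - c)) ^ 2 * f y := by
    simp only [e1]
    rw [integral_finsetSum _ fun i _ => integrable_finsetSum _ (i2 i), star_trivial, dotProduct]
    refine Finset.sum_congr rfl fun i _ => ?_
    rw [integral_finsetSum _ (i2 i), mulVec, dotProduct, Finset.mul_sum]
    refine Finset.sum_congr rfl fun j _ => ?_
    rw [integral_const_mul, densCov, of_apply]
    ring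
  have hn : 0 ≤ fun y : Vc m => (v ⬝ᵥ (y - c)) ^ 2 * f y := fun y =>
    mul_nonneg (sq_nonneg _) (h.nonneg y)
  rw [e2]
  refine (integral_nonneg hn).lt_of_ne' fun h0 => ?_
  have h2 := (integral_eq_zero_iff_of_nonneg hn i3).1 h0
  have h3 := Measure.addHaar_affineSubspace (volume : Measure (Vc m))
    (AffineSubspace.mk' c (LinearMap.ker (dotProductBilin ℝ ℝ v))) fun e => by
      have h4 : v + c ∈ AffineSubspace.mk' c (LinearMap.ker (dotProductBilin ℝ ℝ v)) :=
        e ▸ AffineSubspace.mem_top _ _ _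
      rw [AffineSubspace.mem_mk', vsub_eq_sub, add_sub_cancel_right] at h4
      exact hv (sc2_zero (le_of_eq h4))
  have h4 : f =ᵐ[volume] 0 := by
    filter_upwards [h2, measure_eq_zero_iff_ae_notMem.1 h3] with y hy hy'
    refine (mul_eq_zero.1 hy).resolve_left fun h5 => hy' ?_
    exact AffineSubspace.mem_mk'.2 (pow_eq_zero_iff two_ne_zero |>.1 h5)
  rw [integral_congr_ae h4] at h1
  simp at h1

section limit
variable {F : ℕ → Vc m → ℝ}

theorem lc3_dom {C κ : ℝ} (hC : 0 ≤ C) (hκ : 0 < κ) :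
    Dom C κ fun x : Vc m => C * Real.exp (-(κ * ‖x‖)) :=
  ⟨by fun_prop, fun x => by positivity, hκ, fun x => le_rfl⟩

theorem Dom.lc3_C (h : Dom C κ f) : 0 ≤ C := by
  simpa using (h.nonneg 0).trans (h.le 0)

theorem Dom.tendsto_integral (hF : ∀ n, Dom C κ (F n))
    (hl : ∀ᵐ x ∂(volume : Measure (Vc m)), Tendsto (fun n => F n x) atTop (𝓝 (f x)))
    {u : Vc m → ℝ} (hu : PG u) :
    Tendsto (fun n => ∫ x, u x * F n x) atTop (𝓝 (∫ x, u x * f x)) := by
  have hG := (lc3_dom (m := m) (hF 0).lc3_C (hF 0).pos).integrable hu.abs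
  refine tendsto_integral_of_dominated_convergence _
    (fun n => (hu.measurable.mul (hF n).meas).aestronglyMeasurable) hG
    (fun n => Eventually.of_forall fun x => ?_) ?_
  · rw [norm_mul, Real.norm_eq_abs, Real.norm_of_nonneg ((hF n).nonneg x)]
    exact mul_le_mul_of_nonneg_left ((hF n).le x) (abs_nonneg _)
  · filter_upwards [hl] with x hx
    exact hx.const_mul _

theorem lc3_mul_log {t : ℝ} (ht : 0 ≤ t) : |t * Real.log t| ≤ 2 * √t + t ^ 2 := by
  rcases ht.eq_or_lt with rfl | ht'
  · simp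
  rcases le_total t 1 with h1 | h1
  · have hs : 0 < √t := Real.sqrt_pos.2 ht'
    have h2 := (Real.abs_log_mul_self_lt (√t) hs (Real.sqrt_le_one.2 h1)).le
    have e : t * Real.log t = 2 * √t * (Real.log (√t) * √t) := by
      rw [Real.log_sqrt ht]
      nth_rw 1 [← Real.mul_self_sqrt ht]
      ring
    rw [e, abs_mul, abs_of_pos (by positivity : 0 < 2 * √t)]
    nlinarith [sq_nonneg t]
  · rw [abs_of_nonneg (mul_nonneg ht (Real.log_nonneg h1))]
    nlinarith [Real.log_le_sub_one_of_pos ht', Real.sqrt_nonneg t]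

theorem Dom.tendsto_ent (hF : ∀ n, Dom C κ (F n))
    (hl : ∀ᵐ x ∂(volume : Measure (Vc m)), Tendsto (fun n => F n x) atTop (𝓝 (f x))) :
    Tendsto (fun n => diffEntropy (F n)) atTop (𝓝 (diffEntropy f)) := by
  have hC := (hF 0).lc3_C
  have hκ := (hF 0).pos
  have h1 := (lc3_dom (m := m) (Real.sqrt_nonneg C) (half_pos hκ)).integrable (PG.const 2)
  have h2 := (lc3_dom (m := m) (sq_nonneg C) (show 0 < 2 * κ by positivity)).integrable (PG.const 1)
  refine Tendsto.neg (tendsto_integral_of_dominated_convergence _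
    (fun n => ((hF n).meas.mul (hF n).meas.log).aestronglyMeasurable) (h1.add h2)
    (fun n => Eventually.of_forall fun x => ?_) ?_)
  · have a0 := (hF n).nonneg x
    have a1 := (hF n).le x
    have a2 : √(F n x) ≤ √C * Real.exp (-(κ / 2 * ‖x‖)) := by
      refine Real.sqrt_le_iff.2 ⟨by positivity, a1.trans (le_of_eq ?_)⟩
      rw [mul_pow, Real.sq_sqrt hC, sq, ← Real.exp_add]
      congr 2
      ring
    have a3 : F n x ^ 2 ≤ C ^ 2 * Real.exp (-(2 * κ * ‖x‖)) := by
      refine (pow_le_pow_left₀ a0 a1 2).trans (le_of_eq ?_)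
      rw [mul_pow, sq (Real.exp _), ← Real.exp_add]
      congr 2
      ring
    have a4 := lc3_mul_log a0
    rw [Real.norm_eq_abs, Pi.add_apply]
    linarith
  · filter_upwards [hl] with x hx
    exact (Real.continuous_mul_log.tendsto _).comp hx

theorem Dom.lc3_cov (h : Dom C κ f) (i j : Fin m) : densCov f i j =
    (∫ x, x i * x j * f x) - densMean f j * (∫ x, x i * f x) - densMean f i * (∫ x, x j * f x) +
      densMean f i * densMean f j * ∫ x, 1 * f x := by
  have a1 := h.integrable ((PG.coord i).mul (PG.coord j))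
  have a2 := (h.integrable (PG.coord i)).const_mul (densMean f j)
  have a3 := (h.integrable (PG.coord j)).const_mul (densMean f i)
  have a4 := (h.integrable (PG.const 1)).const_mul (densMean f i * densMean f j)
  have a5 : Integrable fun x : Vc m => x i * x j * f x - densMean f j * (x i * f x) := a1.sub a2
  have a6 : Integrable fun x : Vc m => x i * x j * f x - densMean f j * (x i * f x) -
      densMean f i * (x j * f x) := a5.sub a3
  rw [← integral_const_mul, ← integral_const_mul, ← integral_const_mul, ← integral_sub a1 a2,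
    ← integral_sub a5 a3, ← integral_add a6 a4]
  refine integral_congr_ae (Eventually.of_forall fun x => ?_)
  ring

/-- expand the covariance into moments of order `0, 1, 2` -/
theorem Dom.tendsto_dfc (hF : ∀ n, Dom C κ (F n)) (hf : Dom C κ f) (h1 : ∫ x, f x = 1)
    (hl : ∀ᵐ x ∂(volume : Measure (Vc m)), Tendsto (fun n => F n x) atTop (𝓝 (f x))) :
    Tendsto (fun n => dfc (F n)) atTop (𝓝 (dfc f)) := by
  have hm : ∀ i, Tendsto (fun n => ∫ x, x i * F n x) atTop (𝓝 (∫ x, x i * f x)) := fun i =>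
    Dom.tendsto_integral hF hl (PG.coord i)
  have hc : Tendsto (fun n => densCov (F n)) atTop (𝓝 (densCov f)) := by
    refine tendsto_pi_nhds.2 fun i => tendsto_pi_nhds.2 fun j => ?_
    simp only [(hF _).lc3_cov, hf.lc3_cov]
    exact (((Dom.tendsto_integral hF hl ((PG.coord i).mul (PG.coord j))).sub
      ((hm j).mul (hm i))).sub ((hm i).mul (hm j))).add
      (((hm i).mul (hm j)).mul (Dom.tendsto_integral hF hl (PG.const 1)))
  have hd : Tendsto (fun n => (densCov (F n)).det) atTop (𝓝 (densCov f).det) :=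
    ((continuous_id.matrix_det (n := Fin m) (R := ℝ)).tendsto _).comp hc
  exact ((Dom.tendsto_ent hF hl).sub_const _).sub
    ((hd.log (hf.cov_posDef h1).det_pos.ne').div_const _)

end limit

theorem dfc_congr {f' : Vc m → ℝ} (h : f =ᵐ[volume] f') : dfc f = dfc f' := by
  have h1 : ∀ u : Vc m → ℝ, ∫ x, u x * f x = ∫ x, u x * f' x := fun u =>
    integral_congr_ae (h.mono fun x hx => by simp only [hx])
  have h2 : densMean f = densMean f' := funext fun i => h1 fun x => x i
  have h3 : densCov f = densCov f' := by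
    ext i j
    simp only [densCov, of_apply, h2]
    exact h1 _
  have h4 : diffEntropy f = diffEntropy f' :=
    congrArg Neg.neg (integral_congr_ae (h.mono fun x hx => by simp only [hx]))
  rw [dfc, dfc, h3, h4]

theorem lc4_cancel {A : Mx m} (hA : A.det ≠ 0) (b y : Vc m) : A⁻¹ *ᵥ (A *ᵥ y + b - b) = y := by
  rw [add_sub_cancel_right, mulVec_mulVec, nonsing_inv_mul _ (Ne.isUnit hA), one_mulVec]

theorem lc4_meas (A : Mx m) (b : Vc m) : Measurable fun y : Vc m => A *ᵥ y + b :=
  ((Continuous.matrix_mulVec continuous_const continuous_id).add continuous_const).measurable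

/-- the affine map as a measurable equivalence -/
def lc4_eqv {A : Mx m} (hA : A.det ≠ 0) (b : Vc m) : Vc m ≃ᵐ Vc m where
  toFun y := A *ᵥ y + b
  invFun x := A⁻¹ *ᵥ (x - b)
  left_inv y := lc4_cancel hA b y
  right_inv x := by
    simp only
    rw [mulVec_mulVec, mul_nonsing_inv _ (Ne.isUnit hA), one_mulVec, sub_add_cancel]
  measurable_toFun := lc4_meas A b
  measurable_invFun :=
    (Continuous.matrix_mulVec continuous_const (continuous_id.sub continuous_const)).measurable

theorem lc4_inv {A : Mx m} (hA : A.det ≠ 0) (b y : Vc m) :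
    A⁻¹ *ᵥ (lc4_eqv hA b y - b) = y := lc4_cancel hA b y

theorem lc4_map_vol {A : Mx m} (hA : A.det ≠ 0) (b : Vc m) :
    Measure.map (lc4_eqv hA b) volume = ENNReal.ofReal |A.det|⁻¹ • (volume : Measure (Vc m)) := by
  have h1 : (lc4_eqv hA b : Vc m → Vc m) = (fun x => x + b) ∘ toLin' A := rfl
  have h2 : Measurable (toLin' A : Vc m → Vc m) :=
    (LinearMap.continuous_of_finiteDimensional _).measurable
  rw [h1, ← Measure.map_map (measurable_add_const b) h2,
    Real.map_matrix_volume_pi_eq_smul_volume_pi hA, Measure.map_smul, map_add_right_eq_self, abs_inv]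

/-- linear change of variables (`Real.map_matrix_volume_pi_eq_smul_volume_pi`) -/
theorem integral_aff {A : Mx m} (hA : A.det ≠ 0) (b : Vc m) (f u : Vc m → ℝ) :
    ∫ x, u x * aff A b f x = ∫ y, u (A *ᵥ y + b) * f y := by
  have e := integral_map_equiv (μ := volume) (lc4_eqv hA b) fun x => u x * f (A⁻¹ *ᵥ (x - b))
  rw [lc4_map_vol, integral_smul_measure, ENNReal.toReal_ofReal (by positivity), smul_eq_mul,
    ← integral_const_mul] at e
  simp only [lc4_inv] at e
  refine Eq.trans (integral_congr_ae (Eventually.of_forall fun x => ?_)) e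
  simp only [aff]
  ring

theorem md_aff {A : Mx m} (hA : A.det ≠ 0) (b : Vc m) (hf : Measurable f) :
    md (aff A b f) = Measure.map (fun y => A *ᵥ y + b) (md f) := by
  ext s hs
  have e := lintegral_map_equiv (μ := volume)
    (s.indicator fun x => ENNReal.ofReal (f (A⁻¹ *ᵥ (x - b)))) (lc4_eqv hA b)
  rw [lc4_map_vol, lintegral_smul_measure, smul_eq_mul,
    ← lintegral_const_mul' _ _ ENNReal.ofReal_ne_top] at e
  rw [Measure.map_apply (lc4_meas A b) hs, md, md, withDensity_apply _ hs,
    withDensity_apply _ (lc4_meas A b hs), ← lintegral_indicator hs,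
    ← lintegral_indicator (lc4_meas A b hs)]
  refine Eq.trans (lintegral_congr fun x => ?_) (e.trans (lintegral_congr fun y => ?_))
  · by_cases hx : x ∈ s
    · simp only [indicator_of_mem hx, aff]
      rw [ENNReal.ofReal_mul (by positivity)]
    · simp [indicator_of_notMem hx]
  · by_cases hy : A *ᵥ y + b ∈ s
    · rw [indicator_of_mem (show lc4_eqv hA b y ∈ s from hy),
        indicator_of_mem (show y ∈ (fun y => A *ᵥ y + b) ⁻¹' s from hy), lc4_inv]
    · rw [indicator_of_notMem (show lc4_eqv hA b y ∉ s from hy),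
        indicator_of_notMem (show y ∉ (fun y => A *ᵥ y + b) ⁻¹' s from hy)]

theorem lc4_ent (h : Dom C κ f) (h1 : ∫ x, f x = 1) {A : Mx m} (hA : A.det ≠ 0) (b : Vc m) :
    diffEntropy (aff A b f) = diffEntropy f + Real.log |A.det| := by
  have i1 : Integrable f := by simpa using h.integrable (PG.const 1)
  have e := integral_aff hA b f fun x => Real.log (aff A b f x)
  have e2 : ∀ y, Real.log (aff A b f (A *ᵥ y + b)) * f y =
      f y * Real.log (f y) - Real.log |A.det| * f y := fun y => by
    rw [aff, lc4_cancel hA]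
    by_cases hy : f y = 0
    · simp [hy]
    · rw [Real.log_mul (inv_ne_zero (abs_ne_zero.2 hA)) hy, Real.log_inv]
      ring
  simp only [e2] at e
  rw [integral_sub h.integrable_ent (i1.const_mul _), integral_const_mul, h1] at e
  simp only [diffEntropy, mul_comm (aff A b f _), e]
  ring

theorem lc4_mean (h : Dom C κ f) (h1 : ∫ x, f x = 1) {A : Mx m} (hA : A.det ≠ 0) (b : Vc m) :
    densMean (aff A b f) = A *ᵥ densMean f + b := by
  have i1 : Integrable f := by simpa using h.integrable (PG.const 1)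
  ext i
  have e2 : ∀ y : Vc m, (A *ᵥ y + b) i * f y = ∑ k, A i k * (y k * f y) + b i * f y := fun y => by
    simp only [Pi.add_apply, mulVec, dotProduct, add_mul, Finset.sum_mul, mul_assoc]
  have i2 : ∀ k ∈ (Finset.univ : Finset (Fin m)), Integrable fun y : Vc m => A i k * (y k * f y) :=
    fun k _ => (h.integrable (PG.coord k)).const_mul _
  rw [densMean, integral_aff hA b f fun x => x i]
  simp only [e2]
  rw [integral_add (integrable_finsetSum _ i2) (i1.const_mul _), integral_finsetSum _ i2]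
  simp only [integral_const_mul, h1, mul_one]
  rfl

theorem lc4_cov (h : Dom C κ f) (h1 : ∫ x, f x = 1) {A : Mx m} (hA : A.det ≠ 0) (b : Vc m) :
    densCov (aff A b f) = A * densCov f * Aᵀ := by
  ext i j
  have e2 : ∀ y : Vc m, ((A *ᵥ y + b) i - (A *ᵥ densMean f + b) i) *
      ((A *ᵥ y + b) j - (A *ᵥ densMean f + b) j) * f y = ∑ l, ∑ k, A i k * A j l *
        ((y k - densMean f k) * (y l - densMean f l) * f y) := fun y => by
    simp only [Pi.add_apply, add_sub_add_right_eq_sub, mulVec, dotProduct, ← Finset.sum_sub_distrib]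
    rw [Finset.sum_mul_sum, Finset.sum_comm, Finset.sum_mul]
    refine Finset.sum_congr rfl fun l _ => ?_
    rw [Finset.sum_mul]
    exact Finset.sum_congr rfl fun k _ => by ring
  have i2 : ∀ l, ∀ k ∈ (Finset.univ : Finset (Fin m)), Integrable fun y : Vc m => A i k * A j l *
      ((y k - densMean f k) * (y l - densMean f l) * f y) := fun l k _ =>
    (h.integrable (((PG.coord k).sub (PG.const _)).mul ((PG.coord l).sub (PG.const _)))).const_mul _
  rw [densCov, of_apply, lc4_mean h h1 hA, integral_aff hA b f fun x =>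
    (x i - (A *ᵥ densMean f + b) i) * (x j - (A *ᵥ densMean f + b) j)]
  simp only [e2]
  rw [integral_finsetSum _ fun l _ => integrable_finsetSum _ (i2 l), mul_apply]
  refine Finset.sum_congr rfl fun l _ => ?_
  rw [integral_finsetSum _ (i2 l), mul_apply, Finset.sum_mul]
  refine Finset.sum_congr rfl fun k _ => ?_
  rw [integral_const_mul, densCov, of_apply, transpose_apply]
  ring

/-- `h` gains `log |det A|`, the covariance becomes `A Σ Aᵀ` -/
theorem dfc_aff (h : Dom C κ f) (h1 : ∫ x, f x = 1) {A : Mx m} (hA : A.det ≠ 0) (b : Vc m) :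
    dfc (aff A b f) = dfc f := by
  have hd := (h.cov_posDef h1).det_pos
  rw [dfc, dfc, lc4_ent h h1 hA, lc4_cov h h1 hA, det_mul, det_mul, det_transpose,
    Real.log_mul (mul_ne_zero hA hd.ne') hA, Real.log_mul hA hd.ne', Real.log_abs]
  ring

theorem expD_eq_aff (M : Mx m) (b : Vc m) : expD M b = aff M b (expD 1 0) := by
  ext x
  simp [expD, aff, Set.indicator]

theorem dom_expD : ∃ C κ, Dom C κ (expD (1 : Mx m) 0) :=
  ⟨1, 1, L5.meas_expD, L5.expD_nonneg, one_pos, L5.expD_le⟩

/-- `FF (Z)` is exponential: `P(FF Z > s) = P(gq Z < e^{-s}) = e^{-s}`; product measures -/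
theorem map_xi : Measure.map xi (gm m) = md (expD (1 : Mx m) 0) := L5.map_xi

theorem pg_xi (i : Fin m) : PG fun z : Vc m => xi z i := L5.pg_FF i

theorem integral_xi (i : Fin m) : ∫ z, xi z i ∂gm m = 1 := L5.int_one i

theorem integral_xi_mul (i j : Fin m) :
    ∫ z, (xi z i - 1) * (xi z j - 1) ∂gm m = if i = j then 1 else 0 := L5.int_mul i j

/-- mass `1`, mean `1`, covariance `1`, entropy `∫ (∑ x i) f = m` -/
theorem dfc_expD_one : ∫ x, expD (1 : Mx m) 0 x = 1 ∧ dfc (expD (1 : Mx m) 0) = 0 :=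
  L5.dfc_one

theorem dfc_expD {M : Mx m} (hM : M.det ≠ 0) (b : Vc m) : dfc (expD M b) = 0 := by
  obtain ⟨C, κ, h⟩ := dom_expD (m := m)
  rw [expD_eq_aff, dfc_aff h dfc_expD_one.1 hM, dfc_expD_one.2]

theorem md_expD {M : Mx m} (hM : M.det ≠ 0) (b : Vc m) :
    md (expD M b) = Measure.map (fun z => M *ᵥ xi z + b) (gm m) := by
  obtain ⟨C, κ, h⟩ := dom_expD (m := m)
  rw [expD_eq_aff, md_aff hM b h.meas, ← map_xi, Measure.map_map (lc4_meas M b)
    (measurable_pi_lambda _ fun i => (pg_xi i).measurable)]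
  rfl

/-- rotation invariance -/
theorem map_orth {O : Mx m} (hO : O * Oᵀ = 1) : Measure.map (fun z => O *ᵥ z) (gm m) = gm m := by
  have hd : |O.det| = 1 := by
    have := congrArg det hO
    rw [det_mul, det_transpose, det_one] at this
    rcases mul_self_eq_one_iff.1 this with h | h <;> simp [h]
  have h0 : O.det ≠ 0 := fun h => by simp [h] at hd
  have hc : Continuous fun z : Vc m =>
      Real.exp (-(1 / 2 * nsq z + m / 2 * Real.log (2 * Real.pi))) := by
    have := continuous_nsq (m := m)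
    fun_prop
  have e := md_aff h0 0 hc.measurable
  simp only [add_zero] at e
  rw [gm_eq_mu, mu, ← e]
  congr 1
  ext x
  have : nsq (O⁻¹ *ᵥ (x - 0)) = nsq x := by
    rw [sub_zero, inv_eq_right_inv hO, nsq, nsq, dotProduct_mulVec, vecMul_transpose,
      mulVec_mulVec, hO, one_mulVec]
  simp only [aff, hd, this, inv_one, one_mul]

end Crest.Agent.R253
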