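import Crest.Agent.R253.Sc

/-! Row 253: quantitative concavity of `log det` and the Stein identity for `e^{-V}`. -/

set_option autoImplicit false
set_option linter.unusedVariables false

open MeasureTheory Matrix Set Filter Topology
open Crest.Agent.R203

noncomputable section

namespace Crest.Agent.R253.MA1

variable {m : ℕ}

theorem log_quad {x c : ℝ} (hx : 0 < x) (hxc : x ≤ c) (hc : 1 ≤ c) :
    Real.log x ≤ x - 1 - (x - 1) ^ 2 / (2 * c ^ 2) := by
  rcases le_total x 1 with h | h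
  · have h1 := Real.le_log_one_add_of_nonneg (x := (1 - x) / x) (div_nonneg (by linarith) hx.le)
    have e1 : 1 + (1 - x) / x = x⁻¹ := by field_simp; ring
    have e2 : 2 * ((1 - x) / x) / ((1 - x) / x + 2) = 2 * (1 - x) / (1 + x) := by
      field_simp; ring
    rw [e1, e2, Real.log_inv, div_le_iff₀ (by linarith)] at h1
    have h2 : (x - 1) ^ 2 / (2 * c ^ 2) ≤ (x - 1) ^ 2 / 2 :=
      div_le_div_of_nonneg_left (sq_nonneg _) two_pos (by nlinarith)
    have h3 : Real.log x ≤ x - 1 - (x - 1) ^ 2 / 2 := by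
      refine le_of_mul_le_mul_right ?_ (show 0 < 1 + x by linarith)
      nlinarith [mul_nonneg (sub_nonneg.2 h) (sq_nonneg (x - 1))]
    linarith
  · have h1 := Real.self_le_sinh_iff.2 (Real.log_nonneg h)
    rw [Real.sinh_log hx] at h1
    have h2 : (x - 1) ^ 2 / (2 * c ^ 2) ≤ (x - 1) ^ 2 / (2 * x ^ 2) :=
      div_le_div_of_nonneg_left (sq_nonneg _) (by positivity) (by nlinarith)
    have h3 : x - 1 - (x - 1) ^ 2 / (2 * x ^ 2) - (x - x⁻¹) / 2 = (x - 1) ^ 3 / (2 * x ^ 2) := by
      field_simp; ring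
    have h4 : 0 ≤ (x - 1) ^ 3 / (2 * x ^ 2) := div_nonneg (pow_nonneg (by linarith) _) (by positivity)
    linarith

theorem eig_vec {A U : Mx m} {d : Fin m → ℝ} (E : Eig A U d) (a : Fin m) :
    ∃ v : Vc m, nsq v = 1 ∧ v ⬝ᵥ A *ᵥ v = d a := by
  have e : Uᵀ *ᵥ (U *ᵥ Pi.single a 1) = Pi.single a 1 := by
    rw [mulVec_mulVec, E.hU', one_mulVec]
  refine ⟨U *ᵥ Pi.single a 1, ?_, ?_⟩
  · rw [nsq, ← E.norm_conj, e]
    simp [Pi.single_apply]
  · rw [E.quad, e]
    simp [Pi.single_apply]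

theorem logdet_quad {A B : Mx m} {α β : ℝ} (hA : A.IsSymm) (hB : B.IsSymm) (hα : 0 < α)
    (hβ : 0 < β) (bA : ∀ v, α * nsq v ≤ v ⬝ᵥ A *ᵥ v ∧ v ⬝ᵥ A *ᵥ v ≤ β * nsq v)
    (bB : ∀ v, α * nsq v ≤ v ⬝ᵥ B *ᵥ v ∧ v ⬝ᵥ B *ᵥ v ≤ β * nsq v) :
    Real.log B.det ≤ Real.log A.det + trace (A⁻¹ * (B - A)) - α ^ 2 / (2 * β ^ 4) * fr2 (B - A) := by
  obtain ⟨U, d, E⟩ := exists_eig hA
  have hd : ∀ a, α ≤ d a ∧ d a ≤ β := fun a => by
    obtain ⟨v, h1, h2⟩ := eig_vec E a
    have := bA v
    rwa [h1, h2, mul_one, mul_one] at this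
  have hd0 : ∀ a, 0 < d a := fun a => hα.trans_le (hd a).1
  have hs0 : ∀ a, √(d a) ≠ 0 := fun a => (Real.sqrt_pos.2 (hd0 a)).ne'
  set S : Mx m := diagonal fun a => √(d a) with hS
  set T : Mx m := diagonal fun a => (√(d a))⁻¹ with hT
  have hST : S * T = 1 := by
    rw [hS, hT, diagonal_mul_diagonal, ← diagonal_one]
    exact congrArg diagonal (funext fun a => mul_inv_cancel₀ (hs0 a))
  have hTS : T * S = 1 := mul_eq_one_comm.1 hST
  have hSS : S * S = diagonal d := by
    rw [hS, diagonal_mul_diagonal]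
    exact congrArg diagonal (funext fun a => Real.mul_self_sqrt (hd0 a).le)
  have hTt : Tᵀ = T := diagonal_transpose _
  have hAQ : T * (Uᵀ * A * U) * T = 1 := by
    rw [E.conj, ← hSS, ← Matrix.mul_assoc, hTS, Matrix.one_mul, hST]
  set M : Mx m := T * (Uᵀ * B * U) * T with hM
  have hMs : M.IsSymm := by
    rw [IsSymm, hM]
    simp only [transpose_mul, hTt, transpose_transpose, hB.eq, Matrix.mul_assoc]
  obtain ⟨W, x, F⟩ := exists_eig hMs
  have quad : ∀ (C : Mx m) (v : Vc m), v ⬝ᵥ (T * (Uᵀ * C * U) * T) *ᵥ v =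
      ((U * T) *ᵥ v) ⬝ᵥ C *ᵥ ((U * T) *ᵥ v) := fun C v => by
    rw [mulVec_mulVec, dotProduct_mulVec, dotProduct_mulVec, vecMul_mulVec, transpose_mul, hTt]
    simp only [Matrix.mul_assoc]
  have hx : ∀ a, 0 < x a ∧ x a ≤ β / α := fun a => by
    obtain ⟨v, h1, h2⟩ := eig_vec F a
    have h3 := quad A v
    rw [hAQ, one_mulVec] at h3
    have h4 := bA ((U * T) *ᵥ v)
    have h5 := bB ((U * T) *ᵥ v)
    rw [← quad, h2] at h5
    rw [← h3, show v ⬝ᵥ v = 1 from h1] at h4
    have h6 : 0 < nsq ((U * T) *ᵥ v) := (mul_pos_iff_of_pos_left hβ).1 (one_pos.trans_le h4.2)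
    refine ⟨(mul_pos hα h6).trans_le h5.1, ?_⟩
    rw [le_div_iff₀ hα]
    nlinarith [h5.2, h4.1]
  have hinv : A⁻¹ = U * T * T * Uᵀ := by
    refine inv_eq_right_inv ?_
    rw [← Matrix.mul_assoc, ← Matrix.mul_assoc, ← Matrix.mul_assoc, E.mul_U, ← hSS]
    calc U * (S * S) * T * T * Uᵀ = U * (S * (S * T) * T) * Uᵀ := by simp only [Matrix.mul_assoc]
      _ = 1 := by rw [hST, Matrix.mul_one, hST, Matrix.mul_one, E.hU]
  have hsub : T * (Uᵀ * (B - A) * U) * T = M - 1 := by
    rw [Matrix.mul_sub, Matrix.sub_mul, Matrix.mul_sub, Matrix.sub_mul, hAQ]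
  have htr : trace (A⁻¹ * (B - A)) = ∑ a, (x a - 1) := by
    have : trace (A⁻¹ * (B - A)) = trace (T * (Uᵀ * (B - A) * U) * T) := by
      rw [hinv, Matrix.mul_assoc (U * T * T), Matrix.mul_assoc (U * T), trace_mul_comm]
      simp only [Matrix.mul_assoc]
    rw [this, hsub, trace_sub, F.trace_eq, trace_one, Finset.sum_sub_distrib]
    simp
  have hM1 : fr2 (M - 1) = ∑ a, (x a - 1) ^ 2 := by
    refine Eig.fr2_eq (U := W) ⟨F.hU, ?_⟩
    rw [← diagonal_sub, Matrix.mul_sub, Matrix.sub_mul, ← F.hA, diagonal_one, Matrix.mul_one, F.hU]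
  have hfr : fr2 (B - A) ≤ β ^ 2 * fr2 (M - 1) := by
    have e : Uᵀ * (B - A) * U = S * (M - 1) * S := by
      rw [← hsub]
      calc Uᵀ * (B - A) * U = (S * T) * (Uᵀ * (B - A) * U) * (T * S) := by
            rw [hST, hTS, Matrix.one_mul, Matrix.mul_one]
        _ = _ := by simp only [Matrix.mul_assoc]
    rw [← fr2_conj E.hU E.hU, e]
    simp only [fr2, Finset.mul_sum]
    refine Finset.sum_le_sum fun i _ => Finset.sum_le_sum fun j _ => ?_
    rw [hS, mul_diagonal, diagonal_mul, mul_pow, mul_pow, Real.sq_sqrt (hd0 i).le,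
      Real.sq_sqrt (hd0 j).le, mul_right_comm, sq β]
    exact mul_le_mul_of_nonneg_right (mul_le_mul (hd i).2 (hd j).2 (hd0 j).le hβ.le) (sq_nonneg _)
  have hdet : Real.log B.det = Real.log A.det + ∑ a, Real.log (x a) := by
    have hu : Uᵀ.det * U.det = 1 := by rw [← det_mul, E.hU', det_one]
    have h1 : T.det * A.det * T.det = 1 := by
      have := congrArg det hAQ
      rw [det_mul, det_mul, det_mul, det_mul, mul_right_comm Uᵀ.det, hu, one_mul, det_one] at this
      exact this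
    have h2 : T.det * B.det * T.det = ∏ a, x a := by
      rw [← F.det_eq, hM, det_mul, det_mul, det_mul, det_mul, mul_right_comm Uᵀ.det, hu, one_mul]
    have h3 : B.det = A.det * ∏ a, x a := by
      rw [← h2]
      linear_combination (-B.det) * h1
    rw [h3, Real.log_mul, Real.log_prod fun a _ => (hx a).1.ne']
    · rw [E.det_eq]
      exact Finset.prod_ne_zero_iff.2 fun a _ => (hd0 a).ne'
    · exact Finset.prod_ne_zero_iff.2 fun a _ => (hx a).1.ne'
  have hsum : ∑ a, Real.log (x a) ≤ ∑ a, (x a - 1) - α ^ 2 / (2 * β ^ 2) * ∑ a, (x a - 1) ^ 2 := by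
    rw [Finset.mul_sum, ← Finset.sum_sub_distrib]
    refine Finset.sum_le_sum fun a _ => (log_quad (hx a).1 (hx a).2
      ((one_le_div hα).2 ((hd a).1.trans (hd a).2))).trans (le_of_eq ?_)
    field_simp
  have h7 : α ^ 2 / (2 * β ^ 4) * fr2 (B - A) ≤ α ^ 2 / (2 * β ^ 2) * ∑ a, (x a - 1) ^ 2 := by
    refine (mul_le_mul_of_nonneg_left hfr (by positivity)).trans (le_of_eq ?_)
    rw [hM1]
    field_simp
  rw [hdet, htr]
  linarith

theorem abs_exp_sub (u : ℝ) : |Real.exp u - 1| ≤ |u| * Real.exp |u| := by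
  have a1 := Real.add_one_le_exp u
  have a2 := Real.add_one_le_exp (-u)
  have a3 : Real.exp u * Real.exp (-u) = 1 := by rw [← Real.exp_add]; simp
  have a4 := Real.exp_pos u
  have a5 : (1:ℝ) ≤ Real.exp |u| := Real.one_le_exp (abs_nonneg u)
  rcases abs_cases u with hh | hh
  · rw [hh.1, abs_of_nonneg (by linarith [hh.2])]; nlinarith
  · have a6 : Real.exp u ≤ 1 := Real.exp_le_one_iff.2 hh.2.le
    rw [abs_of_nonpos (by linarith)]
    nlinarith [hh.1, abs_nonneg u]

theorem stein {V : Vc m → ℝ} {g : Vc m → Vc m} {κ₁ κ₂ : ℝ} (hV : SC V g κ₁ κ₂) (h1 : 0 < κ₁)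
    (h2 : 0 < κ₂) {f : Vc m → ℝ} (hf : Tame f) (i : Fin m) :
    ∫ x, pd i f x ∂mu V = ∫ x, f x * g x i ∂mu V := by
  set e : Vc m := Pi.single i 1 with he
  have hen : ‖e‖ = 1 := by simp [he, Pi.norm_single]
  set t : ℕ → ℝ := fun n => 1 / ((n:ℝ) + 1) with ht
  have ht0 : ∀ n, 0 < t n := fun n => by positivity
  have ht1 : ∀ n, t n ≤ 1 := fun n => by
    simp only [ht]; rw [div_le_one (by positivity)]; linarith [Nat.cast_nonneg (α := ℝ) n]
  have htl : Tendsto t atTop (𝓝[≠] 0) :=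
    tendsto_nhdsWithin_iff.2 ⟨tendsto_one_div_add_atTop_nhds_zero_nat,
      Eventually.of_forall fun n => (ht0 n).ne'⟩
  have hc := hf.continuous
  have hVc : Continuous V := continuous_iff_continuousAt.2 fun z => (hV.hasFDerivAt z).continuousAt
  have hpg := hf.pg
  have hg := (hV.tame h1.le h2 i).pg
  obtain ⟨C, k, hC, h⟩ := id hf
  set K : ℝ := κ₂ * √(m : ℝ) with hK
  have hK0 : 0 ≤ K := by positivity
  have hX : ∀ z, |g z i| ≤ ‖g 0‖ + K * ‖z‖ := fun z => by
    have h3 := (hV.lipschitz h1.le h2).dist_le_mul z 0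
    rw [dist_eq_norm, dist_zero_right, Real.coe_toNNReal _ hK0] at h3
    have h4 := norm_le_pi_norm (g z) i
    have h5 := norm_sub_norm_le (g z) (g 0)
    rw [Real.norm_eq_abs] at h4
    linarith
  have iF : ∀ {u : Vc m → ℝ}, PG u → Integrable fun x => u x * Real.exp (-V x) := fun hu => by
    simpa using hV.integrable_exp h1 h2 hu 0
  have hL : Tendsto (fun n => ∫ z, (t n)⁻¹ * (f (z + t n • e) * Real.exp (-V (z + t n • e)) -
      f z * Real.exp (-V z))) atTop
      (𝓝 (∫ z, (pd i f z * Real.exp (-V z) - f z * g z i * Real.exp (-V z)))) := by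
    refine tendsto_integral_of_dominated_convergence
      (fun z => ((C * (2 + 2 * ‖z‖) ^ k + |f z| * (|g z i| + κ₂)) * Real.exp (‖g 0‖ + κ₂)) *
        Real.exp (K * ‖z‖) * Real.exp (-V z))
      (fun n => Continuous.aestronglyMeasurable (by fun_prop)) ?_
      (fun n => ae_of_all _ fun z => ?_) ?_
    · exact hV.integrable_exp h1 h2 ((((((PG.const 2).add (PG.norm.const_mul 2)).pow k).const_mul
        C).add (hpg.abs.mul (hg.abs.add (PG.const _)))).mul (PG.const _)) K
    · set u := V z - V (z + t n • e) with hu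
      have hu1 : |u| ≤ t n * (|g z i| + κ₂) := by
        have l := hV.lo z (z + t n • e)
        have r := hV.up z (z + t n • e)
        have e1 : nsq e = 1 := by simp [nsq, he]
        have e2 : g z ⬝ᵥ e = g z i := by simp [he]
        rw [add_sub_cancel_left, sc2_smul, dotProduct_smul, smul_eq_mul, e1, e2] at l r
        have a1 := mul_le_mul_of_nonneg_left (le_abs_self (g z i)) (ht0 n).le
        have a2 := mul_le_mul_of_nonneg_left (neg_abs_le (g z i)) (ht0 n).le
        have a3 := mul_pos (ht0 n) h2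
        have a4 := mul_le_mul_of_nonneg_left (ht1 n) a3.le
        have a5 := mul_pos h1 (pow_pos (ht0 n) 2)
        rw [abs_le]
        constructor <;> nlinarith
      have hu2 : Real.exp |u| ≤ Real.exp (‖g 0‖ + κ₂) * Real.exp (K * ‖z‖) := by
        rw [← Real.exp_add]
        have := mul_le_mul_of_nonneg_right (ht1 n) (show 0 ≤ |g z i| + κ₂ by positivity)
        exact Real.exp_le_exp.2 (by linarith [hX z])
      have h3 := h (z + t n • e) z
      have h4 : ‖z + t n • e - z‖ = t n := by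
        simp [norm_smul, hen, abs_of_pos (ht0 n)]
      have h5 : ‖z + t n • e‖ ≤ ‖z‖ + 1 := by
        refine (norm_add_le _ _).trans ?_
        rw [norm_smul, hen, Real.norm_eq_abs, abs_of_pos (ht0 n)]
        linarith [ht1 n]
      rw [h4] at h3
      have h6 : |f (z + t n • e) - f z| ≤ t n * (C * (2 + 2 * ‖z‖) ^ k) := by
        rw [mul_comm (t n)]
        exact h3.trans (mul_le_mul_of_nonneg_right (mul_le_mul_of_nonneg_left
          (pow_le_pow_left₀ (by positivity) (by linarith) k) hC) (ht0 n).le)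
      have e3 : f (z + t n • e) * Real.exp (-V (z + t n • e)) - f z * Real.exp (-V z) =
          ((f (z + t n • e) - f z) * Real.exp u + f z * (Real.exp u - 1)) * Real.exp (-V z) := by
        rw [show -V (z + t n • e) = u + -V z by rw [hu]; ring, Real.exp_add]
        ring
      rw [e3, ← mul_assoc, Real.norm_eq_abs, abs_mul, abs_of_pos (Real.exp_pos (-V z)), abs_mul,
        abs_of_pos (inv_pos.2 (ht0 n))]
      refine mul_le_mul_of_nonneg_right ?_ (Real.exp_pos _).le
      rw [inv_mul_le_iff₀ (ht0 n), mul_assoc]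
      refine le_trans ?_ (mul_le_mul_of_nonneg_left (mul_le_mul_of_nonneg_left hu2 (by positivity))
        (ht0 n).le)
      refine (abs_add_le _ _).trans ?_
      rw [abs_mul, abs_mul, abs_of_pos (Real.exp_pos u)]
      have b1 := mul_le_mul h6 (Real.exp_le_exp.2 (le_abs_self u)) (Real.exp_pos _).le
        (by have := ht0 n; positivity)
      have b2 := mul_le_mul_of_nonneg_left ((abs_exp_sub u).trans
        (mul_le_mul_of_nonneg_right hu1 (Real.exp_pos _).le)) (abs_nonneg (f z))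
      linarith
    · filter_upwards [hf.ae_diff_vol] with z hz
      have d1 := hz.hasFDerivAt.fun_mul (hV.hasFDerivAt z).fun_neg.exp
      have d2 := hasLineDerivAt_iff_tendsto_slope_zero.1 (d1.hasLineDerivAt e)
      have d3 := d2.comp htl
      simp only [Function.comp_def, smul_eq_mul] at d3
      convert d3 using 2
      rw [pd_eq_fderiv hz]
      simp [he, Pi.single_apply]
      ring
  have h0 : ∀ n, ∫ z, (t n)⁻¹ * (f (z + t n • e) * Real.exp (-V (z + t n • e)) -
      f z * Real.exp (-V z)) = 0 := fun n => by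
    rw [integral_const_mul, integral_sub ((iF hpg).comp_add_right _) (iF hpg),
      integral_add_right_eq_self (fun z => f z * Real.exp (-V z)), sub_self, mul_zero]
  simp only [h0] at hL
  have h3 := tendsto_nhds_unique hL tendsto_const_nhds
  rw [integral_sub (iF (hf.pg_pd i)) (iF (hpg.mul hg))] at h3
  rw [hV.integral_mu, hV.integral_mu]
  linarith

end Crest.Agent.R253.MA1
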