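import Crest.Agent.R253.Defs

set_option autoImplicit false
set_option linter.unusedVariables false
set_option linter.unusedSectionVars false

open MeasureTheory Matrix Set Filter Topology
open Crest.Agent.R215 (gam)
open Crest.Agent.R203

noncomputable section

namespace Crest.Agent.R253.Sc3

variable {m : ℕ} {ψ : Vc m → ℝ} {X : Vc m → Vc m} {α β : ℝ}

theorem nsq_sum (v : Vc m) : nsq v = ∑ i, v i ^ 2 := by
  simp only [nsq, dotProduct, sq]

theorem int1 {α : ℝ} (hα : 0 < α) (b : ℝ) :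
    Integrable fun t : ℝ => Real.exp (b * |t| - α / 2 * t ^ 2) := by
  refine ((integrable_exp_neg_mul_sq (b := α / 4) (by positivity)).const_mul
    (Real.exp (b ^ 2 / α))).mono' (by fun_prop) (ae_of_all _ fun t => ?_)
  rw [Real.norm_eq_abs, abs_of_pos (Real.exp_pos _), ← Real.exp_add]
  refine Real.exp_le_exp.2 ?_
  have h1 : b * |t| ≤ b ^ 2 / α + α / 4 * t ^ 2 := by
    have h2 : 0 ≤ (b - α / 2 * |t|) ^ 2 / α := by positivity
    have h3 : (b - α / 2 * |t|) ^ 2 / α = b ^ 2 / α - b * |t| + α / 4 * |t| ^ 2 := by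
      field_simp; ring
    rw [h3, sq_abs] at h2
    linarith
  linarith

theorem integrable_exp (h : SC ψ X α β) (hc : Continuous ψ) (hα : 0 < α) {f : Vc m → ℝ}
    (hf : PG f) (a : ℝ) :
    Integrable fun x => f x * Real.exp (a * ‖x‖) * Real.exp (-ψ x) := by
  obtain ⟨hm, C, k, hC, hb⟩ := hf
  set b : ℝ := k + |a| + ‖X 0‖ with hbdef
  have hI : Integrable (fun x : Vc m => ∏ i, Real.exp (b * |x i| - α / 2 * x i ^ 2)) :=
    Integrable.fintype_prod (f := fun _ t => Real.exp (b * |t| - α / 2 * t ^ 2))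
      fun _ => int1 hα b
  refine (hI.const_mul (C * Real.exp (-ψ 0))).mono' ?_ (ae_of_all _ fun x => ?_)
  · have : Measurable ψ := hc.measurable
    exact Measurable.aestronglyMeasurable (by fun_prop)
  rw [Real.norm_eq_abs, abs_mul, abs_mul, abs_of_pos (Real.exp_pos _), abs_of_pos (Real.exp_pos _),
    ← Real.exp_sum, mul_assoc, mul_assoc, ← Real.exp_add, ← Real.exp_add]
  have h1 : |f x| ≤ C * Real.exp (k * ‖x‖) :=
    (hb x).trans (mul_le_mul_of_nonneg_left (one_add_pow_le_exp _ (norm_nonneg _) k) hC)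
  refine (mul_le_mul_of_nonneg_right h1 (Real.exp_pos _).le).trans ?_
  rw [mul_assoc, ← Real.exp_add]
  refine mul_le_mul_of_nonneg_left (Real.exp_le_exp.2 ?_) hC
  have h2 := h.lo 0 x
  rw [sub_zero, nsq_sum] at h2
  have h3 : ‖x‖ ≤ ∑ i, |x i| := norm_le_sum_abs x
  have h4 : -(X 0 ⬝ᵥ x) ≤ ‖X 0‖ * ∑ i, |x i| := by
    rw [dotProduct, ← Finset.sum_neg_distrib, Finset.mul_sum]
    refine Finset.sum_le_sum fun i _ => ?_
    calc -(X 0 i * x i) ≤ |X 0 i * x i| := neg_le_abs _
      _ = |X 0 i| * |x i| := abs_mul _ _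
      _ ≤ ‖X 0‖ * |x i| :=
        mul_le_mul_of_nonneg_right (by simpa using norm_le_pi_norm (X 0) i) (abs_nonneg _)
  have h5 : a * ‖x‖ ≤ |a| * ∑ i, |x i| :=
    (mul_le_mul_of_nonneg_right (le_abs_self a) (norm_nonneg _)).trans
      (mul_le_mul_of_nonneg_left h3 (abs_nonneg _))
  have h6 : (k : ℝ) * ‖x‖ ≤ k * ∑ i, |x i| := mul_le_mul_of_nonneg_left h3 (Nat.cast_nonneg _)
  rw [Finset.sum_sub_distrib, ← Finset.mul_sum, ← Finset.mul_sum, hbdef]
  nlinarith

theorem integral_md {f : Vc m → ℝ} (hf : Measurable f) (h0 : ∀ x, 0 ≤ f x) (u : Vc m → ℝ) :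
    ∫ x, u x ∂md f = ∫ x, u x * f x := by
  unfold md
  rw [integral_withDensity_eq_integral_toReal_smul (by fun_prop)
    (ae_of_all _ fun x => ENNReal.ofReal_lt_top)]
  refine integral_congr_ae (ae_of_all _ fun x => ?_)
  simp only [ENNReal.toReal_ofReal (h0 x), smul_eq_mul, mul_comm]

theorem integrable_mu (h : SC ψ X α β) (hc : Continuous ψ) (hα : 0 < α) {f : Vc m → ℝ}
    (hf : PG f) : Integrable f (mu ψ) := by
  have : Measurable ψ := hc.measurable
  unfold mu md
  rw [integrable_withDensity_iff (by fun_prop) (ae_of_all _ fun x => ENNReal.ofReal_lt_top)]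
  have h1 := integrable_exp h hc hα hf 0
  refine h1.congr (ae_of_all _ fun x => ?_)
  simp only [zero_mul, Real.exp_zero, mul_one, ENNReal.toReal_ofReal (Real.exp_pos _).le]

theorem prob (hc : Continuous ψ) (h1 : ∫ x, Real.exp (-ψ x) = 1) :
    IsProbabilityMeasure (mu ψ) := by
  have hI : Integrable fun x => Real.exp (-ψ x) := by
    by_contra hn
    rw [integral_undef hn] at h1
    exact zero_ne_one h1
  refine ⟨?_⟩
  unfold mu md
  rw [withDensity_apply _ MeasurableSet.univ, Measure.restrict_univ,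
    ← ofReal_integral_eq_lintegral_ofReal hI (ae_of_all _ fun x => (Real.exp_pos _).le), h1,
    ENNReal.ofReal_one]

theorem gm_eq_mu :
    gm m = mu fun z : Vc m => 1 / 2 * nsq z + m / 2 * Real.log (2 * Real.pi) := by
  unfold mu md
  rw [show gm m = gam (Fin m) from rfl, Crest.Agent.R215.gam_eq]
  congr 1
  funext x
  congr 1
  beta_reduce
  rw [Crest.Agent.R215.prod_pdf, Fintype.card_fin, nsq_sum, neg_add, Real.exp_add, mul_comm]
  congr 1
  · congr 1; ring
  · have hp : 0 < 2 * Real.pi := by positivity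
    have h1 : (√(2 * Real.pi))⁻¹ = Real.exp (-(1 / 2 * Real.log (2 * Real.pi))) := by
      rw [Real.exp_neg, Real.sqrt_eq_rpow, Real.rpow_def_of_pos hp, mul_comm (Real.log _)]
    rw [h1, ← Real.exp_nat_mul]
    congr 1; ring

theorem gm_ac : gm m ≪ volume := by
  rw [gm_eq_mu]
  exact withDensity_absolutelyContinuous _ _

theorem ac_gm : (volume : Measure (Vc m)) ≪ gm m := by
  rw [gm_eq_mu]
  unfold mu md
  refine withDensity_absolutelyContinuous' ?_ (ae_of_all _ fun x => ?_)
  · have : Measurable (nsq : Vc m → ℝ) := by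
      have : (nsq : Vc m → ℝ) = fun v => ∑ i, v i ^ 2 := funext nsq_sum
      rw [this]; fun_prop
    exact Measurable.aemeasurable (by fun_prop)
  · exact (ENNReal.ofReal_pos.2 (Real.exp_pos _)).ne'

end Crest.Agent.R253.Sc3
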