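import Crest.Agent.R253.Defs
import Crest.Agent.R253.ScAux3

set_option autoImplicit false
set_option linter.unusedVariables false
set_option linter.unusedSectionVars false

open MeasureTheory Matrix Set Filter Topology
open Crest.Agent.R215 (gam)
open Crest.Agent.R203
open Crest.GeometryTopology.Isotropic

noncomputable section

namespace Crest.Agent.R253

variable {m : ℕ}

/-! Strongly convex and smooth functions. -/

variable {ψ : Vc m → ℝ} {X : Vc m → Vc m} {α β : ℝ}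

theorem nsq_nonneg (v : Vc m) : 0 ≤ nsq v := by
  show 0 ≤ ∑ i, v i * v i
  exact Finset.sum_nonneg fun i _ => mul_self_nonneg _
theorem nsq_eq_sum (v : Vc m) : nsq v = ∑ i, v i ^ 2 := by
  show ∑ i, v i * v i = _
  exact Finset.sum_congr rfl fun i _ => (sq _).symm
theorem norm_sq_le_nsq (v : Vc m) : ‖v‖ ^ 2 ≤ nsq v := by
  have h0 := nsq_nonneg v
  have h1 : ‖v‖ ≤ √(nsq v) := by
    refine (pi_norm_le_iff_of_nonneg (Real.sqrt_nonneg _)).2 fun i => ?_
    rw [Real.norm_eq_abs]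
    refine Real.abs_le_sqrt ?_
    rw [nsq_eq_sum]
    exact Finset.single_le_sum (f := fun i => v i ^ 2) (fun j _ => sq_nonneg _) (Finset.mem_univ i)
  calc ‖v‖ ^ 2 ≤ √(nsq v) ^ 2 := pow_le_pow_left₀ (norm_nonneg _) h1 2
    _ = nsq v := Real.sq_sqrt h0
theorem nsq_le_norm_sq (v : Vc m) : nsq v ≤ m * ‖v‖ ^ 2 := by
  rw [nsq_eq_sum]
  calc ∑ i, v i ^ 2 ≤ ∑ i : Fin m, ‖v‖ ^ 2 := by
        refine Finset.sum_le_sum fun i _ => ?_
        have h1 : |v i| ≤ ‖v‖ := by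
          rw [← Real.norm_eq_abs]
          exact norm_le_pi_norm v i
        rw [← sq_abs]
        exact pow_le_pow_left₀ (abs_nonneg _) h1 2
    _ = m * ‖v‖ ^ 2 := by simp
theorem dot_sq_le (v w : Vc m) : (v ⬝ᵥ w) ^ 2 ≤ nsq v * nsq w := by
  rw [nsq_eq_sum, nsq_eq_sum]
  exact Finset.sum_mul_sq_le_sq_mul_sq Finset.univ v w
theorem continuous_nsq : Continuous (nsq : Vc m → ℝ) := by
  show Continuous fun v : Vc m => ∑ i, v i * v i
  fun_prop

theorem SC.weaken (h : SC ψ X α β) {α' β' : ℝ} (h1 : α' ≤ α) (h2 : β ≤ β') : SC ψ X α' β' := by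
  refine ⟨fun z y => ?_, fun z y => ?_⟩
  · have h3 := h.lo z y
    have h4 := mul_le_mul_of_nonneg_right h1 (nsq_nonneg (y - z))
    linarith
  · have h3 := h.up z y
    have h4 := mul_le_mul_of_nonneg_right h2 (nsq_nonneg (y - z))
    linarith

theorem SC.add {φ : Vc m → ℝ} {Y : Vc m → Vc m} {a b : ℝ} (h : SC ψ X α β) (h' : SC φ Y a b) :
    SC (fun z => ψ z + φ z) (fun z => X z + Y z) (α + a) (β + b) := by
  refine ⟨fun z y => ?_, fun z y => ?_⟩
  · have h3 := h.lo z y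
    have h4 := h'.lo z y
    rw [add_dotProduct]
    linarith
  · have h3 := h.up z y
    have h4 := h'.up z y
    rw [add_dotProduct]
    linarith

theorem SC.smul (h : SC ψ X α β) {c : ℝ} (hc : 0 ≤ c) (e : ℝ) :
    SC (fun z => c * ψ z + e) (fun z => c • X z) (c * α) (c * β) := by
  refine ⟨fun z y => ?_, fun z y => ?_⟩
  · have h3 := mul_le_mul_of_nonneg_left (h.lo z y) hc
    rw [smul_dotProduct, smul_eq_mul]
    linarith
  · have h3 := mul_le_mul_of_nonneg_left (h.up z y) hc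
    rw [smul_dotProduct, smul_eq_mul]
    linarith

theorem nsq_add_aux (v w : Vc m) : nsq (v + w) = nsq v + 2 * (v ⬝ᵥ w) + nsq w := by
  show (v + w) ⬝ᵥ (v + w) = v ⬝ᵥ v + 2 * (v ⬝ᵥ w) + w ⬝ᵥ w
  rw [add_dotProduct, dotProduct_add, dotProduct_add, dotProduct_comm w v]
  ring

theorem nsq_smul_aux (c : ℝ) (v : Vc m) : nsq (c • v) = c ^ 2 * nsq v := by
  show (c • v) ⬝ᵥ (c • v) = c ^ 2 * (v ⬝ᵥ v)
  rw [smul_dotProduct, dotProduct_smul, smul_eq_mul, smul_eq_mul]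
  ring

theorem nsq_neg_aux (v : Vc m) : nsq (-v) = nsq v := by
  show (-v) ⬝ᵥ (-v) = v ⬝ᵥ v
  rw [neg_dotProduct, dotProduct_neg, neg_neg]

theorem sc_nsq (c : ℝ) : SC (fun z : Vc m => c / 2 * nsq z) (fun z => c • z) c c := by
  have key : ∀ z y : Vc m,
      c / 2 * nsq z + (c • z) ⬝ᵥ (y - z) + c / 2 * nsq (y - z) = c / 2 * nsq y := by
    intro z y
    have e : nsq y = nsq z + 2 * (z ⬝ᵥ (y - z)) + nsq (y - z) := by
      rw [← nsq_add_aux]
      congr 1
      abel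
    rw [smul_dotProduct, smul_eq_mul, e]
    ring
  exact ⟨fun z y => (key z y).le, fun z y => (key z y).ge⟩

/-- composition with a linear map -/
theorem SC.comp (h : SC ψ X α β) (hα : 0 ≤ α) (hβ : 0 ≤ β) (B : Mx m) {a b : ℝ}
    (ha : ∀ x, a * nsq x ≤ nsq (B *ᵥ x)) (hb : ∀ x, nsq (B *ᵥ x) ≤ b * nsq x) (e : ℝ) :
    SC (fun x => ψ (B *ᵥ x) + e) (fun x => Bᵀ *ᵥ X (B *ᵥ x)) (α * a) (β * b) := by
  have e1 : ∀ z y : Vc m, (Bᵀ *ᵥ X (B *ᵥ z)) ⬝ᵥ (y - z) = X (B *ᵥ z) ⬝ᵥ (B *ᵥ y - B *ᵥ z) := by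
    intro z y
    rw [mulVec_transpose, ← dotProduct_mulVec, mulVec_sub]
  refine ⟨fun z y => ?_, fun z y => ?_⟩
  · have h3 := h.lo (B *ᵥ z) (B *ᵥ y)
    have h4 := mul_le_mul_of_nonneg_left (ha (y - z)) hα
    rw [mulVec_sub] at h4
    rw [e1]
    linarith
  · have h3 := h.up (B *ᵥ z) (B *ᵥ y)
    have h4 := mul_le_mul_of_nonneg_left (hb (y - z)) hβ
    rw [mulVec_sub] at h4
    rw [e1]
    linarith

/-- second differences -/
theorem SC.sd (h : SC ψ X α β) (z w : Vc m) :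
    α * nsq w ≤ ψ (z + w) + ψ (z - w) - 2 * ψ z ∧ ψ (z + w) + ψ (z - w) - 2 * ψ z ≤ β * nsq w := by
  have e1 : z + w - z = w := by abel
  have e2 : z - w - z = -w := by abel
  have l1 := h.lo z (z + w)
  have l2 := h.lo z (z - w)
  have u1 := h.up z (z + w)
  have u2 := h.up z (z - w)
  rw [e1] at l1 u1
  rw [e2, nsq_neg_aux, dotProduct_neg] at l2 u2
  constructor <;> linarith

/-- A subgradient field and midpoint second differences give `SC`.  First
`ψ(z+w) ≤ ψ z + X z⬝w + β|w|²`; then iterate midpoint convexity of `ψ - α|·|²/2` and of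
`β|·|²/2 - ψ` along `w/2^k`. -/
theorem SC.of_sd (hs : ∀ z y, ψ z + X z ⬝ᵥ (y - z) ≤ ψ y)
    (h1 : ∀ z w, α * nsq w ≤ ψ (z + w) + ψ (z - w) - 2 * ψ z)
    (h2 : ∀ z w, ψ (z + w) + ψ (z - w) - 2 * ψ z ≤ β * nsq w) : SC ψ X α β := by
  have half : ∀ z w : Vc m, α / 4 * nsq w ≤
      (ψ (z + w) - ψ z - X z ⬝ᵥ w) -
        2 * (ψ (z + (1 / 2 : ℝ) • w) - ψ z - X z ⬝ᵥ ((1 / 2 : ℝ) • w)) ∧
      (ψ (z + w) - ψ z - X z ⬝ᵥ w) -
        2 * (ψ (z + (1 / 2 : ℝ) • w) - ψ z - X z ⬝ᵥ ((1 / 2 : ℝ) • w)) ≤ β / 4 * nsq w := by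
    intro z w
    have a1 := h1 (z + (1 / 2 : ℝ) • w) ((1 / 2 : ℝ) • w)
    have a2 := h2 (z + (1 / 2 : ℝ) • w) ((1 / 2 : ℝ) • w)
    have e1 : z + (1 / 2 : ℝ) • w + (1 / 2 : ℝ) • w = z + w := by
      rw [add_assoc, ← add_smul]
      norm_num
    have e2 : z + (1 / 2 : ℝ) • w - (1 / 2 : ℝ) • w = z := by abel
    rw [e1, e2, nsq_smul_aux] at a1 a2
    rw [dotProduct_smul, smul_eq_mul]
    constructor <;> linarith
  have lim : ∀ c : ℝ, Tendsto (fun k : ℕ => c * (1 / 2 : ℝ) ^ k) atTop (𝓝 0) := by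
    intro c
    have := (tendsto_pow_atTop_nhds_zero_of_lt_one (r := (1 / 2 : ℝ)) (by norm_num)
      (by norm_num)).const_mul c
    rwa [mul_zero] at this
  have d0 : ∀ z w : Vc m, 0 ≤ ψ (z + w) - ψ z - X z ⬝ᵥ w := by
    intro z w
    have a := hs z (z + w)
    rw [add_sub_cancel_left] at a
    linarith
  have lo : ∀ (z : Vc m) (k : ℕ) (w : Vc m),
      α / 2 * nsq w - α / 2 * nsq w * (1 / 2 : ℝ) ^ k ≤ ψ (z + w) - ψ z - X z ⬝ᵥ w := by
    intro z k
    induction k with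
    | zero =>
      intro w
      have := d0 z w
      rw [pow_zero]
      linarith
    | succ k ih =>
      intro w
      have a1 := ih ((1 / 2 : ℝ) • w)
      have a2 := (half z w).1
      rw [nsq_smul_aux] at a1
      rw [pow_succ]
      linarith
  have up : ∀ (z : Vc m) (k : ℕ) (w : Vc m),
      ψ (z + w) - ψ z - X z ⬝ᵥ w ≤ β / 2 * nsq w + β / 2 * nsq w * (1 / 2 : ℝ) ^ k := by
    intro z k
    induction k with
    | zero =>
      intro w
      have a1 := d0 z (-w)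
      have a2 := h2 z w
      rw [dotProduct_neg, ← sub_eq_add_neg] at a1
      rw [pow_zero]
      linarith
    | succ k ih =>
      intro w
      have a1 := ih ((1 / 2 : ℝ) • w)
      have a2 := (half z w).2
      rw [nsq_smul_aux] at a1
      rw [pow_succ]
      linarith
  refine ⟨fun z y => ?_, fun z y => ?_⟩
  · have a := le_of_tendsto' ((lim (α / 2 * nsq (y - z))).const_sub (α / 2 * nsq (y - z)))
      fun k => lo z k (y - z)
    rw [add_sub_cancel] at a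
    linarith
  · have a := ge_of_tendsto' ((lim (β / 2 * nsq (y - z))).const_add (β / 2 * nsq (y - z)))
      fun k => up z k (y - z)
    rw [add_sub_cancel] at a
    linarith

theorem SC.mono (h : SC ψ X α β) (z y : Vc m) :
    α * nsq (z - y) ≤ (X z - X y) ⬝ᵥ (z - y) ∧ (X z - X y) ⬝ᵥ (z - y) ≤ β * nsq (z - y) := by
  have e : y - z = -(z - y) := by abel
  have l1 := h.lo z y
  have l2 := h.lo y z
  have u1 := h.up z y
  have u2 := h.up y z
  rw [e, nsq_neg_aux, dotProduct_neg] at l1 u1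
  rw [sub_dotProduct]
  constructor <;> linarith

/-- co-coercivity: use `lo` at `z` and `up` at `y`, evaluated at `y - (X y - X z)/β`. -/
theorem SC.lip (h : SC ψ X α β) (hα : 0 ≤ α) (hβ : 0 < β) (z y : Vc m) :
    nsq (X z - X y) ≤ β ^ 2 * nsq (z - y) := by
  have key : ∀ z y : Vc m,
      ψ z + X z ⬝ᵥ (y - z) + β⁻¹ / 2 * nsq (X y - X z) ≤ ψ y := by
    intro z y
    have l := h.lo z (y - β⁻¹ • (X y - X z))
    have u := h.up y (y - β⁻¹ • (X y - X z))
    have l0 := mul_nonneg hα (nsq_nonneg (y - β⁻¹ • (X y - X z) - z))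
    have e1 : y - β⁻¹ • (X y - X z) - y = -(β⁻¹ • (X y - X z)) := by abel
    have e2 : X z ⬝ᵥ (y - β⁻¹ • (X y - X z) - z) =
        X z ⬝ᵥ (y - z) - β⁻¹ * (X z ⬝ᵥ (X y - X z)) := by
      rw [sub_right_comm, dotProduct_sub (X z) (y - z), dotProduct_smul, smul_eq_mul]
    have e3 : nsq (X y - X z) = X y ⬝ᵥ (X y - X z) - X z ⬝ᵥ (X y - X z) := sub_dotProduct _ _ _
    have e4 : β / 2 * (β⁻¹ ^ 2 * nsq (X y - X z)) = β⁻¹ / 2 * nsq (X y - X z) := by
      field_simp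
    have e5 : β⁻¹ * nsq (X y - X z) =
        β⁻¹ * (X y ⬝ᵥ (X y - X z)) - β⁻¹ * (X z ⬝ᵥ (X y - X z)) := by
      rw [e3]
      ring
    rw [e2] at l
    rw [e1, nsq_neg_aux, nsq_smul_aux, dotProduct_neg, dotProduct_smul, smul_eq_mul, e4] at u
    linarith
  have k1 := key z y
  have k2 := key y z
  have e : y - z = -(z - y) := by abel
  have e' : X y - X z = -(X z - X y) := by abel
  rw [e, e', nsq_neg_aux, dotProduct_neg] at k1
  have k3 : β⁻¹ * nsq (X z - X y) ≤ (X z - X y) ⬝ᵥ (z - y) := by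
    rw [sub_dotProduct]
    linarith
  have k4 : nsq (X z - X y) ≤ β * ((X z - X y) ⬝ᵥ (z - y)) := by
    have := mul_le_mul_of_nonneg_left k3 hβ.le
    rwa [← mul_assoc, mul_inv_cancel₀ hβ.ne', one_mul] at this
  have k5 := dot_sq_le (X z - X y) (z - y)
  have n1 := nsq_nonneg (X z - X y)
  have n2 := nsq_nonneg (z - y)
  rcases n1.eq_or_lt with n0 | n0
  · rw [← n0]
    positivity
  · have k6 : nsq (X z - X y) * nsq (X z - X y) ≤ nsq (X z - X y) * (β ^ 2 * nsq (z - y)) :=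
      calc nsq (X z - X y) * nsq (X z - X y)
          ≤ (β * ((X z - X y) ⬝ᵥ (z - y))) * (β * ((X z - X y) ⬝ᵥ (z - y))) :=
            mul_self_le_mul_self n1 k4
        _ = β ^ 2 * ((X z - X y) ⬝ᵥ (z - y)) ^ 2 := by ring
        _ ≤ β ^ 2 * (nsq (X z - X y) * nsq (z - y)) :=
            mul_le_mul_of_nonneg_left k5 (sq_nonneg _)
        _ = _ := by ring
    exact le_of_mul_le_mul_left k6 n0

theorem SC.lipschitz (h : SC ψ X α β) (hα : 0 ≤ α) (hβ : 0 < β) :
    LipschitzWith (Real.toNNReal (β * √(m : ℝ))) X := by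
  refine LipschitzWith.of_dist_le_mul fun z y => ?_
  have h0 : 0 ≤ β * √(m : ℝ) := mul_nonneg hβ.le (Real.sqrt_nonneg _)
  rw [Real.coe_toNNReal _ h0, dist_eq_norm, dist_eq_norm]
  refine (pow_le_pow_iff_left₀ (norm_nonneg _) (mul_nonneg h0 (norm_nonneg _)) two_ne_zero).1 ?_
  calc ‖X z - X y‖ ^ 2 ≤ nsq (X z - X y) := norm_sq_le_nsq _
    _ ≤ β ^ 2 * nsq (z - y) := h.lip hα hβ z y
    _ ≤ β ^ 2 * (m * ‖z - y‖ ^ 2) := mul_le_mul_of_nonneg_left (nsq_le_norm_sq _) (sq_nonneg _)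
    _ = (β * √(m : ℝ) * ‖z - y‖) ^ 2 := by
      rw [mul_pow, mul_pow, Real.sq_sqrt (Nat.cast_nonneg m)]
      ring

theorem sc2_smul (c : ℝ) (v : Vc m) : nsq (c • v) = c ^ 2 * nsq v := by
  simp only [nsq, smul_dotProduct, dotProduct_smul, smul_eq_mul]; ring

theorem sc2_neg (v w : Vc m) : nsq (v - w) = nsq (w - v) := by
  rw [← neg_sub w v, nsq, neg_dotProduct_neg]; rfl

theorem sc2_dot (v w : Vc m) : |v ⬝ᵥ w| ≤ m * ‖v‖ * ‖w‖ := by
  refine (Finset.abs_sum_le_sum_abs _ _).trans ?_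
  refine (Finset.sum_le_card_nsmul _ _ (‖v‖ * ‖w‖) fun i _ => ?_).trans ?_
  · rw [abs_mul]
    exact mul_le_mul (norm_le_pi_norm v i) (norm_le_pi_norm w i) (abs_nonneg _) (norm_nonneg _)
  · simp [mul_assoc]

theorem sc2_zero {v : Vc m} (h : nsq v ≤ 0) : v = 0 := by
  have := norm_sq_le_nsq v
  exact norm_eq_zero.1 (by nlinarith [norm_nonneg v])

theorem SC.tame (h : SC ψ X α β) (hα : 0 ≤ α) (hβ : 0 < β) (i : Fin m) :
    Tame fun z => X z i := by
  exact Tame.of_lipschitz ((LipschitzWith.eval i).comp (h.lipschitz hα hβ))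

theorem SC.tame_pot (h : SC ψ X α β) (hα : 0 ≤ α) (hβ : 0 < β) : Tame ψ := by
  set K : ℝ := β * √(m : ℝ) with hK
  have hK0 : 0 ≤ K := by positivity
  have hX : ∀ z, ‖X z‖ ≤ ‖X 0‖ + K * ‖z‖ := fun z => by
    have h1 := (h.lipschitz hα hβ).dist_le_mul z 0
    rw [dist_eq_norm, dist_zero_right, Real.coe_toNNReal _ hK0] at h1
    linarith [norm_sub_norm_le (X z) (X 0)]
  have key : ∀ x y, ψ x - ψ y ≤ m * (‖X 0‖ + K * ‖x‖) * ‖x - y‖ := fun x y => by
    have h1 := h.lo x y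
    have h2 := (neg_abs_le _).trans' (neg_le_neg (sc2_dot (X x) (y - x)))
    have h3 := mul_nonneg hα (nsq_nonneg (y - x))
    have h4 : m * ‖X x‖ * ‖y - x‖ ≤ m * (‖X 0‖ + K * ‖x‖) * ‖x - y‖ := by
      rw [norm_sub_rev y x]
      gcongr
      exact hX x
    linarith
  refine ⟨m * (‖X 0‖ + K), 1, by positivity, fun x y => ?_⟩
  have hb : ∀ a b : ℝ, 0 ≤ a → 0 ≤ b → ‖X 0‖ + K * a ≤ (‖X 0‖ + K) * (1 + a + b) := fun a b ha hb => by
    have := norm_nonneg (X 0)
    nlinarith [mul_nonneg this ha, mul_nonneg this hb, mul_nonneg hK0 hb]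
  rw [pow_one, abs_sub_le_iff, mul_assoc (m : ℝ)]
  constructor
  · refine (key x y).trans ?_
    gcongr
    exact hb _ _ (norm_nonneg _) (norm_nonneg _)
  · refine (key y x).trans ?_
    rw [norm_sub_rev y x, add_right_comm]
    gcongr
    exact hb _ _ (norm_nonneg _) (norm_nonneg _)

theorem SC.hasFDerivAt (h : SC ψ X α β) (z : Vc m) :
    HasFDerivAt ψ (∑ i, X z i • (ContinuousLinearMap.proj i : Vc m →L[ℝ] ℝ)) z := by
  rw [hasFDerivAt_iff_isLittleO]
  refine (Asymptotics.IsBigO.of_bound ((|α| + |β|) * m) (Eventually.of_forall fun y => ?_)).trans_isLittleO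
    (Asymptotics.isLittleO_pow_sub_sub z one_lt_two)
  have e : (∑ i, X z i • (ContinuousLinearMap.proj i : Vc m →L[ℝ] ℝ)) (y - z) = X z ⬝ᵥ (y - z) := by
    simp [dotProduct]
  have h1 := h.lo z y
  have h2 := h.up z y
  have h3 := nsq_le_norm_sq (y - z)
  have h4 := nsq_nonneg (y - z)
  have h5 := mul_le_mul_of_nonneg_left h3 (add_nonneg (abs_nonneg α) (abs_nonneg β))
  have h6 := mul_le_mul_of_nonneg_right (neg_abs_le α) h4
  have h7 := mul_le_mul_of_nonneg_right (le_abs_self β) h4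
  have h8 := mul_nonneg (abs_nonneg α) h4
  have h9 := mul_nonneg (abs_nonneg β) h4
  rw [e, Real.norm_eq_abs, Real.norm_eq_abs, abs_of_nonneg (sq_nonneg ‖y - z‖), abs_le]
  constructor <;> linarith

theorem SC.pd_pot (h : SC ψ X α β) (i : Fin m) (z : Vc m) : pd i ψ z = X z i := by
  rw [pd_of_hasFDerivAt (h.hasFDerivAt z)]
  simp [Pi.single_apply]

/-- Legendre duality (surjectivity: minimise the coercive function `ψ z - x ⬝ z`). -/
theorem SC.conj (h : SC ψ X α β) (hα : 0 < α) (hβ : 0 < β) :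
    ∃ (φ : Vc m → ℝ) (Y : Vc m → Vc m), SC φ Y β⁻¹ α⁻¹ ∧ (∀ z, Y (X z) = z) ∧ (∀ x, X (Y x) = x) ∧
      ∀ z, φ (X z) = z ⬝ᵥ X z - ψ z := by
  have hinj : Function.Injective X := fun z y e => by
    have h1 := (h.mono z y).1
    rw [e, sub_self, zero_dotProduct] at h1
    exact sub_eq_zero.1 (sc2_zero (by nlinarith [nsq_nonneg (z - y)]))
  have hc : Continuous ψ := (h.tame_pot hα.le hβ).continuous
  have hsurj : Function.Surjective X := fun x => by
    have hg : Continuous fun z => ψ z - x ⬝ᵥ z := hc.sub (continuous_const.dotProduct continuous_id)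
    obtain ⟨z, hz⟩ := hg.exists_forall_le_of_isBounded 0 (by
      refine isBounded_iff_forall_norm_le.2 ⟨2 * (m * ‖X 0 - x‖) / α, fun y hy => ?_⟩
      have h1 := h.lo 0 y
      have h2 := (neg_abs_le _).trans' (neg_le_neg (sc2_dot (X 0 - x) y))
      have h3 := mul_le_mul_of_nonneg_left (norm_sq_le_nsq y) hα.le
      simp only [mem_ofPred_eq, dotProduct_zero, sub_zero] at hy h1
      rw [sub_dotProduct] at h2
      rw [le_div_iff₀ hα]
      rcases (norm_nonneg y).eq_or_lt with h4 | h4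
      · rw [← h4, zero_mul]; positivity
      · refine le_of_mul_le_mul_right ?_ h4
        nlinarith)
    refine ⟨z, sub_eq_zero.1 (sc2_zero ?_)⟩
    have h1 := hz (z + (-β⁻¹) • (X z - x))
    have h2 := h.up z (z + (-β⁻¹) • (X z - x))
    rw [add_sub_cancel_left, sc2_smul, dotProduct_smul, smul_eq_mul] at h2
    rw [dotProduct_add, dotProduct_smul, smul_eq_mul] at h1
    have h3 : nsq (X z - x) = X z ⬝ᵥ (X z - x) - x ⬝ᵥ (X z - x) := sub_dotProduct _ _ _
    have h4 : β / 2 * ((-β⁻¹) ^ 2 * nsq (X z - x)) = β⁻¹ * nsq (X z - x) / 2 := by field_simp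
    have h5 : β⁻¹ * nsq (X z - x) ≤ 0 := by
      have : β⁻¹ * nsq (X z - x) = β⁻¹ * X z ⬝ᵥ (X z - x) - β⁻¹ * x ⬝ᵥ (X z - x) := by
        rw [h3]; ring
      linarith
    exact le_of_mul_le_mul_left (by linarith) (inv_pos.2 hβ)
  set Y := Function.surjInv hsurj
  have hXY : ∀ x, X (Y x) = x := Function.surjInv_eq hsurj
  have hYX : ∀ z, Y (X z) = z := fun z => hinj (hXY _)
  refine ⟨fun x => Y x ⬝ᵥ x - ψ (Y x), Y, ⟨fun x x' => ?_, fun x x' => ?_⟩, hYX, hXY,
    fun z => by simp only [hYX]⟩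
  · obtain ⟨z, rfl⟩ := hsurj x
    obtain ⟨y, rfl⟩ := hsurj x'
    simp only [hYX]
    have h1 := h.lo y (z + β⁻¹ • (X y - X z))
    have h2 := h.up z (z + β⁻¹ • (X y - X z))
    have h0 := mul_nonneg hα.le (nsq_nonneg (z + β⁻¹ • (X y - X z) - y))
    rw [add_sub_cancel_left, sc2_smul, dotProduct_smul, smul_eq_mul] at h2
    rw [dotProduct_sub, dotProduct_add, dotProduct_smul, smul_eq_mul] at h1
    have h3 : nsq (X y - X z) = X y ⬝ᵥ (X y - X z) - X z ⬝ᵥ (X y - X z) := sub_dotProduct _ _ _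
    have h4 : β / 2 * (β⁻¹ ^ 2 * nsq (X y - X z)) = β⁻¹ * nsq (X y - X z) / 2 := by field_simp
    have h5 : β⁻¹ * nsq (X y - X z) =
        β⁻¹ * X y ⬝ᵥ (X y - X z) - β⁻¹ * X z ⬝ᵥ (X y - X z) := by rw [h3]; ring
    rw [dotProduct_sub z, dotProduct_comm z (X y), dotProduct_comm y (X y)]
    linarith
  · obtain ⟨z, rfl⟩ := hsurj x
    obtain ⟨y, rfl⟩ := hsurj x'
    simp only [hYX]
    have h1 := h.lo z y
    have h2 := nsq_nonneg (α • (y - z) - (X y - X z))
    have h3 : nsq (α • (y - z) - (X y - X z)) =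
        α ^ 2 * nsq (y - z) - 2 * α * ((X y - X z) ⬝ᵥ (y - z)) + nsq (X y - X z) := by
      generalize X y - X z = d
      generalize y - z = u
      simp only [nsq, sub_dotProduct, dotProduct_sub, smul_dotProduct, dotProduct_smul, smul_eq_mul,
        dotProduct_comm u d]
      ring
    have h4 : (X y - X z) ⬝ᵥ (y - z) ≤ α / 2 * nsq (y - z) + α⁻¹ / 2 * nsq (X y - X z) := by
      refine le_of_mul_le_mul_left ?_ (mul_pos two_pos hα)
      have : 2 * α * (α / 2 * nsq (y - z) + α⁻¹ / 2 * nsq (X y - X z)) =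
          α ^ 2 * nsq (y - z) + nsq (X y - X z) := by field_simp
      linarith
    rw [sub_dotProduct, dotProduct_sub (X y)] at h4
    rw [dotProduct_sub z, dotProduct_comm z (X y), dotProduct_comm y (X y)]
    linarith

/-- the Jacobian at a point of differentiability (`second_derivative_symmetric`) -/
theorem SC.jac_at (h : SC ψ X α β) {z : Vc m} (hz : DifferentiableAt ℝ X z) :
    (jac X z).IsSymm ∧ (∀ v, fderiv ℝ X z v = jac X z *ᵥ v) ∧
      ∀ v, α * nsq v ≤ v ⬝ᵥ jac X z *ᵥ v ∧ v ⬝ᵥ jac X z *ᵥ v ≤ β * nsq v := by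
  have hj : ∀ i j, jac X z i j = fderiv ℝ X z (Pi.single j 1) i := fun i j =>
    pd_of_hasFDerivAt (hasFDerivAt_pi'.1 hz.hasFDerivAt i) j
  have hv : ∀ v, fderiv ℝ X z v = jac X z *ᵥ v := fun v => by
    funext i
    conv_lhs => rw [pi_eq_sum_univ' v]
    simp only [map_sum, map_smul, Finset.sum_apply, Pi.smul_apply, smul_eq_mul, mulVec, dotProduct, hj]
    exact Finset.sum_congr rfl fun j _ => mul_comm _ _
  refine ⟨?_, hv, fun v => ?_⟩
  · let L : Vc m →L[ℝ] Vc m →L[ℝ] ℝ := ∑ i, (ContinuousLinearMap.proj i : Vc m →L[ℝ] ℝ).smulRight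
      (ContinuousLinearMap.proj i : Vc m →L[ℝ] ℝ)
    have hL : ∀ u, L u = ∑ i, u i • (ContinuousLinearMap.proj i : Vc m →L[ℝ] ℝ) := fun u => by
      simp [L]
    have h1 : ∀ y, HasFDerivAt ψ ((L ∘ X) y) y := fun y => by
      rw [Function.comp_apply, hL]; exact h.hasFDerivAt y
    have h2 := second_derivative_symmetric h1 (L.hasFDerivAt.comp z hz.hasFDerivAt)
    refine IsSymm.ext fun i j => ?_
    have h3 := h2 (Pi.single i 1) (Pi.single j 1)
    simpa [hL, Pi.single_apply, ← hj] using h3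
  · have hd : HasDerivAt (fun t : ℝ => X (z + t • v) ⬝ᵥ v) (v ⬝ᵥ jac X z *ᵥ v) 0 := by
      have h1 : HasDerivAt (fun t : ℝ => z + t • v) v 0 := by
        simpa using ((hasDerivAt_id (0 : ℝ)).smul_const v).const_add z
      have h2 := hz.hasFDerivAt.comp_hasDerivAt_of_eq 0 h1 (by simp)
      rw [hv] at h2
      rw [dotProduct_comm v]
      exact HasDerivAt.fun_sum fun i _ => (hasDerivAt_pi.1 h2 i).mul_const (v i)
    have key : ∀ t : ℝ, 0 < t →
        α * nsq v ≤ t⁻¹ • (X (z + (0 + t) • v) ⬝ᵥ v - X (z + (0 : ℝ) • v) ⬝ᵥ v) ∧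
        t⁻¹ • (X (z + (0 + t) • v) ⬝ᵥ v - X (z + (0 : ℝ) • v) ⬝ᵥ v) ≤ β * nsq v := fun t ht => by
      have h1 := h.mono (z + t • v) z
      rw [add_sub_cancel_left, sc2_smul, dotProduct_smul, smul_eq_mul, sub_dotProduct] at h1
      rw [zero_add, zero_smul, add_zero, smul_eq_mul, le_inv_mul_iff₀ ht, inv_mul_le_iff₀ ht]
      exact ⟨le_of_mul_le_mul_left (by nlinarith [h1.1]) ht,
        le_of_mul_le_mul_left (by nlinarith [h1.2]) ht⟩
    exact ⟨ge_of_tendsto hd.tendsto_slope_zero_right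
        (eventually_nhdsWithin_of_forall fun t ht => (key t ht).1),
      le_of_tendsto hd.tendsto_slope_zero_right
        (eventually_nhdsWithin_of_forall fun t ht => (key t ht).2)⟩

theorem SC.ae_diff (h : SC ψ X α β) (hα : 0 ≤ α) (hβ : 0 < β) :
    ∀ᵐ z ∂(volume : Measure (Vc m)), DifferentiableAt ℝ X z := by
  exact (h.lipschitz hα hβ).ae_differentiableAt

theorem SC.jac_bdd (h : SC ψ X α β) (hα : 0 ≤ α) (hβ : 0 < β) (z : Vc m) (i j : Fin m) :
    |jac X z i j| ≤ β := by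
  refine norm_deriv_le_of_lip' (f := fun t : ℝ => X (z + t • (Pi.single j 1 : Vc m)) i) hβ.le
    (Eventually.of_forall fun t => ?_)
  have h1 := h.lip hα hβ (z + t • (Pi.single j 1 : Vc m)) z
  have h2 : nsq (Pi.single j 1 : Vc m) = 1 := by simp [nsq]
  rw [add_sub_cancel_left, sc2_smul, h2, mul_one] at h1
  have h3 := norm_le_pi_norm (X (z + t • (Pi.single j 1 : Vc m)) - X z) i
  rw [zero_smul, add_zero, sub_zero]
  refine h3.trans (abs_le_of_sq_le_sq' ?_ (by positivity)).2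
  rw [mul_pow, Real.norm_eq_abs, sq_abs]
  exact (norm_sq_le_nsq _).trans h1

theorem SC.jac_meas (h : SC ψ X α β) (hα : 0 ≤ α) (hβ : 0 < β) (i j : Fin m) :
    Measurable fun z => jac X z i j := by
  exact ((h.tame hα hβ i).pg_pd j).measurable

/-- Gaussian tails of `e^{-ψ}` -/
theorem SC.integrable_exp (h : SC ψ X α β) (hα : 0 < α) (hβ : 0 < β) {f : Vc m → ℝ} (hf : PG f)
    (a : ℝ) : Integrable fun x => f x * Real.exp (a * ‖x‖) * Real.exp (-ψ x) :=
  Sc3.integrable_exp h (continuous_iff_continuousAt.2 fun z => (h.hasFDerivAt z).continuousAt) hα hf a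

theorem SC.integrable_mu (h : SC ψ X α β) (hα : 0 < α) (hβ : 0 < β) {f : Vc m → ℝ} (hf : PG f) :
    Integrable f (mu ψ) :=
  Sc3.integrable_mu h (continuous_iff_continuousAt.2 fun z => (h.hasFDerivAt z).continuousAt) hα hf

theorem integral_md {f : Vc m → ℝ} (hf : Measurable f) (h0 : ∀ x, 0 ≤ f x) (u : Vc m → ℝ) :
    ∫ x, u x ∂md f = ∫ x, u x * f x := Sc3.integral_md hf h0 u

theorem SC.integral_mu (h : SC ψ X α β) (u : Vc m → ℝ) :
    ∫ x, u x ∂mu ψ = ∫ x, u x * Real.exp (-ψ x) := by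
  have hc : Continuous ψ := continuous_iff_continuousAt.2 fun z => (h.hasFDerivAt z).continuousAt
  exact integral_md (Real.continuous_exp.comp hc.neg).measurable (fun x => (Real.exp_pos _).le) u

theorem SC.prob (h : SC ψ X α β) (h1 : ∫ x, Real.exp (-ψ x) = 1) : IsProbabilityMeasure (mu ψ) :=
  Sc3.prob (continuous_iff_continuousAt.2 fun z => (h.hasFDerivAt z).continuousAt) h1

theorem gm_eq_mu : gm m = mu fun z : Vc m => 1 / 2 * nsq z + m / 2 * Real.log (2 * Real.pi) :=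
  Sc3.gm_eq_mu

theorem gm_ac : gm m ≪ volume := Sc3.gm_ac
theorem ac_gm : (volume : Measure (Vc m)) ≪ gm m := Sc3.ac_gm

end Crest.Agent.R253
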