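import Crest.Agent.R253.FldA
import Crest.Agent.R253.Sc
import Crest.Agent.R253.MAAux1

set_option autoImplicit false
set_option linter.unusedVariables false
set_option linter.unusedSectionVars false

open MeasureTheory Matrix Set Filter Topology
open Crest.Agent.R215 (gam)
open Crest.Agent.R203
open Crest.GeometryTopology.Isotropic

noncomputable section

namespace Crest.Agent.R253

variable {m : ℕ}

/-! Monge–Ampère equation and `W^{1,2}` regularity of the Hessian of the Brenier potential. -/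

/-- a Brenier map from the Gaussian to `e^{-V}` -/
structure BM (V : Vc m → ℝ) (g : Vc m → Vc m) (κ₁ κ₂ : ℝ) (ψ : Vc m → ℝ) (X : Vc m → Vc m)
    (α β : ℝ) : Prop where
  hV : SC V g κ₁ κ₂
  k1 : 0 < κ₁
  k2 : 0 < κ₂
  hn : ∫ x, Real.exp (-V x) = 1
  hX : SC ψ X α β
  a0 : 0 < α
  b0 : 0 < β
  push : Measure.map X (gm m) = mu V

/-- the field `T = lam⁻¹(D²ψ)` -/
def TT (α β : ℝ) (X : Vc m → Vc m) (z : Vc m) : Mx m :=
  mf (linv α β) ((1 / 2 : ℝ) • (jac X z + (jac X z)ᵀ))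

variable {V ψ : Vc m → ℝ} {g X Y : Vc m → Vc m} {κ₁ κ₂ α β : ℝ}

/-- quantitative concavity of `log det`: eigenvalues `x` of `A^{-1/2} B A^{-1/2}` lie in
`[α/β, β/α]`, `log x ≤ x - 1 - (α/β)² (x-1)²/2`. -/
theorem logdet_quad {A B : Mx m} (hA : A.IsSymm) (hB : B.IsSymm) (hα : 0 < α) (hβ : 0 < β)
    (bA : ∀ v, α * nsq v ≤ v ⬝ᵥ A *ᵥ v ∧ v ⬝ᵥ A *ᵥ v ≤ β * nsq v)
    (bB : ∀ v, α * nsq v ≤ v ⬝ᵥ B *ᵥ v ∧ v ⬝ᵥ B *ᵥ v ≤ β * nsq v) :
    Real.log B.det ≤ Real.log A.det + trace (A⁻¹ * (B - A)) - α ^ 2 / (2 * β ^ 4) * fr2 (B - A) :=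
  MA1.logdet_quad hA hB hα hβ bA bB

/-- Stein identity for `e^{-V}` (imitate `Tame.stein`, or `integral_mul_fderiv`-type lemmas for the
locally Lipschitz function `f e^{-V}`) -/
theorem SC.stein (hV : SC V g κ₁ κ₂) (h1 : 0 < κ₁) (h2 : 0 < κ₂) {f : Vc m → ℝ} (hf : Tame f)
    (i : Fin m) : ∫ x, pd i f x ∂mu V = ∫ x, f x * g x i ∂mu V :=
  MA1.stein hV h1 h2 hf i

theorem BM.integral_comp (h : BM V g κ₁ κ₂ ψ X α β) {u : Vc m → ℝ} (hu : Measurable u) :
    ∫ x, u x ∂mu V = ∫ z, u (X z) ∂gm m := by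
  rw [← h.push, integral_map (h.hX.lipschitz h.a0.le h.b0).continuous.measurable.aemeasurable
    hu.aestronglyMeasurable]

theorem ma2_det (hX : SC ψ X α β) {z : Vc m} (hz : DifferentiableAt ℝ X z) :
    (fderiv ℝ X z).det = (jac X z).det := by
  have e : (fderiv ℝ X z : Vc m →ₗ[ℝ] Vc m) = Matrix.toLin' (jac X z) :=
    LinearMap.ext fun v => by
      rw [Matrix.toLin'_apply]
      exact (hX.jac_at hz).2.1 v
  unfold ContinuousLinearMap.det
  rw [e, LinearMap.det_toLin']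

/-- change of variables (`lintegral_image_eq_lintegral_abs_det_fderiv_mul`) on the set of points
of differentiability -/
theorem BM.ma (h : BM V g κ₁ κ₂ ψ X α β) : ∀ᵐ z ∂(volume : Measure (Vc m)), DifferentiableAt ℝ X z ∧
    Real.log (jac X z).det = V (X z) - 1 / 2 * nsq z - m / 2 * Real.log (2 * Real.pi) := by
  obtain ⟨φ, Y, -, hYX, -, -⟩ := h.hX.conj h.a0 h.b0
  have hinj : Function.Injective X := Function.LeftInverse.injective hYX
  have cX := (h.hX.lipschitz h.a0.le h.b0).continuous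
  have cV : Continuous V := (h.hV.tame_pot h.k1.le h.k2).continuous
  have hae := h.hX.ae_diff h.a0.le h.b0
  set c : ℝ := m / 2 * Real.log (2 * Real.pi) with hc
  have m1 : Measurable fun z => ENNReal.ofReal |(fderiv ℝ X z).det| *
      ENNReal.ofReal (Real.exp (-V (X z))) :=
    (ContinuousLinearMap.continuous_det.measurable.comp (measurable_fderiv ℝ X)).abs.ennreal_ofReal.mul
      (cV.comp cX).neg.rexp.measurable.ennreal_ofReal
  have m2 : Measurable fun z : Vc m => ENNReal.ofReal (Real.exp (-(1 / 2 * nsq z + c))) :=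
    (((continuous_nsq.const_mul _).add continuous_const).neg.rexp).measurable.ennreal_ofReal
  have key : (fun z => ENNReal.ofReal |(fderiv ℝ X z).det| *
      ENNReal.ofReal (Real.exp (-V (X z)))) =ᵐ[volume]
      fun z : Vc m => ENNReal.ofReal (Real.exp (-(1 / 2 * nsq z + c))) := by
    refine ae_eq_of_forall_setLIntegral_eq_of_sigmaFinite m1 m2 fun A hA _ => ?_
    have hs : MeasurableSet (A ∩ {z | DifferentiableAt ℝ X z}) :=
      hA.inter (measurableSet_of_differentiableAt ℝ X)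
    have hAe : A =ᵐ[volume] (A ∩ {z | DifferentiableAt ℝ X z} : Set (Vc m)) := by
      filter_upwards [hae] with z hz
      exact propext ⟨fun h => ⟨h, hz⟩, fun h => h.1⟩
    have hd : ∀ x ∈ A ∩ {z | DifferentiableAt ℝ X z},
        HasFDerivWithinAt X (fderiv ℝ X x) (A ∩ {z | DifferentiableAt ℝ X z}) x :=
      fun x hx => (DifferentiableAt.hasFDerivAt hx.2).hasFDerivWithinAt
    have him := measurable_image_of_fderivWithin hs hd hinj.injOn
    rw [setLIntegral_congr hAe, setLIntegral_congr hAe,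
      ← lintegral_image_eq_lintegral_abs_det_fderiv_mul volume hs hd hinj.injOn
        (fun x => ENNReal.ofReal (Real.exp (-V x))),
      ← withDensity_apply _ him, ← withDensity_apply _ hs]
    have e1 : (volume.withDensity fun x => ENNReal.ofReal (Real.exp (-V x))) = mu V := rfl
    have e2 : (volume.withDensity fun z : Vc m =>
        ENNReal.ofReal (Real.exp (-(1 / 2 * nsq z + c)))) = gm m := gm_eq_mu.symm
    rw [e1, e2, ← h.push, Measure.map_apply cX.measurable him, hinj.preimage_image]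
  filter_upwards [hae, key] with z hz hk
  refine ⟨hz, ?_⟩
  rw [← ENNReal.ofReal_mul (abs_nonneg _),
    ENNReal.ofReal_eq_ofReal_iff (by positivity) (Real.exp_pos _).le, ma2_det h.hX hz] at hk
  have hne : |(jac X z).det| ≠ 0 := fun h0 => by
    rw [h0, zero_mul] at hk
    exact (Real.exp_pos _).ne hk
  have := congrArg Real.log hk
  rw [Real.log_mul hne (Real.exp_pos _).ne', Real.log_exp, Real.log_exp, Real.log_abs] at this
  linarith

theorem Tame.comp_lip {u : Vc m → ℝ} (hu : Tame u) {K : NNReal} (hY : LipschitzWith K Y) :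
    Tame fun x => u (Y x) := by
  obtain ⟨C, k, hC, h⟩ := hu
  have hK := K.coe_nonneg
  have h0 := norm_nonneg (Y 0)
  refine ⟨C * (1 + 2 * ‖Y 0‖ + K) ^ k * K, k, by positivity, fun x y => (h _ _).trans ?_⟩
  have hn : ∀ x, ‖Y x‖ ≤ ‖Y 0‖ + K * ‖x‖ := fun x => by
    have h1 := hY.norm_sub_le x 0
    have h2 := norm_add_le (Y 0) (Y x - Y 0)
    rw [sub_zero] at h1
    rw [add_sub_cancel] at h2
    linarith
  have hx := norm_nonneg x
  have hy := norm_nonneg y
  have e1 : 1 + ‖Y x‖ + ‖Y y‖ ≤ (1 + 2 * ‖Y 0‖ + K) * (1 + ‖x‖ + ‖y‖) := by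
    nlinarith [hn x, hn y, mul_nonneg h0 hx, mul_nonneg h0 hy]
  calc C * (1 + ‖Y x‖ + ‖Y y‖) ^ k * ‖Y x - Y y‖
      ≤ C * ((1 + 2 * ‖Y 0‖ + K) * (1 + ‖x‖ + ‖y‖)) ^ k * (K * ‖x - y‖) := by
        gcongr
        exact hY.norm_sub_le x y
    _ = _ := by rw [mul_pow]; ring

theorem BM.pd_comp (h : BM V g κ₁ κ₂ ψ X α β) {w : Vc m → ℝ} (hw : Tame w) :
    ∀ᵐ z ∂gm m, ∀ k, pd k (fun y => w (X y)) z = ∑ i, jac X z i k * pd i w (X z) := by
  have cX := (h.hX.lipschitz h.a0.le h.b0).continuous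
  have h1 : ∀ᵐ x ∂mu V, DifferentiableAt ℝ w x :=
    (withDensity_absolutelyContinuous _ _).ae_le hw.ae_diff_vol
  rw [← h.push] at h1
  filter_upwards [ae_of_ae_map cX.measurable.aemeasurable h1,
    gm_ac.ae_le (h.hX.ae_diff h.a0.le h.b0)] with z hz1 hz2 k
  have hz2' : DifferentiableAt ℝ X z := hz2
  rw [pd_of_hasFDerivAt (f := fun y => w (X y)) (hz1.hasFDerivAt.comp z hz2'.hasFDerivAt),
    ContinuousLinearMap.comp_apply, (h.hX.jac_at hz2').2.1]
  have e : jac X z *ᵥ (Pi.single k 1 : Vc m) = ∑ i, jac X z i k • (Pi.single i 1 : Vc m) := by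
    funext j
    simp [Finset.sum_apply, Pi.single_apply]
  rw [e, map_sum]
  exact Finset.sum_congr rfl fun i _ => by rw [map_smul, pd_eq_fderiv hz1, smul_eq_mul]

theorem ma2_eig {A U : Mx m} {d : Fin m → ℝ} (E : Eig A U d)
    (bA : ∀ v, α * nsq v ≤ v ⬝ᵥ A *ᵥ v ∧ v ⬝ᵥ A *ᵥ v ≤ β * nsq v) (a : Fin m) :
    α ≤ d a ∧ d a ≤ β := by
  have h1 := bA fun i => U i a
  have h2 : nsq (fun i => U i a) = 1 := col_dot_self E.hU a
  rw [← conj_diag_eq_quad, E.conj, diagonal_apply_eq, h2, mul_one, mul_one] at h1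
  exact h1

theorem BM.pd_comp_inv (h : BM V g κ₁ κ₂ ψ X α β) {K : NNReal} (hY : LipschitzWith K Y)
    (hYX : ∀ z, Y (X z) = z) {u : Vc m → ℝ} (hu : Tame u) :
    ∀ᵐ z ∂gm m, ∀ i, pd i (fun x => u (Y x)) (X z) = ∑ l, (jac X z)⁻¹ i l * pd l u z := by
  filter_upwards [h.pd_comp (Tame.comp_lip hu hY),
    gm_ac.ae_le (h.hX.ae_diff h.a0.le h.b0)] with z hz1 hz2 i
  have hz2' : DifferentiableAt ℝ X z := hz2
  obtain ⟨hs, -, hb⟩ := h.hX.jac_at hz2'
  obtain ⟨U, d, E⟩ := exists_eig hs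
  have hdet : IsUnit (jac X z).det := by
    rw [E.det_eq]
    exact (Finset.prod_pos fun a _ => h.a0.trans_le (ma2_eig E hb a).1).ne'.isUnit
  simp only [hYX] at hz1
  have e : (fun l => pd l u z) = jac X z *ᵥ fun i => pd i (fun x => u (Y x)) (X z) := by
    funext l
    rw [hz1 l]
    exact Finset.sum_congr rfl fun j _ => congrArg (· * _) (hs.apply l j)
  have e2 : (jac X z)⁻¹ *ᵥ (fun l => pd l u z) = fun i => pd i (fun x => u (Y x)) (X z) := by
    rw [e, mulVec_mulVec, nonsing_inv_mul _ hdet, one_mulVec]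
  exact (congrFun e2 i).symm

theorem BM.dq_int (h : BM V g κ₁ κ₂ ψ X α β) {f : Vc m → ℝ} (hf : PG f) :
    Integrable (fun z => f (X z)) (gm m) := by
  have h1 := h.hV.integrable_mu h.k1 h.k2 hf
  rw [← h.push] at h1
  exact h1.comp_measurable (h.hX.lipschitz h.a0.le h.b0).continuous.measurable

theorem BM.dq_l2 (h : BM V g κ₁ κ₂ ψ X α β) (w : Vc m) : L2m fun z => jac X (z + w) := fun i j =>
  MemLp.of_bound
    ((h.hX.jac_meas h.a0.le h.b0 i j).comp (measurable_add_const w)).aestronglyMeasurable β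
    (ae_of_all _ fun z => h.hX.jac_bdd h.a0.le h.b0 (z + w) i j)

theorem BM.dq_int2 (h : BM V g κ₁ κ₂ ψ X α β) (w : Vc m) :
    Integrable (fun z => fr2 (jac X (z + w) - jac X z)) (gm m) := by
  have h0 : L2m fun z => jac X z := by simpa using h.dq_l2 0
  exact ((h.dq_l2 w).sub h0).integrable_fr2

theorem BM.dq_pd (h : BM V g κ₁ κ₂ ψ X α β) {z w : Vc m} (h0 : DifferentiableAt ℝ X z)
    (h1 : DifferentiableAt ℝ X (z + w)) (h2 : DifferentiableAt ℝ X (z + -w)) (j l : Fin m) :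
    pd l (fun y => X (y + w) j + X (y + -w) j - 2 * X y j) z
      = jac X (z + w) j l + jac X (z + -w) j l - 2 * jac X z j l := by
  have e : ∀ {y : Vc m}, DifferentiableAt ℝ X y →
      fderiv ℝ X y (Pi.single l 1) j = jac X y j l := fun hy => by
    rw [(h.hX.jac_at hy).2.1]
    simp
  have a0 := hasFDerivAt_pi'.1 h0.hasFDerivAt j
  have a1 := hasFDerivAt_pi'.1 ((hasFDerivAt_comp_add_right w).2 h1.hasFDerivAt) j
  have a2 := hasFDerivAt_pi'.1 ((hasFDerivAt_comp_add_right (-w)).2 h2.hasFDerivAt) j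
  have a3 : HasFDerivAt (fun y => X (y + w) j + X (y + -w) j - 2 * X y j) _ z :=
    (a1.add a2).sub (a0.const_mul 2)
  rw [pd_of_hasFDerivAt a3, ← e h0, ← e h1, ← e h2]
  simp

theorem BM.dq_pt (h : BM V g κ₁ κ₂ ψ X α β) {z w : Vc m}
    (h0 : DifferentiableAt ℝ X z ∧ Real.log (jac X z).det
      = V (X z) - 1 / 2 * nsq z - m / 2 * Real.log (2 * Real.pi))
    (h1 : DifferentiableAt ℝ X (z + w) ∧ Real.log (jac X (z + w)).det
      = V (X (z + w)) - 1 / 2 * nsq (z + w) - m / 2 * Real.log (2 * Real.pi))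
    (h2 : DifferentiableAt ℝ X (z + -w) ∧ Real.log (jac X (z + -w)).det
      = V (X (z + -w)) - 1 / 2 * nsq (z + -w) - m / 2 * Real.log (2 * Real.pi)) :
    α ^ 2 / (2 * β ^ 4) * fr2 (jac X (z + w) - jac X z) ≤ nsq w +
      (∑ j, ∑ l, (jac X z)⁻¹ j l * (jac X (z + w) j l + jac X (z + -w) j l - 2 * jac X z j l)
        - ∑ j, (X (z + w) j + X (z + -w) j - 2 * X z j) * g (X z) j) := by
  obtain ⟨s0, -, b0⟩ := h.hX.jac_at h0.1
  obtain ⟨s1, -, b1⟩ := h.hX.jac_at h1.1
  obtain ⟨s2, -, b2⟩ := h.hX.jac_at h2.1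
  have q1 := logdet_quad s0 s1 h.a0 h.b0 b0 b1
  have q2 := logdet_quad s0 s2 h.a0 h.b0 b0 b2
  have c1 := h.hV.lo (X z) (X (z + w))
  have c2 := h.hV.lo (X z) (X (z + -w))
  have c3 := mul_nonneg (half_pos h.k1).le (nsq_nonneg (X (z + w) - X z))
  have c4 := mul_nonneg (half_pos h.k1).le (nsq_nonneg (X (z + -w) - X z))
  have c5 : 0 ≤ α ^ 2 / (2 * β ^ 4) * fr2 (jac X (z + -w) - jac X z) :=
    mul_nonneg (by have := h.b0; positivity) (fr2_nonneg _)
  have n1 := nsq_add_aux z w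
  have n2 := nsq_add_aux z (-w)
  rw [nsq_neg_aux, dotProduct_neg] at n2
  have t1 : ∑ j, ∑ l, (jac X z)⁻¹ j l * (jac X (z + w) j l + jac X (z + -w) j l - 2 * jac X z j l)
      = trace ((jac X z)⁻¹ * (jac X (z + w) - jac X z))
        + trace ((jac X z)⁻¹ * (jac X (z + -w) - jac X z)) := by
    rw [← fip_of_symm (s1.sub s0), ← fip_of_symm (s2.sub s0), ← fip_add_right]
    refine Finset.sum_congr rfl fun j _ => Finset.sum_congr rfl fun l _ => ?_
    simp only [Matrix.add_apply, Matrix.sub_apply]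
    ring
  have t2 : ∑ j, (X (z + w) j + X (z + -w) j - 2 * X z j) * g (X z) j
      = g (X z) ⬝ᵥ (X (z + w) - X z) + g (X z) ⬝ᵥ (X (z + -w) - X z) := by
    rw [← dotProduct_add]
    refine Finset.sum_congr rfl fun j _ => ?_
    simp only [Pi.add_apply, Pi.sub_apply]
    ring
  rw [t1, t2]
  linarith [h0.2, h1.2, h2.2]

/-- Second differences of the Monge–Ampère equation: `logdet_quad` at `z ± ε e_k`, convexity of `V`,
and `SC.stein` for `W j = (X(· + εe) j + X(· - εe) j - 2 X j) ∘ X⁻¹`. -/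
theorem BM.dq (h : BM V g κ₁ κ₂ ψ X α β) (k : Fin m) (ε : ℝ) :
    ∫ z, fr2 (jac X (z + ε • (Pi.single k 1 : Vc m)) - jac X z) ∂gm m ≤
      2 * β ^ 4 / α ^ 2 * ε ^ 2 := by
  set w : Vc m := ε • (Pi.single k 1 : Vc m) with hw
  have hnw : nsq w = ε ^ 2 := by
    rw [hw, nsq_smul_aux]
    simp [nsq]
  obtain ⟨φ, Y, hY, hYX, -, -⟩ := h.hX.conj h.a0 h.b0
  have hYl := hY.lipschitz (inv_nonneg.2 h.b0.le) (inv_pos.2 h.a0)
  have hu : ∀ j, Tame fun y => X (y + w) j + X (y + -w) j - 2 * X y j := fun j =>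
    ((Tame.comp_lip (h.hX.tame h.a0.le h.b0 j) (isometry_add_right w).lipschitz).add
      (Tame.comp_lip (h.hX.tame h.a0.le h.b0 j) (isometry_add_right (-w)).lipschitz)).sub
      ((h.hX.tame h.a0.le h.b0 j).const_mul 2)
  set W : Fin m → Vc m → ℝ := fun j x => X (Y x + w) j + X (Y x + -w) j - 2 * X (Y x) j with hW
  have hWt : ∀ j, Tame (W j) := fun j => Tame.comp_lip (hu j) hYl
  have p1 : ∀ j, PG (pd j (W j)) := fun j => (hWt j).pg_pd j
  have p2 : ∀ j, PG fun x => W j x * g x j := fun j =>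
    (hWt j).pg.mul (h.hV.tame h.k1.le h.k2 j).pg
  have i1 := integrable_finsetSum Finset.univ fun j _ => h.dq_int (p1 j)
  have i2 := integrable_finsetSum Finset.univ fun j _ => h.dq_int (p2 j)
  have e1 : ∫ z, (ε ^ 2 + (∑ j, pd j (W j) (X z) - ∑ j, W j (X z) * g (X z) j)) ∂gm m = ε ^ 2 := by
    have i3 : Integrable (fun z => ∑ j, pd j (W j) (X z) - ∑ j, W j (X z) * g (X z) j) (gm m) :=
      i1.sub i2
    rw [integral_add (integrable_const _) i3, integral_sub i1 i2,
      integral_finsetSum _ fun j _ => h.dq_int (p1 j), integral_finsetSum _ fun j _ => h.dq_int (p2 j)]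
    have : ∀ j, ∫ z, pd j (W j) (X z) ∂gm m = ∫ z, W j (X z) * g (X z) j ∂gm m := fun j => by
      rw [← h.integral_comp (p1 j).measurable, ← h.integral_comp (p2 j).measurable]
      exact h.hV.stein h.k1 h.k2 (hWt j) j
    simp [this]
  have m1 := (measurePreserving_add_right (volume : Measure (Vc m)) w).quasiMeasurePreserving.ae h.ma
  have m2 :=
    (measurePreserving_add_right (volume : Measure (Vc m)) (-w)).quasiMeasurePreserving.ae h.ma
  have m3 := ae_all_iff.2 fun j => h.pd_comp_inv hYl hYX (hu j)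
  have e2 : ∫ z, α ^ 2 / (2 * β ^ 4) * fr2 (jac X (z + w) - jac X z) ∂gm m ≤ ε ^ 2 := by
    rw [← e1]
    refine integral_mono_ae ((h.dq_int2 w).const_mul _) ((integrable_const _).add (i1.sub i2)) ?_
    filter_upwards [gm_ac.ae_le h.ma, gm_ac.ae_le m1, gm_ac.ae_le m2, m3] with z z0 z1 z2 z3
    have := h.dq_pt z0 z1 z2
    rw [hnw] at this
    refine this.trans (le_of_eq ?_)
    congr 2
    · refine Finset.sum_congr rfl fun j _ => ?_
      rw [hW]
      simp only []
      rw [z3 j j]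
      exact Finset.sum_congr rfl fun l _ => by rw [h.dq_pd z0.1 z1.1 z2.1]
    · simp only [hW, hYX]
  rw [integral_const_mul] at e2
  have ha := h.a0
  have hb := h.b0
  have e3 := mul_le_mul_of_nonneg_left e2 (show 0 ≤ 2 * β ^ 4 / α ^ 2 by positivity)
  refine le_trans (le_of_eq ?_) e3
  field_simp

theorem BM.lam_TT (h : BM V g κ₁ κ₂ ψ X α β) : ∀ᵐ z ∂gm m, mf lam (TT α β X z) = jac X z ∧
    mf (fun t => (lam t)⁻¹) (TT α β X z) = (jac X z)⁻¹ := by
  filter_upwards [gm_ac.ae_le (h.hX.ae_diff h.a0.le h.b0)] with z hz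
  have hz' : DifferentiableAt ℝ X z := hz
  obtain ⟨hs, -, hb⟩ := h.hX.jac_at hz'
  obtain ⟨U, d, E⟩ := exists_eig hs
  have e : TT α β X z = mf (linv α β) (jac X z) := by
    unfold TT
    rw [hs.eq, ← two_smul ℝ, smul_smul]
    norm_num
  have hl : ∀ a, lam (linv α β (d a)) = d a := fun a => by
    rw [lam_linv h.a0, min_eq_right (ma2_eig E hb a).2, max_eq_right (ma2_eig E hb a).1]
  have E' := E.mf (linv α β)
  rw [e, E'.mf_eq, E'.mf_eq]
  simp only [hl]
  refine ⟨E.hA.symm, (inv_eq_right_inv ?_).symm⟩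
  have hd : ∀ a, d a * (d a)⁻¹ = 1 := fun a =>
    mul_inv_cancel₀ (h.a0.trans_le (ma2_eig E hb a).1).ne'
  rw [← mul_assoc, ← mul_assoc, E.mul_U, mul_assoc U, diagonal_mul_diagonal]
  simp only [hd, diagonal_one, mul_one]
  exact E.hU

theorem BM.exists_c (h : BM V g κ₁ κ₂ ψ X α β) : ∃ c : Fin m → Vc m → Mx m, MW (jac X) c ∧
    ∑ k, n2m (c k) ≤ m * m * m * (2 * β ^ 4 / α ^ 2) := by
  have key : ∀ i j, ∃ G : Fin m → Vc m → ℝ, (∀ k, Measurable (G k)) ∧ WD (fun z => jac X z i j) G ∧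
      ∀ k, ∫ z, G k z ^ 2 ∂gm m ≤ 2 * β ^ 4 / α ^ 2 := fun i j => by
    refine wd_of_dq (C := fun _ => 2 * β ^ 4 / α ^ 2) (h.hX.jac_meas h.a0.le h.b0 i j)
      (fun z => h.hX.jac_bdd h.a0.le h.b0 z i j) fun k ε _ _ => le_trans ?_ (h.dq k ε)
    exact integral_mono_of_nonneg (ae_of_all _ fun z => sq_nonneg _) (h.dq_int2 _)
      (ae_of_all _ fun z => sq_le_fr2 (jac X (z + ε • (Pi.single k 1 : Vc m)) - jac X z) i j)
  choose G hm hG hb using key
  refine ⟨fun k z => of fun i j => G i j k z, fun i j => hG i j, ?_⟩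
  have e : ∀ k, n2m (fun z => of fun i j => G i j k z) ≤ m * m * (2 * β ^ 4 / α ^ 2) := fun k => by
    simp only [n2m, fr2, of_apply]
    rw [integral_finsetSum _ fun i _ =>
      integrable_finsetSum _ fun j _ => ((hG i j).l2d k).integrable_sq]
    refine (Finset.sum_le_sum (g := fun _ => m * (2 * β ^ 4 / α ^ 2)) fun i _ => ?_).trans ?_
    · rw [integral_finsetSum _ fun j _ => ((hG i j).l2d k).integrable_sq]
      refine (Finset.sum_le_sum fun j _ => hb i j k).trans ?_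
      simp
    · simp [mul_assoc]
  refine (Finset.sum_le_sum fun k _ => e k).trans ?_
  simp [mul_assoc]

theorem exists_fld_sym (A : Mx m) : ((1 / 2 : ℝ) • (A + Aᵀ)).IsSymm := by
  ext i j
  simp only [Matrix.smul_apply, Matrix.add_apply, transpose_apply, add_comm]

theorem exists_fld_fr2 (A B : Mx m) :
    fr2 ((1 / 2 : ℝ) • (A + Aᵀ) - (1 / 2 : ℝ) • (B + Bᵀ)) ≤ fr2 (A - B) := by
  have e : fr2 (A - B) = ∑ i, ∑ j, (1 / 2 * (A - B) i j ^ 2 + 1 / 2 * (A - B) j i ^ 2) := by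
    simp only [Finset.sum_add_distrib, ← Finset.mul_sum]
    rw [Finset.sum_comm (f := fun i j => (A - B) j i ^ 2), fr2]
    ring
  rw [e]
  refine Finset.sum_le_sum fun i _ => Finset.sum_le_sum fun j _ => ?_
  simp only [Matrix.sub_apply, Matrix.smul_apply, Matrix.add_apply, transpose_apply, smul_eq_mul]
  nlinarith [sq_nonneg (A i j - B i j - (A j i - B j i))]

/-- `wd_of_dq` for the entries of `TT` (`fr2_mf_sub_le`, `linv_lip`), symmetrise `S`; the total
symmetry comes from `Fld.chain`, `WD.uniq`, `WD.symm2`. -/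
theorem BM.exists_fld (h : BM V g κ₁ κ₂ ψ X α β) : ∃ S, Fld (TT α β X) S ∧
    ∀ᵐ z ∂gm m, ∀ k i j, Dg (TT α β X) S lam k z i j = Dg (TT α β X) S lam j z i k := by
  obtain ⟨K, B, hK, hlip, hB⟩ := linv_lip (b := β) h.a0
  have hcont : Continuous (linv α β) :=
    (LipschitzWith.of_dist_le_mul (K := ⟨K, hK⟩) fun x y => hlip x y).continuous
  have hs : ∀ z, (TT α β X z).IsSymm := fun z => mf_isSymm (exists_fld_sym _) _
  have hm : ∀ i j, Measurable fun z => TT α β X z i j := fun i j => by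
    refine measurable_mf (fun a b => ?_) (fun z => exists_fld_sym _) hcont i j
    simp only [Matrix.smul_apply, Matrix.add_apply, transpose_apply, smul_eq_mul]
    exact ((h.hX.jac_meas h.a0.le h.b0 a b).add (h.hX.jac_meas h.a0.le h.b0 b a)).const_mul _
  have hbd : ∀ z, fr2 (TT α β X z) ≤ m * B ^ 2 := fun z => by
    obtain ⟨U, d, E⟩ := exists_eig (exists_fld_sym (jac X z))
    rw [TT, (E.mf (linv α β)).fr2_eq]
    refine (Finset.sum_le_sum (g := fun _ => B ^ 2) fun a _ => ?_).trans (by simp)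
    rw [← sq_abs]
    exact pow_le_pow_left₀ (abs_nonneg _) (hB _) 2
  have key : ∀ i j, ∃ G : Fin m → Vc m → ℝ, (∀ k, Measurable (G k)) ∧
      WD (fun z => TT α β X z i j) G := fun i j => by
    obtain ⟨G, h1, h2, -⟩ := wd_of_dq (C := fun _ => K ^ 2 * (2 * β ^ 4 / α ^ 2)) (hm i j)
      (B := √(m * B ^ 2)) (fun z => Real.abs_le_sqrt ((sq_le_fr2 _ i j).trans (hbd z)))
      fun k ε _ _ => by
        rw [mul_assoc]
        refine le_trans ?_ (mul_le_mul_of_nonneg_left (h.dq k ε) (sq_nonneg K))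
        rw [← integral_const_mul]
        refine integral_mono_of_nonneg (ae_of_all _ fun z => sq_nonneg _)
          ((h.dq_int2 _).const_mul _) (ae_of_all _ fun z => ?_)
        refine (sq_le_fr2 (TT α β X (z + ε • (Pi.single k 1 : Vc m)) - TT α β X z) i j).trans ?_
        exact (fr2_mf_sub_le (exists_fld_sym _) (exists_fld_sym _) fun x y _ _ => hlip x y).trans
          (mul_le_mul_of_nonneg_left (exists_fld_fr2 _ _) (sq_nonneg K))
    exact ⟨G, h1, h2⟩
  choose G hGm hG using key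
  have hF : Fld (TT α β X) fun k z => of fun i j => 1 / 2 * (G i j k z + G j i k z) := by
    refine ⟨hs, fun k z => ?_, hm, fun k i j => ((hGm i j k).add (hGm j i k)).const_mul _,
      ⟨_, hbd⟩, fun i j => ?_⟩
    · ext i j
      simp [add_comm]
    · refine (((hG i j).add (hG j i)).const_mul (1 / 2)).congr (ae_of_all _ fun z => ?_)
        fun k => ae_of_all _ fun z => rfl
      show 1 / 2 * (TT α β X z i j + TT α β X z j i) = TT α β X z i j
      rw [(hs z).apply i j]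
      ring
  refine ⟨_, hF, ?_⟩
  have hc := hF.chain c1_lam
  refine ae_all_iff.2 fun k => ae_all_iff.2 fun i => ae_all_iff.2 fun j => ?_
  refine (wd_of_tame (h.hX.tame h.a0.le h.b0 i)).symm2
    (G := fun a b z => Dg (TT α β X) _ lam b z i a) (fun a => ?_) j k
  refine (hc i a).congr ?_ fun b => ae_of_all _ fun z => rfl
  filter_upwards [h.lam_TT] with z hz
  rw [hz.1]
  rfl

theorem BM.cov (h : BM V g κ₁ κ₂ ψ X α β) : densCov (fun x => Real.exp (-V x)) = covG X := by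
  have hm : ∀ i, densMean (fun x => Real.exp (-V x)) i = ∫ y, X y i ∂gm m := fun i => by
    rw [← h.integral_comp (u := fun x => x i) (measurable_pi_apply i), h.hV.integral_mu]
    rfl
  ext i j
  simp only [densCov, covG, of_apply, hm]
  rw [← h.hV.integral_mu]
  exact h.integral_comp (u := fun x => (x i - ∫ y, X y i ∂gm m) * (x j - ∫ y, X y j ∂gm m))
    (by fun_prop)

theorem ma4_logdet {A : Mx m} (hA : A.IsSymm) : Real.log (mf lam A).det = trace (mf ell A) := by
  obtain ⟨U, d, E⟩ := exists_eig hA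
  rw [(E.mf lam).det_eq, (E.mf ell).trace_eq, Real.log_prod fun i _ => (lam_pos _).ne']
  rfl

theorem ma4_tr_ell {A : Mx m} (hA : A.IsSymm) : trace (mf ell A) =
    trace (mf FF A) - 1 / 2 * fr2 A - m / 2 * Real.log (2 * Real.pi) := by
  obtain ⟨U, d, E⟩ := exists_eig hA
  rw [(E.mf ell).trace_eq, (E.mf FF).trace_eq, E.fr2_eq]
  simp only [ell, log_lam, Finset.sum_sub_distrib, Finset.sum_const, Finset.card_univ,
    Fintype.card_fin, nsmul_eq_mul, ← Finset.sum_div]
  ring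

theorem ma4_int_tr {T : Vc m → Mx m} {S : Fin m → Vc m → Mx m} (h : Fld T S) {f : ℝ → ℝ}
    (hf : Continuous f) : Integrable (fun z => trace (mf f (T z))) (gm m) :=
  integrable_finsetSum _ fun i _ => (h.l2_mf hf i i).integrable one_le_two

theorem ma4_nsq : Integrable (nsq : Vc m → ℝ) (gm m) ∧ ∫ z, nsq z ∂gm m = m := by
  have hi : ∀ i ∈ (Finset.univ : Finset (Fin m)), Integrable (fun z : Vc m => z i * z i) (gm m) :=
    fun i _ => ((PG.coord i).mul (PG.coord i)).integrable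
  refine ⟨integrable_finsetSum _ hi, ?_⟩
  have := integral_finsetSum _ hi
  simp only [integral_coord_mul, if_true, Finset.sum_const, Finset.card_univ, Fintype.card_fin,
    nsmul_eq_mul, mul_one] at this
  exact this

theorem BM.entropy (h : BM V g κ₁ κ₂ ψ X α β) : diffEntropy (fun x => Real.exp (-V x)) =
    ∫ z, trace (mf ell (TT α β X z)) ∂gm m + m / 2 + m / 2 * Real.log (2 * Real.pi) := by
  obtain ⟨S, hF, -⟩ := h.exists_fld
  have hc : Continuous V := continuous_iff_continuousAt.2 fun z => (h.hV.hasFDerivAt z).continuousAt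
  have e1 : diffEntropy (fun x => Real.exp (-V x)) = ∫ z, V (X z) ∂gm m := by
    rw [← h.integral_comp hc.measurable, h.hV.integral_mu, diffEntropy, ← integral_neg]
    refine integral_congr_ae (Eventually.of_forall fun x => ?_)
    simp only [Real.log_exp]
    ring
  have e2 : ∀ᵐ z ∂gm m, V (X z) = trace (mf ell (TT α β X z)) + 1 / 2 * nsq z +
      m / 2 * Real.log (2 * Real.pi) := by
    filter_upwards [gm_ac.ae_le h.ma, h.lam_TT] with z h1 h2
    rw [← ma4_logdet (hF.symT z), h2.1, h1.2]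
    ring
  have i1 := ma4_int_tr hF c1_ell.cont
  have i2 : Integrable (fun z => trace (mf ell (TT α β X z)) + 1 / 2 * nsq z) (gm m) :=
    i1.add (ma4_nsq.1.const_mul _)
  rw [e1, integral_congr_ae e2, integral_add i2 (integrable_const _),
    integral_add i1 (ma4_nsq.1.const_mul _), integral_const_mul, ma4_nsq.2, integral_const]
  simp only [probReal_univ, smul_eq_mul, one_mul]
  ring

/-- `log_lam` -/
theorem BM.two_dfc (h : BM V g κ₁ κ₂ ψ X α β) : 2 * dfc (fun x => Real.exp (-V x)) =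
    2 * ∫ z, trace (mf FF (TT α β X z)) ∂gm m - n2m (TT α β X) - m - Real.log (covG X).det := by
  obtain ⟨S, hF, -⟩ := h.exists_fld
  have i1 := ma4_int_tr hF continuous_FF
  have i2 := hF.l2T.integrable_fr2
  have e : ∫ z, trace (mf ell (TT α β X z)) ∂gm m = ∫ z, trace (mf FF (TT α β X z)) ∂gm m -
      1 / 2 * n2m (TT α β X) - m / 2 * Real.log (2 * Real.pi) := by
    simp only [fun z => ma4_tr_ell (hF.symT z)]
    have i3 : Integrable (fun z => trace (mf FF (TT α β X z)) - 1 / 2 * fr2 (TT α β X z)) (gm m) :=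
      i1.sub (i2.const_mul _)
    rw [integral_sub i3 (integrable_const _),
      integral_sub i1 (i2.const_mul _), integral_const_mul, integral_const]
    simp only [probReal_univ, smul_eq_mul, one_mul, n2m]
  rw [dfc, h.entropy, h.cov, e]
  ring

end Crest.Agent.R253
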