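import Crest.Agent.R253.TmA0

/-! Row 253: kernel certificate for `NumA`, pieces 0 to 63. -/

set_option autoImplicit false
set_option maxRecDepth 100000

namespace Crest.Agent.R253.Tm

theorem esC_true0 : allR (chkC esC) 0 64 = true := by decide +kernel

end Crest.Agent.R253.Tm
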