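import Crest.Agent.R253.TmTube
import Crest.Agent.R253.TmA1
import Crest.Agent.R253.TmA2
import Crest.Agent.R253.TmA3
import Crest.Agent.R253.TmA4

/-! Row 253: the inequalities of `NumA` in polynomial form. -/

set_option autoImplicit false

open Crest.Agent.R203

namespace Crest.Agent.R253.Tm

structure NA (t : ℝ) : Prop where
  h0 : 0 ≤ bt t - 10 * r2 t
  h1 : 0 ≤ 9 - 100 * r2 t
  h2 : 0 ≤ 45 * bt t - 1000 * r3 t
  h3 : 0 ≤ 45 * bt t + 1000 * r3 t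
  h4 : 0 ≤ bt t - 10 * q1 t
  h5 : 0 ≤ bt t + 10 * q1 t
  h6 : 0 ≤ 68 * (bt t * (ee t * (ee t * ee t))) - 500
  h7 : 0 ≤ 51 - 100 * qq t
  h8 : 0 ≤ 21 - 100 * qq t + 200 * (r1 t * r1 t)
  h9 : 0 ≤ (13 - 100 * (r1 t * r1 t)) * (2 * ee t) + 25 * t
  h10 : 0 ≤ (2000 * (r1 t * r1 t) - 144) * ee t - 250 * t

theorem sc_of {a b c : ℝ} (hc : 0 < c) (h : 0 ≤ a) (e : a = c * b) : 0 ≤ b :=
  nonneg_of_mul_nonneg_right (e ▸ h) hc

theorem na_mid {t : ℝ} (h1 : -8 ≤ t) (h2 : t ≤ 8) : NA t := by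
  obtain ⟨s, h⟩ := compact_sound (all_of_four esC_true0 esC_true1 esC_true2 esC_true3) h1 h2
  simp only [esC, List.forall_mem_cons, Ex.val, envC, List.getD_cons_zero, List.getD_cons_succ,
    Int.cast_ofNat] at h
  obtain ⟨a0, a1, a2, a3, a4, a5, a6, a7, a8, a9, a10, -⟩ := h
  exact ⟨a0, a1, a2, a3, a4, a5, a6, a7, a8, a9, a10⟩

theorem na_pos {t : ℝ} (ht : 8 ≤ t) : NA t := by
  obtain ⟨l, hl, h⟩ := pos_sound esP_true ht
  simp only [esP, List.forall_mem_cons, Ex.val, Int.cast_ofNat, hl.u, hl.w, hl.be, hl.p1, hl.p2,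
    hl.p3, hl.q, hl.q'] at h
  obtain ⟨a0, a1, a2, a3, a4, a5, a6, a7, a8, a9, a10, -⟩ := h
  have h0 : 0 < t := by linarith
  have h0' := h0.ne'
  refine ⟨sc_of h0 a0 ?_, sc_of one_pos a1 ?_, sc_of h0 a2 ?_, sc_of h0 a3 ?_, sc_of h0 a4 ?_,
    sc_of h0 a5 ?_, sc_of (c := t⁻¹ ^ 2) (by positivity) a6 ?_, a7, a8,
    sc_of (inv_pos.2 h0) a9 ?_, sc_of (inv_pos.2 h0) a10 ?_⟩
  all_goals field_simp

theorem na_neg {t : ℝ} (ht : 8 ≤ t) : NA (-t) := by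
  have h := neg_sound esN_true ht
  simp only [esN, List.forall_mem_cons, Ex.val, envN, List.getD_cons_zero, List.getD_cons_succ,
    Int.cast_ofNat] at h
  obtain ⟨a0, a1, a2, a3, a4, a5, a6, a7, a8, a9, a10, -⟩ := h
  have h0 : 0 < t := by linarith
  have h0' := h0.ne'
  have hi := inv_pos.2 h0
  refine ⟨sc_of hi a0 ?_, a1, sc_of hi a2 ?_, sc_of hi a3 ?_, sc_of hi a4 ?_,
    sc_of hi a5 ?_, sc_of (c := t⁻¹ ^ 4) (by positivity) a6 ?_, a7, a8,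
    sc_of hi a9 ?_, sc_of hi a10 ?_⟩
  all_goals field_simp
  all_goals ring

theorem na_all (t : ℝ) : NA t := by
  rcases le_total 8 t with h | h
  · exact na_pos h
  rcases le_total (-8) t with h' | h'
  · exact na_mid h' h
  · have := na_neg (t := -t) (by linarith)
    rwa [neg_neg] at this

theorem ee_pos (t : ℝ) : 0 < ee t := Real.sqrt_pos.2 (by positivity)

end Crest.Agent.R253.Tm
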