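import Crest.Agent.R253.One
import Crest.Agent.R253.TmA5

set_option autoImplicit false
set_option linter.unusedVariables false
set_option linter.unusedSectionVars false

open MeasureTheory Matrix Set Filter Topology
open Crest.Agent.R215 (gam)
open Crest.Agent.R203
open Crest.GeometryTopology.Isotropic

noncomputable section

namespace Crest.Agent.R253

variable {m : ℕ}

/-! Numerical facts on the one-dimensional functions (true suprema in brackets). -/

/-- [0.0924 at t = 0.65] -/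
theorem r2_le_bt (t : ℝ) : r2 t ≤ 1 / 10 * bt t := by linarith [(Tm.na_all t).h0]
/-- [0.0867 at t = -1.11] -/
theorem r2_le (t : ℝ) : r2 t ≤ 9 / 100 := by linarith [(Tm.na_all t).h1]
/-- [0.0395 at t = 1.17] -/
theorem r3_le_bt (t : ℝ) : |r3 t| ≤ 45 / 1000 * bt t :=
  abs_le.2 ⟨by linarith [(Tm.na_all t).h3], by linarith [(Tm.na_all t).h2]⟩
/-- [0.0915 at t = -0.17] -/
theorem q1_le_bt (t : ℝ) : |q1 t| ≤ 1 / 10 * bt t :=
  abs_le.2 ⟨by linarith [(Tm.na_all t).h5], by linarith [(Tm.na_all t).h4]⟩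
/-- [0.659] -/
theorem e2_le_bt (t : ℝ) : e2 t ≤ 68 / 100 * bt t := by
  have h := (Tm.na_all t).h6
  rw [e2, div_le_iff₀ (pow_pos (Tm.ee_pos t) 3)]
  nlinarith
/-- [sup 1/2 at +∞] -/
theorem qq_le (t : ℝ) : qq t ≤ 51 / 100 := by linarith [(Tm.na_all t).h7]
/-- `(qq - 2 r1²)/3` [0.0611 at t = -0.41] -/
theorem u_le (t : ℝ) : sg1 t / 3 - r1s t ≤ 7 / 100 := by
  have h := (Tm.na_all t).h8
  unfold sg1 r1s
  nlinarith
/-- [true with 1/8 in place of 13/100] -/
theorem r1s_le (t : ℝ) : r1s t ≤ 13 / 100 + e1 t / 8 := by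
  have h := (Tm.na_all t).h9
  have h0 := Tm.ee_pos t
  have h1 : 8 * (r1 t ^ 2 - 13 / 100) ≤ t / ee t := by
    rw [le_div_iff₀ h0]; nlinarith
  unfold r1s e1
  linarith
/-- `(e1/4 - 2 r1²)/3` [-0.0536 at t = 1.73] -/
theorem uh_le (t : ℝ) : sh1 t / 3 - r1s t ≤ -48 / 1000 := by
  have h := (Tm.na_all t).h10
  have h0 := Tm.ee_pos t
  have h1 : t / ee t ≤ 8 * r1 t ^ 2 - 576 / 1000 := by
    rw [div_le_iff₀ h0]; nlinarith
  unfold sh1 r1s e1
  linarith

end Crest.Agent.R253
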