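import Crest.Agent.R253.NumC

/-! Row 253: reduction of `num_final` to quadratic forms and joint one-dimensional inequalities. -/

set_option autoImplicit false
set_option linter.unusedVariables false

open Set
open Crest.Agent.R203

noncomputable section

namespace Crest.Agent.R253

/-- the hypotheses of `num_final` -/
structure NF (E : (ℝ → ℝ) → ℝ) (v w ρ d x1 x2 ω ϱ c1 cJ cs ch cr c5 y1 y2 A C : ℝ) : Prop where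
  hE : PosFun E
  hw : 0 ≤ w
  hv : v = w ^ 2
  hρ : 0 ≤ ρ
  hd : 0 ≤ d
  hx1 : 0 ≤ x1
  hx2 : 0 ≤ x2
  hω : 0 ≤ ω
  hϱ : 0 ≤ ϱ
  h1 : 0 ≤ c1
  hJ : 0 ≤ cJ
  hs : 0 ≤ cs
  hh : 0 ≤ ch
  hr : 0 ≤ cr
  h5 : 0 ≤ c5
  hy1 : 0 ≤ y1
  hy2 : 0 ≤ y2
  g2 : 2 * ρ ^ 2 ≤ d ^ 2
  e1 : x1 ^ 2 = d ^ 2 - 5 / 3 * ρ ^ 2
  e2 : x2 ^ 2 = d ^ 2 - 3 / 2 * ρ ^ 2
  m1 : E (fun t => t) = 0
  m2 : E (fun t => t ^ 2) = v + ρ ^ 2
  f1 : y1 ^ 2 = E fun t => (r2 t - 11 / 200) ^ 2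
  f2 : y2 ^ 2 = E fun t => (qq t - 8 / 25) ^ 2
  lo1 : (v - 1) * E qq - (w * ω * y2 + w * c1) + (38 / 100 * ρ ^ 2 + (0 - 38 / 100 / 3) * d ^ 2 -
      ((7 / 100 - 0) / 2 * (w * d) + d * cs / 3 + x2 * (38 / 100 * (w + d) + cs) / 3)) -
      (w * cJ + d * cr + cr ^ 2) ≤ A
  lo2 : A ≤ (v - 1) * E qq + (w * ω * y2 + w * c1) + (38 / 100 * ρ ^ 2 +
      (7 / 100 - 38 / 100 / 3) * d ^ 2 +
      ((7 / 100 - 0) / 2 * (w * d) + d * cs / 3 + x2 * (38 / 100 * (w + d) + cs) / 3)) +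
      (w * cJ + d * cr)
  hi : E GG - w * ϱ / 4 + (1 / 8 * ρ ^ 2 + (-87 / 1000 - 1 / 8 / 3) * d ^ 2 -
      ((-48 / 1000 - -87 / 1000) / 2 * (w * d) + d * ch / 3 + x2 * (3 / 8 * (w + d) + ch) / 3)) -
      (w * cJ + d * cr + cr ^ 2) ≤ A
  hC0 : 0 < C
  hC : C ≤ 1 + A + (v - 1) ^ 2 * (2 * (11 / 200) * E r2 - (11 / 200) ^ 2) +
      2 * (11 / 200) * |v - 1| * (ρ / 4 + y1 * (w * ω) + w * c5) +
      (√((ρ / 4 + |v - 1| * y1 + 9 / 100 * (w * ω) + w * c5) ^ 2 + (d / 4 + cr) ^ 2) + x1 / 4) ^ 2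

/-- the conclusion of `num_final` -/
def NG (v ρ d ω ϱ c1 cJ cs ch cr c5 A C : ℝ) : Prop :=
  1 / 200 * (ρ ^ 2 + stv v) ≤ A + (d ^ 2 - ρ ^ 2) - Real.log C + 12 / 100 * (ω ^ 2 - d ^ 2) +
      21 / 100 * (ϱ ^ 2 - ρ ^ 2) + 366 / 100 * c1 ^ 2 + 24 * cJ ^ 2 + 583 / 1000 * cs ^ 2 +
      594 / 1000 * ch ^ 2 + 866 / 100 * cr ^ 2 + 411 / 10 * c5 ^ 2

/-- the quadratic form -/
def Qf (g k1 k2 e cd cc b1 b2 b3 b4 m0 m1 m2 η ζ : ℝ)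
    (σ ρ d x ω ϱ c1 cJ cs ch cr c5 Y1 Y2 : ℝ) : ℝ :=
  g * σ ^ 2 + k1 * Y2 ^ 2 + k2 * Y1 ^ 2 + (e - 1215 / 1000) * ρ ^ 2 + (88 / 100 - cd) * d ^ 2 +
    12 / 100 * ω ^ 2 + 21 / 100 * ϱ ^ 2 + 366 / 100 * c1 ^ 2 + 24 * cJ ^ 2 + 583 / 1000 * cs ^ 2 +
    594 / 1000 * ch ^ 2 + (866 / 100 - cc) * cr ^ 2 + 411 / 10 * c5 ^ 2 -
    b1 * (Y2 * ω + σ * (c1 + 35 / 1000 * d + 38 / 300 * x + cJ)) -
    b3 * (d * cs / 3 + 38 / 300 * (x * d) + x * cs / 3 + d * cr) -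
    b2 * (σ * (ϱ / 4 + 195 / 10000 * d + x / 8 + cJ)) -
    b4 * (d * ch / 3 + x * d / 8 + x * ch / 3 + d * cr) -
    11 / 100 * (m0 * m1 * (σ * ρ) / 4 + m1 * m2 * (Y1 * ω) + m1 * m2 * (σ * c5)) -
    (1 + η) * ((m0 * ρ / 4 + m1 * Y1 + m2 * (9 / 100 * ω + c5)) ^ 2 + (m0 * (d / 4 + cr)) ^ 2) -
    (1 + ζ) * (m0 ^ 2 * (d ^ 2 - 5 / 3 * ρ ^ 2)) / 16

/-- nonnegativity of the form on the cone -/
def QP (g k1 k2 e cd cc b1 b2 b3 b4 m0 m1 m2 η ζ : ℝ) : Prop :=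
  ∀ σ ρ d x ω ϱ c1 cJ cs ch cr c5 Y1 Y2 : ℝ, 2 * ρ ^ 2 ≤ d ^ 2 → x ^ 2 = d ^ 2 - 3 / 2 * ρ ^ 2 →
    0 ≤ Qf g k1 k2 e cd cc b1 b2 b3 b4 m0 m1 m2 η ζ σ ρ d x ω ϱ c1 cJ cs ch cr c5 Y1 Y2

/-- joint one-dimensional inequality -/
def JI (n1 n2 l k1 k2 α β γ : ℝ) : Prop := ∀ t : ℝ,
  α + β * t + γ * t ^ 2 ≤ n1 * qq t + n2 * GG t - l * r2 t - k1 * (qq t - 8 / 25) ^ 2 -
    k2 * (r2 t - 11 / 200) ^ 2

variable {E : (ℝ → ℝ) → ℝ} {v w ρ d x1 x2 ω ϱ c1 cJ cs ch cr c5 y1 y2 A C : ℝ}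

theorem PosFun.cst (hE : PosFun E) (c : ℝ) : E (fun _ => c) = c := by
  simpa [hE.one] using hE.smul c (fun _ => 1) continuous_const

theorem NF.r2_nonneg (h : NF E v w ρ d x1 x2 ω ϱ c1 cJ cs ch cr c5 y1 y2 A C) : 0 ≤ E r2 := by
  simpa [h.hE.cst] using h.hE.mono (fun _ => 0) r2 continuous_const c1_r2.cont R253.r2_nonneg

theorem NF.qq_nonneg (h : NF E v w ρ d x1 x2 ω ϱ c1 cJ cs ch cr c5 y1 y2 A C) : 0 ≤ E qq := by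
  simpa [h.hE.cst] using h.hE.mono (fun _ => 0) qq continuous_const c1_qq.cont R253.qq_nonneg

theorem NF.joint (h : NF E v w ρ d x1 x2 ω ϱ c1 cJ cs ch cr c5 y1 y2 A C)
    {n1 n2 l k1 k2 α β γ : ℝ} (J : JI n1 n2 l k1 k2 α β γ) :
    α + γ * (v + ρ ^ 2) ≤ n1 * E qq + n2 * E GG - l * E r2 - k1 * y2 ^ 2 - k2 * y1 ^ 2 := by
  have hE := h.hE
  have c1 := c1_qq.cont
  have c2 := c1_r2.cont
  have c3 := continuous_GG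
  have := hE.mono (fun t => (α + β * t + γ * t ^ 2) + (l * r2 t + (k1 * (qq t - 8 / 25) ^ 2 +
      k2 * (r2 t - 11 / 200) ^ 2))) (fun t => n1 * qq t + n2 * GG t) (by fun_prop) (by fun_prop)
    fun t => by linarith [J t]
  rw [hE.add _ _ (by fun_prop) (by fun_prop), hE.add _ _ (by fun_prop) (by fun_prop),
    hE.add _ _ (by fun_prop) (by fun_prop), hE.add _ _ (by fun_prop) (by fun_prop),
    hE.add _ _ (by fun_prop) (by fun_prop), hE.add _ _ (by fun_prop) (by fun_prop), hE.cst,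
    hE.smul β (fun t => t) (by fun_prop), hE.smul γ (fun t => t ^ 2) (by fun_prop),
    hE.smul l r2 c2, hE.smul k1 (fun t => (qq t - 8 / 25) ^ 2) (by fun_prop),
    hE.smul k2 (fun t => (r2 t - 11 / 200) ^ 2) (by fun_prop), hE.smul n1 qq c1,
    hE.smul n2 GG c3, h.m1, h.m2, ← h.f1, ← h.f2] at this
  linarith

theorem NF.red (h : NF E v w ρ d x1 x2 ω ϱ c1 cJ cs ch cr c5 y1 y2 A C)
    {g k1 k2 e cd cc b1 b2 b3 b4 m0 m1 m2 η ζ : ℝ}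
    (hQ : QP g k1 k2 e cd cc b1 b2 b3 b4 m0 m1 m2 η ζ) {σ l a1 a2 a3 e1 : ℝ}
    (hσ : 0 ≤ σ) (hl : 0 < l) (ha1 : 0 ≤ a1) (ha2 : 0 ≤ a2) (ha3 : 0 ≤ a3)
    (ha : 1 - l = a1 + a2 - a3) (hη : 0 < η) (hζ : 1 ≤ η * ζ)
    (p0 : 0 ≤ m0) (p1 : 0 ≤ m1) (p2 : 0 ≤ m2) (hm0 : l ≤ m0 ^ 2)
    (hm1 : l * (v - 1) ^ 2 ≤ (m1 * σ) ^ 2) (hm2 : l * v ≤ m2 ^ 2)
    (hb1 : (a1 + a3) * w ≤ b1 * σ) (hb2 : a2 * w ≤ b2 * σ) (hb3 : a1 + a3 ≤ b3) (hb4 : a2 ≤ b4)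
    (he : e ≤ e1 + 38 / 100 * (a1 - a3) + a2 / 8)
    (hcd : 38 / 300 * (a1 - a3) + 7 / 100 * a3 + (87 / 1000 + 1 / 24) * a2 ≤ cd)
    (hcc : a1 + a2 ≤ cc)
    (hg : g * σ ^ 2 + k1 * (σ * y2) ^ 2 + k2 * (σ * y1) ^ 2 + e1 * ρ ^ 2 ≤
      (a1 - a3) * ((v - 1) * E qq) + a2 * E GG -
        l * ((v - 1) ^ 2 * (11 / 100 * E r2 - (11 / 200) ^ 2)) + Real.log l + 1 - l - stv v / 200) :
    NG v ρ d ω ϱ c1 cJ cs ch cr c5 A C := by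
  obtain ⟨hE, hw, hv, hρ, hd, hx1, hx2, hω, hϱ, h1, hJ, hs, hh, hr, h5, hy1, hy2, g2, e1', e2, -, -,
    -, -, lo1, lo2, hi, hC0, hC⟩ := h
  have q := hQ σ ρ d x2 ω ϱ c1 cJ cs ch cr c5 (σ * y1) (σ * y2) g2 e2
  have hlog : Real.log C ≤ l * C - 1 - Real.log l := by
    have := Real.log_le_sub_one_of_pos (mul_pos hl hC0)
    rw [Real.log_mul hl.ne' hC0.ne'] at this
    linarith
  obtain ⟨s, hs0, rfl⟩ : ∃ s, 0 ≤ s ∧ l = s ^ 2 := ⟨√l, Real.sqrt_nonneg _, (Real.sq_sqrt hl.le).symm⟩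
  obtain ⟨δ, hδ⟩ : ∃ δ, δ = |v - 1| := ⟨_, rfl⟩
  have hδ0 : 0 ≤ δ := hδ ▸ abs_nonneg _
  rw [← hδ] at hC
  have s0 : s ≤ m0 := le_of_pow_le_pow_left₀ two_ne_zero p0 hm0
  have s1 : s * δ ≤ m1 * σ := le_of_pow_le_pow_left₀ two_ne_zero (by positivity)
    (by rw [mul_pow, hδ, sq_abs]; exact hm1)
  have s2 : s * w ≤ m2 := le_of_pow_le_pow_left₀ two_ne_zero p2 (by rw [mul_pow, ← hv]; exact hm2)
  obtain ⟨P, hP⟩ : ∃ P, P = ρ / 4 + δ * y1 + 9 / 100 * (w * ω) + w * c5 := ⟨_, rfl⟩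
  obtain ⟨S, hS⟩ : ∃ S, S = √(P ^ 2 + (d / 4 + cr) ^ 2) := ⟨_, rfl⟩
  rw [← hP, ← hS] at hC
  have hS2 : S ^ 2 = P ^ 2 + (d / 4 + cr) ^ 2 := by rw [hS]; exact Real.sq_sqrt (by positivity)
  have hζ0 : 0 ≤ ζ := ((pos_iff_pos_of_mul_pos (one_pos.trans_le hζ)).1 hη).le
  have t1 : (S + x1 / 4) ^ 2 ≤ (1 + η) * S ^ 2 + (1 + ζ) * x1 ^ 2 / 16 := by
    refine le_of_mul_le_mul_left ?_ hη
    nlinarith [sq_nonneg (η * S - x1 / 4), mul_le_mul_of_nonneg_right hζ (sq_nonneg x1)]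
  have t2 : (s * P) ^ 2 ≤ (m0 * ρ / 4 + m1 * (σ * y1) + m2 * (9 / 100 * ω + c5)) ^ 2 := by
    refine pow_le_pow_left₀ (by rw [hP]; positivity) ?_ 2
    rw [hP]
    linarith [mul_le_mul_of_nonneg_right s0 hρ, mul_le_mul_of_nonneg_right s1 hy1,
      mul_le_mul_of_nonneg_right s2 hω, mul_le_mul_of_nonneg_right s2 h5]
  have t3 : (s * (d / 4 + cr)) ^ 2 ≤ (m0 * (d / 4 + cr)) ^ 2 :=
    pow_le_pow_left₀ (by positivity) (mul_le_mul_of_nonneg_right s0 (by positivity)) 2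
  have t4 : s ^ 2 * x1 ^ 2 ≤ m0 ^ 2 * (d ^ 2 - 5 / 3 * ρ ^ 2) := by
    rw [← e1']
    exact mul_le_mul_of_nonneg_right hm0 (sq_nonneg _)
  have t5 : s ^ 2 * (S + x1 / 4) ^ 2 ≤
      (1 + η) * ((m0 * ρ / 4 + m1 * (σ * y1) + m2 * (9 / 100 * ω + c5)) ^ 2 +
        (m0 * (d / 4 + cr)) ^ 2) + (1 + ζ) * (m0 ^ 2 * (d ^ 2 - 5 / 3 * ρ ^ 2)) / 16 := by
    have a1 := mul_le_mul_of_nonneg_left t1 hl.le
    have a2 := mul_le_mul_of_nonneg_left (add_le_add t2 t3) (show 0 ≤ 1 + η by linarith)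
    have a3 := mul_le_mul_of_nonneg_left t4 (show 0 ≤ 1 + ζ by linarith)
    rw [hS2] at a1
    linarith
  have t6 : s * (s * δ) * ρ ≤ m0 * (m1 * σ) * ρ :=
    mul_le_mul_of_nonneg_right (mul_le_mul s0 s1 (by positivity) p0) hρ
  have t7 : s * δ * (s * w) * (y1 * ω + c5) ≤ m1 * σ * m2 * (y1 * ω + c5) :=
    mul_le_mul_of_nonneg_right (mul_le_mul s1 s2 (by positivity) (by positivity)) (by positivity)
  have u1 := mul_le_mul_of_nonneg_right hb1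
    (show 0 ≤ y2 * ω + (c1 + 35 / 1000 * d + 38 / 300 * x2 + cJ) by positivity)
  have u2 := mul_le_mul_of_nonneg_right hb2
    (show 0 ≤ ϱ / 4 + 195 / 10000 * d + x2 / 8 + cJ by positivity)
  have u3 := mul_le_mul_of_nonneg_right hb3
    (show 0 ≤ d * cs / 3 + 38 / 300 * (x2 * d) + x2 * cs / 3 + d * cr by positivity)
  have u4 := mul_le_mul_of_nonneg_right hb4
    (show 0 ≤ d * ch / 3 + x2 * d / 8 + x2 * ch / 3 + d * cr by positivity)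
  have u5 := mul_le_mul_of_nonneg_right he (sq_nonneg ρ)
  have u6 := mul_le_mul_of_nonneg_right hcd (sq_nonneg d)
  have u7 := mul_le_mul_of_nonneg_right hcc (sq_nonneg cr)
  have v1 := mul_le_mul_of_nonneg_left lo1 ha1
  have v2 := mul_le_mul_of_nonneg_left hi ha2
  have v3 := mul_le_mul_of_nonneg_left lo2 ha3
  have v4 := mul_le_mul_of_nonneg_left hC hl.le
  have v5 : (1 - s ^ 2) * A = (a1 + a2 - a3) * A := by rw [ha]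
  unfold Qf at q
  unfold NG
  linear_combination q + hg + hlog + v1 + v2 + v3 + v4 - v5 + t5 + 11 / 400 * t6 + 11 / 100 * t7 +
    u1 + u2 + u3 + u4 + u5 + u6 + u7

theorem stv_le (v : ℝ) : stv v ≤ (v - 1) ^ 2 ∧ stv v ≤ 1 := ⟨min_le_left _ _, min_le_right _ _⟩

/-- `v ≤ 1`, `l = 1 + κ (1 - v)` -/
theorem NF.lo (h : NF E v w ρ d x1 x2 ω ϱ c1 cJ cs ch cr c5 y1 y2 A C)
    {v0 v1 w1 κ μ l α β γ g k1 k2 e cd b1 b3 m0 m2 η ζ : ℝ} (hv0 : v0 ≤ v) (hv1 : v ≤ v1)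
    (J : JI κ 0 l k1 k2 α β γ) (hQ : QP g k1 k2 e cd 0 b1 0 b3 0 m0 m0 m2 η ζ)
    (n : v1 ≤ 1 ∧ 0 ≤ κ ∧ κ ≤ 1 ∧ γ ≤ 0 ∧ 0 < η ∧ 1 ≤ η * ζ ∧ 0 ≤ m0 ∧ 0 ≤ m2 ∧ 0 ≤ w1 ∧
      v1 ≤ w1 ^ 2 ∧ 1 + κ * (1 - v0) ≤ m0 ^ 2 ∧ (1 + κ * (1 - v1)) * v1 ≤ m2 ^ 2 ∧ κ * w1 ≤ b1 ∧
      κ * (1 - v0) ≤ b3 ∧ e ≤ γ * (1 - v0) ^ 2 - 38 / 100 * (κ * (1 - v0)) ∧
      (7 / 100 - 38 / 300) * (κ * (1 - v1)) ≤ cd ∧ 11 / 100 * (1 + κ * (1 - v0)) ≤ l ∧ 0 ≤ μ ∧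
      κ ^ 2 ≤ μ * (2 + κ * (1 - v1)) ∧
      g ≤ α + (11 / 200) ^ 2 * (1 + κ * (1 - v1)) + γ * v1 - μ - 1 / 200) :
    NG v ρ d ω ϱ c1 cJ cs ch cr c5 A C := by
  obtain ⟨n1, n2, n3, n4, n5, n6, n7, n8, n9, n10, n11, n12, n13, n14, n15, n16, n17, n18, n19,
    n20⟩ := n
  have hw : w ≤ w1 := le_of_pow_le_pow_left₀ two_ne_zero n9 (by rw [← h.hv]; linarith)
  obtain ⟨δ, rfl⟩ : ∃ δ, v = 1 - δ := ⟨1 - v, by ring⟩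
  have d0 : 1 - v1 ≤ δ := by linarith
  have d1 : δ ≤ 1 - v0 := by linarith
  have hδ : 0 ≤ δ := by linarith
  have x0 := mul_le_mul_of_nonneg_left d0 n2
  have x1 := mul_le_mul_of_nonneg_left d1 n2
  have hx := mul_nonneg n2 hδ
  have hδ2 := sq_nonneg δ
  refine h.red hQ (σ := δ) (l := 1 + κ * δ) (a1 := 0) (a2 := 0) (a3 := κ * δ)
    (e1 := γ * (1 - v0) ^ 2) hδ (by linarith) le_rfl le_rfl hx (by ring) n5 n6 n7 n7 n8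
    (by linarith) ?_ ?_ ?_ (by simp) (by linarith) le_rfl (by linarith) (by linarith) (by simp) ?_
  · linarith [mul_le_mul_of_nonneg_right (show 1 + κ * δ ≤ m0 ^ 2 by linarith) hδ2]
  · have : κ * (2 - δ - (1 - v1)) ≤ κ * 2 := mul_le_mul_of_nonneg_left (by linarith) n2
    linarith [mul_nonneg (sub_nonneg.2 d0) (show 0 ≤ 1 + κ - κ * (2 - δ - (1 - v1)) by linarith)]
  · linarith [mul_le_mul_of_nonneg_left hw hx, mul_le_mul_of_nonneg_right n13 hδ]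
  · have j := mul_le_mul_of_nonneg_right (h.joint J) hδ2
    have a1 := mul_le_mul_of_nonneg_right (show 11 / 100 * (1 + κ * δ) ≤ l by linarith)
      (mul_nonneg hδ2 h.r2_nonneg)
    have a2 := mul_le_mul_of_nonneg_right x0 hδ2
    have a3 : κ * δ - μ * δ ^ 2 ≤ Real.log (1 + κ * δ) := by
      refine le_trans ?_ (Real.le_log_one_add_of_nonneg hx)
      rw [le_div_iff₀ (by linarith)]
      linarith [mul_le_mul_of_nonneg_right n19 hδ2, mul_le_mul_of_nonneg_left a2 n18]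
    have a4 := (stv_le (1 - δ)).1
    have a5 := mul_le_mul_of_nonneg_right (mul_le_mul_of_nonpos_left hv1 n4) hδ2
    have a6 := mul_le_mul_of_nonneg_right
      (mul_le_mul_of_nonpos_left (pow_le_pow_left₀ hδ d1 2) n4) (sq_nonneg ρ)
    have a7 := mul_le_mul_of_nonneg_right n20 hδ2
    linarith

theorem log_one_sub_ge {x y : ℝ} (h0 : 0 ≤ x) (h1 : x ≤ y) (h2 : y < 1) :
    -x - (1 / 2 + y / 3 + y ^ 2 / 4 + y ^ 3 / 5 + y ^ 4 / 6 + y ^ 5 / (1 - y)) * x ^ 2 ≤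
      Real.log (1 - x) := by
  have h := (abs_le.1 (Real.abs_log_sub_add_sum_range_le
    (show |x| < 1 by rw [abs_of_nonneg h0]; linarith) 6)).1
  rw [abs_of_nonneg h0] at h
  simp only [Finset.sum_range_succ, Finset.range_zero, Finset.sum_empty] at h
  have a : x ^ 5 / (1 - x) ≤ y ^ 5 / (1 - y) :=
    div_le_div₀ (pow_nonneg (h0.trans h1) _) (pow_le_pow_left₀ h0 h1 5) (by linarith) (by linarith)
  have b : 1 / 2 + x / 3 + x ^ 2 / 4 + x ^ 3 / 5 + x ^ 4 / 6 + x ^ 5 / (1 - x) ≤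
      1 / 2 + y / 3 + y ^ 2 / 4 + y ^ 3 / 5 + y ^ 4 / 6 + y ^ 5 / (1 - y) := by
    linarith [pow_le_pow_left₀ h0 h1 2, pow_le_pow_left₀ h0 h1 3, pow_le_pow_left₀ h0 h1 4]
  have c := mul_le_mul_of_nonneg_right b (sq_nonneg x)
  have e : x ^ (6 + 1) / (1 - x) = x ^ 5 / (1 - x) * x ^ 2 := by ring
  rw [e] at h
  norm_num at h
  linarith

/-- `v ≥ 1`, `l = 1 - κ (v - 1)` -/
theorem NF.up (h : NF E v w ρ d x1 x2 ω ϱ c1 cJ cs ch cr c5 y1 y2 A C)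
    {v0 v1 w1 κ y l α β γ g k1 k2 e cd b1 b3 m0 m2 η ζ : ℝ} (hv0 : v0 ≤ v) (hv1 : v ≤ v1)
    (J : JI κ 0 l k1 k2 α β γ) (hQ : QP g k1 k2 e cd b3 b1 0 b3 0 m0 m0 m2 η ζ)
    (n : 1 ≤ v0 ∧ 0 ≤ κ ∧ κ * (2 * v1 - 1) ≤ 1 ∧ γ ≤ 0 ∧ 0 < η ∧ 1 ≤ η * ζ ∧ 0 ≤ m0 ∧ 0 ≤ m2 ∧
      0 ≤ w1 ∧ v1 ≤ w1 ^ 2 ∧ 1 - κ * (v0 - 1) ≤ m0 ^ 2 ∧ (1 - κ * (v1 - 1)) * v1 ≤ m2 ^ 2 ∧
      κ * w1 ≤ b1 ∧ κ * (v1 - 1) ≤ b3 ∧ e ≤ γ * (v1 - 1) ^ 2 + 38 / 100 * (κ * (v0 - 1)) ∧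
      38 / 300 * (κ * (v1 - 1)) ≤ cd ∧ 11 / 100 * (1 - κ * (v0 - 1)) ≤ l ∧ κ * (v1 - 1) ≤ y ∧
      y < 1 ∧ g ≤ α + (11 / 200) ^ 2 * (1 - κ * (v1 - 1)) + γ * v1 -
        (1 / 2 + y / 3 + y ^ 2 / 4 + y ^ 3 / 5 + y ^ 4 / 6 + y ^ 5 / (1 - y)) * κ ^ 2 - 1 / 200) :
    NG v ρ d ω ϱ c1 cJ cs ch cr c5 A C := by
  obtain ⟨n1, n2, n3, n4, n5, n6, n7, n8, n9, n10, n11, n12, n13, n14, n15, n16, n17, n18, n19,
    n20⟩ := n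
  have hw : w ≤ w1 := le_of_pow_le_pow_left₀ two_ne_zero n9 (by rw [← h.hv]; linarith)
  obtain ⟨δ, rfl⟩ : ∃ δ, v = 1 + δ := ⟨v - 1, by ring⟩
  have d0 : v0 - 1 ≤ δ := by linarith
  have d1 : δ ≤ v1 - 1 := by linarith
  have hδ : 0 ≤ δ := by linarith
  have x0 := mul_le_mul_of_nonneg_left d0 n2
  have x1 := mul_le_mul_of_nonneg_left d1 n2
  have hx := mul_nonneg n2 hδ
  have hδ2 := sq_nonneg δ
  refine h.red hQ (σ := δ) (l := 1 - κ * δ) (a1 := κ * δ) (a2 := 0) (a3 := 0)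
    (e1 := γ * (v1 - 1) ^ 2) hδ (by linarith) hx le_rfl le_rfl (by ring) n5 n6 n7 n7 n8
    (by linarith) ?_ ?_ ?_ (by simp) (by linarith) le_rfl (by linarith) (by linarith) (by linarith) ?_
  · linarith [mul_le_mul_of_nonneg_right (show 1 - κ * δ ≤ m0 ^ 2 by linarith) hδ2]
  · linarith [mul_nonneg (sub_nonneg.2 d1) (show 0 ≤ 1 - κ * (v1 + δ) by linarith)]
  · linarith [mul_le_mul_of_nonneg_left hw hx, mul_le_mul_of_nonneg_right n13 hδ]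
  · have j := mul_le_mul_of_nonneg_right (h.joint J) hδ2
    have a1 := mul_le_mul_of_nonneg_right (show 11 / 100 * (1 - κ * δ) ≤ l by linarith)
      (mul_nonneg hδ2 h.r2_nonneg)
    have a2 := mul_le_mul_of_nonneg_right x1 hδ2
    have a3 := log_one_sub_ge hx (x1.trans n18) n19
    generalize 1 / 2 + y / 3 + y ^ 2 / 4 + y ^ 3 / 5 + y ^ 4 / 6 + y ^ 5 / (1 - y) = μ at a3 n20
    have a4 := (stv_le (1 + δ)).1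
    have a5 := mul_le_mul_of_nonneg_right (mul_le_mul_of_nonpos_left hv1 n4) hδ2
    have a6 := mul_le_mul_of_nonneg_right
      (mul_le_mul_of_nonpos_left (pow_le_pow_left₀ hδ d1 2) n4) (sq_nonneg ρ)
    have a7 := mul_le_mul_of_nonneg_right n20 hδ2
    linarith

theorem neg_le_log {l τ : ℝ} (hl : 0 < l) (hτ : 0 ≤ τ)
    (h : 1 ≤ l * (1 + τ * (1 + τ / 2 * (1 + τ / 3 * (1 + τ / 4 * (1 + τ / 5 * (1 + τ / 6 *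
      (1 + τ / 7 * (1 + τ / 8 * (1 + τ / 9 * (1 + τ / 10 * (1 + τ / 11 * (1 + τ / 12))))))))))))) :
    -τ ≤ Real.log l := by
  have h1 := Real.sum_le_exp_of_nonneg hτ 13
  simp only [Finset.sum_range_succ, Finset.range_zero, Finset.sum_empty, Nat.factorial] at h1
  rw [Real.le_log_iff_exp_le hl, Real.exp_neg, inv_le_iff_one_le_mul₀' (Real.exp_pos τ), mul_comm]
  refine h.trans (mul_le_mul_of_nonneg_left (le_trans (le_of_eq ?_) h1) hl.le)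
  push_cast
  ring

/-- constant multipliers -/
theorem NF.mid (h : NF E v w ρ d x1 x2 ω ϱ c1 cJ cs ch cr c5 y1 y2 A C)
    {v0 v1 w1 a1 a2 τ n1 l α β γ g k1 k2 e cd cc b1 b2 m0 m1 m2 η ζ : ℝ} (hv0 : v0 ≤ v) (hv1 : v ≤ v1)
    (J : JI n1 a2 l k1 k2 α β γ) (hQ : QP g k1 k2 e cd cc b1 b2 a1 a2 m0 m1 m2 η ζ)
    (n : 1 ≤ v0 ∧ 0 ≤ a1 ∧ 0 ≤ a2 ∧ 0 < 1 - a1 - a2 ∧ 0 ≤ γ ∧ 0 < η ∧ 1 ≤ η * ζ ∧ 0 ≤ m0 ∧ 0 ≤ m1 ∧
      0 ≤ m2 ∧ 0 ≤ w1 ∧ v1 ≤ w1 ^ 2 ∧ 1 - a1 - a2 ≤ m0 ^ 2 ∧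
      (1 - a1 - a2) * (v1 - 1) ^ 2 ≤ m1 ^ 2 ∧ (1 - a1 - a2) * v1 ≤ m2 ^ 2 ∧ a1 * w1 ≤ b1 ∧
      a2 * w1 ≤ b2 ∧ e ≤ γ + 38 / 100 * a1 + a2 / 8 ∧
      38 / 300 * a1 + (87 / 1000 + 1 / 24) * a2 ≤ cd ∧ a1 + a2 ≤ cc ∧ n1 ≤ a1 * (v0 - 1) ∧
      11 / 100 * ((1 - a1 - a2) * (v1 - 1) ^ 2) ≤ l ∧ 0 ≤ τ ∧
      1 ≤ (1 - a1 - a2) * (1 + τ * (1 + τ / 2 * (1 + τ / 3 * (1 + τ / 4 * (1 + τ / 5 * (1 + τ / 6 *
      (1 + τ / 7 * (1 + τ / 8 * (1 + τ / 9 * (1 + τ / 10 * (1 + τ / 11 * (1 + τ / 12)))))))))))) ∧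
      g ≤ α + (11 / 200) ^ 2 * ((1 - a1 - a2) * (v0 - 1) ^ 2) + γ * v0 - τ + a1 + a2 - 1 / 200) :
    NG v ρ d ω ϱ c1 cJ cs ch cr c5 A C := by
  obtain ⟨n1', n2, n3, n4, n5, n6, n7, n8, n9, n10, n11, n12, n13, n14, n15, n16, n17, n18, n19,
    n20, n21, n22, n23, n24, n25⟩ := n
  have hw : w ≤ w1 := le_of_pow_le_pow_left₀ two_ne_zero n11 (by rw [← h.hv]; linarith)
  have s0 := mul_le_mul_of_nonneg_left
    (pow_le_pow_left₀ (sub_nonneg.2 n1') (show v0 - 1 ≤ v - 1 by linarith) 2) n4.le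
  have s1 := mul_le_mul_of_nonneg_left
    (pow_le_pow_left₀ (show 0 ≤ v - 1 by linarith) (show v - 1 ≤ v1 - 1 by linarith) 2) n4.le
  refine h.red hQ (σ := 1) (l := 1 - a1 - a2) (a1 := a1) (a2 := a2) (a3 := 0)
    (e1 := γ) zero_le_one n4 n2 n3 le_rfl (by ring) n6 n7 n8 n9 n10 n13 (by linarith)
    (by linarith [mul_le_mul_of_nonneg_left hv1 n4.le])
    (by linarith [mul_le_mul_of_nonneg_left hw n2]) (by linarith [mul_le_mul_of_nonneg_left hw n3])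
    (by linarith) le_rfl (by linarith) (by linarith) n20 ?_
  have j := h.joint J
  have b1 := mul_le_mul_of_nonneg_right
    (show 11 / 100 * ((1 - a1 - a2) * (v - 1) ^ 2) ≤ l by linarith) h.r2_nonneg
  have b2 := mul_le_mul_of_nonneg_right
    (n21.trans (mul_le_mul_of_nonneg_left (show v0 - 1 ≤ v - 1 by linarith) n2)) h.qq_nonneg
  have b3 := neg_le_log n4 n23 n24
  have b4 := (stv_le v).2
  have b5 := mul_le_mul_of_nonneg_left hv0 n5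
  linarith

/-- large `v`, `l = c / v` -/
theorem NF.top (h : NF E v w ρ d x1 x2 ω ϱ c1 cJ cs ch cr c5 y1 y2 A C)
    {V c a τ ν α β γ g k2 e cd m0 m1 η ζ : ℝ} (hv0 : V ≤ v)
    (J : JI 0 1 0 0 0 α β γ) (J' : JI 0 0 (11 / 100 * c) 0 k2 ν 0 0)
    (hQ : QP g 0 k2 e cd 1 0 1 0 1 m0 m1 m1 η ζ)
    (n : 1 ≤ V ∧ 0 < c ∧ c ≤ V ∧ a = 1 - c / V ∧ 0 ≤ γ ∧ 0 ≤ α + γ * V ∧ 0 < η ∧ 1 ≤ η * ζ ∧
      0 ≤ m0 ∧ 0 ≤ m1 ∧ c / V ≤ m0 ^ 2 ∧ c ≤ m1 ^ 2 ∧ e ≤ a * γ + a / 8 ∧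
      87 / 1000 + 1 / 24 ≤ cd ∧ 0 ≤ τ ∧
      1 ≤ c / V * (1 + τ * (1 + τ / 2 * (1 + τ / 3 * (1 + τ / 4 * (1 + τ / 5 * (1 + τ / 6 *
      (1 + τ / 7 * (1 + τ / 8 * (1 + τ / 9 * (1 + τ / 10 * (1 + τ / 11 * (1 + τ / 12)))))))))))) ∧
      a * α - τ + 1 + a - 1 / 200 ≤ 0 ∧
      g ≤ a * γ - 1 / V + (a * α - τ + 1 + a - 1 / 200) / V + ν) :
    NG v ρ d ω ϱ c1 cJ cs ch cr c5 A C := by
  obtain ⟨n1, n2, n3, n4, n5, n6, n7, n8, n9, n10, n11, n12, n13, n14, n15, n16, n17, n18⟩ := n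
  have hV : 0 < V := by linarith
  have hv : 0 < v := by linarith
  have l0 : 0 < c / v := div_pos n2 hv
  have l1 : c / v ≤ c / V := div_le_div_of_nonneg_left n2.le hV hv0
  have l2 : c / V ≤ 1 := (div_le_one hV).2 n3
  have l3 : c / v * v = c := div_mul_cancel₀ _ hv.ne'
  have l4 : c / v * (v - 1) ^ 2 ≤ c * v := by
    rw [show c * v = c / v * v ^ 2 by field_simp]
    exact mul_le_mul_of_nonneg_left (pow_le_pow_left₀ (by linarith) (by linarith) 2) l0.le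
  refine h.red hQ (σ := w) (l := c / v) (a1 := 0) (a2 := 1 - c / v) (a3 := 0)
    (e1 := a * γ) h.hw l0 le_rfl (by linarith) le_rfl (by ring) n7 n8 n9 n10 n10 (by linarith)
    (by rw [mul_pow, ← h.hv]; linarith [mul_le_mul_of_nonneg_right n12 hv.le])
    (by linarith) (by simp) (mul_le_mul_of_nonneg_right (by linarith) h.hw)
    (by simp) (by linarith) (by linarith) (by linarith) (by linarith) ?_
  have j := h.joint J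
  have j' := mul_le_mul_of_nonneg_right (h.joint J') hv.le
  have b0 : 0 ≤ α + γ * (v + ρ ^ 2) := by
    linarith [mul_le_mul_of_nonneg_left hv0 n5, mul_nonneg n5 (sq_nonneg ρ)]
  have b1 : a * (α + γ * (v + ρ ^ 2)) ≤ (1 - c / v) * E GG :=
    mul_le_mul (by linarith) (by linarith) b0 (by linarith)
  have b2 := mul_le_mul_of_nonneg_right l4 h.r2_nonneg
  have b3 := neg_le_log (div_pos n2 hV) n15 n16
  have b4 := (stv_le v).2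
  have b5 : Real.log (c / V) ≤ Real.log (c / v) + (v / V - 1) := by
    rw [show c / V = c / v * (v / V) by field_simp, Real.log_mul l0.ne' (div_pos hv hV).ne']
    linarith [Real.log_le_sub_one_of_pos (div_pos hv hV)]
  have b6 := mul_le_mul_of_nonneg_right n18 hv.le
  have b7 : (a * α - τ + 1 + a - 1 / 200) / V * v ≤ a * α - τ + 1 + a - 1 / 200 := by
    rw [div_mul_eq_mul_div, div_le_iff₀ hV]
    exact mul_le_mul_of_nonpos_left hv0 n17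
  have b8 := mul_nonneg l0.le (sq_nonneg (v - 1))
  have b9 : v / V = 1 / V * v := by ring
  rw [mul_pow, mul_pow, ← h.hv]
  linarith

end Crest.Agent.R253
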