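import Crest.Agent.R253.NumG

/-! Row 253: the quadratic forms (generated; sums of squares). -/

set_option autoImplicit false

namespace Crest.Agent.R253

theorem qp0 : QP (1557 / 100000) (209 / 1000) (427 / 50) (-89 / 2000) (-29 / 10000) 0 (73 / 1000) 0 (103 / 1000) 0 (1051 / 1000) (1051 / 1000) (363 / 500) (133 / 500) (94 / 25) := by
  intro σ ρ d x ω ϱ c1 cJ cs ch cr c5 Y1 Y2 h1 h2
  unfold Qf
  linear_combination (4091 / 10000) * h1 + (37 / 1250) * h2 +
    (1104601 / 1536800000000) * sq_nonneg (113 * σ - 187 * ρ) +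
    (511 / 22440000000) * sq_nonneg (300 * σ - 187 * d) +
    (1387 / 5890500000) * sq_nonneg (105 * σ - 187 * x) +
    (73 / 1122000) * sq_nonneg (3 * σ - 187 * c1) +
    (73 / 748000) * sq_nonneg (2 * σ - 187 * cJ) +
    (127171 / 1700000000) * sq_nonneg (3 * σ - 187 * c5) +
    (241497729 / 45200000000000) * sq_nonneg (36 * ρ - 113 * ω) +
    (80499243 / 113000000000) * sq_nonneg (3 * ρ - 113 * c5) +
    (699212433 / 1808000000000) * sq_nonneg (8 * ρ - 113 * Y1) +
    (1957 / 42000000) * sq_nonneg (7 * d - 20 * x) +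
    (103 / 23400000) * sq_nonneg (13 * d - 300 * cs) +
    (802212433 / 300000000000) * sq_nonneg (3 * d - 50 * cr) +
    (103 / 8190000) * sq_nonneg (13 * x - 105 * cs) +
    (250229331 / 50000000000) * sq_nonneg (1 * ω - 12 * c5) +
    (1074213437 / 150000000000) * sq_nonneg (2 * ω - 9 * Y1) +
    (73 / 36000) * sq_nonneg (2 * ω - 9 * Y2) +
    (80499243 / 2000000000) * sq_nonneg (8 * c5 - 3 * Y1) +
    (582941 / 5984000000) * sq_nonneg σ +
    (11878218499 / 67800000000000) * sq_nonneg ρ +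
    (521840693 / 1800000000000) * sq_nonneg d +
    (2109 / 3500000) * sq_nonneg x +
    (414949376111 / 90000000000000) * sq_nonneg ω +
    (21 / 100) * sq_nonneg ϱ +
    (8309 / 6000) * sq_nonneg c1 +
    (82349 / 4000) * sq_nonneg cJ +
    (1253 / 26000) * sq_nonneg cs +
    (297 / 500) * sq_nonneg ch +
    (1729414577 / 3000000000) * sq_nonneg cr +
    (635594090143 / 25000000000) * sq_nonneg c5 +
    (504426190583 / 400000000000) * sq_nonneg Y1 +
    (179 / 4000) * sq_nonneg Y2

theorem qp1 : QP (1181 / 50000) (207 / 1000) (42 / 5) (-299 / 10000) 0 0 (3 / 20) 0 (3 / 40) 0 (1037 / 1000) (1037 / 1000) 1 (257 / 1000) (973 / 250) := by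
  intro σ ρ d x ω ϱ c1 cJ cs ch cr c5 Y1 Y2 h1 h2
  unfold Qf
  linear_combination (3977 / 10000) * h1 + (53 / 1250) * h2 +
    (11829059 / 9600000000) * sq_nonneg (3 * σ - 4 * ρ) +
    (7 / 440000) * sq_nonneg (15 * σ - 11 * d) +
    (19 / 39160000) * sq_nonneg (89 * σ - 220 * x) +
    (3 / 61600) * sq_nonneg (7 * σ - 220 * c1) +
    (1 / 8800) * sq_nonneg (3 * σ - 220 * cJ) +
    (1037 / 800000) * sq_nonneg (1 * σ - 44 * c5) +
    (3910527 / 2222000000000) * sq_nonneg (101 * ρ - 165 * ω) +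
    (434503 / 44000000) * sq_nonneg (1 * ρ - 33 * c5) +
    (450579611 / 3080000000000) * sq_nonneg (14 * ρ - 165 * Y1) +
    (19 / 106800000) * sq_nonneg (89 * d - 300 * x) +
    (1 / 264000) * sq_nonneg (11 * d - 300 * cs) +
    (500579611 / 200000000000) * sq_nonneg (3 * d - 50 * cr) +
    (1 / 78320) * sq_nonneg (11 * x - 89 * cs) +
    (11313 / 50500000) * sq_nonneg (5 * ω - 101 * c5) +
    (17435081 / 141400000000) * sq_nonneg (14 * ω - 101 * Y1) +
    (1 / 52520) * sq_nonneg (39 * ω - 101 * Y2) +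
    (1303509 / 70000000) * sq_nonneg (14 * c5 - 5 * Y1) +
    (14157053 / 35200000000) * sq_nonneg σ +
    (1223335589 / 880000000000) * sq_nonneg ρ +
    (121467477 / 400000000000) * sq_nonneg d +
    (1211 / 890000) * sq_nonneg x +
    (128323919 / 40400000000) * sq_nonneg ω +
    (21 / 100) * sq_nonneg ϱ +
    (228 / 175) * sq_nonneg c1 +
    (37 / 2) * sq_nonneg cJ +
    (3101 / 22000) * sq_nonneg cs +
    (297 / 500) * sq_nonneg ch +
    (2102032059 / 2000000000) * sq_nonneg cr +
    (412889191 / 20000000) * sq_nonneg c5 +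
    (75157810667 / 56000000000) * sq_nonneg Y1 +
    (83 / 6500) * sq_nonneg Y2

theorem qp2 : QP (1887 / 100000) (339 / 1000) (38 / 5) (-21 / 10000) (13 / 1000) (511 / 5000) (119 / 625) 0 (511 / 5000) 0 1 1 (309 / 250) (121 / 500) (4133 / 1000) := by
  intro σ ρ d x ω ϱ c1 cJ cs ch cr c5 Y1 Y2 h1 h2
  unfold Qf
  linear_combination (1909 / 5000) * h1 + (117 / 2000) * h2 +
    (11 / 110800000) * sq_nonneg (277 * σ - 500 * ρ) +
    (119 / 27250000000) * sq_nonneg (763 * σ - 1000 * d) +
    (133 / 843750000) * sq_nonneg (153 * σ - 500 * x) +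
    (119 / 38750000) * sq_nonneg (31 * σ - 1000 * c1) +
    (119 / 11250000) * sq_nonneg (9 * σ - 1000 * cJ) +
    (3399 / 12500000) * sq_nonneg (2 * σ - 125 * c5) +
    (575667 / 983350000000) * sq_nonneg (213 * ρ - 277 * ω) +
    (191889 / 1108000000) * sq_nonneg (8 * ρ - 277 * c5) +
    (621 / 13850000) * sq_nonneg (25 * ρ - 277 * Y1) +
    (1387 / 50031000000) * sq_nonneg (306 * d - 763 * x) +
    (73 / 117720000) * sq_nonneg (36 * d - 763 * cs) +
    (226 / 20505625) * sq_nonneg (43 * d - 763 * cr) +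
    (511 / 1020000) * sq_nonneg (2 * x - 17 * cs) +
    (177881103 / 1775000000000) * sq_nonneg (8 * ω - 213 * c5) +
    (858917 / 22187500000) * sq_nonneg (25 * ω - 213 * Y1) +
    (119 / 66562500) * sq_nonneg (125 * ω - 426 * Y2) +
    (191889 / 25000000) * sq_nonneg (25 * c5 - 8 * Y1) +
    (15569 / 125000000) * sq_nonneg σ +
    (1430089 / 1731250000) * sq_nonneg ρ +
    (179303 / 1526000000) * sq_nonneg d +
    (435733 / 459000000) * sq_nonneg x +
    (77876273197 / 66562500000000) * sq_nonneg ω +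
    (21 / 100) * sq_nonneg ϱ +
    (913 / 1550) * sq_nonneg c1 +
    (604 / 45) * sq_nonneg cJ +
    (83381 / 1080000) * sq_nonneg cs +
    (297 / 500) * sq_nonneg ch +
    (193393 / 215000) * sq_nonneg cr +
    (308041808133 / 25000000000) * sq_nonneg c5 +
    (209409587 / 312500000) * sq_nonneg Y1 +
    (9099 / 625000) * sq_nonneg Y2

theorem qp3 : QP (1693 / 100000) (411 / 1000) (162 / 25) (333 / 10000) (61 / 2500) (481 / 2500) (1123 / 5000) 0 (481 / 2500) 0 (947 / 1000) (947 / 1000) (1363 / 1000) (59 / 250) (2119 / 500) := by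
  intro σ ρ d x ω ϱ c1 cJ cs ch cr c5 Y1 Y2 h1 h2
  unfold Qf
  linear_combination (927 / 2500) * h1 + (847 / 10000) * h2 +
    (9864899 / 840000000000) * sq_nonneg (21 * σ - 50 * ρ) +
    (7861 / 100200000000) * sq_nonneg (167 * σ - 300 * d) +
    (21337 / 4050000000) * sq_nonneg (27 * σ - 100 * x) +
    (1123 / 300000) * sq_nonneg (1 * σ - 30 * c1) +
    (1123 / 1500000) * sq_nonneg (1 * σ - 150 * cJ) +
    (14198371 / 15000000000) * sq_nonneg (1 * σ - 75 * c5) +
    (1196535447 / 14000000000000) * sq_nonneg (20 * ρ - 21 * ω) +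
    (132948383 / 42000000000) * sq_nonneg (2 * ρ - 63 * c5) +
    (92371327 / 546000000000) * sq_nonneg (13 * ρ - 126 * Y1) +
    (9139 / 10145250000) * sq_nonneg (81 * d - 167 * x) +
    (481 / 37575000) * sq_nonneg (15 * d - 167 * cs) +
    (373313981 / 1503000000000) * sq_nonneg (9 * d - 167 * cr) +
    (481 / 2025000) * sq_nonneg (5 * x - 27 * cs) +
    (1722151863 / 250000000000) * sq_nonneg (1 * ω - 30 * c5) +
    (1341100679 / 9750000000000) * sq_nonneg (13 * ω - 120 * Y1) +
    (1123 / 10200000) * sq_nonneg (17 * ω - 60 * Y2) +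
    (398845149 / 13000000000) * sq_nonneg (13 * c5 - 4 * Y1) +
    (2269853 / 8000000000) * sq_nonneg σ +
    (1842535027 / 840000000000) * sq_nonneg ρ +
    (10069371 / 8000000000) * sq_nonneg d +
    (14503 / 15187500) * sq_nonneg x +
    (17572074111 / 10000000000000) * sq_nonneg ω +
    (21 / 100) * sq_nonneg ϱ +
    (291 / 1000) * sq_nonneg c1 +
    (1431 / 200) * sq_nonneg cJ +
    (11887 / 225000) * sq_nonneg cs +
    (297 / 500) * sq_nonneg ch +
    (3888861857 / 9000000000) * sq_nonneg cr +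
    (95310525537 / 10000000000) * sq_nonneg c5 +
    (6957639903 / 32500000000) * sq_nonneg Y1 +
    (249 / 17000) * sq_nonneg Y2

theorem qp4 : QP (809 / 50000) (181 / 500) (287 / 50) (637 / 10000) (329 / 10000) (259 / 1000) (307 / 1250) 0 (259 / 1000) 0 (899 / 1000) (899 / 1000) (357 / 250) (213 / 1000) (939 / 200) := by
  intro σ ρ d x ω ϱ c1 cJ cs ch cr c5 Y1 Y2 h1 h2
  unfold Qf
  linear_combination (3349 / 10000) * h1 + (241 / 2000) * h2 +
    (8890211 / 760000000000) * sq_nonneg (19 * σ - 50 * ρ) +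
    (2149 / 870000000) * sq_nonneg (29 * σ - 60 * d) +
    (5833 / 292500000) * sq_nonneg (13 * σ - 60 * x) +
    (307 / 8250000) * sq_nonneg (11 * σ - 300 * c1) +
    (307 / 375000) * sq_nonneg (1 * σ - 150 * cJ) +
    (1176791 / 1250000000) * sq_nonneg (1 * σ - 75 * c5) +
    (3503734731 / 43700000000000) * sq_nonneg (23 * ρ - 19 * ω) +
    (129767953 / 38000000000) * sq_nonneg (2 * ρ - 57 * c5) +
    (980347813 / 1596000000000) * sq_nonneg (7 * ρ - 57 * Y1) +
    (4921 / 113100000) * sq_nonneg (13 * d - 29 * x) +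
    (259 / 14790000) * sq_nonneg (17 * d - 145 * cs) +
    (1498347813 / 4640000000000) * sq_nonneg (8 * d - 145 * cr) +
    (259 / 6630000) * sq_nonneg (17 * x - 65 * cs) +
    (463786911 / 287500000000) * sq_nonneg (2 * ω - 69 * c5) +
    (250901011 / 575000000000) * sq_nonneg (7 * ω - 69 * Y1) +
    (307 / 460000) * sq_nonneg (8 * ω - 23 * Y2) +
    (55614837 / 500000000) * sq_nonneg (7 * c5 - 2 * Y1) +
    (88862111 / 360000000000) * sq_nonneg σ +
    (11461212511 / 5700000000000) * sq_nonneg ρ +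
    (455764081 / 580000000000) * sq_nonneg d +
    (3227 / 3900000) * sq_nonneg x +
    (27234833151 / 57500000000000) * sq_nonneg ω +
    (21 / 100) * sq_nonneg ϱ +
    (171 / 550) * sq_nonneg c1 +
    (279 / 50) * sq_nonneg cJ +
    (423 / 8500) * sq_nonneg cs +
    (297 / 500) * sq_nonneg ch +
    (20200437099 / 32000000000) * sq_nonneg cr +
    (455259252717 / 50000000000) * sq_nonneg c5 +
    (169095550419 / 700000000000) * sq_nonneg Y1 +
    (179 / 20000) * sq_nonneg Y2

theorem qp5 : QP (921 / 20000) (31 / 25) (1409 / 100) (1141 / 10000) (1 / 25) (313 / 1000) (2947 / 10000) (261 / 1000) (83 / 500) (147 / 1000) (829 / 1000) (1783 / 1000) (184 / 125) (41 / 200) (4879 / 1000) := by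
  intro σ ρ d x ω ϱ c1 cJ cs ch cr c5 Y1 Y2 h1 h2
  unfold Qf
  linear_combination (2971 / 10000) * h1 + (1909 / 10000) * h2 +
    (16259177 / 439200000000000) * sq_nonneg (549 * σ - 1000 * ρ) +
    (3851 / 74250000000) * sq_nonneg (297 * σ - 500 * d) +
    (209861 / 1578000000000) * sq_nonneg (263 * σ - 1000 * x) +
    (29 / 36000000) * sq_nonneg (81 * σ - 500 * ϱ) +
    (2947 / 940000000) * sq_nonneg (47 * σ - 1000 * c1) +
    (5557 / 90000000) * sq_nonneg (9 * σ - 500 * cJ) +
    (451099 / 125000000) * sq_nonneg (1 * σ - 40 * c5) +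
    (4595147 / 50477500000000) * sq_nonneg (662 * ρ - 549 * ω) +
    (4595147 / 171562500000) * sq_nonneg (25 * ρ - 549 * c5) +
    (356223787 / 3220800000000) * sq_nonneg (22 * ρ - 183 * Y1) +
    (23641 / 187466400000) * sq_nonneg (263 * d - 594 * x) +
    (83 / 83754000) * sq_nonneg (47 * d - 594 * cs) +
    (7 / 198000) * sq_nonneg (7 * d - 99 * ch) +
    (290825081 / 16632000000000) * sq_nonneg (35 * d - 594 * cr) +
    (83 / 37083000) * sq_nonneg (47 * x - 263 * cs) +
    (7 / 3156000) * sq_nonneg (42 * x - 263 * ch) +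
    (1147401 / 80810546875) * sq_nonneg (25 * ω - 662 * c5) +
    (134058421 / 3413437500000) * sq_nonneg (33 * ω - 331 * Y1) +
    (2947 / 1125400000) * sq_nonneg (85 * ω - 662 * Y2) +
    (9883169 / 5156250000) * sq_nonneg (66 * c5 - 25 * Y1) +
    (713886281 / 2400000000000) * sq_nonneg σ +
    (17236717409 / 10980000000000) * sq_nonneg ρ +
    (1647337091 / 2376000000000) * sq_nonneg d +
    (718943 / 157800000) * sq_nonneg x +
    (17598520613 / 20687500000000) * sq_nonneg ω +
    (31 / 3600) * sq_nonneg ϱ +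
    (2467 / 4700) * sq_nonneg c1 +
    (3083 / 360) * sq_nonneg cJ +
    (1384 / 17625) * sq_nonneg cs +
    (1129 / 12000) * sq_nonneg ch +
    (18889195273 / 14000000000) * sq_nonneg cr +
    (78675216457 / 7812500000) * sq_nonneg c5 +
    (1391875339097 / 1320000000000) * sq_nonneg Y1 +
    (78543 / 850000) * sq_nonneg Y2

theorem qp6 : QP (7653 / 100000) (1801 / 1000) (2307 / 100) (681 / 5000) (121 / 2500) (19 / 50) (2441 / 5000) (31 / 125) (63 / 250) (16 / 125) (197 / 250) (1083 / 500) (61 / 40) (17 / 100) (5883 / 1000) := by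
  intro σ ρ d x ω ϱ c1 cJ cs ch cr c5 Y1 Y2 h1 h2
  unfold Qf
  linear_combination (2577 / 10000) * h1 + (129 / 625) * h2 +
    (2346861 / 670000000000) * sq_nonneg (67 * σ - 100 * ρ) +
    (21923 / 900000000) * sq_nonneg (18 * σ - 25 * d) +
    (69629 / 1275000000) * sq_nonneg (17 * σ - 50 * x) +
    (31 / 60000) * sq_nonneg (3 * σ - 20 * ϱ) +
    (2441 / 7000000) * sq_nonneg (7 * σ - 100 * c1) +
    (3681 / 500000) * sq_nonneg (1 * σ - 50 * cJ) +
    (242231 / 400000000) * sq_nonneg (3 * σ - 100 * c5) +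
    (1405989 / 294800000000) * sq_nonneg (99 * ρ - 67 * ω) +
    (468663 / 268000000) * sq_nonneg (3 * ρ - 67 * c5) +
    (8320689 / 6700000000) * sq_nonneg (6 * ρ - 67 * Y1) +
    (599 / 15300000) * sq_nonneg (17 * d - 36 * x) +
    (7 / 1500) * sq_nonneg (1 * d - 9 * cs) +
    (1 / 16875) * sq_nonneg (5 * d - 72 * ch) +
    (9290653 / 450000000) * sq_nonneg (1 * d - 18 * cr) +
    (21 / 34000) * sq_nonneg (4 * x - 17 * cs) +
    (4 / 31875) * sq_nonneg (5 * x - 34 * ch) +
    (1306071 / 176000000) * sq_nonneg (1 * ω - 33 * c5) +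
    (35299663 / 4400000000) * sq_nonneg (2 * ω - 33 * Y1) +
    (2441 / 13860000) * sq_nonneg (14 * ω - 99 * Y2) +
    (7729371 / 4000000) * sq_nonneg (2 * c5 - 1 * Y1) +
    (38729707 / 15000000000) * sq_nonneg σ +
    (303819941 / 80400000000) * sq_nonneg ρ +
    (44234891 / 27000000000) * sq_nonneg d +
    (5197 / 850000) * sq_nonneg x +
    (36288307 / 14400000000) * sq_nonneg ω +
    (1 / 300) * sq_nonneg ϱ +
    (121 / 700) * sq_nonneg c1 +
    (1119 / 200) * sq_nonneg cJ +
    (53 / 2000) * sq_nonneg cs +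
    (1063 / 7500) * sq_nonneg ch +
    (10802817 / 12500000) * sq_nonneg cr +
    (138599251 / 16000000) * sq_nonneg c5 +
    (534803403 / 400000000) * sq_nonneg Y1 +
    (10481 / 140000) * sq_nonneg Y2

theorem qp7 : QP (5533 / 50000) (2557 / 1000) (3381 / 100) (407 / 2500) (291 / 5000) (57 / 125) (2971 / 5000) (48 / 125) (277 / 1000) (179 / 1000) (369 / 500) (332 / 125) (791 / 500) (151 / 1000) (6623 / 1000) := by
  intro σ ρ d x ω ϱ c1 cJ cs ch cr c5 Y1 Y2 h1 h2
  unfold Qf
  linear_combination (1091 / 5000) * h1 + (489 / 2000) * h2 +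
    (112299 / 25187500000) * sq_nonneg (65 * σ - 93 * ρ) +
    (5657 / 2864400000) * sq_nonneg (77 * σ - 93 * d) +
    (13207 / 697500000) * sq_nonneg (35 * σ - 93 * x) +
    (1 / 42625) * sq_nonneg (22 * σ - 93 * ϱ) +
    (2971 / 7440000) * sq_nonneg (8 * σ - 93 * c1) +
    (4891 / 1860000) * sq_nonneg (2 * σ - 93 * cJ) +
    (722183 / 96875000) * sq_nonneg (1 * σ - 31 * c5) +
    (3023574561 / 26000000000000) * sq_nonneg (20 * ρ - 13 * ω) +
    (111984243 / 65000000000) * sq_nonneg (3 * ρ - 65 * c5) +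
    (35251677 / 812500000) * sq_nonneg (1 * ρ - 13 * Y1) +
    (34477 / 66000000) * sq_nonneg (5 * d - 11 * x) +
    (277 / 4158000) * sq_nonneg (9 * d - 77 * cs) +
    (179 / 2772000) * sq_nonneg (6 * d - 77 * ch) +
    (384721311 / 308000000000) * sq_nonneg (4 * d - 77 * cr) +
    (277 / 1890000) * sq_nonneg (9 * x - 35 * cs) +
    (179 / 1260000) * sq_nonneg (6 * x - 35 * ch) +
    (2160476493 / 2500000000000) * sq_nonneg (3 * ω - 100 * c5) +
    (1041190927 / 31250000000) * sq_nonneg (1 * ω - 20 * Y1) +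
    (2971 / 750000) * sq_nonneg (3 * ω - 25 * Y2) +
    (75566603 / 234375000) * sq_nonneg (5 * c5 - 3 * Y1) +
    (28365613 / 13950000000) * sq_nonneg σ +
    (36475129 / 130000000000) * sq_nonneg ρ +
    (1193749619 / 462000000000) * sq_nonneg d +
    (113327 / 210000000) * sq_nonneg x +
    (2657941903 / 10000000000000) * sq_nonneg ω +
    (39 / 5500) * sq_nonneg ϱ +
    (16497 / 80000) * sq_nonneg c1 +
    (25137 / 20000) * sq_nonneg cJ +
    (229 / 27000) * sq_nonneg cs +
    (167 / 4500) * sq_nonneg ch +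
    (684918077 / 4000000000) * sq_nonneg cr +
    (21221969687 / 3000000000) * sq_nonneg c5 +
    (665346571 / 312500000) * sq_nonneg Y1 +
    (487 / 6000) * sq_nonneg Y2

theorem qp8 : QP (133 / 800) (773 / 250) (1073 / 20) (377 / 2000) (337 / 5000) (66 / 125) (3463 / 5000) (1421 / 2500) (29 / 100) (119 / 500) (86 / 125) (323 / 100) (1641 / 1000) (163 / 1000) (1227 / 200) := by
  intro σ ρ d x ω ϱ c1 cJ cs ch cr c5 Y1 Y2 h1 h2
  unfold Qf
  linear_combination (229 / 1000) * h1 + (2673 / 10000) * h2 +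
    (152779 / 1897450000000) * sq_nonneg (554 * σ - 685 * ρ) +
    (1577 / 37246875000) * sq_nonneg (609 * σ - 685 * d) +
    (238169 / 628830000000) * sq_nonneg (306 * σ - 685 * x) +
    (1421 / 128780000) * sq_nonneg (47 * σ - 137 * ϱ) +
    (3463 / 465800000) * sq_nonneg (68 * σ - 685 * c1) +
    (1261 / 28770000) * sq_nonneg (21 * σ - 685 * cJ) +
    (1943491 / 123300000000) * sq_nonneg (27 * σ - 685 * c5) +
    (738582921 / 3462500000000000) * sq_nonneg (500 * ρ - 277 * ω) +
    (27354923 / 1246500000000) * sq_nonneg (27 * ρ - 554 * c5) +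
    (16152907 / 124650000000) * sq_nonneg (18 * ρ - 277 * Y1) +
    (3989 / 2484720000) * sq_nonneg (102 * d - 203 * x) +
    (1 / 995400) * sq_nonneg (79 * d - 609 * cs) +
    (17 / 16704000) * sq_nonneg (64 * d - 609 * ch) +
    (6275387 / 6796875000) * sq_nonneg (5 * d - 87 * cr) +
    (29 / 14504400) * sq_nonneg (79 * x - 306 * cs) +
    (7 / 864000) * sq_nonneg (32 * x - 153 * ch) +
    (1043940201 / 100000000000000) * sq_nonneg (27 * ω - 1000 * c5) +
    (2821065527 / 7500000000000) * sq_nonneg (9 * ω - 250 * Y1) +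
    (3463 / 46000000) * sq_nonneg (23 * ω - 200 * Y2) +
    (205480003 / 400000000) * sq_nonneg (4 * c5 - 3 * Y1) +
    (10938173 / 13700000000) * sq_nonneg σ +
    (62692139 / 83100000000) * sq_nonneg ρ +
    (9165159 / 12687500000) * sq_nonneg d +
    (243211 / 91800000) * sq_nonneg x +
    (7258476589 / 20000000000000) * sq_nonneg ω +
    (2723 / 940000) * sq_nonneg ϱ +
    (23329 / 136000) * sq_nonneg c1 +
    (28843 / 8400) * sq_nonneg cJ +
    (229 / 9875) * sq_nonneg cs +
    (1721 / 64000) * sq_nonneg ch +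
    (46346091 / 78125000) * sq_nonneg cr +
    (1035624873 / 200000000) * sq_nonneg c5 +
    (2477769263 / 720000000) * sq_nonneg Y1 +
    (232 / 2875) * sq_nonneg Y2

theorem qp9 : QP (1267 / 5000) (562 / 125) (6419 / 100) (1103 / 5000) (79 / 1000) (309 / 500) (8133 / 10000) (1691 / 2000) (303 / 1000) (63 / 200) (619 / 1000) (479 / 125) (1659 / 1000) (27 / 200) (926 / 125) := by
  intro σ ρ d x ω ϱ c1 cJ cs ch cr c5 Y1 Y2 h1 h2
  unfold Qf
  linear_combination (453 / 2500) * h1 + (1553 / 5000) * h2 +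
    (3261511 / 928200000000) * sq_nonneg (91 * σ - 102 * ρ) +
    (19979 / 336736000000) * sq_nonneg (619 * σ - 612 * d) +
    (46379 / 85136000000) * sq_nonneg (313 * σ - 612 * x) +
    (1691 / 758880000) * sq_nonneg (155 * σ - 306 * ϱ) +
    (2711 / 71400000) * sq_nonneg (35 * σ - 306 * c1) +
    (4147 / 70380000) * sq_nonneg (23 * σ - 612 * cJ) +
    (2913757 / 33150000000) * sq_nonneg (13 * σ - 306 * c5) +
    (99904743 / 520000000000000) * sq_nonneg (500 * ρ - 273 * ω) +
    (11100527 / 800000000) * sq_nonneg (1 * ρ - 21 * c5) +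
    (67305727 / 39000000000) * sq_nonneg (5 * ρ - 78 * Y1) +
    (15551 / 77498800000) * sq_nonneg (313 * d - 619 * x) +
    (101 / 102754000) * sq_nonneg (83 * d - 619 * cs) +
    (21 / 21046000) * sq_nonneg (85 * d - 619 * ch) +
    (334177547 / 17827200000000) * sq_nonneg (36 * d - 619 * cr) +
    (101 / 51958000) * sq_nonneg (83 * x - 313 * cs) +
    (21 / 10642000) * sq_nonneg (85 * x - 313 * ch) +
    (5622910083 / 130000000000000) * sq_nonneg (13 * ω - 500 * c5) +
    (356802789 / 500000000000) * sq_nonneg (7 * ω - 200 * Y1) +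
    (2711 / 620000000) * sq_nonneg (93 * ω - 1000 * Y2) +
    (25769721 / 3250000000) * sq_nonneg (35 * c5 - 26 * Y1) +
    (17358883 / 8160000000) * sq_nonneg σ +
    (202562967 / 291200000000) * sq_nonneg ρ +
    (5080925323 / 9904000000000) * sq_nonneg d +
    (1269489 / 626000000) * sq_nonneg x +
    (2265207249 / 8000000000000) * sq_nonneg ω +
    (1677 / 1240000) * sq_nonneg ϱ +
    (36651 / 350000) * sq_nonneg c1 +
    (55509 / 28750) * sq_nonneg cJ +
    (1323 / 83000) * sq_nonneg cs +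
    (39 / 2125) * sq_nonneg ch +
    (12228931639 / 28800000000) * sq_nonneg cr +
    (32242720173 / 10400000000) * sq_nonneg c5 +
    (155969363 / 50000000) * sq_nonneg Y1 +
    (1913 / 15500) * sq_nonneg Y2

theorem qp10 : QP (37321 / 100000) (2983 / 500) (8757 / 100) (1247 / 5000) (449 / 5000) (351 / 500) (2269 / 2500) (778 / 625) (37 / 125) (203 / 500) (273 / 500) (2293 / 500) (837 / 500) (113 / 1000) (177 / 20) := by
  intro σ ρ d x ω ϱ c1 cJ cs ch cr c5 Y1 Y2 h1 h2
  unfold Qf
  linear_combination (277 / 2500) * h1 + (3847 / 10000) * h2 +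
    (6879 / 94400000000) * sq_nonneg (649 * σ - 728 * ρ) +
    (140099 / 2901080000000) * sq_nonneg (797 * σ - 728 * d) +
    (101461 / 52689000000) * sq_nonneg (193 * σ - 364 * x) +
    (389 / 984620000) * sq_nonneg (541 * σ - 728 * ϱ) +
    (2269 / 20930000) * sq_nonneg (23 * σ - 182 * c1) +
    (5381 / 30940000) * sq_nonneg (17 * σ - 364 * cJ) +
    (21111651 / 1300000000) * sq_nonneg (1 * σ - 26 * c5) +
    (2288894517 / 64900000000000000) * sq_nonneg (1000 * ρ - 649 * ω) +
    (36331659 / 2596000000000) * sq_nonneg (28 * ρ - 649 * c5) +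
    (696725757 / 20119000000000) * sq_nonneg (31 * ρ - 649 * Y1) +
    (26473 / 184585200000) * sq_nonneg (386 * d - 797 * x) +
    (37 / 60372750) * sq_nonneg (101 * d - 797 * cs) +
    (203 / 325176000) * sq_nonneg (136 * d - 797 * ch) +
    (433950777 / 37459000000000) * sq_nonneg (47 * d - 797 * cr) +
    (37 / 29239500) * sq_nonneg (101 * x - 386 * cs) +
    (203 / 39372000) * sq_nonneg (68 * x - 193 * ch) +
    (1002514239 / 6250000000000) * sq_nonneg (7 * ω - 250 * c5) +
    (960672987 / 25000000000000) * sq_nonneg (31 * ω - 1000 * Y1) +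
    (2269 / 385000000) * sq_nonneg (77 * ω - 1000 * Y2) +
    (9843849 / 1000000000) * sq_nonneg (31 * c5 - 28 * Y1) +
    (39368813 / 62400000000) * sq_nonneg σ +
    (133572033 / 2596000000000) * sq_nonneg ρ +
    (158431403 / 1912800000000) * sq_nonneg d +
    (1977263 / 1158000000) * sq_nonneg x +
    (15113450783 / 100000000000000) * sq_nonneg ω +
    (833 / 1352500) * sq_nonneg ϱ +
    (3971 / 57500) * sq_nonneg c1 +
    (20329 / 21250) * sq_nonneg cJ +
    (313 / 60600) * sq_nonneg cs +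
    (2203 / 408000) * sq_nonneg ch +
    (2514496931 / 9400000000) * sq_nonneg cr +
    (6492461361 / 4000000000) * sq_nonneg c5 +
    (106369317543 / 31000000000) * sq_nonneg Y1 +
    (2791 / 38500) * sq_nonneg Y2

theorem qp11 : QP (29877 / 50000) (1319 / 200) (2281 / 20) (2813 / 10000) (1011 / 10000) (79 / 100) (2767 / 2500) (16867 / 10000) (313 / 1000) (477 / 1000) (459 / 1000) (527 / 100) (1621 / 1000) (23 / 200) (1087 / 125) := by
  intro σ ρ d x ω ϱ c1 cJ cs ch cr c5 Y1 Y2 h1 h2
  unfold Qf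
  linear_combination (197 / 2500) * h1 + (2271 / 5000) * h2 +
    (886941 / 653242400000000) * sq_nonneg (5365 * σ - 4566 * ρ) +
    (1432573 / 260444640000000) * sq_nonneg (2852 * σ - 2283 * d) +
    (2106193 / 36875016000000) * sq_nonneg (1346 * σ - 2283 * x) +
    (16867 / 1680653280000) * sq_nonneg (4601 * σ - 4566 * ϱ) +
    (2767 / 16140810000) * sq_nonneg (707 * σ - 4566 * c1) +
    (5587 / 143068000) * sq_nonneg (47 * σ - 761 * cJ) +
    (9396937 / 5296560000000) * sq_nonneg (116 * σ - 2283 * c5) +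
    (1493286273 / 171680000000000000) * sq_nonneg (2000 * ρ - 1073 * ω) +
    (165920697 / 1184000000000) * sq_nonneg (8 * ρ - 185 * c5) +
    (17980713 / 35194400000000) * sq_nonneg (246 * ρ - 5365 * Y1) +
    (59563 / 1151637600000) * sq_nonneg (673 * d - 1426 * x) +
    (313 / 26249808000) * sq_nonneg (767 * d - 5704 * cs) +
    (53 / 270940000) * sq_nonneg (285 * d - 1426 * ch) +
    (362981863 / 1619936000000000) * sq_nonneg (355 * d - 5704 * cr) +
    (313 / 12388584000) * sq_nonneg (767 * x - 2692 * cs) +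
    (53 / 127870000) * sq_nonneg (285 * x - 673 * ch) +
    (5273675487 / 725000000000000) * sq_nonneg (29 * ω - 1250 * c5) +
    (2654207569 / 1230000000000000) * sq_nonneg (123 * ω - 5000 * Y1) +
    (2767 / 1710000000) * sq_nonneg (171 * ω - 2000 * Y2) +
    (190501541 / 285360000000) * sq_nonneg (123 * c5 - 116 * Y1) +
    (429450467 / 219168000000) * sq_nonneg σ +
    (5504750589 / 17168000000000) * sq_nonneg ρ +
    (21126263227 / 68448000000000) * sq_nonneg d +
    (45212021 / 16152000000) * sq_nonneg x +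
    (139354061259 / 800000000000000) * sq_nonneg ω +
    (141039 / 184040000) * sq_nonneg ϱ +
    (151989 / 1767500) * sq_nonneg c1 +
    (260293 / 188000) * sq_nonneg cJ +
    (27509 / 2301000) * sq_nonneg cs +
    (1613 / 190000) * sq_nonneg ch +
    (24479301997 / 71000000000) * sq_nonneg cr +
    (493958989571 / 185600000000) * sq_nonneg c5 +
    (35736555779 / 6560000000) * sq_nonneg Y1 +
    (4189 / 34200) * sq_nonneg Y2

theorem qp12 : QP (18637 / 20000) (8869 / 1000) (14139 / 100) (1523 / 5000) (547 / 5000) (171 / 200) (6637 / 5000) (1387 / 625) (8 / 25) (107 / 200) (381 / 1000) (6169 / 1000) (79 / 50) (23 / 200) (1087 / 125) := by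
  intro σ ρ d x ω ϱ c1 cJ cs ch cr c5 Y1 Y2 h1 h2
  unfold Qf
  linear_combination (779 / 10000) * h1 + (2371 / 5000) * h2 +
    (25854279 / 131437600000000) * sq_nonneg (479 * σ - 343 * ρ) +
    (448667 / 1588090000000) * sq_nonneg (463 * σ - 343 * d) +
    (334153 / 125023500000) * sq_nonneg (243 * σ - 343 * x) +
    (1387 / 15925000) * sq_nonneg (65 * σ - 49 * ϱ) +
    (6637 / 219520000) * sq_nonneg (64 * σ - 343 * c1) +
    (5911 / 30870000) * sq_nonneg (27 * σ - 343 * cJ) +
    (5360861 / 1470000000) * sq_nonneg (3 * σ - 49 * c5) +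
    (60408693 / 1916000000000000) * sq_nonneg (1000 * ρ - 479 * ω) +
    (2237359 / 134120000000) * sq_nonneg (21 * ρ - 479 * c5) +
    (524136747 / 8430400000000) * sq_nonneg (22 * ρ - 479 * Y1) +
    (12889 / 27002160000) * sq_nonneg (243 * d - 463 * x) +
    (2 / 1145925) * sq_nonneg (66 * d - 463 * cs) +
    (107 / 60004800) * sq_nonneg (108 * d - 463 * ch) +
    (124790301 / 3704000000000) * sq_nonneg (30 * d - 463 * cr) +
    (2 / 66825) * sq_nonneg (22 * x - 81 * cs) +
    (107 / 43200) * sq_nonneg (4 * x - 9 * ch) +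
    (4175229 / 350000000000) * sq_nonneg (21 * ω - 1000 * c5) +
    (1514199557 / 5500000000000) * sq_nonneg (11 * ω - 500 * Y1) +
    (6637 / 47500000) * sq_nonneg (19 * ω - 250 * Y2) +
    (108679273 / 4620000000) * sq_nonneg (22 * c5 - 21 * Y1) +
    (1126019399 / 274400000000) * sq_nonneg σ +
    (1652557787 / 1532800000000) * sq_nonneg ρ +
    (1992839227 / 7408000000000) * sq_nonneg d +
    (4835509 / 1458000000) * sq_nonneg x +
    (4821774477 / 4000000000000) * sq_nonneg ω +
    (287 / 325000) * sq_nonneg ϱ +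
    (65909 / 640000) * sq_nonneg c1 +
    (132527 / 90000) * sq_nonneg cJ +
    (1237 / 99000) * sq_nonneg cs +
    (3601 / 324000) * sq_nonneg ch +
    (3367254517 / 8000000000) * sq_nonneg cr +
    (677119987 / 280000000) * sq_nonneg c5 +
    (96639720883 / 17600000000) * sq_nonneg Y1 +
    (1293 / 9500) * sq_nonneg Y2

theorem qp13 : QP (77171 / 50000) (9447 / 1000) (1793 / 10) (811 / 2500) (233 / 2000) (91 / 100) (1881 / 1250) (29997 / 10000) (38 / 125) (303 / 500) (3 / 10) (141 / 20) (297 / 200) (29 / 200) (6897 / 1000) := by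
  intro σ ρ d x ω ϱ c1 cJ cs ch cr c5 Y1 Y2 h1 h2
  unfold Qf
  linear_combination (289 / 2000) * h1 + (2083 / 5000) * h2 +
    (4653 / 4480000) * sq_nonneg (7 * σ - 4 * ρ) +
    (43593 / 160000000) * sq_nonneg (17 * σ - 12 * d) +
    (377047 / 12416000000) * sq_nonneg (97 * σ - 96 * x) +
    (9999 / 27520000) * sq_nonneg (43 * σ - 24 * ϱ) +
    (627 / 6560000) * sq_nonneg (41 * σ - 192 * c1) +
    (3003 / 320000) * sq_nonneg (5 * σ - 48 * cJ) +
    (153549 / 870400000) * sq_nonneg (17 * σ - 192 * c5) +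
    (612117 / 280000000000) * sq_nonneg (125 * ρ - 42 * ω) +
    (68013 / 3046400000) * sq_nonneg (17 * ρ - 336 * c5) +
    (32289 / 8960000) * sq_nonneg (3 * ρ - 56 * Y1) +
    (34277 / 7915200000) * sq_nonneg (97 * d - 136 * x) +
    (19 / 1071000) * sq_nonneg (21 * d - 136 * cs) +
    (101 / 22032000) * sq_nonneg (81 * d - 272 * ch) +
    (38461 / 413440000) * sq_nonneg (19 * d - 272 * cr) +
    (19 / 763875) * sq_nonneg (21 * x - 97 * cs) +
    (101 / 15714000) * sq_nonneg (81 * x - 194 * ch) +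
    (181798749 / 13600000000000) * sq_nonneg (17 * ω - 1000 * c5) +
    (14708133 / 40000000000) * sq_nonneg (9 * ω - 500 * Y1) +
    (209 / 22500000) * sq_nonneg (81 * ω - 1000 * Y2) +
    (1065537 / 27200000) * sq_nonneg (18 * c5 - 17 * Y1) +
    (12784669 / 1280000000) * sq_nonneg σ +
    (31547 / 25600000) * sq_nonneg ρ +
    (617683 / 8160000000) * sq_nonneg d +
    (254147 / 72750000) * sq_nonneg x +
    (879768717 / 800000000000) * sq_nonneg ω +
    (309 / 430000) * sq_nonneg ϱ +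
    (6999 / 51250) * sq_nonneg c1 +
    (2973 / 1250) * sq_nonneg cJ +
    (1313 / 63000) * sq_nonneg cs +
    (131 / 10125) * sq_nonneg ch +
    (290493 / 380000) * sq_nonneg cr +
    (474817173 / 136000000) * sq_nonneg c5 +
    (12547721 / 1600000) * sq_nonneg Y1 +
    (1423 / 9000) * sq_nonneg Y2

theorem qp14 : QP (1151 / 10000) 0 (287 / 100) (3447 / 10000) (1287 / 10000) 1 0 1 0 1 (29 / 125) (229 / 200) (229 / 200) (129 / 1000) (969 / 125) := by
  intro σ ρ d x ω ϱ c1 cJ cs ch cr c5 Y1 Y2 h1 h2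
  unfold Qf
  linear_combination (309 / 10000) * h1 + (5241 / 10000) * h2 +
    (6641 / 400000000) * sq_nonneg (11 * σ - 20 * ρ) +
    (39 / 880000) * sq_nonneg (11 * σ - 20 * d) +
    (1 / 43200) * sq_nonneg (27 * σ - 100 * x) +
    (1 / 120) * sq_nonneg (3 * σ - 5 * ϱ) +
    (1 / 600) * sq_nonneg (3 * σ - 100 * cJ) +
    (576851 / 800000000) * sq_nonneg (1 * σ - 100 * c5) +
    (67479201 / 100000000000) * sq_nonneg (2 * ρ - 5 * ω) +
    (7497689 / 5500000000) * sq_nonneg (1 * ρ - 55 * c5) +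
    (7497689 / 44000000000) * sq_nonneg (8 * ρ - 55 * Y1) +
    (1 / 23760) * sq_nonneg (27 * d - 55 * x) +
    (1 / 7920) * sq_nonneg (24 * d - 55 * ch) +
    (32199489 / 13750000000) * sq_nonneg (4 * d - 55 * cr) +
    (1 / 432) * sq_nonneg (8 * x - 9 * ch) +
    (532853001 / 88000000000) * sq_nonneg (1 * ω - 22 * c5) +
    (821278501 / 176000000000) * sq_nonneg (4 * ω - 11 * Y1) +
    (59205889 / 320000000) * sq_nonneg (8 * c5 - 1 * Y1) +
    (106027 / 800000000) * sq_nonneg σ +
    (1082793517 / 825000000000) * sq_nonneg ρ +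
    (61262521 / 13750000000) * sq_nonneg d +
    (193 / 11250) * sq_nonneg x +
    (45866381351 / 4400000000000) * sq_nonneg ω +
    (1 / 600) * sq_nonneg ϱ +
    (183 / 50) * sq_nonneg c1 +
    (22 / 3) * sq_nonneg cJ +
    (583 / 1000) * sq_nonneg cs +
    (221 / 9000) * sq_nonneg ch +
    (128836281 / 250000000) * sq_nonneg cr +
    (27027234039 / 2000000000) * sq_nonneg c5 +
    (1995828539 / 16000000000) * sq_nonneg Y1

end Crest.Agent.R253
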