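import Crest.Agent.R253.TmJ0

/-! Row 253: kernel certificate for the joint inequalities. -/

set_option autoImplicit false
set_option maxRecDepth 100000

namespace Crest.Agent.R253.Tm

theorem csJ_n0 : chkJN [⟨10300, 0, 20900, 12140, 854000, 2523, 1379, -532⟩] = true := by decide +kernel
theorem csJ_n1 : chkJN [⟨15000, 0, 20700, 11830, 840000, 4212, 1638, -527⟩] = true := by decide +kernel
theorem csJ_n2 : chkJN [⟨14600, 0, 33900, 11000, 760000, 3987, 1388, -427⟩] = true := by decide +kernel
theorem csJ_n3 : chkJN [⟨14800, 0, 41100, 9870, 648000, 4036, 1256, -359⟩] = true := by decide +kernel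
theorem csJ_n4 : chkJN [⟨14800, 0, 36200, 8890, 574000, 4070, 1193, -306⟩] = true := by decide +kernel
theorem csJ_n5 : chkJN [⟨29050, 14700, 124000, 34940, 1409000, 1727, 5552, 3270⟩] = true := by decide +kernel
theorem csJ_n6 : chkJN [⟨54180, 12800, 180100, 51580, 2307000, 9389, 6991, 2447⟩] = true := by decide +kernel
theorem csJ_n7 : chkJN [⟨76170, 17900, 255700, 77560, 3381000, 12416, 9618, 3519⟩] = true := by decide +kernel
theorem csJ_n8 : chkJN [⟨104400, 23800, 309200, 114700, 5365000, 15208, 12438, 4858⟩] = true := by decide +kernel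
theorem csJ_n9 : chkJN [⟨142410, 31500, 449600, 161530, 6419000, 20051, 16008, 6610⟩] = true := by decide +kernel
theorem csJ_n10 : chkJN [⟨183520, 40600, 596600, 231300, 8757000, 23177, 20233, 8618⟩] = true := by decide +kernel
theorem csJ_n11 : chkJN [⟨262920, 47700, 659500, 305500, 11405000, 36182, 24590, 10283⟩] = true := by decide +kernel
theorem csJ_n12 : chkJN [⟨368000, 53500, 886900, 418600, 14139000, 50232, 29211, 11621⟩] = true := by decide +kernel
theorem csJ_n13 : chkJN [⟨492480, 60600, 944700, 546730, 17930000, 68480, 33995, 13315⟩] = true := by decide +kernel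
theorem csJ_n14 : chkJN [⟨0, 100000, 0, 0, 0, -37075, 21171, 23921⟩] = true := by decide +kernel
theorem csJ_n15 : chkJN [⟨0, 0, 0, 14410, 287000, -1588, 0, 0⟩] = true := by decide +kernel

end Crest.Agent.R253.Tm
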