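import Crest.Agent.R253.TmJ0

/-! Row 253: kernel certificate for the joint inequalities. -/

set_option autoImplicit false
set_option maxRecDepth 100000

namespace Crest.Agent.R253.Tm

theorem csJ_p0 : chkJP [⟨10300, 0, 20900, 12140, 854000, 2523, 1379, -532⟩] = true := by decide +kernel
theorem csJ_p1 : chkJP [⟨15000, 0, 20700, 11830, 840000, 4212, 1638, -527⟩] = true := by decide +kernel
theorem csJ_p2 : chkJP [⟨14600, 0, 33900, 11000, 760000, 3987, 1388, -427⟩] = true := by decide +kernel
theorem csJ_p3 : chkJP [⟨14800, 0, 41100, 9870, 648000, 4036, 1256, -359⟩] = true := by decide +kernel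
theorem csJ_p4 : chkJP [⟨14800, 0, 36200, 8890, 574000, 4070, 1193, -306⟩] = true := by decide +kernel
theorem csJ_p5 : chkJP [⟨29050, 14700, 124000, 34940, 1409000, 1727, 5552, 3270⟩] = true := by decide +kernel
theorem csJ_p6 : chkJP [⟨54180, 12800, 180100, 51580, 2307000, 9389, 6991, 2447⟩] = true := by decide +kernel
theorem csJ_p7 : chkJP [⟨76170, 17900, 255700, 77560, 3381000, 12416, 9618, 3519⟩] = true := by decide +kernel
theorem csJ_p8 : chkJP [⟨104400, 23800, 309200, 114700, 5365000, 15208, 12438, 4858⟩] = true := by decide +kernel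
theorem csJ_p9 : chkJP [⟨142410, 31500, 449600, 161530, 6419000, 20051, 16008, 6610⟩] = true := by decide +kernel
theorem csJ_p10 : chkJP [⟨183520, 40600, 596600, 231300, 8757000, 23177, 20233, 8618⟩] = true := by decide +kernel
theorem csJ_p11 : chkJP [⟨262920, 47700, 659500, 305500, 11405000, 36182, 24590, 10283⟩] = true := by decide +kernel
theorem csJ_p12 : chkJP [⟨368000, 53500, 886900, 418600, 14139000, 50232, 29211, 11621⟩] = true := by decide +kernel
theorem csJ_p13 : chkJP [⟨492480, 60600, 944700, 546730, 17930000, 68480, 33995, 13315⟩] = true := by decide +kernel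
theorem csJ_p14 : chkJP [⟨0, 100000, 0, 0, 0, -37075, 21171, 23921⟩] = true := by decide +kernel
theorem csJ_p15 : chkJP [⟨0, 0, 0, 14410, 287000, -1588, 0, 0⟩] = true := by decide +kernel

end Crest.Agent.R253.Tm
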