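import Crest.Agent.R253.TmChk

/-! Row 253: checkers for the joint inequalities (no Mathlib import). -/

set_option autoImplicit false

namespace Crest.Agent.R253.Tm

open Crest.Agent.Lib.PolyBB

/-- coefficients of a joint inequality -/
structure JC where
  A : Int
  B : Int
  k1 : Int
  l : Int
  k2 : Int
  a : Int
  b : Int
  c : Int

def extC : List Ex := [
  (.mul (.v 0) (.v 0)),
  (.sub (.sub (.sub (.sub (.sm 400 (.v 10)) (.sm 200 (.mul (.v 2) (.v 2)))) (.c 200)) (.sm 26 (.v 11))) (.sm 75 (.mul (.v 0) (.v 3)))),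
  (.mul (.sub (.sm 25 (.v 8)) (.c 8)) (.sub (.sm 25 (.v 8)) (.c 8))),
  (.mul (.sub (.sm 200 (.v 6)) (.c 11)) (.sub (.sm 200 (.v 6)) (.c 11)))]

def extP1 : List Ex := [
  (.mul (.v 0) (.v 0)),
  (.mul (.v 0) (.v 7)),
  (.mul (.v 1) (.v 1)),
  (.sub (.sub (.sub (.add (.sub (.c 200) (.sm 50 (.v 24))) (.sm 200 (.mul (.v 23) (.sub (.sub (.c 2) (.v 24)) (.mul (.v 24) (.v 23)))))) (.sm 200 (.v 22))) (.c 26)) (.sm 75 (.v 3))),
  (.mul (.v 22) (.v 18)),
  (.mul (.v 5) (.v 1)),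
  (.add (.add (.v 13) (.mul (.v 0) (.mul (.v 27) (.v 15)))) (.mul (.v 23) (.add (.add (.sub (.mul (.v 27) (.v 14)) (.v 12)) (.mul (.v 0) (.mul (.v 1) (.v 15)))) (.mul (.v 23) (.mul (.v 1) (.v 14))))))]

def extP2 : List Ex := [
  (.mul (.v 22) (.v 28)),
  (.mul (.v 22) (.mul (.sub (.sm 25 (.v 28)) (.c 8)) (.sub (.sm 25 (.v 28)) (.c 8)))),
  (.mul (.v 22) (.v 26)),
  (.mul (.v 22) (.mul (.sub (.sm 200 (.v 26)) (.c 11)) (.sub (.sm 200 (.v 26)) (.c 11))))]

def extN : List Ex := [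
  (.mul (.v 0) (.v 0)),
  (.add (.sub (.mul (.v 12) (.sub (.sub (.sm 400 (.v 11)) (.sm 200 (.mul (.v 5) (.v 5)))) (.c 200))) (.c 26)) (.sm 75 (.v 3))),
  (.mul (.v 12) (.v 9)),
  (.mul (.v 12) (.mul (.sub (.sm 25 (.v 9)) (.c 8)) (.sub (.sm 25 (.v 9)) (.c 8)))),
  (.mul (.v 12) (.v 7)),
  (.mul (.v 12) (.mul (.sub (.sm 200 (.v 7)) (.c 11)) (.sub (.sm 200 (.v 7)) (.c 11))))]

/-- the linear combination; `i1 … i5` are the slots of the five functions, `e6 e7 e8` the monomials -/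
def mkJ (i1 i2 i3 i4 i5 : Nat) (e6 e7 e8 : Ex) (c : JC) : Ex :=
  .sub (.sub (.add (.sm c.B (.sm 200 (.v i2))) (.sm 40000 (.sub (.sub (.sm c.A (.v i1))
    (.sm c.l (.v i4))) (.add (.add (.sm c.a e6) (.sm c.b e7)) (.sm c.c e8)))))
    (.sm c.k1 (.sm 64 (.v i3)))) (.sm c.k2 (.v i5))

def mkC : JC → Ex := mkJ 8 12 13 6 14 (.c 1) (.v 0) (.v 11)
def mkP : JC → Ex := mkJ 29 25 30 31 32 (.v 22) (.v 0) (.c 1)
def mkN : JC → Ex := mkJ 14 13 15 16 17 (.v 12) (.sm (-1) (.v 0)) (.c 1)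

noncomputable def strip (l : List Z) : List Z :=
  List.rec (motive := fun _ => List Z) []
    (fun x l ih => Bool.rec (motive := fun _ => List Z) (x :: l) ih (Nat.beq (zabs x) 0)) l
/-- lower bound on `[0, 1]` by a polynomial of degree `n` -/
noncomputable def cut (l : List Z) : Nat → List Z :=
  List.rec (motive := fun _ => Nat → List Z) (fun _ => [])
    (fun x l ih n => Nat.rec (motive := fun _ => List Z) [Z.neg (nsR (x :: l))]
      (fun m _ => x :: ih m) n) l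
noncomputable def horner (X : TM) (d : List Z) : TM :=
  List.rec (motive := fun _ => TM) (tex []) 
    (fun c _ ih => fT (tmul 8 0 X ih) (fun B => tadd (tex [c]) B)) d
/-- `σ = (2 k + 1 + τ) / 32` -/
noncomputable def tS (k : Nat) : TM :=
  tex [Z.pos (Nat.mul (Nat.succ (Nat.mul 2 k)) S32), Z.pos S32]
/-- positivity on `[0, 1]`, cut into sixteen pieces -/
noncomputable def posS (A : TM) : Bool :=
  fT A (fun A => band A.ok (fL (cut (strip (psub A.p (pofN A.r))) 7)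
    (fun d => allR (fun k => fT (tS k) (fun X => posC (horner X d))) 0 16)))

noncomputable def tXq : TM :=
  ⟨true, [Z.pos 32958915605933964438914283339, Z.pos 158456325028528675187087900672,
    Z.neg 160932205107099435736886149120], [32958915605933964438914283339]⟩

noncomputable def chkJC (cs : List JC) (j : Nat) : Bool :=
  chkE posC 8 0 [tT j, tH j, tR j, tE j] (app progC extC) (lmap mkC cs)
noncomputable def chkJP (cs : List JC) : Bool :=
  chkE posS 33 32 [tU, tG, tI, tW, tXq, tHf, tL8] (app (app progP extP1) extP2) (lmap mkP cs)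
noncomputable def chkJN (cs : List JC) : Bool :=
  chkE posS 33 32 [tU, tadd tG tTiny, tTiny, tW] (app progN extN) (lmap mkN cs)

end Crest.Agent.R253.Tm
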