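import Crest.Agent.R253.TmTube
import Crest.Agent.R253.TmJ0

/-! Row 253: soundness of the checkers for the joint inequalities. -/

set_option autoImplicit false
set_option linter.unusedVariables false

open Set
open Crest.Agent.R203 Crest.Agent.Lib.PolyBB

namespace Crest.Agent.R253.Tm

theorem strip_spec (l : List Z) {s : ℝ} (h0 : 0 ≤ s) (h : 0 ≤ ev (strip l) s) : 0 ≤ ev l s := by
  induction l with
  | nil => exact h
  | cons x l ih =>
    have e : strip (x :: l) =
      Bool.rec (motive := fun _ => List Z) (x :: l) (strip l) (Nat.beq (zabs x) 0) := rfl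
    rw [e] at h
    cases hx : Nat.beq (zabs x) 0 with
    | false => rwa [hx] at h
    | true =>
      rw [hx] at h
      have h1 : |zv x| = 0 := by rw [← zabs_eq, Nat.eq_of_beq_eq_true hx]; simp
      rw [ev_cons, abs_eq_zero.1 h1, zero_add]
      exact mul_nonneg h0 (ih h)

theorem cut_spec (l : List Z) (n : ℕ) {s : ℝ} (h0 : 0 ≤ s) (h1 : s ≤ 1) :
    ev (cut l n) s ≤ ev l s := by
  induction l generalizing n with
  | nil => exact le_rfl
  | cons x l ih =>
    cases n with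
    | zero =>
      show ev [Z.neg (nsR (x :: l))] s ≤ _
      have := nsR_spec (x :: l) h0 h1 zero_le_one le_rfl
      simpa using this
    | succ m =>
      show ev (x :: cut l m) s ≤ _
      have := mul_le_mul_of_nonneg_left (ih m) h0
      simp only [ev_cons]
      linarith

theorem mem_horner {X : TM} {τ x : ℝ} (hτ : |τ| ≤ 1) (hX : Mem X τ x) (d : List Z) :
    Mem (horner X d) τ (ev d x / SS) := by
  induction d with
  | nil => exact mem_tex []
  | cons c d ih =>
    have h := (mem_tex (s := τ) [c]).add (hX.mul 8 0 hτ ih)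
    have e : ev [c] τ / SS + x * (ev d x / SS) = ev (c :: d) x / SS := by
      simp only [ev_cons, ev_nil]; ring
    rw [e] at h
    show Mem (fT (tmul 8 0 X (horner X d)) (fun B => tadd (tex [c]) B)) _ _
    rwa [fT_eq]

theorem mem_S (k : ℕ) (s : ℝ) : Mem (tS k) (32 * s - (2 * k + 1)) s := by
  have := mem_tex (s := 32 * s - (2 * k + 1))
    [Z.pos (Nat.mul (Nat.succ (Nat.mul 2 k)) S32), Z.pos S32]
  have e : ev [Z.pos (Nat.mul (Nat.succ (Nat.mul 2 k)) S32), Z.pos S32] (32 * s - (2 * k + 1)) / SS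
      = s := by
    have e1 : ((Nat.mul (Nat.succ (Nat.mul 2 k)) S32 : ℕ) : ℝ) = (2 * k + 1) * S32 := by
      show (((2 * k + 1) * S32 : ℕ) : ℝ) = _
      push_cast; ring
    simp only [ev_cons, ev_nil, zv_pos, e1]
    unfold S32 SS
    push_cast
    ring
  rwa [e] at this

theorem posS_sound {A : TM} {s x : ℝ} (h0 : 0 ≤ s) (h1 : s ≤ 1) (h : Mem A s x)
    (hp : posS A = true) : 0 ≤ x := by
  unfold posS at hp
  rw [fT_eq, fL_eq] at hp
  obtain ⟨k1, k2⟩ := band_eq_true.1 hp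
  obtain ⟨k, hk, hτ⟩ : ∃ k : ℕ, k < 16 ∧ |32 * s - (2 * k + 1)| ≤ 1 := by
    rcases eq_or_lt_of_le h1 with rfl | h1
    · exact ⟨15, by norm_num, by norm_num⟩
    · have h2 : 0 ≤ 16 * s := by linarith
      refine ⟨⌊16 * s⌋₊, (Nat.floor_lt h2).2 (by push_cast; linarith), ?_⟩
      have := Nat.floor_le h2
      have := Nat.lt_floor_add_one (16 * s)
      rw [abs_le]; constructor <;> linarith
  have k3 := allR_sound k2 k (Nat.zero_le _) (by omega)
  rw [fT_eq] at k3
  have h3 := posC_sound hτ (mem_horner hτ (mem_S k s) _) k3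
  have h4 : 0 ≤ ev (strip (psub A.p (pofN A.r))) s :=
    ((div_nonneg_iff.1 h3).elim (fun h => h.1) (fun h => absurd h.2 (not_le.2 SS_pos))).trans
      (cut_spec _ _ h0 h1)
  have h5 := strip_spec _ h0 h4
  rw [ev_psub, ev_pofN] at h5
  have h6 := (abs_le.1 (h k1)).1
  rw [abs_of_nonneg h0] at h6
  exact nonneg_of_mul_nonneg_left (by linarith : 0 ≤ x * SS) SS_pos

theorem runR_app (s : ℝ) (p q : List Ex) (xs : List ℝ) :
    runR s (app p q) xs = runR s q (runR s p xs) := by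
  rw [app_eq]
  induction p generalizing xs with
  | nil => rfl
  | cons e p ih => exact ih _

/-- a joint inequality -/
def JJ (c : JC) (t : ℝ) : Prop :=
  0 ≤ c.A * qq t + c.B * GG t - c.k1 * (qq t - 8 / 25) ^ 2 - c.l * r2 t -
    c.k2 * (r2 t - 11 / 200) ^ 2 - (c.a + c.b * t + c.c * t ^ 2)

theorem sc_of' {a b c : ℝ} (hc : 0 < c) (h : 0 ≤ a) (e : a = c * b) : 0 ≤ b :=
  nonneg_of_mul_nonneg_right (e ▸ h) hc

theorem jj_mid {cs : List JC} (h : ∀ j, j < 256 → chkJC cs j = true) {t : ℝ} (h1 : -8 ≤ t)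
    (h2 : t ≤ 8) : ∀ c ∈ cs, JJ c t := by
  obtain ⟨j, hj, ht⟩ := exists_piece h1 h2
  have h3 := chkE_sound (fun A x hA hp => posC_sound (sg_abs ht) hA hp) 8 0 (sg_abs ht)
    (fun h => absurd rfl h)
    (.cons (mem_T j t) (.cons (mem_H hj ht) (.cons (mem_R hj ht) (.cons (mem_E ht) .nil)))) (h j hj)
  rw [runR_app, runC, lmap_eq] at h3
  intro c hc
  have h4 := h3 _ (List.mem_map_of_mem hc)
  simp only [mkC, mkJ, extC, envC, runR, Ex.val, List.cons_append, List.nil_append,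
    List.getD_cons_zero, List.getD_cons_succ, Int.cast_ofNat, Int.cast_one] at h4
  refine sc_of' (c := 40000) (by norm_num) h4 ?_
  unfold GG
  ring

theorem jj_neg {cs : List JC} (h : chkJN cs = true) {t : ℝ} (ht : 8 ≤ t) :
    ∀ c ∈ cs, JJ c (-t) := by
  have h3 := chkE_sound (fun A x hA hp => posS_sound (sig_mem ht).1.le (sig_mem ht).2 hA hp)
    33 32 (sig_abs ht) (fun _ => (sig_mem ht).1.ne')
    (.cons (mem_U ht) (.cons (mem_Ga ht) (.cons (mem_Hn ht) (.cons (mem_W ht) .nil)))) h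
  rw [runR_app, runN ht, lmap_eq] at h3
  intro c hc
  have h4 := h3 _ (List.mem_map_of_mem hc)
  simp only [mkN, mkJ, extN, envN, runR, Ex.val, List.cons_append, List.nil_append,
    List.getD_cons_zero, List.getD_cons_succ, Int.cast_ofNat, Int.cast_one, Int.cast_neg] at h4
  have h0 : 0 < t := by linarith
  have h0' := h0.ne'
  refine sc_of' (c := 40000 * t⁻¹ ^ 2) (by positivity) h4 ?_
  unfold GG
  field_simp
  ring

theorem mem_Xq {t : ℝ} (ht : 8 ≤ t) :
    Mem tXq (8 / t) (t⁻¹ * (FF t - t ^ 2 / 2 - (FF 8 - 32))) := by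
  intro _
  have ht0 : 0 < t := by linarith
  obtain ⟨-, h2⟩ := xp_bound ht
  obtain ⟨s0, s1⟩ := sig_mem ht
  have e : FF t - t ^ 2 / 2 - (FF 8 - 32) = -Real.log (lam 8 / lam t) := by
    rw [Real.log_div (lam_pos 8).ne' (lam_pos t).ne', FF_eq t, FF_eq 8]; ring
  have h3 := Real.log_le_sub_one_of_pos (div_pos (lam_pos 8) (lam_pos t))
  have h4 : lam 8 ≤ 65 / 64 * 8 := by
    have h5 := (lam_cf (t := 8) (by norm_num) 0).2
    have h6 : cfa (2 * 0 + 1) 0 8 = 1 / 8 := by simp [cfa]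
    linarith
  have h5 : lam 8 / lam t ≤ 65 / 64 * (8 / t) := by
    rw [← mul_div_assoc]
    exact div_le_div₀ (by norm_num) h4 ht0 (lt_lam t).le
  have h6 : t⁻¹ = 8 / t / 8 := by field_simp
  have h7 : 8 / t / 8 * (1 - 65 / 64 * (8 / t)) ≤ t⁻¹ * (FF t - t ^ 2 / 2 - (FF 8 - 32)) := by
    rw [h6, e]
    exact mul_le_mul_of_nonneg_left (by linarith) (by positivity)
  show |_ - ev [Z.pos _, Z.pos _, Z.neg _] _| ≤ evN [_] _
  simp only [ev_cons, ev_nil, evN_cons, evN_nil, zv_pos, zv_neg, SS, mul_zero, add_zero]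
  push_cast
  generalize t⁻¹ * (FF t - t ^ 2 / 2 - (FF 8 - 32)) = x at h2 h7
  generalize 8 / t = s at s0 s1 h7
  have h8 : s * s ≤ s := by nlinarith
  rw [abs_le]; constructor <;> nlinarith

structure EnvQ (t : ℝ) (l : List ℝ) : Prop where
  len : l.length = 29
  u : l.getD 0 0 = t⁻¹
  uu : l.getD 22 0 = t⁻¹ ^ 2
  G : l.getD 25 0 = 200 * t⁻¹ ^ 2 * GG t
  p2 : l.getD 26 0 = r2 t
  q : l.getD 28 0 = qq t

theorem runQ {t : ℝ} (ht : 8 ≤ t) : EnvQ t (runR (8 / t) (app progP extP1) [t⁻¹, t / lam t,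
    t⁻¹ * lam t, t⁻¹ * ee t, t⁻¹ * (FF t - t ^ 2 / 2 - (FF 8 - 32)), 1 / 2, FF 8 - 32]) := by
  have ht0 : t ≠ 0 := by linarith
  have hl := (lam_pos t).ne'
  have e8 : 8 / (8 / t) = t := by field_simp
  rw [runR_app]
  simp only [progP, extP1, runR, Ex.val, List.cons_append, List.nil_append, List.getD_cons_zero,
    List.getD_cons_succ, Int.cast_one, Int.cast_ofNat, e8]
  refine ⟨rfl, ?_, ?_, ?_, ?_, ?_⟩
  all_goals simp only [List.getD_cons_zero, List.getD_cons_succ, GG, qq, r2, r1, r0, bt]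
  all_goals field_simp
  all_goals ring

theorem getD_app1 {l : List ℝ} (m : List ℝ) {i : ℕ} (h : i < l.length) :
    (l ++ m).getD i 0 = l.getD i 0 := List.getD_append l m 0 i h

theorem getD_app2 {l : List ℝ} (m : List ℝ) {n : ℕ} (h : l.length = n) (i : ℕ) :
    (l ++ m).getD (n + i) 0 = m.getD i 0 := by
  rw [List.getD_append_right l m 0 (n + i) (by omega)]
  congr 1
  omega

theorem jj_pos {cs : List JC} (h : chkJP cs = true) {t : ℝ} (ht : 8 ≤ t) :
    ∀ c ∈ cs, JJ c t := by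
  have h3 := chkE_sound (fun A x hA hp => posS_sound (sig_mem ht).1.le (sig_mem ht).2 hA hp)
    33 32 (sig_abs ht) (fun _ => (sig_mem ht).1.ne')
    (.cons (mem_U ht) (.cons (mem_G ht) (.cons (mem_I ht) (.cons (mem_W ht) (.cons (mem_Xq ht)
      (.cons (mem_Hf _) (.cons (mem_L8 _) .nil))))))) h
  rw [runR_app, lmap_eq] at h3
  have hl := runQ ht
  generalize runR (8 / t) (app progP extP1) _ = l at h3 hl
  obtain ⟨hlen, a0, a22, a25, a26, a28⟩ := hl
  have b : ∀ (m : List ℝ) (i : ℕ), i < 29 → (l ++ m).getD i 0 = l.getD i 0 :=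
    fun m i hi => getD_app1 m (by omega)
  have e : runR (8 / t) extP2 l = l ++ [t⁻¹ ^ 2 * qq t,
      t⁻¹ ^ 2 * ((25 * qq t - 8) * (25 * qq t - 8)), t⁻¹ ^ 2 * r2 t,
      t⁻¹ ^ 2 * ((200 * r2 t - 11) * (200 * r2 t - 11))] := by
    simp only [extP2, runR, Ex.val, List.append_assoc, List.cons_append, List.nil_append,
      b _ 22 (by norm_num), b _ 26 (by norm_num), b _ 28 (by norm_num), a22, a26, a28,
      Int.cast_ofNat]
  rw [e] at h3
  intro c hc
  have h4 := h3 _ (List.mem_map_of_mem hc)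
  have c0 := fun m => getD_app2 m hlen 0
  have c1 := fun m => getD_app2 m hlen 1
  have c2 := fun m => getD_app2 m hlen 2
  have c3 := fun m => getD_app2 m hlen 3
  simp only [Nat.reduceAdd] at c0 c1 c2 c3
  simp only [mkP, mkJ, Ex.val, c0, c1, c2, c3, b _ 0 (by norm_num), b _ 22 (by norm_num),
    b _ 25 (by norm_num), a0, a22, a25,
    List.getD_cons_zero, List.getD_cons_succ, Int.cast_ofNat, Int.cast_one] at h4
  have h0 : 0 < t := by linarith
  have h0' := h0.ne'
  refine sc_of' (c := 40000 * t⁻¹ ^ 2) (by positivity) h4 ?_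
  field_simp
  ring

theorem jj_of {cs : List JC} (h0 : allR (chkJC cs) 0 64 = true) (h1 : allR (chkJC cs) 64 64 = true)
    (h2 : allR (chkJC cs) 128 64 = true) (h3 : allR (chkJC cs) 192 64 = true) {c : JC}
    (hc : c ∈ cs) (hP : chkJP [c] = true) (hN : chkJN [c] = true) (t : ℝ) : JJ c t := by
  rcases le_total 8 t with h | h
  · exact jj_pos hP h c List.mem_cons_self
  rcases le_total (-8) t with h' | h'
  · exact jj_mid (all_of_four h0 h1 h2 h3) h' h c hc
  · have := jj_neg hN (t := -t) (by linarith) c List.mem_cons_self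
    rwa [neg_neg] at this

end Crest.Agent.R253.Tm
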