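import Crest.Agent.R253.NumG
import Crest.Agent.R253.TmJS
import Crest.Agent.R253.TmJC0
import Crest.Agent.R253.TmJC1
import Crest.Agent.R253.TmJC2
import Crest.Agent.R253.TmJC3
import Crest.Agent.R253.TmJP
import Crest.Agent.R253.TmJN

/-! Row 253: the joint inequalities. -/

set_option autoImplicit false

namespace Crest.Agent.R253

theorem ji0 : JI (103 / 1000) 0 (607 / 5000) (209 / 1000) (427 / 50) (2523 / 100000) (1379 / 100000) (-133 / 25000) := by
  intro t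
  have h := Tm.jj_of Tm.csJ_c0 Tm.csJ_c1 Tm.csJ_c2 Tm.csJ_c3 (List.getElem_mem (n := 0) (by decide))
    Tm.csJ_p0 Tm.csJ_n0 t
  simp only [Tm.JJ, Tm.csJ, List.getElem_cons_zero, List.getElem_cons_succ] at h
  push_cast at h
  linarith
theorem ji1 : JI (3 / 20) 0 (1183 / 10000) (207 / 1000) (42 / 5) (1053 / 25000) (819 / 50000) (-527 / 100000) := by
  intro t
  have h := Tm.jj_of Tm.csJ_c0 Tm.csJ_c1 Tm.csJ_c2 Tm.csJ_c3 (List.getElem_mem (n := 1) (by decide))
    Tm.csJ_p1 Tm.csJ_n1 t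
  simp only [Tm.JJ, Tm.csJ, List.getElem_cons_zero, List.getElem_cons_succ] at h
  push_cast at h
  linarith
theorem ji2 : JI (73 / 500) 0 (11 / 100) (339 / 1000) (38 / 5) (3987 / 100000) (347 / 25000) (-427 / 100000) := by
  intro t
  have h := Tm.jj_of Tm.csJ_c0 Tm.csJ_c1 Tm.csJ_c2 Tm.csJ_c3 (List.getElem_mem (n := 2) (by decide))
    Tm.csJ_p2 Tm.csJ_n2 t
  simp only [Tm.JJ, Tm.csJ, List.getElem_cons_zero, List.getElem_cons_succ] at h
  push_cast at h
  linarith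
theorem ji3 : JI (37 / 250) 0 (987 / 10000) (411 / 1000) (162 / 25) (1009 / 25000) (157 / 12500) (-359 / 100000) := by
  intro t
  have h := Tm.jj_of Tm.csJ_c0 Tm.csJ_c1 Tm.csJ_c2 Tm.csJ_c3 (List.getElem_mem (n := 3) (by decide))
    Tm.csJ_p3 Tm.csJ_n3 t
  simp only [Tm.JJ, Tm.csJ, List.getElem_cons_zero, List.getElem_cons_succ] at h
  push_cast at h
  linarith
theorem ji4 : JI (37 / 250) 0 (889 / 10000) (181 / 500) (287 / 50) (407 / 10000) (1193 / 100000) (-153 / 50000) := by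
  intro t
  have h := Tm.jj_of Tm.csJ_c0 Tm.csJ_c1 Tm.csJ_c2 Tm.csJ_c3 (List.getElem_mem (n := 4) (by decide))
    Tm.csJ_p4 Tm.csJ_n4 t
  simp only [Tm.JJ, Tm.csJ, List.getElem_cons_zero, List.getElem_cons_succ] at h
  push_cast at h
  linarith
theorem ji5 : JI (581 / 2000) (147 / 1000) (1747 / 5000) (31 / 25) (1409 / 100) (1727 / 100000) (347 / 6250) (327 / 10000) := by
  intro t
  have h := Tm.jj_of Tm.csJ_c0 Tm.csJ_c1 Tm.csJ_c2 Tm.csJ_c3 (List.getElem_mem (n := 5) (by decide))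
    Tm.csJ_p5 Tm.csJ_n5 t
  simp only [Tm.JJ, Tm.csJ, List.getElem_cons_zero, List.getElem_cons_succ] at h
  push_cast at h
  linarith
theorem ji6 : JI (2709 / 5000) (16 / 125) (2579 / 5000) (1801 / 1000) (2307 / 100) (9389 / 100000) (6991 / 100000) (2447 / 100000) := by
  intro t
  have h := Tm.jj_of Tm.csJ_c0 Tm.csJ_c1 Tm.csJ_c2 Tm.csJ_c3 (List.getElem_mem (n := 6) (by decide))
    Tm.csJ_p6 Tm.csJ_n6 t
  simp only [Tm.JJ, Tm.csJ, List.getElem_cons_zero, List.getElem_cons_succ] at h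
  push_cast at h
  linarith
theorem ji7 : JI (7617 / 10000) (179 / 1000) (1939 / 2500) (2557 / 1000) (3381 / 100) (388 / 3125) (4809 / 50000) (3519 / 100000) := by
  intro t
  have h := Tm.jj_of Tm.csJ_c0 Tm.csJ_c1 Tm.csJ_c2 Tm.csJ_c3 (List.getElem_mem (n := 7) (by decide))
    Tm.csJ_p7 Tm.csJ_n7 t
  simp only [Tm.JJ, Tm.csJ, List.getElem_cons_zero, List.getElem_cons_succ] at h
  push_cast at h
  linarith
theorem ji8 : JI (261 / 250) (119 / 500) (1147 / 1000) (773 / 250) (1073 / 20) (1901 / 12500) (6219 / 50000) (2429 / 50000) := by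
  intro t
  have h := Tm.jj_of Tm.csJ_c0 Tm.csJ_c1 Tm.csJ_c2 Tm.csJ_c3 (List.getElem_mem (n := 8) (by decide))
    Tm.csJ_p8 Tm.csJ_n8 t
  simp only [Tm.JJ, Tm.csJ, List.getElem_cons_zero, List.getElem_cons_succ] at h
  push_cast at h
  linarith
theorem ji9 : JI (14241 / 10000) (63 / 200) (16153 / 10000) (562 / 125) (6419 / 100) (20051 / 100000) (2001 / 12500) (661 / 10000) := by
  intro t
  have h := Tm.jj_of Tm.csJ_c0 Tm.csJ_c1 Tm.csJ_c2 Tm.csJ_c3 (List.getElem_mem (n := 9) (by decide))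
    Tm.csJ_p9 Tm.csJ_n9 t
  simp only [Tm.JJ, Tm.csJ, List.getElem_cons_zero, List.getElem_cons_succ] at h
  push_cast at h
  linarith
theorem ji10 : JI (1147 / 625) (203 / 500) (2313 / 1000) (2983 / 500) (8757 / 100) (23177 / 100000) (20233 / 100000) (4309 / 50000) := by
  intro t
  have h := Tm.jj_of Tm.csJ_c0 Tm.csJ_c1 Tm.csJ_c2 Tm.csJ_c3 (List.getElem_mem (n := 10) (by decide))
    Tm.csJ_p10 Tm.csJ_n10 t
  simp only [Tm.JJ, Tm.csJ, List.getElem_cons_zero, List.getElem_cons_succ] at h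
  push_cast at h
  linarith
theorem ji11 : JI (6573 / 2500) (477 / 1000) (611 / 200) (1319 / 200) (2281 / 20) (18091 / 50000) (2459 / 10000) (10283 / 100000) := by
  intro t
  have h := Tm.jj_of Tm.csJ_c0 Tm.csJ_c1 Tm.csJ_c2 Tm.csJ_c3 (List.getElem_mem (n := 11) (by decide))
    Tm.csJ_p11 Tm.csJ_n11 t
  simp only [Tm.JJ, Tm.csJ, List.getElem_cons_zero, List.getElem_cons_succ] at h
  push_cast at h
  linarith
theorem ji12 : JI (92 / 25) (107 / 200) (2093 / 500) (8869 / 1000) (14139 / 100) (6279 / 12500) (29211 / 100000) (11621 / 100000) := by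
  intro t
  have h := Tm.jj_of Tm.csJ_c0 Tm.csJ_c1 Tm.csJ_c2 Tm.csJ_c3 (List.getElem_mem (n := 12) (by decide))
    Tm.csJ_p12 Tm.csJ_n12 t
  simp only [Tm.JJ, Tm.csJ, List.getElem_cons_zero, List.getElem_cons_succ] at h
  push_cast at h
  linarith
theorem ji13 : JI (3078 / 625) (303 / 500) (54673 / 10000) (9447 / 1000) (1793 / 10) (428 / 625) (6799 / 20000) (2663 / 20000) := by
  intro t
  have h := Tm.jj_of Tm.csJ_c0 Tm.csJ_c1 Tm.csJ_c2 Tm.csJ_c3 (List.getElem_mem (n := 13) (by decide))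
    Tm.csJ_p13 Tm.csJ_n13 t
  simp only [Tm.JJ, Tm.csJ, List.getElem_cons_zero, List.getElem_cons_succ] at h
  push_cast at h
  linarith
theorem ji14 : JI 0 1 0 0 0 (-1483 / 4000) (21171 / 100000) (23921 / 100000) := by
  intro t
  have h := Tm.jj_of Tm.csJ_c0 Tm.csJ_c1 Tm.csJ_c2 Tm.csJ_c3 (List.getElem_mem (n := 14) (by decide))
    Tm.csJ_p14 Tm.csJ_n14 t
  simp only [Tm.JJ, Tm.csJ, List.getElem_cons_zero, List.getElem_cons_succ] at h
  push_cast at h
  linarith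
theorem ji15 : JI 0 0 (11 / 100 * (131 / 100)) 0 (287 / 100) (-397 / 25000) 0 0 := by
  intro t
  have h := Tm.jj_of Tm.csJ_c0 Tm.csJ_c1 Tm.csJ_c2 Tm.csJ_c3 (List.getElem_mem (n := 15) (by decide))
    Tm.csJ_p15 Tm.csJ_n15 t
  simp only [Tm.JJ, Tm.csJ, List.getElem_cons_zero, List.getElem_cons_succ] at h
  push_cast at h
  linarith

end Crest.Agent.R253
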