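import Crest.Agent.R253.NumH
import Crest.Agent.R253.NumJ

/-! Row 253: the case distinction (generated). -/

set_option autoImplicit false

namespace Crest.Agent.R253

theorem NF.fin {E : (ℝ → ℝ) → ℝ} {v w ρ d x1 x2 ω ϱ c1 cJ cs ch cr c5 y1 y2 A C : ℝ}
    (h : NF E v w ρ d x1 x2 ω ϱ c1 cJ cs ch cr c5 y1 y2 A C) :
    NG v ρ d ω ϱ c1 cJ cs ch cr c5 A C := by
  have h0 : 0 ≤ v := h.hv ▸ sq_nonneg w
  rcases le_total v (1 / 2) with h1' | h1
  · exact h.lo (v0 := 0) (v1 := (1 / 2)) (w1 := (177 / 250)) (μ := (259 / 50000)) h0 h1' ji0 qp0 (by norm_num)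
  rcases le_total v 1 with h2' | h2
  · exact h.lo (v0 := (1 / 2)) (v1 := 1) (w1 := 1) (μ := (9 / 800)) h1 h2' ji1 qp1 (by norm_num)
  rcases le_total v (17 / 10) with h3' | h3
  · exact h.up (v0 := 1) (v1 := (17 / 10)) (w1 := (163 / 125)) (y := (103 / 1000)) h2 h3' ji2 qp2 (by norm_num)
  rcases le_total v (23 / 10) with h4' | h4
  · exact h.up (v0 := (17 / 10)) (v1 := (23 / 10)) (w1 := (1517 / 1000)) (y := (193 / 1000)) h3 h4' ji3 qp3 (by norm_num)
  rcases le_total v (11 / 4) with h5' | h5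
  · exact h.up (v0 := (23 / 10)) (v1 := (11 / 4)) (w1 := (1659 / 1000)) (y := (259 / 1000)) h4 h5' ji4 qp4 (by norm_num)
  rcases le_total v (63 / 20) with h6' | h6
  · exact h.mid (v0 := (11 / 4)) (v1 := (63 / 20)) (w1 := (71 / 40)) (τ := (751 / 2000)) h5 h6' ji5 qp5 (by norm_num)
  rcases le_total v (15 / 4) with h7' | h7
  · exact h.mid (v0 := (63 / 20)) (v1 := (15 / 4)) (w1 := (1937 / 1000)) (τ := (4781 / 10000)) h6 h7' ji6 qp6 (by norm_num)
  rcases le_total v (23 / 5) with h8' | h8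
  · exact h.mid (v0 := (15 / 4)) (v1 := (23 / 5)) (w1 := (429 / 200)) (τ := (6089 / 10000)) h7 h8' ji7 qp7 (by norm_num)
  rcases le_total v (57 / 10) with h9' | h9
  · exact h.mid (v0 := (23 / 5)) (v1 := (57 / 10)) (w1 := (597 / 250)) (τ := (1877 / 2500)) h8 h9' ji8 qp8 (by norm_num)
  rcases le_total v (36 / 5) with h10' | h10
  · exact h.mid (v0 := (57 / 10)) (v1 := (36 / 5)) (w1 := (671 / 250)) (τ := (1203 / 1250)) h9 h10' ji9 qp9 (by norm_num)
  rcases le_total v (47 / 5) with h11' | h11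
  · exact h.mid (v0 := (36 / 5)) (v1 := (47 / 5)) (w1 := (1533 / 500)) (τ := (12107 / 10000)) h10 h11' ji10 qp10 (by norm_num)
  rcases le_total v (25 / 2) with h12' | h12
  · exact h.mid (v0 := (47 / 5)) (v1 := (25 / 2)) (w1 := (442 / 125)) (τ := (15607 / 10000)) h11 h12' ji11 qp11 (by norm_num)
  rcases le_total v (86 / 5) with h13' | h13
  · exact h.mid (v0 := (25 / 2)) (v1 := (86 / 5)) (w1 := (1037 / 250)) (τ := (19311 / 10000)) h12 h13' ji12 qp12 (by norm_num)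
  rcases le_total v (49 / 2) with h14' | h14
  · exact h.mid (v0 := (86 / 5)) (v1 := (49 / 2)) (w1 := (99 / 20)) (τ := (301 / 125)) h13 h14' ji13 qp13 (by norm_num)
  exact h.top (V := (49 / 2)) (c := (131 / 100)) (a := (2319 / 2450)) (τ := (29287 / 10000)) h14 ji14 ji15 qp14 (by norm_num)

end Crest.Agent.R253
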