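import Crest.Agent.R203.OfEntB

/-!
# Row 253: the isotropic constant bound (S0390) from the entropy inequality (S0391)
-/

set_option autoImplicit false
set_option linter.unusedVariables false

open Matrix Set Filter Topology MeasureTheory ProbabilityTheory
open Crest.GeometryTopology.Isotropic
open Crest.Agent.R203 Crest.Agent.R203.OfEnt
open scoped ENNReal Pointwise

noncomputable section

namespace Crest.Agent.R253.Of391

variable {n : ℕ} {K : Set (Fin n → ℝ)}

/-- the height functional -/
def e0 (n : ℕ) : Fin (n + 1) → ℝ := Fin.cons 1 0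

theorem e0_dot (p : Fin (n + 1) → ℝ) : e0 n ⬝ᵥ p = p 0 := by
  simp [e0, dotProduct, Fin.sum_univ_succ]

theorem cons_smul (t : ℝ) (x : Fin n → ℝ) :
    (Fin.cons t (t • x) : Fin (n + 1) → ℝ) = t • (Fin.cons 1 x : Fin (n + 1) → ℝ) := by
  funext i
  refine Fin.cases ?_ (fun i => ?_) i <;> simp

theorem isCone (hK : IsCompact K) (hKc : Convex ℝ K) (hKi : (interior K).Nonempty) :
    IsCone (coneOver K) := by
  obtain ⟨z, hz⟩ := hKi
  refine ⟨isClosed_coneOver hK, convex_coneOver hKc, smul_coneOver, 0, le_rfl, z,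
    interior_subset hz, ?_⟩
  rw [cons_smul, zero_smul]

theorem cons_mem_interior {z : Fin n → ℝ} (hz : z ∈ interior K) :
    (Fin.cons 1 z : Fin (n + 1) → ℝ) ∈ interior (coneOver K) := by
  have ho : IsOpen ({p : Fin (n + 1) → ℝ | 0 < p 0} ∩
      (fun p : Fin (n + 1) → ℝ => (p 0)⁻¹ • Fin.tail p) ⁻¹' interior K) := by
    refine ContinuousOn.isOpen_inter_preimage ?_ (isOpen_lt continuous_const (continuous_apply 0))
      isOpen_interior
    refine ContinuousOn.smul ((continuous_apply 0).continuousOn.inv₀ fun p hp => ne_of_gt hp) ?_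
    unfold Fin.tail
    fun_prop
  refine interior_maximal (fun p hp => ?_) ho ⟨by simp, by simpa using hz⟩
  refine ⟨p 0, le_of_lt hp.1, _, interior_subset hp.2, ?_⟩
  rw [smul_smul, mul_inv_cancel₀ (ne_of_gt hp.1), one_smul, Fin.cons_self_tail]

theorem cone_moment (hK : IsCompact K) {g : (Fin (n + 1) → ℝ) → ℝ} {k : ℕ}
    (hg : ∀ t : ℝ, ∀ p, g (t • p) = t ^ k * g p)
    (hi : IntegrableOn (fun p => Real.exp (-(e0 n ⬝ᵥ p)) • g p) (coneOver K)) :
    ∫ p in coneOver K, Real.exp (-(e0 n ⬝ᵥ p)) • g p =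
      (n + k).factorial * ∫ x in K, g (Fin.cons 1 x) := by
  have hS := (isClosed_coneOver hK).measurableSet
  have hmp := (volume_preserving_piFinSuccAbove (fun _ : Fin (n + 1) => ℝ) 0).symm
  have he : ∀ z : ℝ × (Fin n → ℝ),
      (MeasurableEquiv.piFinSuccAbove (fun _ : Fin (n + 1) => ℝ) 0).symm z
        = Fin.cons z.1 z.2 := by
    intro z
    simp [MeasurableEquiv.piFinSuccAbove, Fin.insertNthEquiv, Fin.insertNth_zero']
  set F : (Fin (n + 1) → ℝ) → ℝ := (coneOver K).indicator fun p =>
    Real.exp (-(e0 n ⬝ᵥ p)) • g p with hF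
  have hFi : Integrable F := (integrable_indicator_iff hS).2 hi
  have h1 : ∫ p, F p = ∫ t : ℝ, ∫ y : Fin n → ℝ, F (Fin.cons t y) := by
    rw [← hmp.integral_comp', Measure.volume_eq_prod, integral_prod
      (fun a => F ((MeasurableEquiv.piFinSuccAbove (fun _ : Fin (n + 1) => ℝ) 0).symm a))
      (by exact (hmp.integrable_comp_emb (MeasurableEquiv.measurableEmbedding _)).2 hFi)]
    simp only [he]
  have h2 : ∀ t : ℝ, t ≠ 0 → ∫ y : Fin n → ℝ, F (Fin.cons t y) = (Ioi (0 : ℝ)).indicator
      (fun t => Real.exp (-t) * t ^ (n + k) * ∫ x in K, g (Fin.cons 1 x)) t := by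
    intro t ht
    rcases lt_or_gt_of_ne ht with h | h
    · rw [indicator_of_notMem (show t ∉ Ioi (0 : ℝ) from not_lt.2 h.le)]
      have : ∀ y, F (Fin.cons t y) = 0 := fun y => by
        rw [hF, indicator_of_notMem fun h' => absurd (cons_mem_coneOver.1 h').1 (not_le.2 h)]
      simp [this]
    · rw [indicator_of_mem (show t ∈ Ioi (0 : ℝ) from h)]
      have hm : MeasurableSet (t • K) := (hK.smul t).isClosed.measurableSet
      have h3 : ∀ y, F (Fin.cons t y) =
          (t • K).indicator (fun y => Real.exp (-t) * g (Fin.cons t y)) y := by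
        intro y
        have h4 : (Fin.cons t y : Fin (n + 1) → ℝ) ∈ coneOver K ↔ y ∈ t • K := by
          rw [cons_mem_coneOver]
          exact ⟨fun ⟨_, x, hx, e⟩ => ⟨x, hx, e.symm⟩, fun ⟨x, hx, e⟩ => ⟨h.le, x, hx, e.symm⟩⟩
        by_cases hy : y ∈ t • K
        · rw [indicator_of_mem hy, hF, indicator_of_mem (h4.2 hy), e0_dot]
          rfl
        · rw [indicator_of_notMem hy, hF, indicator_of_notMem fun h' => hy (h4.1 h')]
      have h5 := Measure.setIntegral_comp_smul_of_pos volume
        (fun y : Fin n → ℝ => Real.exp (-t) * g (Fin.cons t y)) K h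
      simp only [cons_smul, hg, Module.finrank_fin_fun, smul_eq_mul, integral_const_mul] at h5
      simp only [h3]
      rw [integral_indicator hm, integral_const_mul, pow_add]
      have h6 : (t ^ n) ≠ 0 := by positivity
      field_simp at h5 ⊢
      linarith
  have h3 : ∀ᵐ t : ℝ, t ≠ 0 := by simp [ae_iff]
  have h4 := Real.Gamma_eq_integral (s := ((n + k : ℕ) : ℝ) + 1) (by positivity)
  rw [Real.Gamma_nat_eq_factorial] at h4
  simp only [add_sub_cancel_right, Real.rpow_natCast] at h4
  rw [← integral_indicator hS, h1, integral_congr_ae (h3.mono fun t ht => h2 t ht),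
    integral_indicator measurableSet_Ioi, integral_mul_const, ← h4]

theorem lap_cone (hK : IsCompact K) (hKc : Convex ℝ K) (hKi : (interior K).Nonempty) :
    lap (coneOver K) (e0 n) = n.factorial * (volume K).toReal := by
  have hξ : e0 n ∈ interior (dualCone (coneOver K)) := mem_interior_dual hK 1 one_pos
  have := cone_moment hK (g := fun _ => 1) (k := 0) (by simp) (by
    simpa using integrableOn_lap (isCone hK hKc hKi) hξ)
  simpa [lap, Measure.real] using this

theorem mu_moment (hK : IsCompact K) (hKc : Convex ℝ K) (hKi : (interior K).Nonempty)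
    {g : (Fin (n + 1) → ℝ) → ℝ} {k : ℕ} (hg : ∀ t : ℝ, ∀ p, g (t • p) = t ^ k * g p)
    (hi : Integrable g (mu (coneOver K) (e0 n))) :
    ∫ p, g p ∂mu (coneOver K) (e0 n) =
      (n + k).factorial / n.factorial * ((∫ x in K, g (Fin.cons 1 x)) / (volume K).toReal) := by
  have hξ : e0 n ∈ interior (dualCone (coneOver K)) := mem_interior_dual hK 1 one_pos
  have h0 := integrableOn_lap (isCone hK hKc hKi) hξ
  have h1 := cone_moment hK hg ((integrable_tilted_iff h0 g).1 hi)
  have h2 := lap_cone hK hKc hKi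
  rw [mu, integral_tilted, div_mul_div_comm, ← h1, ← h2, ← integral_div]
  congr 1
  funext p
  simp only [smul_eq_mul, lap]
  ring

theorem det_cov (hK : IsCompact K) (hKc : Convex ℝ K) (hKi : (interior K).Nonempty) :
    (densCov (den (coneOver K) (e0 n))).det =
      (covMatrix K).det * ((n : ℝ) + 1) ^ (n + 1) * ((n : ℝ) + 2) ^ n := by
  have hC := isCone hK hKc hKi
  have hξ : e0 n ∈ interior (dualCone (coneOver K)) := mem_interior_dual hK 1 one_pos
  have := prob_mu hC (cons_mem_interior hKi.some_mem) hξ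
  have hv : (volume K).toReal ≠ 0 := ENNReal.toReal_ne_zero.2
    ⟨(Measure.measure_pos_of_nonempty_interior volume hKi).ne', hK.measure_lt_top.ne⟩
  have hf : (n.factorial : ℝ) ≠ 0 := by positivity
  have hi := memLp_coord hC hξ
  have m1 : ∀ i, densMean (den (coneOver K) (e0 n)) i =
      (n + 1) * ((∫ x in K, (Fin.cons 1 x : Fin (n + 1) → ℝ) i) / (volume K).toReal) := fun i => by
    rw [densMean, ← integral_mu hC, mu_moment hK hKc hKi (g := fun p => p i) (k := 1) (by simp)
      ((hi i).integrable one_le_two), Nat.factorial_succ]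
    push_cast
    field_simp
  have m2 : ∀ i j, densCov (den (coneOver K) (e0 n)) i j =
      (n + 1) * (n + 2) * ((∫ x in K, (Fin.cons 1 x : Fin (n + 1) → ℝ) i *
        (Fin.cons 1 x : Fin (n + 1) → ℝ) j) / (volume K).toReal) -
      densMean (den (coneOver K) (e0 n)) i * densMean (den (coneOver K) (e0 n)) j := fun i j => by
    have a1 := mu_moment hK hKc hKi (g := fun p => p i * p j) (k := 2)
      (fun t p => by simp only [Pi.smul_apply, smul_eq_mul]; ring) ((hi i).integrable_mul (hi j))
    have a2 : ∀ l, densMean (den (coneOver K) (e0 n)) l = ∫ p, p l ∂mu (coneOver K) (e0 n) :=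
      fun l => (integral_mu hC _).symm
    have a3 := covariance_eq_sub (hi i) (hi j)
    rw [densCov, of_apply, ← integral_mu hC, a2, a2]
    refine a3.trans ?_
    simp only [Pi.mul_apply]
    rw [a1, Nat.factorial_succ, Nat.factorial_succ]
    push_cast
    field_simp
    ring
  have c1 : ∀ i, IntegrableOn (fun x : Fin n → ℝ => x i) K := fun i =>
    (continuous_apply i).continuousOn.integrableOn_compact hK
  have c2 : ∀ i j, covMatrix K i j =
      (∫ x in K, x i * x j) / (volume K).toReal - centroid K i * centroid K j := fun i j => by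
    have a1 : ∀ x : Fin n → ℝ, (x i - centroid K i) * (x j - centroid K j) =
        x i * x j - centroid K j * x i - centroid K i * x j + centroid K i * centroid K j :=
      fun x => by ring
    have a2 : IntegrableOn (fun x : Fin n → ℝ => x i * x j) K :=
      ((continuous_apply i).mul (continuous_apply j)).continuousOn.integrableOn_compact hK
    have a3 : IntegrableOn (fun _ : Fin n → ℝ => centroid K i * centroid K j) K :=
      continuousOn_const.integrableOn_compact hK
    simp only [covMatrix, of_apply, a1]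
    rw [integral_add (by exact (a2.sub ((c1 i).const_mul _)).sub ((c1 j).const_mul _)) a3,
      integral_sub (by exact a2.sub ((c1 i).const_mul _)) ((c1 j).const_mul _),
      integral_sub a2 ((c1 i).const_mul _), integral_const_mul, integral_const_mul,
      setIntegral_const, smul_eq_mul, Measure.real]
    simp only [centroid]
    field_simp
    ring
  set B : Matrix (Fin (n + 1)) (Fin (n + 1)) ℝ := of fun i j =>
    densCov (den (coneOver K) (e0 n)) i j -
      (Fin.cons 0 (centroid K) : Fin (n + 1) → ℝ) i * densCov (den (coneOver K) (e0 n)) 0 j with hB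
  have h1 : (densCov (den (coneOver K) (e0 n))).det = B.det :=
    det_eq_of_forall_row_eq_smul_add_const (Fin.cons 0 (centroid K)) 0 rfl fun i j => by
      simp [hB]
  have b0 : B 0 0 = n + 1 := by
    simp only [hB, of_apply, m2, m1, Fin.cons_zero, mul_one, setIntegral_const, smul_eq_mul,
      Measure.real]
    field_simp
    ring
  have b1 : ∀ i : Fin n, B i.succ 0 = 0 := fun i => by
    simp only [hB, of_apply, m2, m1, Fin.cons_zero, Fin.cons_succ, mul_one, setIntegral_const,
      smul_eq_mul, Measure.real, centroid]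
    field_simp
    ring
  have b2 : B.submatrix (0 : Fin (n + 1)).succAbove Fin.succ =
      (((n : ℝ) + 1) * (n + 2)) • covMatrix K := by
    ext i j
    simp only [hB, submatrix_apply, Fin.succAbove_zero, of_apply, m2, m1, Fin.cons_zero,
      Fin.cons_succ, one_mul, setIntegral_const, smul_eq_mul, Measure.real, Matrix.smul_apply, c2,
      centroid]
    field_simp
    ring
  rw [h1, det_succ_column_zero, Fin.sum_univ_succ, b0, b2]
  simp only [b1, mul_zero, zero_mul, Finset.sum_const_zero, add_zero, det_smul, Fintype.card_fin,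
    Fin.val_zero, pow_zero, one_mul, mul_pow]
  ring

variable {m : ℕ} {C : Set (Fin m → ℝ)} {ξ x0 : Fin m → ℝ}

theorem det_cov_pos (hC : IsCone C) (hx : x0 ∈ interior C) (hξ : ξ ∈ interior (dualCone C)) :
    0 < (densCov (den C ξ)).det := by
  have := prob_mu hC hx hξ
  refine PosDef.det_pos (PosDef.of_dotProduct_mulVec_pos
    (isHermitian_of_isSymm (densCov_isSymm _)) fun a ha => ?_)
  have h0 := zero_mem hC hξ a
  have h1 := iteratedDeriv_two_cgf_eq_integral h0
  rw [iteratedDeriv_succ, iteratedDeriv_one, (moments hC hx hξ a).2.2, mgf_zero, div_one] at h1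
  set c := deriv (cgf (fun y => -(a ⬝ᵥ y)) (mu C ξ)) 0
  simp only [zero_mul, Real.exp_zero, mul_one] at h1
  rw [star_trivial, h1]
  have h2 : Integrable (fun y => (-(a ⬝ᵥ y) - c) ^ 2) (mu C ξ) :=
    ((memLp_of_mem_interior_integrableExpSet h0 2).sub (memLp_const c)).integrable_sq
  rw [integral_pos_iff_support_of_nonneg (fun y => sq_nonneg _) h2, pos_iff_ne_zero]
  intro h3
  have h4 := absolutelyContinuous_tilted (integrableOn_lap hC hξ) h3
  have ho : IsOpen (Function.support fun y : Fin m → ℝ => (-(a ⬝ᵥ y) - c) ^ 2) :=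
    Continuous.isOpen_support (by fun_prop)
  rw [Measure.restrict_apply ho.measurableSet] at h4
  have h5 := (ho.inter isOpen_interior).eq_empty_of_measure_zero
    (measure_mono_null (inter_subset_inter_right _ interior_subset) h4)
  have h6 : ∀ y ∈ interior C, -(a ⬝ᵥ y) - c = 0 := fun y hy => by
    by_contra hn
    have : y ∈ (Function.support fun y : Fin m → ℝ => (-(a ⬝ᵥ y) - c) ^ 2) ∩ interior C :=
      ⟨pow_ne_zero 2 hn, hy⟩
    rw [h5] at this
    exact this
  obtain ⟨t, ht1, ht2⟩ := (((ev_interior hx a).filter_mono nhdsWithin_le_nhds).and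
    (self_mem_nhdsWithin (s := {0}ᶜ))).exists
  have h7 := h6 _ ht1
  have h8 := h6 _ hx
  rw [dotProduct_add, dotProduct_smul, smul_eq_mul] at h7
  have h9 : t * (a ⬝ᵥ a) = 0 := by linarith
  exact ha (dotProduct_self_eq_zero.1 ((mul_eq_zero.1 h9).resolve_left ht2))

theorem coneLap_orthant (m : ℕ) : coneLap (orthant m) 1 = 1 := by
  have h1 : orthant m = univ.pi fun _ => Ici (0 : ℝ) := by
    ext x
    exact ⟨fun h i _ => h i, fun h i => h i trivial⟩
  have h2 : ∀ y : Fin m → ℝ, Real.exp (-((1 : Fin m → ℝ) ⬝ᵥ y)) = ∏ i, Real.exp (-y i) := fun y => by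
    rw [← Real.exp_sum, Finset.sum_neg_distrib]
    simp [dotProduct]
  have h3 : Integrable (fun t : ℝ => Real.exp (-t)) (volume.restrict (Ici 0)) :=
    (integrableOn_Ici_iff_integrableOn_Ioi).2 (integrableOn_exp_neg_Ioi 0)
  simp only [coneLap, h2]
  rw [h1, volume_pi, Measure.restrict_pi_pi, ← ofReal_integral_eq_lintegral_ofReal
    (Integrable.fintype_prod (f := fun _ t => Real.exp (-t)) fun _ => h3)
    (Eventually.of_forall fun y => Finset.prod_nonneg fun i _ => (Real.exp_pos _).le),
    integral_fintype_prod_eq_prod fun _ t => Real.exp (-t)]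
  simp only [integral_Ici_eq_integral_Ioi, integral_exp_neg_Ioi]
  simp

theorem ent_den_rev (H : EntIneq m) (hC : IsCone C) (hx : x0 ∈ interior C)
    (hξ : ξ ∈ interior (dualCone C)) {M : Matrix (Fin m) (Fin m) ℝ} (hM : M.det ≠ 0)
    (hCM : C = pre M⁻¹ (orthant m)) (hξM : M⁻¹ᵀ *ᵥ 1 = ξ) :
    Real.log (lap C ξ) = Real.log (densCov (den C ξ)).det / 2 := by
  have := prob_mu hC hx hξ
  have hp := den_pos hC hx hξ
  have hl : lap C ξ = |M.det| := by
    have h1 := coneLap_pre (C := orthant m) (B := M⁻¹) (by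
      have : orthant m = univ.pi fun _ => Ici (0 : ℝ) := by
        ext x
        exact ⟨fun h i _ => h i, fun h i => h i trivial⟩
      rw [this]
      exact MeasurableSet.univ_pi fun _ => measurableSet_Ici) (by simpa using hM) 1
    rw [← hCM, hξM, coneLap_orthant, mul_one, coneLap_eq hC hξ,
      ENNReal.ofReal_eq_ofReal_iff (lap_pos hC hx hξ).le (abs_nonneg _)] at h1
    simpa using h1
  obtain ⟨-, h2⟩ := H (den C ξ) (Measurable.indicator (by fun_prop) hC.closed.measurableSet)
    (fun y => indicator_nonneg (fun y _ => (div_pos (Real.exp_pos _) (lap_pos hC hx hξ)).le) y)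
    (by simpa using (integral_mu (ξ := ξ) hC fun _ => 1).symm) (by rw [hp]; exact hC.convex) (by
      rw [hp]
      refine ⟨hC.convex, fun y hy z hz a b ha hb hab => le_of_eq ?_⟩
      simp only [log_den hC hx hξ hy, log_den hC hx hξ hz,
        log_den hC hx hξ (hC.convex hy hz ha hb hab), dotProduct_add, dotProduct_smul, smul_eq_mul]
      linear_combination (-Real.log (lap C ξ)) * hab)
  have h3 := h2.2 ⟨M, 0, hM, Eventually.of_forall fun y => by
    have e1 : {y : Fin m → ℝ | ∀ i, 0 ≤ (M⁻¹ *ᵥ (y - 0)) i} = C := by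
      rw [hCM]
      simp only [sub_zero]
      rfl
    have e2 : ∑ i, (M⁻¹ *ᵥ (y - 0)) i = ξ ⬝ᵥ y := by
      rw [← hξM, mulVec_transpose, ← dotProduct_mulVec, sub_zero]
      simp [dotProduct]
    simp only [e1]
    by_cases hy : y ∈ C
    · rw [den, indicator_of_mem hy, indicator_of_mem hy, e2, hl, div_eq_inv_mul]
    · rw [den, indicator_of_notMem hy, indicator_of_notMem hy, mul_zero]⟩
  rw [entropy_den hC hx hξ] at h3
  linarith

theorem simplex_cone {v : Fin (n + 1) → Fin n → ℝ} (hv : AffineIndependent ℝ v)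
    (hC : IsCone (coneOver (convexHull ℝ (range v)))) :
    ∃ M : Matrix (Fin (n + 1)) (Fin (n + 1)) ℝ, M.det ≠ 0 ∧
      coneOver (convexHull ℝ (range v)) = pre M⁻¹ (orthant (n + 1)) ∧ M⁻¹ᵀ *ᵥ 1 = e0 n := by
  set M : Matrix (Fin (n + 1)) (Fin (n + 1)) ℝ :=
    of fun i j => (Fin.cons 1 (v j) : Fin (n + 1) → ℝ) i with hM
  have hmul : ∀ u, M *ᵥ u = ∑ j, u j • (Fin.cons 1 (v j) : Fin (n + 1) → ℝ) := fun u => by
    funext i
    simp [hM, mulVec, dotProduct, Finset.sum_apply, mul_comm]
  have hd : M.det ≠ 0 := by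
    intro h0
    obtain ⟨u, hu, h1⟩ := exists_mulVec_eq_zero_iff.2 h0
    rw [hmul] at h1
    refine hu (funext fun j => affineIndependent_iff.1 hv Finset.univ u ?_ ?_ j (Finset.mem_univ j))
    · simpa [Finset.sum_apply] using congrFun h1 0
    · funext i
      simpa [Finset.sum_apply] using congrFun h1 i.succ
  have hu : IsUnit M.det := isUnit_iff_ne_zero.2 hd
  refine ⟨M, hd, Subset.antisymm ?_ fun y hy => ?_, ?_⟩
  · rintro _ ⟨t, ht, x, hx, rfl⟩
    have h1 : convexHull ℝ (range v) ⊆
        {x | ∀ i, 0 ≤ (M⁻¹ *ᵥ (Fin.cons 1 x : Fin (n + 1) → ℝ)) i} := by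
      refine convexHull_min ?_ fun y hy z hz a b ha hb hab i => ?_
      · rintro _ ⟨j, rfl⟩ i
        have : (Fin.cons 1 (v j) : Fin (n + 1) → ℝ) = M *ᵥ Pi.single j 1 := by
          funext l
          simp [hM]
        rw [this, mulVec_mulVec, nonsing_inv_mul M hu, one_mulVec, Pi.single_apply]
        split_ifs <;> norm_num
      · have : (Fin.cons 1 (a • y + b • z) : Fin (n + 1) → ℝ) =
            a • (Fin.cons 1 y : Fin (n + 1) → ℝ) + b • (Fin.cons 1 z : Fin (n + 1) → ℝ) := by
          funext l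
          refine Fin.cases ?_ (fun l => ?_) l
          · simpa using hab.symm
          · simp
        rw [this, mulVec_add, mulVec_smul, mulVec_smul]
        exact add_nonneg (mul_nonneg ha (hy i)) (mul_nonneg hb (hz i))
    intro i
    rw [cons_smul, mulVec_smul]
    exact mul_nonneg ht (h1 hx i)
  · have : y = M *ᵥ (M⁻¹ *ᵥ y) := by rw [mulVec_mulVec, mul_nonsing_inv M hu, one_mulVec]
    rw [this, hmul]
    refine Finset.sum_induction _ (· ∈ coneOver (convexHull ℝ (range v))) (fun _ _ => hC.add) hC.zero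
      fun j _ => hC.smul _ (hy j) _ ?_
    exact cons_mem_coneOver.2 ⟨zero_le_one, v j, subset_convexHull ℝ _ (mem_range_self j),
      (one_smul _ _).symm⟩
  · have : (1 : Fin (n + 1) → ℝ) = Mᵀ *ᵥ e0 n := by
      funext j
      rw [mulVec, dotProduct_comm, e0_dot]
      simp [hM]
    rw [this, mulVec_mulVec, ← transpose_mul, mul_nonsing_inv M hu, transpose_one, one_mulVec]

/-- S0390 from the statement of S0391. -/
theorem S0390_of_S0391 (n : ℕ) (H : EntIneq (n + 1)) (K : Set (Fin n → ℝ)) (hK : IsCompact K)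
    (hKc : Convex ℝ K) (hKi : (interior K).Nonempty) :
    (covMatrix K).det * ((n : ℝ) + 1) ^ (n + 1) * ((n : ℝ) + 2) ^ n ≤
        (Nat.factorial n : ℝ) ^ 2 * (volume K).toReal ^ 2 ∧
      ((covMatrix K).det * ((n : ℝ) + 1) ^ (n + 1) * ((n : ℝ) + 2) ^ n =
          (Nat.factorial n : ℝ) ^ 2 * (volume K).toReal ^ 2 ↔
        ∃ v : Fin (n + 1) → (Fin n → ℝ), AffineIndependent ℝ v ∧
          K = convexHull ℝ (Set.range v)) := by
  have hC := isCone hK hKc hKi
  have hx := cons_mem_interior hKi.some_mem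
  have hξ : e0 n ∈ interior (dualCone (coneOver K)) := mem_interior_dual hK 1 one_pos
  have p1 := lap_pos hC hx hξ
  have p2 := det_cov_pos hC hx hξ
  obtain ⟨h1, h2⟩ := ent_den H hC hx hξ
  rw [← det_cov hK hKc hKi, ← mul_pow, ← lap_cone hK hKc hKi]
  have e : Real.log (lap (coneOver K) (e0 n) ^ 2) = 2 * Real.log (lap (coneOver K) (e0 n)) := by
    rw [Real.log_pow]
    norm_num
  refine ⟨(Real.log_le_log_iff p2 (by positivity)).1 (by linarith), fun h => ?_, ?_⟩
  · obtain ⟨T, hT⟩ := h2 (by rw [h]; linarith)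
    exact simplex_of_cone hKc T hT
  · rintro ⟨v, hv, rfl⟩
    obtain ⟨M, k1, k2, k3⟩ := simplex_cone hv hC
    have := ent_den_rev H hC hx hξ k1 k2 k3
    exact Real.log_injOn_pos p2 (mem_Ioi.2 (by positivity)) (by linarith)

end Crest.Agent.R253.Of391
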