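import Crest.Agent.R253.MA

/-! Row 253: auxiliary estimates for the continuity of the mean field. -/

set_option autoImplicit false
set_option linter.unusedVariables false
set_option linter.unusedSectionVars false

open MeasureTheory Matrix Set Filter Topology
open Crest.Agent.R215 (gam)
open Crest.Agent.R203

noncomputable section

namespace Crest.Agent.R253.Pos2

variable {m : ℕ}

theorem n2m_eq {A : Vc m → Mx m} (h : L2m A) : n2m A = ∑ i, ∑ j, ∫ z, A z i j ^ 2 ∂gm m := by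
  unfold n2m fr2
  rw [integral_finsetSum _ fun i _ => integrable_finsetSum _ fun j _ => (h i j).integrable_sq]
  exact Finset.sum_congr rfl fun i _ => integral_finsetSum _ fun j _ => (h i j).integrable_sq

theorem n2m_sub_le {A B : Vc m → Mx m} (h : L2m A) (h' : L2m B) :
    n2m (fun z => A z - B z) ≤ 2 * n2m A + 2 * n2m B := by
  unfold n2m
  rw [← integral_const_mul, ← integral_const_mul,
    ← integral_add (h.integrable_fr2.const_mul _) (h'.integrable_fr2.const_mul _)]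
  refine integral_mono (h.sub h').integrable_fr2
    ((h.integrable_fr2.const_mul _).add (h'.integrable_fr2.const_mul _)) fun z => ?_
  have h1 := fr2_nonneg (A z + B z)
  rw [fr2_add] at h1
  simp only [fr2_sub]
  linarith

theorem fr2_mean_le {A B : Vc m → Mx m} (h : L2m A) (h' : L2m B) :
    fr2 ((of fun i j => ∫ z, A z i j ∂gm m) - of fun i j => ∫ z, B z i j ∂gm m) ≤
      n2m fun z => A z - B z := by
  rw [n2m_eq (h.sub h')]
  refine Finset.sum_le_sum fun i _ => Finset.sum_le_sum fun j _ => ?_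
  have h1 := wd2_cs (h.sub h' i j) (memLp_const (1 : ℝ))
  simp only [mul_one, one_pow, integral_const, probReal_univ, smul_eq_mul] at h1
  rw [Matrix.sub_apply, of_apply, of_apply,
    ← integral_sub ((h i j).integrable one_le_two) ((h' i j).integrable one_le_two)]
  exact h1

theorem nsq_mulVec_le (A : Mx m) (v : Vc m) : nsq (A *ᵥ v) ≤ fr2 A * nsq v := by
  rw [nsq_eq_sum (A *ᵥ v), fr2, Finset.sum_mul]
  refine Finset.sum_le_sum fun i _ => ?_
  rw [← nsq_eq_sum]
  exact dot_sq_le _ _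

theorem squeeze {ι : Type} {F : Filter ι} {a φ : ι → ℝ} {K c : ℝ} (h0 : ∀ t, 0 ≤ a t)
    (hφ : Tendsto φ F (𝓝 0)) (h : ∀ᶠ t in F, ∀ N : ℝ, 1 ≤ N → a t ≤ K * (N * φ t + c / N)) :
    Tendsto a F (𝓝 0) := by
  rw [tendsto_order]
  refine ⟨fun e he => Eventually.of_forall fun t => he.trans_le (h0 t), fun e he => ?_⟩
  have h1 : Tendsto (fun N : ℝ => K * (c / N)) atTop (𝓝 (K * 0)) :=
    (tendsto_const_nhds.div_atTop tendsto_id).const_mul K
  rw [mul_zero] at h1
  obtain ⟨N, hN1, hN⟩ := ((eventually_ge_atTop (1 : ℝ)).and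
    (h1.eventually_lt_const (half_pos he))).exists
  have h2 : Tendsto (fun t => K * (N * φ t)) F (𝓝 (K * (N * 0))) := (hφ.const_mul N).const_mul K
  rw [mul_zero, mul_zero] at h2
  filter_upwards [h, h2.eventually_lt_const (half_pos he)] with t h3 h4
  have := h3 N hN1
  linarith

variable {V V' ψ ψ' : Vc m → ℝ} {g g' X X' : Vc m → Vc m} {κ₁ κ₂ κ₁' κ₂' α β : ℝ}

theorem l2X (h : BM V g κ₁ κ₂ ψ X α β) : L2v X := fun i =>
  (h.hX.tame h.a0.le h.b0 i).pg.memLp_two

theorem jac_stab (h : BM V g κ₁ κ₂ ψ X α β) (h' : BM V' g' κ₁' κ₂' ψ' X' α β) {N : ℝ}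
    (hN : 1 ≤ N) : n2m (fun z => jac X z - jac X' z) ≤
      N * nr (fun z => X z - X' z) ^ 2 + 4 * (m * m * m * (2 * β ^ 4 / α ^ 2)) / N := by
  obtain ⟨c, hc, bc⟩ := h.exists_c
  obtain ⟨c', hc', bc'⟩ := h'.exists_c
  have lc : ∀ k, L2m (c k) := fun k i j => (hc i j).l2d k
  have lc' : ∀ k, L2m (c' k) := fun k i j => (hc' i j).l2d k
  have lj : L2m fun z => jac X z - jac X' z := L2m.sub (fun i j => (hc i j).l2) fun i j => (hc' i j).l2
  have lx := (l2X h).sub (l2X h')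
  have key : ∀ i, ∑ k, ∫ z, (jac X z - jac X' z) i k ^ 2 ∂gm m ≤
      N * ∫ z, (X z - X' z) i * (X z - X' z) i ∂gm m +
        (∑ k, ∑ l, ∫ z, (c l z - c' l z) i k ^ 2 ∂gm m) / N := by
    intro i
    have h1 := ((wd_of_tame (h.hX.tame h.a0.le h.b0 i)).sub
      (wd_of_tame (h'.hX.tame h'.a0.le h'.b0 i))).interp
      (G := fun k l z => c l z i k - c' l z i k) (fun k => (hc i k).sub (hc' i k)) hN
    simp only [← sq]
    exact h1
  have h2 : ∑ i, ∑ k, ∑ l, ∫ z, (c l z - c' l z) i k ^ 2 ∂gm m ≤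
      4 * (m * m * m * (2 * β ^ 4 / α ^ 2)) := by
    have e : ∑ i, ∑ k, ∑ l, ∫ z, (c l z - c' l z) i k ^ 2 ∂gm m =
        ∑ l, n2m fun z => c l z - c' l z := by
      rw [Finset.sum_congr rfl fun l _ => n2m_eq ((lc l).sub (lc' l)), Finset.sum_comm (s := Finset.univ)
        (f := fun l i => ∑ k, ∫ z, (c l z - c' l z) i k ^ 2 ∂gm m)]
      exact Finset.sum_congr rfl fun i _ => Finset.sum_comm
    rw [e]
    refine (Finset.sum_le_sum fun l _ => n2m_sub_le (lc l) (lc' l)).trans ?_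
    rw [Finset.sum_add_distrib, ← Finset.mul_sum, ← Finset.mul_sum]
    linarith
  rw [n2m_eq lj, nr_sq, ip_eq_sum lx lx]
  refine (Finset.sum_le_sum fun i _ => key i).trans ?_
  rw [Finset.sum_add_distrib, ← Finset.mul_sum, ← Finset.sum_div]
  exact add_le_add le_rfl (div_le_div_of_nonneg_right h2 (by linarith))

theorem TT_lip {K : ℝ} (hlip : ∀ x y, |linv α β x - linv α β y| ≤ K * |x - y|)
    (h : BM V g κ₁ κ₂ ψ X α β) (h' : BM V' g' κ₁' κ₂' ψ' X' α β) :
    fr2 ((of fun i j => ∫ z, TT α β X z i j ∂gm m) - of fun i j => ∫ z, TT α β X' z i j ∂gm m) ≤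
      K ^ 2 * n2m fun z => jac X z - jac X' z := by
  obtain ⟨S, hS, -⟩ := h.exists_fld
  obtain ⟨S', hS', -⟩ := h'.exists_fld
  obtain ⟨c, hc, -⟩ := h.exists_c
  obtain ⟨c', hc', -⟩ := h'.exists_c
  have lj : L2m fun z => jac X z - jac X' z := L2m.sub (fun i j => (hc i j).l2) fun i j => (hc' i j).l2
  refine (fr2_mean_le hS.l2T hS'.l2T).trans ?_
  unfold n2m
  rw [← integral_const_mul]
  refine integral_mono (hS.l2T.sub hS'.l2T).integrable_fr2 (lj.integrable_fr2.const_mul _)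
    fun z => ?_
  exact (fr2_mf_sub_le (exists_fld_sym _) (exists_fld_sym _) fun x y _ _ => hlip x y).trans
    (mul_le_mul_of_nonneg_left (exists_fld_fr2 _ _) (sq_nonneg K))

theorem nr_lin (h : L2v X) (N : Mx m) :
    nr (fun z => X z - N *ᵥ X z) ^ 2 ≤ fr2 (1 - N) * nr X ^ 2 := by
  have h1 : nr (fun z => X z - N *ᵥ X z) ≤ √(fr2 (1 - N)) * nr X := by
    refine nr_mono h (Real.sqrt_nonneg _) fun z => ?_
    rw [Real.sq_sqrt (fr2_nonneg _)]
    have := nsq_mulVec_le (1 - N) (X z)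
    rwa [sub_mulVec, one_mulVec] at this
  refine (pow_le_pow_left₀ (Real.sqrt_nonneg _) h1 2).trans (le_of_eq ?_)
  rw [mul_pow, Real.sq_sqrt (fr2_nonneg _)]

end Crest.Agent.R253.Pos2
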