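import Crest.Agent.R253.Defs
import Crest.Agent.R203.NqC

/-! Row 253: the variational inequality of the position step. -/

set_option autoImplicit false

open Matrix Set
open Crest.Agent.R203

noncomputable section

namespace Crest.Agent.R253

variable {m : ℕ} {δ : ℝ} {A : Mx m}

theorem pos4_mem {s0 s1 : ℝ} (hA : A.IsSymm)
    (h : ∀ v, v ⬝ᵥ v = 1 → s0 ≤ v ⬝ᵥ A *ᵥ v ∧ v ⬝ᵥ A *ᵥ v ≤ s1) : A ∈ KC m s0 s1 := by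
  obtain ⟨U, d, E⟩ := exists_eig hA
  refine E.mem_KC fun a => ?_
  have := h _ (col_dot_self E.hU a)
  rwa [E.col, dotProduct_smul, col_dot_self E.hU, smul_eq_mul, mul_one] at this

theorem pos4_co {U : Mx m} {d : Vc m} (E : Eig A U d) (v : Vc m) (a : Fin m) :
    (Uᵀ *ᵥ (A *ᵥ v)) a = d a * (Uᵀ *ᵥ v) a := by
  rw [mulVec_mulVec, E.Ut_mul, ← mulVec_mulVec, mulVec_diagonal]

theorem pos4_up (hA : A ∈ KC m δ δ⁻¹) (v : Vc m) :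
    nsq (A *ᵥ v) ≤ δ ^ 2 * (v ⬝ᵥ v) + 2 * δ⁻¹ * (v ⬝ᵥ A *ᵥ v - δ * (v ⬝ᵥ v)) := by
  obtain ⟨U, d, E⟩ := exists_eig hA.1
  rw [nsq, ← E.norm_conj, ← E.norm_conj, E.quad]
  simp only [pos4_co E, Finset.mul_sum, ← Finset.sum_sub_distrib, ← Finset.sum_add_distrib]
  refine Finset.sum_le_sum fun a _ => ?_
  obtain ⟨h1, h2⟩ := E.of_KC hA a
  have h3 : d a ^ 2 ≤ δ ^ 2 + 2 * δ⁻¹ * (d a - δ) := by nlinarith
  nlinarith [mul_le_mul_of_nonneg_right h3 (sq_nonneg ((Uᵀ *ᵥ v) a))]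

theorem pos4_lo (hδ : 0 < δ) (hA : A ∈ KC m δ δ⁻¹) (v : Vc m) :
    nsq (A⁻¹ *ᵥ v) ≤ δ ^ 2 * (v ⬝ᵥ v) + 2 * δ⁻¹ * (δ⁻¹ * (v ⬝ᵥ v) - v ⬝ᵥ A *ᵥ v) := by
  obtain ⟨u, rfl⟩ : ∃ u, v = A *ᵥ u :=
    ⟨A⁻¹ *ᵥ v, by rw [mulVec_mulVec, mul_nonsing_inv _ (KC_det hδ hA).isUnit, one_mulVec]⟩
  rw [mulVec_mulVec u A⁻¹, nonsing_inv_mul _ (KC_det hδ hA).isUnit, one_mulVec]
  obtain ⟨U, d, E⟩ := exists_eig hA.1
  rw [nsq, ← E.norm_conj, ← E.norm_conj, E.quad]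
  simp only [pos4_co E, Finset.mul_sum, ← Finset.sum_sub_distrib, ← Finset.sum_add_distrib]
  refine Finset.sum_le_sum fun a _ => ?_
  obtain ⟨h1, h2⟩ := E.of_KC hA a
  have e : δ * δ⁻¹ = 1 := mul_inv_cancel₀ hδ.ne'
  have i0 : 0 < δ⁻¹ := inv_pos.2 hδ
  have h4 : δ * d a ≤ 1 := e ▸ mul_le_mul_of_nonneg_left h2 hδ.le
  have h5 : δ ≤ δ⁻¹ * d a ^ 2 := by
    have := mul_le_mul_of_nonneg_left (pow_le_pow_left₀ hδ.le h1 2) i0.le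
    rwa [sq δ, ← mul_assoc, inv_mul_cancel₀ hδ.ne', one_mul] at this
  have h6 : 1 - (δ * d a) ^ 2 = δ * (1 + δ * d a) * (δ⁻¹ - d a) := by
    linear_combination (-(1 + δ * d a)) * e
  have h7 : δ * (1 + δ * d a) * (δ⁻¹ - d a) ≤ 2 * (δ⁻¹ * d a ^ 2) * (δ⁻¹ - d a) :=
    mul_le_mul_of_nonneg_right (by nlinarith) (by linarith)
  have h3 : 1 ≤ δ ^ 2 * d a ^ 2 + 2 * δ⁻¹ * (δ⁻¹ * d a ^ 2 - d a ^ 2 * d a) := by nlinarith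
  nlinarith [mul_le_mul_of_nonneg_right h3 (sq_nonneg ((Uᵀ *ᵥ u) a))]

theorem pos4_am {c s r : ℝ} (hc : 0 ≤ c) (hδ : 0 < δ) (hcδ : c * δ ≤ 1 / 2) (hs : 0 ≤ s)
    (h : s ≤ δ ^ 2 * 1 + 2 * δ⁻¹ * r) : c * √s - 1 ≤ c ^ 2 * δ⁻¹ * r := by
  have h1 := mul_le_mul_of_nonneg_left h (sq_nonneg c)
  have h2 : (c * δ) ^ 2 ≤ (1 / 2) ^ 2 := pow_le_pow_left₀ (by positivity) hcδ 2
  nlinarith [sq_nonneg (c * √s - 1), Real.sq_sqrt hs]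

theorem pos4_vi {c : ℝ} (hc : 0 ≤ c) (hδ : 0 < δ) (hδ1 : δ ≤ 1) (hcδ : c * δ ≤ 1 / 2)
    {Φ : Mx m → Mx m} (hΦ : ContinuousOn Φ (KC m δ δ⁻¹)) (hs : ∀ A, (Φ A).IsSymm)
    (hb : ∀ A ∈ KC m δ δ⁻¹, ∀ v, v ⬝ᵥ v = 1 → 1 - c * √(nsq (A⁻¹ *ᵥ v)) ≤ v ⬝ᵥ Φ A *ᵥ v ∧
      v ⬝ᵥ Φ A *ᵥ v ≤ c * √(nsq (A *ᵥ v)) - 1) : ∃ A ∈ KC m δ δ⁻¹, Φ A = 0 := by
  obtain ⟨A, hA, hV⟩ := exists_vi (KC_compact (m := m) (s1 := δ⁻¹) hδ) KC_convex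
    ⟨1, pos4_mem isSymm_one fun v hv => by
      rw [one_mulVec, hv]; exact ⟨hδ1, (one_le_inv₀ hδ).2 hδ1⟩⟩
    (fun p q => fip (Φ p) q)
    (fun p => ⟨fip_add_right _, fun c x => fip_smul_right c _ x⟩)
    fun q => continuousOn_finsetSum _ fun i _ => continuousOn_finsetSum _ fun j _ =>
      ((continuous_apply_apply i j).comp_continuousOn hΦ).mul continuousOn_const
  obtain ⟨t, t0, t1⟩ : ∃ t : ℝ, 0 < t ∧ t * (c ^ 2 * δ⁻¹) ≤ 1 :=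
    ⟨1 / (c ^ 2 * δ⁻¹ + 1), by positivity, by
      rw [one_div_mul_eq_div, div_le_one (by positivity)]; linarith⟩
  have hB : A - t • Φ A ∈ KC m δ δ⁻¹ := by
    refine pos4_mem (hA.1.sub ((hs A).smul t)) fun v hv => ?_
    obtain ⟨h1, h2⟩ := hb A hA v hv
    obtain ⟨h3, h4⟩ := hA.2 v
    have h5 := pos4_up hA v
    have h6 := pos4_lo hδ hA v
    rw [hv] at h3 h4 h5 h6
    have n0 : ∀ w : Vc m, 0 ≤ nsq w := fun w =>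
      Finset.sum_nonneg (s := Finset.univ) (f := fun i => w i * w i) fun i _ => mul_self_nonneg _
    have h7 := mul_le_mul_of_nonneg_left (h2.trans (pos4_am hc hδ hcδ (n0 _) h5)) t0.le
    have h8 := mul_le_mul_of_nonneg_left
      ((show -(v ⬝ᵥ Φ A *ᵥ v) ≤ _ by linarith).trans (pos4_am hc hδ hcδ (n0 _) h6)) t0.le
    have h9 := mul_le_mul_of_nonneg_right t1 (sub_nonneg.2 h3)
    have h10 := mul_le_mul_of_nonneg_right t1 (sub_nonneg.2 h4)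
    rw [sub_mulVec, smul_mulVec, dotProduct_sub, dotProduct_smul, smul_eq_mul]
    constructor <;> linarith
  have h := hV _ hB
  simp only [sub_sub_cancel_left, ← neg_smul, fip_smul_right, ← fr2_eq_fip] at h
  exact ⟨A, hA, fr2_eq_zero (le_antisymm (by nlinarith) (fr2_nonneg _))⟩

end Crest.Agent.R253
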