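import Crest.Agent.R253.MA
import Crest.Agent.R253.Bren
import Crest.Agent.R253.Lc
import Crest.Agent.R203.NqC
import Crest.Agent.R253.PosAux4
import Crest.Agent.R253.PosAux2

set_option autoImplicit false
set_option linter.unusedVariables false
set_option linter.unusedSectionVars false

open MeasureTheory Matrix Set Filter Topology
open Crest.Agent.R215 (gam)
open Crest.Agent.R203
open Crest.GeometryTopology.Isotropic

noncomputable section

namespace Crest.Agent.R253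

variable {m : ℕ}

/-! The position `E T = 0` (variational inequality on `KC m δ δ⁻¹`; no anisotropic bounds needed). -/

/-- potential of the linear image -/
def VA (V : Vc m → ℝ) (A : Mx m) (x : Vc m) : ℝ := V (A⁻¹ *ᵥ x) + Real.log |A.det|
def gA (g : Vc m → Vc m) (A : Mx m) (x : Vc m) : Vc m := (A⁻¹)ᵀ *ᵥ g (A⁻¹ *ᵥ x)
/-- mean of the field -/
def ET (α β : ℝ) (X : Vc m → Vc m) : Mx m := of fun i j => ∫ z, TT α β X z i j ∂gm m

variable {V V' ψ ψ' : Vc m → ℝ} {g g' X X' : Vc m → Vc m} {κ₁ κ₂ κ₁' κ₂' α β δ : ℝ} {A : Mx m}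

theorem exp_VA (V : Vc m → ℝ) (hA : A.det ≠ 0) :
    (fun x => Real.exp (-VA V A x)) = aff A 0 fun x => Real.exp (-V x) := by
  funext x
  rw [VA, aff, sub_zero, neg_add, Real.exp_add, Real.exp_neg (Real.log _),
    Real.exp_log (abs_pos.2 hA), mul_comm]

theorem mu_VA (hV : SC V g κ₁ κ₂) (hA : A.det ≠ 0) :
    mu (VA V A) = Measure.map (fun x => A *ᵥ x) (mu V) := by
  have hc : Continuous V := continuous_iff_continuousAt.2 fun z => (hV.hasFDerivAt z).continuousAt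
  have h := md_aff hA 0 (f := fun x => Real.exp (-V x)) (by fun_prop)
  simp only [add_zero] at h
  rw [mu, exp_VA V hA, h, mu]

/-- `SC.comp`, `KC_dot`, `KC_inv`, `brenier` -/
theorem exists_bm (hV : SC V g κ₁ κ₂) (h1 : 0 < κ₁) (h2 : 0 < κ₂) (hn : ∫ x, Real.exp (-V x) = 1)
    (hδ : 0 < δ) (hA : A ∈ KC m δ δ⁻¹) : ∃ ψ X, BM (VA V A) (gA g A) (κ₁ * δ ^ 2) (κ₂ * (δ ^ 2)⁻¹) ψ X
      (1 + 2 * (κ₂ * (δ ^ 2)⁻¹))⁻¹ (1 + (κ₁ * δ ^ 2)⁻¹) := by
  have hd := KC_det hδ hA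
  have hs : SC (VA V A) (gA g A) (κ₁ * δ ^ 2) (κ₂ * (δ ^ 2)⁻¹) := by
    refine hV.comp h1.le h2.le A⁻¹ (fun x => ?_) (fun x => KC_inv hδ hA x) _
    have h3 := (KC_dot hδ hA (A⁻¹ *ᵥ x)).2
    rw [mulVec_mulVec, mul_nonsing_inv _ hd.isUnit, one_mulVec, inv_pow,
      le_inv_mul_iff₀ (by positivity)] at h3
    exact h3
  have hn' : ∫ x, Real.exp (-VA V A x) = 1 := by
    have h3 := integral_aff hd 0 (fun x => Real.exp (-V x)) fun _ => 1
    simp only [one_mul] at h3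
    rw [exp_VA V hd, h3, hn]
  obtain ⟨ψ, X, h3, h4⟩ := brenier hs (by positivity) (by positivity) hn'
  exact ⟨ψ, X, hs, by positivity, by positivity, hn', h3, by positivity, by positivity, h4⟩

/-- Stability.  Let `Y = X⁻¹` (`SC.conj`), `R z = Y (N X' z)`; `R` preserves `gm`.  Add
`ψ z ≥ ψ (R z) + N X' z ⬝ (z - R z) + α/2 |z - R z|²` and `ψ' (R z) ≥ ψ' z + X' z ⬝ (R z - z) + α/2 |z - R z|²`
and integrate: `α ‖z - R z‖² ≤ ⟨X' - N X', z - R z⟩`.  Then `X z - X' z = (X z - X (R z)) + (N X' z - X' z)`, `SC.lip`. -/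
theorem BM.stab (h : BM V g κ₁ κ₂ ψ X α β) (h' : BM V' g' κ₁' κ₂' ψ' X' α β) {N : Mx m}
    (hN : Measure.map (fun x => N *ᵥ x) (mu V') = mu V) :
    nr (fun z => X z - X' z) ≤ (1 + β / α) * nr fun z => X' z - N *ᵥ X' z := by
  have hα := h.a0
  have hβ := h.b0
  obtain ⟨φ, Y, hY, hYX, hXY, -⟩ := h.hX.conj hα hβ
  have lX := h.hX.lipschitz hα.le hβ
  have lX' := h'.hX.lipschitz hα.le hβ
  have lY := hY.lipschitz (by positivity) (by positivity)
  have lN := (LinearMap.toContinuousLinearMap (Matrix.toLin' N)).lipschitz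
  have lNX := lN.comp lX'
  have lR := lY.comp lNX
  have mN : Measurable fun x : Vc m => N *ᵥ x := lN.continuous.measurable
  have hR : Measure.map (fun z => Y (N *ᵥ X' z)) (gm m) = gm m := by
    have e1 : Measure.map (fun z => Y (N *ᵥ X' z)) (gm m) =
        Measure.map Y (Measure.map (fun x => N *ᵥ x) (Measure.map X' (gm m))) := by
      rw [Measure.map_map mN lX'.continuous.measurable,
        Measure.map_map lY.continuous.measurable (mN.comp lX'.continuous.measurable)]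
      rfl
    rw [e1, h'.push, hN, ← h.push, Measure.map_map lY.continuous.measurable lX.continuous.measurable]
    have e2 : Y ∘ X = id := funext hYX
    rw [e2, Measure.map_id]
  have hI : ∀ f : Vc m → ℝ, Tame f → Integrable (fun z => f (Y (N *ᵥ X' z))) (gm m) ∧
      ∫ z, f (Y (N *ᵥ X' z)) ∂gm m = ∫ z, f z ∂gm m := fun f hf => by
    refine ⟨(Tame.comp_lip hf lR).pg.integrable, ?_⟩
    have mR : Measurable fun z => Y (N *ᵥ X' z) := lR.continuous.measurable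
    rw [← integral_map mR.aemeasurable hf.continuous.aestronglyMeasurable, hR]
  have l2 : ∀ {F : Vc m → Vc m} {K : NNReal}, LipschitzWith K F → L2v F := fun hF i =>
    (Tame.comp_lip (Tame.coord i) hF).pg.memLp_two
  have hu : L2v fun z => X' z - N *ᵥ X' z := (l2 lX').sub (l2 lNX)
  have hw : L2v fun z => z - Y (N *ᵥ X' z) := (l2 LipschitzWith.id).sub (l2 lR)
  have t1 := h.hX.tame_pot hα.le hβ
  have t2 := h'.hX.tame_pot hα.le hβ
  have key : α * ip (fun z => z - Y (N *ᵥ X' z)) (fun z => z - Y (N *ᵥ X' z)) ≤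
      ip (fun z => X' z - N *ᵥ X' z) (fun z => z - Y (N *ᵥ X' z)) := by
    have i1 := hu.integrable_dot hw
    have i2 : Integrable (fun z => ψ z - ψ (Y (N *ᵥ X' z))) (gm m) :=
      t1.pg.integrable.sub (hI ψ t1).1
    have i3 : Integrable (fun z => ψ' (Y (N *ᵥ X' z)) - ψ' z) (gm m) :=
      (hI ψ' t2).1.sub t2.pg.integrable
    have i4 : Integrable (fun z => (ψ z - ψ (Y (N *ᵥ X' z))) + (ψ' (Y (N *ᵥ X' z)) - ψ' z)) (gm m) :=
      i2.add i3
    have e : ip (fun z => X' z - N *ᵥ X' z) (fun z => z - Y (N *ᵥ X' z)) =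
        ∫ z, ((X' z - N *ᵥ X' z) ⬝ᵥ (z - Y (N *ᵥ X' z)) + ((ψ z - ψ (Y (N *ᵥ X' z))) +
          (ψ' (Y (N *ᵥ X' z)) - ψ' z))) ∂gm m := by
      rw [integral_add i1 i4, integral_add i2 i3,
        integral_sub t1.pg.integrable (hI ψ t1).1, integral_sub (hI ψ' t2).1 t2.pg.integrable,
        (hI ψ t1).2, (hI ψ' t2).2, sub_self, sub_self, add_zero, add_zero, ip]
    rw [e, ip, ← integral_const_mul]
    refine integral_mono ((hw.integrable_dot hw).const_mul α) (i1.add i4) fun z => ?_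
    have a1 := h.hX.lo (Y (N *ᵥ X' z)) z
    have a2 := h'.hX.lo z (Y (N *ᵥ X' z))
    rw [hXY] at a1
    rw [sc2_neg, ← neg_sub z, dotProduct_neg] at a2
    simp only [nsq] at a1 a2
    show α * ((z - Y (N *ᵥ X' z)) ⬝ᵥ (z - Y (N *ᵥ X' z))) ≤
      (X' z - N *ᵥ X' z) ⬝ᵥ (z - Y (N *ᵥ X' z)) + ((ψ z - ψ (Y (N *ᵥ X' z))) +
          (ψ' (Y (N *ᵥ X' z)) - ψ' z))
    rw [sub_dotProduct (X' z)]
    linarith
  have k1 : nr (fun z => z - Y (N *ᵥ X' z)) ≤ α⁻¹ * nr fun z => X' z - N *ᵥ X' z := by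
    have b1 := (le_abs_self _).trans (abs_ip_le hu hw)
    rw [← nr_sq] at key
    have b2 : 0 ≤ nr fun z => z - Y (N *ᵥ X' z) := Real.sqrt_nonneg _
    have b3 : 0 ≤ nr fun z => X' z - N *ᵥ X' z := Real.sqrt_nonneg _
    rw [le_inv_mul_iff₀ hα]
    rcases b2.eq_or_lt with b4 | b4
    · rw [← b4, mul_zero]
      exact b3
    · refine le_of_mul_le_mul_right ?_ b4
      nlinarith
  have k2 : nr (fun z => X z - N *ᵥ X' z) ≤ β * nr fun z => z - Y (N *ᵥ X' z) := by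
    refine nr_mono hw hβ.le fun z => ?_
    have := h.hX.lip hα.le hβ z (Y (N *ᵥ X' z))
    rwa [hXY] at this
  have k3 : nr (fun z => N *ᵥ X' z - X' z) ≤ 1 * nr fun z => X' z - N *ᵥ X' z :=
    nr_mono hu zero_le_one fun z => by rw [sc2_neg, one_pow, one_mul]
  have k4 := nr_add_le ((l2 lX).sub (l2 lNX)) ((l2 lNX).sub (l2 lX'))
  have e : (fun z => X z - X' z) = fun z => (X z - N *ᵥ X' z) + (N *ᵥ X' z - X' z) := by
    funext z
    abel
  rw [e]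
  refine k4.trans ?_
  have k5 := mul_le_mul_of_nonneg_left k1 hβ.le
  have k6 : (1 + β / α) * nr (fun z => X' z - N *ᵥ X' z) =
      1 * nr (fun z => X' z - N *ᵥ X' z) + β * (α⁻¹ * nr fun z => X' z - N *ᵥ X' z) := by
    rw [div_eq_mul_inv]
    ring
  rw [k6]
  exact (add_le_add (k2.trans k5) k3).trans_eq (add_comm _ _)

/-- `WD.interp` for the coordinates of `X - X'` (`wd_of_tame`, `BM.exists_c`) -/
theorem BM.jac_stab (h : BM V g κ₁ κ₂ ψ X α β) (h' : BM V' g' κ₁' κ₂' ψ' X' α β) {N : ℝ}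
    (hN : 1 ≤ N) : n2m (fun z => jac X z - jac X' z) ≤
      N * nr (fun z => X z - X' z) ^ 2 + 4 * (m * m * m * (2 * β ^ 4 / α ^ 2)) / N :=
  Pos2.jac_stab h h' hN

/-- `fr2_mf_sub_le`, `linv_lip`, Cauchy–Schwarz -/
theorem ET_lip (hα : 0 < α) (β : ℝ) : ∃ K : ℝ, 0 ≤ K ∧ ∀ (V V' ψ ψ' : Vc m → ℝ) (g g' X X' : Vc m → Vc m)
    (κ₁ κ₂ κ₁' κ₂' : ℝ), BM V g κ₁ κ₂ ψ X α β → BM V' g' κ₁' κ₂' ψ' X' α β →
      fr2 (ET α β X - ET α β X') ≤ K * n2m fun z => jac X z - jac X' z := by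
  obtain ⟨K, B, hK, hlip, -⟩ := linv_lip (b := β) hα
  exact ⟨K ^ 2, sq_nonneg K, fun V V' ψ ψ' g g' X X' κ₁ κ₂ κ₁' κ₂' h h' => Pos2.TT_lip hlip h h'⟩

/-- With `N = A B⁻¹`: `X_B - N X_B = (B - A) B⁻¹ X_B` and `B⁻¹ X_B` has law `mu V`, so
`nr² ≤ fr2 (A - B) ∫ |x|² dμ`; `BM.stab`, `BM.jac_stab`, `ET_lip`, `tendsto_of_fr2`. -/
theorem ET_cont (hV : SC V g κ₁ κ₂) (h1 : 0 < κ₁) (h2 : 0 < κ₂) (hδ : 0 < δ) {ψ : Mx m → Vc m → ℝ}
    {X : Mx m → Vc m → Vc m}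
    (h : ∀ A ∈ KC m δ δ⁻¹, BM (VA V A) (gA g A) κ₁' κ₂' (ψ A) (X A) α β) :
    ContinuousOn (fun A => ET α β (X A)) (KC m δ δ⁻¹) := by
  intro B hB
  have hb := h B hB
  obtain ⟨K, hK, hlip⟩ := ET_lip (m := m) hb.a0 β
  have hu : IsUnit B.det := isUnit_iff_ne_zero.2 (KC_det hδ hB)
  have hφ : Tendsto (fun A : Mx m => (1 + β / α) ^ 2 * (fr2 (1 - A * B⁻¹) * nr (X B) ^ 2))
      (𝓝[KC m δ δ⁻¹] B) (𝓝 0) := by
    have c : Continuous fun A : Mx m =>
        (1 + β / α) ^ 2 * (fr2 (1 - A * B⁻¹) * nr (X B) ^ 2) :=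
      continuous_const.mul ((continuous_fr2.comp
        (continuous_const.sub (continuous_id.matrix_mul continuous_const))).mul continuous_const)
    have := (c.tendsto B).mono_left (nhdsWithin_le_nhds (s := KC m δ δ⁻¹))
    simpa [mul_nonsing_inv _ hu, fr2] using this
  refine tendsto_of_fr2 (Pos2.squeeze (K := K) (c := 4 * (m * m * m * (2 * β ^ 4 / α ^ 2)))
    (fun _ => fr2_nonneg _) hφ ?_)
  filter_upwards [self_mem_nhdsWithin] with A hA N hN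
  have ha := h A hA
  have hm : ∀ M : Mx m, Measurable fun x : Vc m => M *ᵥ x := fun M =>
    (continuous_const.matrix_mulVec continuous_id).measurable
  have hmap : Measure.map (fun x => (A * B⁻¹) *ᵥ x) (mu (VA V B)) = mu (VA V A) := by
    rw [mu_VA hV (KC_det hδ hB), mu_VA hV (KC_det hδ hA), Measure.map_map (hm _) (hm _)]
    congr 1
    funext x
    simp only [Function.comp, mulVec_mulVec, nonsing_inv_mul_cancel_right _ _ hu]
  have h3 := pow_le_pow_left₀ (Real.sqrt_nonneg _) (ha.stab hb hmap) 2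
  rw [mul_pow] at h3
  have h4 := h3.trans (mul_le_mul_of_nonneg_left (Pos2.nr_lin (Pos2.l2X hb) _) (sq_nonneg _))
  refine (hlip _ _ _ _ _ _ _ _ _ _ _ _ ha hb).trans (mul_le_mul_of_nonneg_left ?_ hK)
  exact (ha.jac_stab hb hN).trans (add_le_add (mul_le_mul_of_nonneg_left h4 (by linarith)) le_rfl)

/-- `lam t > t`, `lam_mono`, and `lam t ≤ 2 gp t` for `t ≤ 0` -/
theorem lam_aff : ∃ b : ℝ, 0 < b ∧ ∀ t, t + 1 ≤ b * lam t ∧ 1 - t ≤ b * (lam t)⁻¹ := by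
  have hl := lam_pos (-1)
  have hli : 0 < (lam (-1))⁻¹ := inv_pos.2 hl
  have hg := gp_pos 0
  refine ⟨3 + (lam (-1))⁻¹ + 4 * gp 0, by positivity, fun t => ⟨?_, ?_⟩⟩
  · have h0 := lam_pos t
    rcases le_total t (-1) with ht | ht
    · have : 0 < (3 + (lam (-1))⁻¹ + 4 * gp 0) * lam t := by positivity
      linarith
    · have h1 : 1 ≤ (lam (-1))⁻¹ * lam t := by
        rw [← div_eq_inv_mul, le_div_iff₀ hl, one_mul]
        exact lam_mono.monotone ht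
      have h2 := lt_lam t
      have h3 := mul_pos hg h0
      nlinarith
  · have h0 := lam_pos t
    rw [← div_eq_mul_inv, le_div_iff₀ h0]
    rcases le_total 0 t with ht | ht
    · have h1 := lam_le t
      rw [abs_of_nonneg ht] at h1
      rcases le_total t 1 with ht1 | ht1
      · nlinarith [mul_nonneg ht h0.le]
      · nlinarith [mul_nonneg (sub_nonneg.2 ht1) h0.le]
    · have h1 := lam_le_of_nonpos ht
      have h2 : (1 - t) * gp t ≤ 2 * gp 0 := by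
        have h3 : gp 0 = gp t * Real.exp (t ^ 2 / 2) := by
          simp only [gp]
          rw [mul_assoc, ← Real.exp_add]
          congr 2
          ring
        have h4 := Real.add_one_le_exp (t ^ 2 / 2)
        have h5 := gp_pos t
        rw [h3]
        nlinarith [mul_le_mul_of_nonneg_left h4 h5.le, mul_pos h5 (show 0 < t ^ 2 + t + 1 by
          nlinarith [sq_nonneg (t + 1 / 2)])]
      nlinarith [mul_le_mul_of_nonneg_left h1 (show 0 ≤ 1 - t by linarith)]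

theorem p3_eq {J : Vc m → Mx m} {w : Vc m → Vc m} (hJ : ∀ i j, Integrable (fun z => J z i j) (gm m))
    (hw : L2v w) (e : ∀ i j, ∫ z, J z i j ∂gm m = ∫ z, z j * w z i ∂gm m) (v : Vc m) :
    ∫ z, v ⬝ᵥ J z *ᵥ v ∂gm m = ∫ z, (v ⬝ᵥ z) * (v ⬝ᵥ w z) ∂gm m := by
  have hi : ∀ i j, Integrable (fun z : Vc m => z j * w z i) (gm m) := fun i j =>
    (PG.coord j).memLp_two.integrable_mul (hw i)
  have e1 : ∀ z, v ⬝ᵥ J z *ᵥ v = ∑ i, ∑ j, v i * v j * J z i j := fun z => by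
    simp only [dotProduct, mulVec, Finset.mul_sum]
    exact Finset.sum_congr rfl fun i _ => Finset.sum_congr rfl fun j _ => by ring
  have e2 : ∀ z : Vc m, (v ⬝ᵥ z) * (v ⬝ᵥ w z) = ∑ i, ∑ j, v i * v j * (z j * w z i) := fun z => by
    rw [mul_comm]
    simp only [dotProduct, Finset.sum_mul_sum]
    exact Finset.sum_congr rfl fun i _ => Finset.sum_congr rfl fun j _ => by ring
  simp only [e1, e2]
  rw [integral_finsetSum _ fun i _ => integrable_finsetSum _ fun j _ => (hJ i j).const_mul _,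
    integral_finsetSum _ fun i _ => integrable_finsetSum _ fun j _ => (hi i j).const_mul _]
  refine Finset.sum_congr rfl fun i _ => ?_
  rw [integral_finsetSum _ fun j _ => (hJ i j).const_mul _,
    integral_finsetSum _ fun j _ => (hi i j).const_mul _]
  exact Finset.sum_congr rfl fun j _ => by rw [integral_const_mul, integral_const_mul, e]

theorem p3_l2 {w : Vc m → Vc m} (hw : L2v w) (v : Vc m) : MemLp (fun z => v ⬝ᵥ w z) 2 (gm m) := by
  simp only [dotProduct]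
  exact memLp_finsetSum _ fun i _ => (hw i).const_mul (v i)

theorem p3_cs {J : Vc m → Mx m} {w : Vc m → Vc m} (hJ : ∀ i j, Integrable (fun z => J z i j) (gm m))
    (hw : L2v w) (e : ∀ i j, ∫ z, J z i j ∂gm m = ∫ z, z j * w z i ∂gm m) {v : Vc m}
    (hv : v ⬝ᵥ v = 1) : ∫ z, v ⬝ᵥ J z *ᵥ v ∂gm m ≤ √(∫ z, (v ⬝ᵥ w z) ^ 2 ∂gm m) := by
  have hid : L2v fun z : Vc m => z := fun i => (PG.coord i).memLp_two
  have h1 : ∫ z, (v ⬝ᵥ z) ^ 2 ∂gm m = 1 := by
    have := p3_eq (J := fun _ => (1 : Mx m)) (fun i j => integrable_const _) hid (fun i j => by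
      rw [integral_coord_mul]
      simp [Matrix.one_apply]) v
    simp only [one_mulVec, hv, integral_const, probReal_univ, one_smul] at this
    rw [this]
    simp only [sq]
  have h2 := wd2_cs (p3_l2 hid v) (p3_l2 hw v)
  rw [h1, one_mul] at h2
  rw [p3_eq hJ hw e v]
  exact (le_abs_self _).trans (Real.abs_le_sqrt h2)

theorem p3_meas {w : Vc m → Vc m} (hw : Continuous w) (v : Vc m) :
    Measurable fun x => (v ⬝ᵥ w x) ^ 2 :=
  ((continuous_const.dotProduct hw).pow 2).measurable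

/-- Stein: `∫ v ⬝ H v = ∫ (v ⬝ z) (v ⬝ X z)` -/
theorem BM.quad_up (h : BM V g κ₁ κ₂ ψ X α β) {v : Vc m} (hv : v ⬝ᵥ v = 1) :
    ∫ z, v ⬝ᵥ jac X z *ᵥ v ∂gm m ≤ √(∫ x, (v ⬝ᵥ x) ^ 2 ∂mu V) := by
  have ht := h.hX.tame h.a0.le h.b0
  rw [h.integral_comp (p3_meas continuous_id' v)]
  exact p3_cs (fun i j => ((ht i).pg_pd j).integrable) (fun i => (ht i).pg.memLp_two)
    (fun i j => (ht i).stein j) hv

/-- `SC.stein` for `x ↦ v ⬝ Y x` and `BM.pd_comp_inv` (or `BM.dv_dual`):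
`∫ v ⬝ H⁻¹ v = ∫ (v ⬝ z) (v ⬝ g (X z))` -/
theorem BM.quad_inv (h : BM V g κ₁ κ₂ ψ X α β) {v : Vc m} (hv : v ⬝ᵥ v = 1) :
    ∫ z, v ⬝ᵥ (jac X z)⁻¹ *ᵥ v ∂gm m ≤ √(∫ x, (v ⬝ᵥ g x) ^ 2 ∂mu V) := by
  obtain ⟨φ, Y, hY, hYX, -, -⟩ := h.hX.conj h.a0 h.b0
  have hYl := hY.lipschitz (inv_nonneg.2 h.b0.le) (inv_pos.2 h.a0)
  have hg := h.hV.tame h.k1.le h.k2
  have hW : ∀ j, Tame fun x => Y x j := fun j => Tame.comp_lip (Tame.coord j) hYl
  have ae : ∀ i j, (fun z => pd i (fun x => Y x j) (X z)) =ᵐ[gm m] fun z => (jac X z)⁻¹ i j :=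
    fun i j => by
      filter_upwards [h.pd_comp_inv hYl hYX (Tame.coord j)] with z hz
      rw [hz i]
      simp [pd_coord]
  rw [h.integral_comp (p3_meas (h.hV.lipschitz h.k1.le h.k2).continuous v)]
  refine p3_cs (fun i j => (h.dq_int ((hW j).pg_pd i)).congr (ae i j))
    (fun i => (Tame.comp_lip (hg i) (h.hX.lipschitz h.a0.le h.b0)).pg.memLp_two) (fun i j => ?_) hv
  rw [← integral_congr_ae (ae i j), ← h.integral_comp ((hW j).pg_pd i).measurable,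
    h.hV.stein h.k1 h.k2 (hW j) i, h.integral_comp ((hW j).pg.mul (hg i).pg).measurable]
  simp only [hYX]

theorem p3_dot_le (hV : SC V g κ₁ κ₂) (h1 : 0 < κ₁) (h2 : 0 < κ₂) {w : Vc m → Vc m}
    (hw : ∀ i, PG fun x => w x i) (u : Vc m) :
    √(∫ x, (u ⬝ᵥ w x) ^ 2 ∂mu V) ≤ √(∫ x, nsq (w x) ∂mu V) * √(nsq u) := by
  have hp : PG fun x => nsq (w x) := by
    simp only [nsq_eq_sum]
    exact PG.sum _ fun i _ => (hw i).pow 2
  rw [mul_comm, ← Real.sqrt_mul (nsq_nonneg u), ← integral_const_mul]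
  exact Real.sqrt_le_sqrt (integral_mono_of_nonneg (Eventually.of_forall fun x => sq_nonneg _)
    ((hV.integrable_mu h1 h2 hp).const_mul _) (Eventually.of_forall fun x => dot_sq_le u (w x)))

/-- `lam_aff` in the eigenbasis of `TT`, `BM.lam_TT`, `quad_up`, `quad_inv`, `mu_VA`;
`c = b * √(max (∫ |x|² dμ) (∫ |g|² dμ))` -/
theorem ET_bounds (hV : SC V g κ₁ κ₂) (h1 : 0 < κ₁) (h2 : 0 < κ₂) : ∃ c : ℝ, 0 ≤ c ∧
    ∀ (A : Mx m) (κ₁' κ₂' α β : ℝ) (ψ : Vc m → ℝ) (X : Vc m → Vc m), A.IsSymm → A.det ≠ 0 →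
      BM (VA V A) (gA g A) κ₁' κ₂' ψ X α β → ∀ v, v ⬝ᵥ v = 1 →
        1 - c * √(nsq (A⁻¹ *ᵥ v)) ≤ v ⬝ᵥ ET α β X *ᵥ v ∧
        v ⬝ᵥ ET α β X *ᵥ v ≤ c * √(nsq (A *ᵥ v)) - 1 := by
  obtain ⟨b, hb, hl⟩ := lam_aff
  have hM1 := Real.sqrt_nonneg (∫ x, nsq x ∂mu V)
  have hM2 := Real.sqrt_nonneg (∫ x, nsq (g x) ∂mu V)
  refine ⟨b * (√(∫ x, nsq x ∂mu V) + √(∫ x, nsq (g x) ∂mu V)), by positivity,
    fun A κ₁' κ₂' α β ψ X hA hdet h v hv => ?_⟩
  obtain ⟨S, hF, -⟩ := h.exists_fld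
  have P := hF.posFun hv
  have hgc := (hV.lipschitz h1.le h2).continuous
  have hAc : Continuous fun x : Vc m => A *ᵥ x := continuous_const.matrix_mulVec continuous_id
  have ci : Continuous fun t => (lam t)⁻¹ := continuous_lam.inv₀ fun t => (lam_pos t).ne'
  have eT : v ⬝ᵥ ET α β X *ᵥ v = Ex (TT α β X) v fun t => t := by
    have hi : ∀ i j, Integrable (fun z => TT α β X z i j) (gm m) := fun i j =>
      (hF.l2T i j).integrable one_le_two
    simp only [Ex, mf_id (hF.symT _), dotProduct, mulVec, ET, of_apply, Finset.mul_sum]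
    rw [integral_finsetSum _ fun i _ => integrable_finsetSum _ fun j _ =>
      ((hi i j).mul_const _).const_mul _]
    refine Finset.sum_congr rfl fun i _ => ?_
    rw [integral_finsetSum _ fun j _ => ((hi i j).mul_const _).const_mul _]
    exact Finset.sum_congr rfl fun j _ => by rw [integral_const_mul, integral_mul_const]
  have eL : Ex (TT α β X) v lam = ∫ z, v ⬝ᵥ jac X z *ᵥ v ∂gm m :=
    integral_congr_ae (by filter_upwards [h.lam_TT] with z hz; rw [hz.1])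
  have eI : Ex (TT α β X) v (fun t => (lam t)⁻¹) = ∫ z, v ⬝ᵥ (jac X z)⁻¹ *ᵥ v ∂gm m :=
    integral_congr_ae (by filter_upwards [h.lam_TT] with z hz; rw [hz.2])
  have u1 := h.quad_up hv
  have u2 := h.quad_inv hv
  have hgA : Continuous (gA g A) := continuous_const.matrix_mulVec
    (hgc.comp (continuous_const.matrix_mulVec continuous_id))
  rw [mu_VA hV hdet, integral_map hAc.measurable.aemeasurable
    (p3_meas continuous_id' v).aestronglyMeasurable] at u1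
  rw [mu_VA hV hdet, integral_map hAc.measurable.aemeasurable
    (p3_meas hgA v).aestronglyMeasurable] at u2
  have r1 : ∀ x, v ⬝ᵥ (A *ᵥ x) = (A *ᵥ v) ⬝ᵥ x := fun x => dot_mulVec_symm hA v x
  have r2 : ∀ x, v ⬝ᵥ gA g A (A *ᵥ x) = (A⁻¹ *ᵥ v) ⬝ᵥ g x := fun x => by
    rw [gA, mulVec_mulVec, nonsing_inv_mul A (Ne.isUnit hdet), one_mulVec, dotProduct_mulVec,
      vecMul_transpose]
  simp only [r1] at u1
  simp only [r2] at u2
  have w1 := p3_dot_le hV h1 h2 (w := fun x => x) (fun i => PG.coord i) (A *ᵥ v)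
  have w2 := p3_dot_le hV h1 h2 (fun i => (hV.tame h1.le h2 i).pg) (A⁻¹ *ᵥ v)
  have m1 := P.mono (fun t => t + 1) (fun t => b * lam t) (by fun_prop)
    (continuous_const.mul continuous_lam) fun t => (hl t).1
  have m2 := P.mono (fun t => -1 * t + 1) (fun t => b * (lam t)⁻¹) (by fun_prop)
    (continuous_const.mul ci) fun t => by linarith [(hl t).2]
  rw [P.add _ _ continuous_id' continuous_const, P.one, P.smul b lam continuous_lam, eL] at m1
  rw [P.add (fun t => -1 * t) _ (by fun_prop) continuous_const, P.one,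
    P.smul (-1) _ continuous_id', P.smul b _ ci, eI] at m2
  have s1 := Real.sqrt_nonneg (nsq (A *ᵥ v))
  have s2 := Real.sqrt_nonneg (nsq (A⁻¹ *ᵥ v))
  have k1 := mul_le_mul_of_nonneg_left (u1.trans w1) hb.le
  have k2 := mul_le_mul_of_nonneg_left (u2.trans w2) hb.le
  rw [eT]
  constructor
  · nlinarith [mul_nonneg hb.le (mul_nonneg hM1 s2)]
  · nlinarith [mul_nonneg hb.le (mul_nonneg hM2 s1)]

theorem ET_isSymm (α β : ℝ) (X : Vc m → Vc m) : (ET α β X).IsSymm := by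
  ext i j
  simp only [transpose_apply, ET, of_apply]
  exact integral_congr_ae (ae_of_all _ fun z => (mf_isSymm (exists_fld_sym _) _).apply i j)

/-- `exists_vi` with `F p q = fip (Φ p) q` gives `A`.  With `Λ = δ⁻¹`, `q = v ⬝ A v` (unit `v`), in the eigenbasis:
`|A v| ≤ δ + √(Λ (q - δ))` and `|A⁻¹ v| ≤ δ + √(Λ (Λ - q))`, so by AM-GM `-C (Λ - q) ≤ v ⬝ Φ v ≤ C (q - δ)`,
`C = c² Λ / 2`; hence `A - t Φ A ∈ KC` for `t (C + 1) = 1`, and the inequality gives `fr2 (Φ A) ≤ 0`. -/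
theorem pos_vi {c : ℝ} (hc : 0 ≤ c) (hδ : 0 < δ) (hδ1 : δ ≤ 1) (hcδ : c * δ ≤ 1 / 2) {Φ : Mx m → Mx m}
    (hΦ : ContinuousOn Φ (KC m δ δ⁻¹)) (hs : ∀ A, (Φ A).IsSymm)
    (hb : ∀ A ∈ KC m δ δ⁻¹, ∀ v, v ⬝ᵥ v = 1 → 1 - c * √(nsq (A⁻¹ *ᵥ v)) ≤ v ⬝ᵥ Φ A *ᵥ v ∧
      v ⬝ᵥ Φ A *ᵥ v ≤ c * √(nsq (A *ᵥ v)) - 1) : ∃ A ∈ KC m δ δ⁻¹, Φ A = 0 :=
  pos4_vi hc hδ hδ1 hcδ hΦ hs hb

theorem exists_pos (hV : SC V g κ₁ κ₂) (h1 : 0 < κ₁) (h2 : 0 < κ₂) (hn : ∫ x, Real.exp (-V x) = 1) :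
    ∃ (A : Mx m) (κ₁' κ₂' α β : ℝ) (ψ : Vc m → ℝ) (X : Vc m → Vc m), A.det ≠ 0 ∧
      BM (VA V A) (gA g A) κ₁' κ₂' ψ X α β ∧ Cen (TT α β X) := by
  obtain ⟨c, hc, hb⟩ := ET_bounds hV h1 h2
  set δ : ℝ := 1 / (2 * c + 1) with hδ
  have hδ0 : 0 < δ := by positivity
  have hδ1 : δ ≤ 1 := by rw [hδ, div_le_one (by positivity)]; linarith
  have hcδ : c * δ ≤ 1 / 2 := by
    rw [hδ, mul_one_div, div_le_div_iff₀ (by positivity) (by positivity)]; linarith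
  have hex : ∀ A : Mx m, ∃ (ψ : Vc m → ℝ) (X : Vc m → Vc m), A ∈ KC m δ δ⁻¹ →
      BM (VA V A) (gA g A) (κ₁ * δ ^ 2) (κ₂ * (δ ^ 2)⁻¹) ψ X
        (1 + 2 * (κ₂ * (δ ^ 2)⁻¹))⁻¹ (1 + (κ₁ * δ ^ 2)⁻¹) := by
    intro A
    by_cases hA : A ∈ KC m δ δ⁻¹
    · obtain ⟨ψ, X, h⟩ := exists_bm hV h1 h2 hn hδ0 hA
      exact ⟨ψ, X, fun _ => h⟩
    · exact ⟨fun _ => 0, fun _ => 0, fun h => absurd h hA⟩
  choose ψ X h using hex
  obtain ⟨A, hA, h0⟩ := pos_vi hc hδ0 hδ1 hcδ (ET_cont hV h1 h2 hδ0 h) (fun A => ET_isSymm _ _ _)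
    (fun A hA => hb A _ _ _ _ _ _ hA.1 (KC_det hδ0 hA) (h A hA))
  exact ⟨A, _, _, _, _, ψ A, X A, KC_det hδ0 hA, h A hA, fun i j => congrFun (congrFun h0 i) j⟩

end Crest.Agent.R253
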