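import Crest.Agent.R253.StabA
import Crest.Agent.R253.Asm

set_option autoImplicit false
set_option linter.unusedVariables false
set_option linter.unusedSectionVars false

open MeasureTheory Matrix Set Filter Topology
open Crest.Agent.R215 (gam)
open Crest.Agent.R203

noncomputable section

namespace Crest.Agent.R253

variable {m : ℕ}

/-! The inequality and its stability in normal position. -/

theorem st_tame_lmat (M : Fin m → Mx m) (i j : Fin m) : Tame fun z : Vc m => lmat M z i j := by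
  simp only [lmat_apply]
  exact Tame.sum _ fun k _ => (Tame.coord k).mul (Tame.const _)

theorem st_tame {M : Fin m → Mx m} (hM : ∀ k, (M k).IsSymm) (i j : Fin m) :
    Tame fun z : Vc m => mf lam (lmat M z) i j :=
  (tame_mf (st_tame_lmat M) (lmat_isSymm hM) c1_lam (K := 1)
    (fun t => abs_le.2 ⟨by linarith [F2_pos t], (F2_lt_one t).le⟩) i j).1

theorem st_l2 {M : Fin m → Mx m} (hM : ∀ k, (M k).IsSymm) : L2m fun z => mf lam (lmat M z) :=
  fun i j => (st_tame hM i j).pg.memLp_two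

theorem st_pd {M : Fin m → Mx m} (hM : ∀ k, (M k).IsSymm) (i j k : Fin m) (z : Vc m) :
    pd k (fun y => mf lam (lmat M y) i j) z = dk lam (lmat M z) (M k) i j := by
  obtain ⟨U, d, E⟩ := exists_eig (lmat_isSymm hM z)
  rw [dk_eq E (hM k) c1_lam.diff]
  exact lineDeriv_mf_lmat hM c1_lam.diff E k i j

theorem st_cont {M : Fin m → Mx m} (hM : ∀ k, (M k).IsSymm) (i j k : Fin m) :
    Continuous fun z : Vc m => dk lam (lmat M z) (M k) i j :=
  continuous_iff_continuousAt.2 fun z => tendsto_pi_nhds.1 (tendsto_pi_nhds.1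
    (tendsto_dk (continuous_lmat.tendsto z) (lmat_isSymm hM) (lmat_isSymm hM z) (hM k) c1_lam) i) j

theorem st_entry_le {A : Vc m → Mx m} (h : L2m A) (i j : Fin m) :
    ∫ z, A z i j ^ 2 ∂gm m ≤ n2m A :=
  integral_mono (h i j).integrable_sq h.integrable_fr2 fun z => sq_le_fr2 _ i j

theorem st_l2_jac {X : Vc m → Vc m} (hX : ∀ i, Tame fun z => X z i) : L2m (jac X) :=
  fun i j => ((hX i).pg_pd j).memLp_two

/-- a limit of Jacobians is curl free -/
theorem st_curl {X : ℕ → Vc m → Vc m} (hX : ∀ n i, Tame fun z => X n z i) {M : Fin m → Mx m}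
    (hM : ∀ k, (M k).IsSymm)
    (h : Tendsto (fun n => n2m fun z => jac (X n) z - mf lam (lmat M z)) atTop (𝓝 0))
    (z : Vc m) (i j k : Fin m) :
    dk lam (lmat M z) (M k) i j = dk lam (lmat M z) (M j) i k := by
  have h1 : ∀ j α, Tendsto (fun n => hc (fun z => X n z i) (α + Pi.single j 1)) atTop
      (𝓝 (hc (fun z => mf lam (lmat M z) i j) α)) := fun j α => by
    refine (wd2_pair (fun n => st_l2_jac (hX n) i j) (st_l2 hM i j) (tame_hm α).pg.memLp_two
      (squeeze_zero (fun n => integral_nonneg fun z => sq_nonneg _)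
        (fun n => st_entry_le ((st_l2_jac (hX n)).sub (st_l2 hM)) i j) h)).congr fun n => ?_
    exact (hX n i).hc_pd j α
  have h2 : ∀ α, hc (fun z => pd k (fun y => mf lam (lmat M y) i j) z -
      pd j (fun y => mf lam (lmat M y) i k) z) α = 0 := fun α => by
    rw [Wd_hc_sub ((st_tame hM i j).pg_pd k).memLp_two ((st_tame hM i k).pg_pd j).memLp_two,
      (st_tame hM i j).hc_pd, (st_tame hM i k).hc_pd, sub_eq_zero]
    refine tendsto_nhds_unique (h1 j _) ((h1 k _).congr fun n => ?_)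
    rw [add_right_comm]
  have h3 := ae_zero_of_hc (((st_tame hM i j).pg_pd k).memLp_two.sub
    ((st_tame hM i k).pg_pd j).memLp_two) h2
  refine congrFun ((Continuous.ae_eq_iff_eq (gm m) (st_cont hM i j k) (st_cont hM i k j)).1 ?_) z
  filter_upwards [h3] with y hy
  rw [← st_pd hM, ← st_pd hM]
  exact sub_eq_zero.1 hy

theorem st_tame_FF (a : Fin m) : Tame fun z : Vc m => FF (z a) := by
  refine ⟨1, 1, zero_le_one, fun x y => ?_⟩
  have hx := norm_le_pi_norm x a
  have hy := norm_le_pi_norm y a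
  have hxy := norm_le_pi_norm (x - y) a
  have h := Convex.norm_image_sub_le_of_norm_hasDerivWithin_le (f := FF) (f' := lam)
    (C := 1 + ‖x‖ + ‖y‖) (s := Metric.closedBall 0 (‖x‖ + ‖y‖)) (x := y a) (y := x a)
    (fun t _ => (hasDerivAt_FF t).hasDerivWithinAt) (fun t ht => by
      rw [mem_closedBall_zero_iff, Real.norm_eq_abs] at ht
      rw [Real.norm_eq_abs, abs_of_pos (lam_pos t)]
      linarith [lam_le t]) (convex_closedBall _ _)
    (mem_closedBall_zero_iff.2 (by linarith [norm_nonneg x]))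
    (mem_closedBall_zero_iff.2 (by linarith [norm_nonneg y]))
  rw [one_mul, pow_one]
  exact h.trans (mul_le_mul_of_nonneg_left hxy (by positivity))

theorem st_wd_xi {M : Fin m → Mx m} {O : Mx m} (E : ∀ z, Eig (lmat M z) O (Oᵀ *ᵥ z)) (i : Fin m) :
    WD (fun z => (O *ᵥ xi (Oᵀ *ᵥ z)) i) fun k z => mf lam (lmat M z) i k := by
  have ht : Tame fun z => (O *ᵥ xi (Oᵀ *ᵥ z)) i :=
    Tame.sum (F := fun a z => O i a * FF ((Oᵀ *ᵥ z) a)) Finset.univ fun a _ =>
      (Tame.comp_lip (st_tame_FF a) (Y := fun z => Oᵀ *ᵥ z)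
        (LinearMap.toContinuousLinearMap (toLin' Oᵀ)).lipschitz).const_mul _
  refine (wd_of_tame ht).congr (ae_eq_refl _) fun k => Eventually.of_forall fun z => ?_
  have hd : HasDerivAt (fun t : ℝ => ∑ a, O i a * FF ((Oᵀ *ᵥ (z + t • Pi.single k 1)) a))
      (∑ a, O i a * (lam ((Oᵀ *ᵥ z) a) * O k a)) 0 := by
    refine HasDerivAt.fun_sum fun a _ => HasDerivAt.const_mul _ ?_
    have h1 : HasDerivAt (fun t : ℝ => (Oᵀ *ᵥ (z + t • Pi.single k 1)) a) (O k a) 0 := by
      simp only [mulVec_add, mulVec_smul, mulVec_single_one, Pi.add_apply, Pi.smul_apply,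
        smul_eq_mul]
      simpa using ((hasDerivAt_id' (0 : ℝ)).mul_const (O k a)).const_add ((Oᵀ *ᵥ z) a)
    have h2 : HasDerivAt FF (lam ((Oᵀ *ᵥ z) a)) ((Oᵀ *ᵥ (z + (0 : ℝ) • Pi.single k 1)) a) := by
      rw [zero_smul, add_zero]; exact hasDerivAt_FF _
    exact HasDerivAt.comp (h₂ := FF) (0 : ℝ) h2 h1
  refine hd.deriv.trans ?_
  refine Eq.trans ?_ (((E z).mf lam).apply i k).symm
  exact Finset.sum_congr rfl fun a _ => (mul_assoc _ _ _).symm

theorem st_poincare {X Y : Vc m → Vc m} {G : Vc m → Mx m} (hX : ∀ i, Tame fun z => X z i)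
    (hY : ∀ i, WD (fun z => Y z i) fun k z => G z i k) :
    ∃ b : Vc m, ∫ z, nsq (X z - b - Y z) ∂gm m ≤ n2m fun z => jac X z - G z := by
  set b : Vc m := fun i => ∫ z, (X z i - Y z i) ∂gm m with hb
  have hW : ∀ i, WD (fun z => X z i - b i - Y z i) fun k z => jac X z i k - 0 - G z i k := fun i =>
    ((wd_of_tame (hX i)).sub (wd_const (b i))).sub (hY i)
  refine ⟨b, ?_⟩
  have h0 : ∀ i, ∫ z, (X z i - b i - Y z i) ∂gm m = 0 := fun i => by
    have i1 : Integrable (fun z => X z i - Y z i) (gm m) :=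
      (hX i).pg.integrable.sub ((hY i).l2.integrable one_le_two)
    simp only [sub_right_comm _ (b i)]
    rw [integral_sub i1 (integrable_const _), integral_const, probReal_univ, one_smul, sub_self]
  have i2 : ∀ i k, Integrable (fun z => (jac X z i k - G z i k) ^ 2) (gm m) := fun i k => by
    simpa only [sub_zero] using ((hW i).l2d k).integrable_sq
  simp only [nsq_eq_sum, n2m, fr2, Pi.sub_apply, Matrix.sub_apply]
  rw [integral_finsetSum _ fun i _ => (hW i).l2.integrable_sq,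
    integral_finsetSum _ fun i _ => integrable_finsetSum _ fun k _ => i2 i k]
  refine Finset.sum_le_sum fun i _ => ?_
  rw [integral_finsetSum _ fun k _ => i2 i k]
  simpa only [h0, sub_zero, sq (0 : ℝ), mul_zero, zero_add] using (hW i).poincare

theorem st_close {M N : Fin m → Mx m} (hM : ∀ k, (M k).IsSymm) (hN : ∀ k, (N k).IsSymm)
    {J : Vc m → Mx m} (hJ : L2m J) : n2m (fun z => J z - mf lam (lmat N z)) ≤
      2 * n2m (fun z => J z - mf lam (lmat M z)) + 2 * (m * ∑ k, fr2 (M k - N k)) := by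
  have i1 := (hJ.sub (st_l2 hM)).integrable_fr2.const_mul 2
  have i2 := ((ma4_nsq (m := m)).1.mul_const (∑ k, fr2 (M k - N k))).const_mul 2
  have e : m * ∑ k, fr2 (M k - N k) = ∫ z, nsq z * ∑ k, fr2 (M k - N k) ∂gm m := by
    rw [integral_mul_const, ma4_nsq.2]
  rw [e, n2m, n2m, ← integral_const_mul, ← integral_const_mul, ← integral_add i1 i2]
  refine integral_mono (hJ.sub (st_l2 hN)).integrable_fr2 (i1.add i2) fun z => ?_
  have h1 := fr2_mf_sub_le (lmat_isSymm hM z) (lmat_isSymm hN z) (h := lam) (K := 1)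
    fun x y _ _ => by rw [one_mul]; exact lam_lip x y
  have h2 : lmat M z - lmat N z = lmat (fun k => M k - N k) z := by
    simp only [lmat, smul_sub, Finset.sum_sub_distrib]
  have h3 := fr2_lmat_le (M := fun k => M k - N k) z
  rw [← nsq_eq_sum, ← h2] at h3
  have h4 := fr2_add (J z - mf lam (lmat M z)) (mf lam (lmat M z) - mf lam (lmat N z))
  have h5 := fr2_sub (J z - mf lam (lmat M z)) (mf lam (lmat M z) - mf lam (lmat N z))
  rw [sub_add_sub_cancel] at h4
  have h6 := fr2_nonneg (J z - mf lam (lmat M z) - (mf lam (lmat M z) - mf lam (lmat N z)))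
  simp only
  linarith

theorem st_seq {X : ℕ → Vc m → Vc m} (hX : ∀ n i, Tame fun z => X n z i) {M : ℕ → Fin m → Mx m}
    (hM : ∀ n k, (M n k).IsSymm)
    (h : ∀ n : ℕ, n2m (fun z => jac (X n) z - mf lam (lmat (M n) z)) +
      trace (mf stv (∑ k, M n k * M n k)) ≤ 1 / ((n : ℝ) + 1) / 2) {η : ℝ} (hη : 0 < η) :
    ∃ (n : ℕ) (O : Mx m) (b : Vc m), O * Oᵀ = 1 ∧
      ∫ z, nsq (X n z - b - O *ᵥ xi (Oᵀ *ᵥ z)) ∂gm m ≤ η := by
  have n0 : ∀ n, 0 ≤ n2m fun z => jac (X n) z - mf lam (lmat (M n) z) := fun n =>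
    integral_nonneg fun z => fr2_nonneg _
  have t0 := fun n => st_tr_nonneg (st_sq_symm (hM n))
  have e1 : ∀ n : ℕ, 1 / ((n : ℝ) + 1) ≤ 1 := fun n =>
    (div_le_one (by positivity)).2 (by linarith [Nat.cast_nonneg (α := ℝ) n])
  have f1 : ∀ n : ℕ, fr2 (∑ k, M n k * M n k - 1) ≤ 1 / ((n : ℝ) + 1) / 2 := fun n =>
    (st_fr2_le (st_sq_symm (hM n)) (by linarith [h n, n0 n, e1 n])).trans (by linarith [h n, n0 n])
  obtain ⟨N, -, φ, hφ, hl⟩ := (isCompact_univ_pi fun _ : Fin m => isCompact_univ_pi fun _ : Fin m =>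
    isCompact_univ_pi fun _ : Fin m => isCompact_Icc (a := (-2 : ℝ)) (b := 2)).tendsto_subseq
    (x := fun n k i j => M n k i j)
    fun n k _ i _ j _ => st_entry (hM n) (by linarith [f1 n, e1 n]) k i j
  obtain ⟨N, hl'⟩ : ∃ N : Fin m → Mx m, ∀ k, Tendsto (fun n => M (φ n) k) atTop (𝓝 (N k)) :=
    ⟨N, tendsto_pi_nhds.1 hl⟩
  have hN : ∀ k, (N k).IsSymm := fun k => IsSymm.ext fun i j =>
    tendsto_nhds_unique (tendsto_pi_nhds.1 (tendsto_pi_nhds.1 (hl' k) j) i)
      ((tendsto_pi_nhds.1 (tendsto_pi_nhds.1 (hl' k) i) j).congr fun n =>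
        ((hM (φ n) k).apply i j).symm)
  have hz : Tendsto (fun n => 1 / ((φ n : ℝ) + 1) / 2) atTop (𝓝 0) := by
    simpa using ((tendsto_one_div_add_atTop_nhds_zero_nat (𝕜 := ℝ)).comp hφ.tendsto_atTop).div_const 2
  have h1 : ∑ k, N k * N k = 1 :=
    tendsto_nhds_unique (tendsto_finsetSum _ fun k _ => (hl' k).mul (hl' k))
      (tendsto_of_fr2 (squeeze_zero (fun n => fr2_nonneg _) (fun n => f1 (φ n)) hz))
  have h2 : Tendsto (fun n => n2m fun z => jac (X (φ n)) z - mf lam (lmat N z))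
      atTop (𝓝 0) := by
    have a1 := (hz.const_mul 2).add
      (((tendsto_finsetSum Finset.univ fun k _ => fr2_tendsto (hl' k)).const_mul (m : ℝ)).const_mul 2)
    simp only [mul_zero, Finset.sum_const_zero, add_zero] at a1
    refine squeeze_zero (fun n => integral_nonneg fun z => fr2_nonneg _) (fun n => ?_) a1
    linarith [st_close (hM (φ n)) hN (st_l2_jac (hX (φ n))), h (φ n), t0 (φ n)]
  obtain ⟨c1, c2⟩ := st_comm hN (st_curl (fun n => hX (φ n)) hN h2)
  obtain ⟨O, hO, E⟩ := st_diag hN c1 c2 h1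
  obtain ⟨n, hn⟩ := (h2.eventually_le_const hη).exists
  obtain ⟨b, hb⟩ := st_poincare (hX (φ n)) (st_wd_xi E)
  exact ⟨φ n, O, b, hO, hb.trans hn⟩

theorem ineqSt (m : ℕ) : IneqSt m := fun V ψ g X κ₁ κ₂ α β h hc => by
  obtain ⟨M, hM, h1⟩ := h.stable hc
  have h2 : 0 ≤ n2m fun z => jac X z - mf lam (lmat M z) := integral_nonneg fun z => fr2_nonneg _
  linarith [st_tr_nonneg (st_sq_symm hM)]

theorem stabSt (m : ℕ) : StabSt m := fun η hη => by
  by_contra hn
  push Not at hn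
  choose V ψ g X κ₁ κ₂ α β h hc hd hf using fun n : ℕ => hn (1 / ((n : ℝ) + 1) / 800) (by positivity)
  choose M hM h1 using fun n => (h n).stable (hc n)
  obtain ⟨n, O, b, hO, hb⟩ := st_seq (fun n => (h n).hX.tame (h n).a0.le (h n).b0) hM
    (fun n => by linarith [h1 n, hd n]) hη
  exact absurd hb (not_le.2 (hf n O b hO))

theorem entIneq (m : ℕ) : Crest.Agent.R203.OfEnt.EntIneq m := entIneq_of (ineqSt m) (stabSt m)

end Crest.Agent.R253
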