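import Crest.Agent.R253.CoreE
import Crest.Agent.R203.Orth

set_option autoImplicit false
set_option linter.unusedVariables false
set_option linter.unusedSectionVars false

open MeasureTheory Matrix Set Filter Topology
open Crest.Agent.R215 (gam)
open Crest.Agent.R203

noncomputable section

namespace Crest.Agent.R253

variable {m : ℕ}

/-! Algebra of the equality case: a curl-free field `lam (L z)` is diagonal in a fixed basis. -/

theorem st_stv_nonneg (v : ℝ) : 0 ≤ stv v := le_min (sq_nonneg _) zero_le_one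

theorem st_tr_nonneg {A : Mx m} (hA : A.IsSymm) : 0 ≤ trace (mf stv A) := by
  obtain ⟨U, d, E⟩ := exists_eig hA
  rw [(E.mf stv).trace_eq]
  exact Finset.sum_nonneg fun a _ => st_stv_nonneg _

theorem st_fr2_le {A : Mx m} (hA : A.IsSymm) (h : trace (mf stv A) < 1) :
    fr2 (A - 1) ≤ trace (mf stv A) := by
  obtain ⟨U, d, E⟩ := exists_eig hA
  have e : A - 1 = A + (-1 : ℝ) • (1 : Mx m) := by rw [neg_smul, one_smul, sub_eq_add_neg]
  rw [(E.mf stv).trace_eq] at h ⊢
  rw [e, (E.add_smul_one (-1)).fr2_eq]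
  refine Finset.sum_le_sum fun a _ => ?_
  have h1 := Finset.single_le_sum (f := fun a => stv (d a)) (fun a _ => st_stv_nonneg _)
    (Finset.mem_univ a)
  have h3 : stv (d a) < 1 := lt_of_le_of_lt h1 h
  unfold stv at h3 ⊢
  rcases min_cases ((d a - 1) ^ 2) 1 with h2 | h2
  · rw [h2.1]; exact le_of_eq (by ring)
  · rw [h2.1] at h3; exact absurd h3 (lt_irrefl _)

theorem st_sq_symm {M : Fin m → Mx m} (hM : ∀ k, (M k).IsSymm) : (∑ k, M k * M k).IsSymm := by
  show (∑ k, M k * M k)ᵀ = ∑ k, M k * M k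
  rw [transpose_sum]
  exact Finset.sum_congr rfl fun k _ => by rw [transpose_mul, (hM k).eq]

theorem st_entry {M : Fin m → Mx m} (hM : ∀ k, (M k).IsSymm) (h : fr2 (∑ k, M k * M k - 1) ≤ 1)
    (k i j : Fin m) : M k i j ∈ Icc (-2 : ℝ) 2 := by
  have h1 := (sq_le_fr2 (∑ k, M k * M k - 1) i i).trans h
  have h2 : (∑ k, M k * M k - 1 : Mx m) i i = ∑ k, ∑ j, M k i j ^ 2 - 1 := by
    rw [Matrix.sub_apply, Matrix.sum_apply, one_apply_eq]
    congr 1
    refine Finset.sum_congr rfl fun k _ => ?_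
    rw [mul_apply]
    exact Finset.sum_congr rfl fun j _ => by rw [(hM k).apply i j, sq]
  have h3 : M k i j ^ 2 ≤ ∑ k, ∑ j, M k i j ^ 2 :=
    (Finset.single_le_sum (f := fun j => M k i j ^ 2) (fun _ _ => sq_nonneg _)
      (Finset.mem_univ j)).trans (Finset.single_le_sum (f := fun k => ∑ j, M k i j ^ 2)
        (fun _ _ => Finset.sum_nonneg fun _ _ => sq_nonneg _) (Finset.mem_univ k))
  rw [h2] at h1
  have h4 := abs_le.1 (abs_le_of_sq_le_sq (a := ∑ k, ∑ j, M k i j ^ 2 - 1) (b := 1)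
    (by linarith) zero_le_one)
  exact abs_le.1 (abs_le_of_sq_le_sq (by linarith) (by norm_num))

theorem st_rot {F : Fin m → Mx m} (h : ∀ i j k, F k i j = F j i k) (U : Mx m) (a b c : Fin m) :
    ∑ k, U k c * (Uᵀ * F k * U) a b = ∑ k, U k b * (Uᵀ * F k * U) a c := by
  simp only [mul_apply, transpose_apply, Finset.mul_sum, Finset.sum_mul]
  rw [Finset.sum_comm]
  refine Finset.sum_congr rfl fun j _ => Finset.sum_congr rfl fun k _ =>
    Finset.sum_congr rfl fun i _ => ?_
  rw [h i j k]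
  ring

theorem st_comm {M : Fin m → Mx m} (hM : ∀ k, (M k).IsSymm)
    (h : ∀ z i j k, dk lam (lmat M z) (M k) i j = dk lam (lmat M z) (M j) i k) :
    (∀ i j k, M k i j = M j i k) ∧ ∀ k l, M k * M l = M l * M k := by
  have hs : ∀ i j k, M k i j = M j i k := fun i j k => by
    have E : Eig (lmat M 0) 1 fun _ => 0 := ⟨by simp, by simp [lmat]⟩
    have h1 := h 0 i j k
    rw [dk_eq E (hM k) c1_lam.diff, dk_eq E (hM j) c1_lam.diff] at h1
    simp only [dkm, transpose_one, Matrix.one_mul, Matrix.mul_one, of_apply] at h1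
    exact mul_left_cancel₀ (dd_lam_pos 0 0).ne' h1
  refine ⟨hs, fun k l => ?_⟩
  obtain ⟨U, d, E⟩ := exists_eig (hM l)
  have E' : Eig (lmat M (Pi.single l 1)) U d := by rwa [lmat_single]
  have hD : ∀ i j k, dkm lam U d (M k) i j = dkm lam U d (M j) i k := fun i j k => by
    rw [← dk_eq E' (hM k) c1_lam.diff, ← dk_eq E' (hM j) c1_lam.diff, h]
  set P : Fin m → Fin m → Fin m → ℝ := fun a b c => ∑ k, U k c * (Uᵀ * M k * U) a b with hP
  have p1 : ∀ a b c, P a b c = P a c b := fun a b c => st_rot hs U a b c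
  have p2 : ∀ a b c, P a b c = P b a c := fun a b c => by
    refine Finset.sum_congr rfl fun k _ => ?_
    have : (Uᵀ * M k * U)ᵀ = Uᵀ * M k * U := by
      rw [transpose_mul, transpose_mul, transpose_transpose, (hM k).eq, Matrix.mul_assoc]
    rw [← this, transpose_apply, this]
  have p3 : ∀ a b c, dd lam (d a) (d b) * P a b c = dd lam (d a) (d c) * P a b c := fun a b c => by
    have := st_rot (F := fun k => dkm lam U d (M k)) hD U a b c
    simp only [dkm_conj E.hU] at this
    conv_rhs => rw [p1]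
    simp only [hP, Finset.mul_sum]
    refine Eq.trans ?_ (this.trans ?_) <;> exact Finset.sum_congr rfl fun k _ => by ring
  have p4 : ∀ a b c, P a b c ≠ 0 → d b = d c := fun a b c h0 =>
    dd_lam_inj (mul_right_cancel₀ h0 (p3 a b c))
  have p5 : ∀ a b c, (d a - d b) * P a b c = 0 := fun a b c => by
    by_cases h0 : P a b c = 0
    · rw [h0, mul_zero]
    · rw [p4 a b c h0, p4 b a c (by rwa [← p2]), sub_self, zero_mul]
  have p6 : ∀ a b, ∑ c, U k c * P a b c = (Uᵀ * M k * U) a b := fun a b => by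
    simp only [hP, Finset.mul_sum]
    rw [Finset.sum_comm]
    have : ∀ j, ∑ c, U k c * (U j c * (Uᵀ * M j * U) a b) =
        (U * Uᵀ) k j * (Uᵀ * M j * U) a b := fun j => by
      rw [mul_apply (M := U), Finset.sum_mul]
      exact Finset.sum_congr rfl fun c _ => (mul_assoc _ _ _).symm
    simp only [this, E.hU, one_apply, ite_mul, one_mul, zero_mul, Finset.sum_ite_eq,
      Finset.mem_univ, if_true]
  have p7 : diagonal d * (Uᵀ * M k * U) = Uᵀ * M k * U * diagonal d := by
    ext a b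
    rw [diagonal_mul, mul_diagonal, ← p6, Finset.mul_sum, Finset.sum_mul]
    refine Finset.sum_congr rfl fun c _ => ?_
    linear_combination U k c * p5 a b c
  calc M k * M l = U * Uᵀ * M k * (U * diagonal d * Uᵀ) := by rw [E.hU, Matrix.one_mul, ← E.hA]
    _ = U * (Uᵀ * M k * U * diagonal d) * Uᵀ := by simp only [Matrix.mul_assoc]
    _ = U * diagonal d * Uᵀ * M k * (U * Uᵀ) := by rw [← p7]; simp only [Matrix.mul_assoc]
    _ = M l * M k := by rw [E.hU, Matrix.mul_one, ← E.hA]

theorem st_diag {M : Fin m → Mx m} (hM : ∀ k, (M k).IsSymm) (hs : ∀ i j k, M k i j = M j i k)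
    (hc : ∀ k l, M k * M l = M l * M k) (h1 : ∑ k, M k * M k = 1) :
    ∃ O : Mx m, O * Oᵀ = 1 ∧ ∀ z, Eig (lmat M z) O (Oᵀ *ᵥ z) := by
  obtain ⟨b, hb⟩ := simul_diag M hM hc
  choose w hw using hb
  have q1 : ∀ z a, lmat M z *ᵥ b a = (z ⬝ᵥ w a) • b a := fun z a => by
    simp only [lmat, Matrix.sum_mulVec, Matrix.smul_mulVec, hw, smul_smul, dotProduct,
      Finset.sum_smul]
  have q2 : ∀ x y, lmat M x *ᵥ y = lmat M y *ᵥ x := fun x y => by
    ext i
    simp only [mulVec, dotProduct, lmat_apply, Finset.sum_mul]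
    rw [Finset.sum_comm]
    exact Finset.sum_congr rfl fun k _ => Finset.sum_congr rfl fun j _ => by rw [hs i j k]; ring
  have q3 : ∀ a, w a ⬝ᵥ w a = 1 := fun a => by
    have : (∑ k, M k * M k) *ᵥ b a = (w a ⬝ᵥ w a) • b a := by
      simp only [Matrix.sum_mulVec, ← mulVec_mulVec, hw, mulVec_smul, smul_smul, dotProduct,
        Finset.sum_smul]
    rw [h1, one_mulVec] at this
    have h2 : (w a ⬝ᵥ w a - 1) • b a = 0 := by rw [sub_smul, ← this, one_smul, sub_self]
    exact sub_eq_zero.1 ((smul_eq_zero.1 h2).resolve_right (b.ne_zero a))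
  have q4 : ∀ a, ∃ κ : ℝ, w a = κ • b a := fun a => by
    have hn : b a ⬝ᵥ b a ≠ 0 := fun h0 => b.ne_zero a (sc2_zero (le_of_eq h0))
    refine ⟨b a ⬝ᵥ w a / b a ⬝ᵥ b a, funext fun i => ?_⟩
    have e1 := dot_mulVec_symm (lmat_isSymm hM (b a)) (b a) (Pi.single i 1)
    rw [q2, q1, q1, dotProduct_smul, smul_dotProduct, single_one_dotProduct,
      dotProduct_single_one, smul_eq_mul, smul_eq_mul] at e1
    rw [Pi.smul_apply, smul_eq_mul, div_mul_eq_mul_div, eq_div_iff hn, e1]
  choose κ hκ using q4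
  have q5 : ∀ z a, lmat M z *ᵥ w a = (z ⬝ᵥ w a) • w a := fun z a => by
    conv_lhs => rw [hκ a, mulVec_smul, q1, smul_comm, ← hκ a]
  have q6 : ∀ a a', a ≠ a' → w a ⬝ᵥ w a' = 0 := fun a a' h => by
    by_contra h0
    have e1 := q2 (w a) (w a')
    rw [q5, q5, dotProduct_comm (w a') (w a)] at e1
    have e2 : w a' = w a := smul_right_injective _ h0 e1
    have e3 := congrArg (fun v => b.repr v a) ((hκ a').symm.trans (e2.trans (hκ a)))
    simp only [map_smul, Module.Basis.repr_self, Finsupp.smul_apply, Finsupp.single_eq_same,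
      Finsupp.single_eq_of_ne h, smul_eq_mul, mul_zero, mul_one] at e3
    have e4 := q3 a
    rw [hκ a, ← e3, zero_smul, dotProduct_zero] at e4
    exact zero_ne_one e4
  have hO : (of fun i a => w a i : Mx m) * (of fun i a => w a i : Mx m)ᵀ = 1 := by
    refine mul_eq_one_comm.1 ?_
    ext a a'
    rw [one_apply]
    split_ifs with h
    · subst h; exact q3 a
    · exact q6 a a' h
  refine ⟨_, hO, fun z => ⟨hO, eq_of_mulVec_col hO fun a => ?_⟩⟩
  refine (q5 z a).trans ?_
  rw [dotProduct_comm]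
  rfl

end Crest.Agent.R253
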