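import Crest.Agent.R253.TmChk

/-! Row 253: the inequalities of `NumA` as expressions, certificates for the tails. -/

set_option autoImplicit false
set_option maxRecDepth 100000

namespace Crest.Agent.R253.Tm

def esC : List Ex := [
  (.sub (.v 4) (.sm 10 (.v 6))),
  (.sub (.c 9) (.sm 100 (.v 6))),
  (.sub (.sm 45 (.v 4)) (.sm 1000 (.v 7))),
  (.add (.sm 45 (.v 4)) (.sm 1000 (.v 7))),
  (.sub (.v 4) (.sm 10 (.v 9))),
  (.add (.v 4) (.sm 10 (.v 9))),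
  (.sub (.sm 68 (.mul (.v 4) (.mul (.v 3) (.mul (.v 3) (.v 3))))) (.c 500)),
  (.sub (.c 51) (.sm 100 (.v 8))),
  (.add (.sub (.c 21) (.sm 100 (.v 8))) (.sm 200 (.mul (.v 5) (.v 5)))),
  (.add (.mul (.sub (.c 13) (.sm 100 (.mul (.v 5) (.v 5)))) (.sm 2 (.v 3))) (.sm 25 (.v 0))),
  (.sub (.mul (.sub (.sm 2000 (.mul (.v 5) (.v 5))) (.c 144)) (.v 3)) (.sm 250 (.v 0)))]

def esP : List Ex := [
  (.sub (.v 8) (.sm 10 (.mul (.v 0) (.v 18)))),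
  (.sub (.c 9) (.sm 100 (.mul (.v 0) (.mul (.v 0) (.v 18))))),
  (.sub (.sm 45 (.v 8)) (.sm 1000 (.mul (.v 0) (.mul (.v 0) (.v 19))))),
  (.add (.sm 45 (.v 8)) (.sm 1000 (.mul (.v 0) (.mul (.v 0) (.v 19))))),
  (.sub (.v 8) (.sm 10 (.mul (.v 0) (.v 21)))),
  (.add (.v 8) (.sm 10 (.mul (.v 0) (.v 21)))),
  (.sub (.sm 68 (.mul (.v 8) (.mul (.v 3) (.mul (.v 3) (.v 3))))) (.sm 500 (.mul (.v 0) (.v 0)))),
  (.sub (.c 51) (.sm 100 (.v 20))),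
  (.add (.sub (.c 21) (.sm 100 (.v 20))) (.sm 200 (.mul (.v 11) (.v 11)))),
  (.add (.mul (.sub (.c 13) (.sm 100 (.mul (.v 11) (.v 11)))) (.sm 2 (.v 3))) (.c 25)),
  (.sub (.mul (.sub (.sm 2000 (.mul (.v 11) (.v 11))) (.c 144)) (.v 3)) (.c 250))]

def esN : List Ex := [
  (.sub (.v 4) (.sm 10 (.mul (.v 0) (.v 7)))),
  (.sub (.c 9) (.sm 100 (.v 7))),
  (.sub (.sm 45 (.v 4)) (.sm 1000 (.mul (.v 0) (.v 8)))),
  (.add (.sm 45 (.v 4)) (.sm 1000 (.mul (.v 0) (.v 8)))),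
  (.sub (.v 4) (.sm 10 (.mul (.v 0) (.v 10)))),
  (.add (.v 4) (.sm 10 (.mul (.v 0) (.v 10)))),
  (.sub (.sm 68 (.mul (.v 4) (.mul (.v 3) (.mul (.v 3) (.v 3))))) (.sm 500 (.mul (.mul (.v 0) (.v 0)) (.mul (.v 0) (.v 0))))),
  (.sub (.c 51) (.sm 100 (.v 9))),
  (.add (.sub (.c 21) (.sm 100 (.v 9))) (.sm 200 (.mul (.v 6) (.v 6)))),
  (.sub (.mul (.sub (.c 13) (.sm 100 (.mul (.v 6) (.v 6)))) (.sm 2 (.v 3))) (.c 25)),
  (.add (.mul (.sub (.sm 2000 (.mul (.v 6) (.v 6))) (.c 144)) (.v 3)) (.c 250))]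

theorem esP_true : chkP esP = true := by decide +kernel
theorem esN_true : chkN esN = true := by decide +kernel

end Crest.Agent.R253.Tm
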