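import Crest.Agent.R253.TmChk

/-! Row 253: kernel certificates for the tubes. -/

set_option autoImplicit false
set_option maxRecDepth 100000

namespace Crest.Agent.R253.Tm

theorem okG_true : okG = true := by decide +kernel
theorem okH0_true : okH0 = true := by decide +kernel
theorem okR0_true : okR0 = true := by decide +kernel
theorem okH_true : allR okH 0 256 = true := by decide +kernel
theorem okR_true : allR okR 0 256 = true := by decide +kernel
/-- `3 ≤ FF - t ^ 2 / 2 ≤ 3.02` on the last piece -/
def esL : List Ex := [
  (.sub (.sub (.sm 200 (.v 10)) (.sm 100 (.mul (.v 0) (.v 0)))) (.c 600)),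
  (.sub (.add (.c 604) (.sm 100 (.mul (.v 0) (.v 0)))) (.sm 200 (.v 10)))]
theorem esL_true : chkC esL 255 = true := by decide +kernel

end Crest.Agent.R253.Tm
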