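import Crest.Agent.R253.TmCore
import Crest.Agent.R253.TmData

/-! Row 253: Taylor-model checkers for the three regimes (no Mathlib import). -/

set_option autoImplicit false

namespace Crest.Agent.R253.Tm

open Crest.Agent.Lib.PolyBB

noncomputable def pH (j : Nat) : List Z := force (nth 0 dH j) (unp 8)
noncomputable def pR (j : Nat) : List Z := force (nth 0 dR j) (unp 8)
noncomputable def pE (j : Nat) : List Z := force (nth 0 dE j) (unp 8)

def S32 : Nat := 39614081257132168796771975168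
def S8x : Nat := 10141204801825835211973625643008
def E0H : Nat := 73786976294838206464
def ETAH : Nat := 18014398509481984
def EH : Nat := 78398662313265594368
def E0R : Nat := 1152921504606846976
def ETAR : Nat := 36893488147419103232
def ER : Nat := 9445885887243897274368
def RG : Nat := 3070380543400170000
def TINY : Nat := 18014398509481984

/-- `t = -8 + (2 j + 1 + σ) / 32` -/
noncomputable def tT (j : Nat) : TM :=
  tex [Z.dif (Nat.mul (Nat.succ (Nat.mul 2 j)) S32) S8x, Z.pos S32]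

noncomputable def dfH (j : Nat) (p : List Z) : TM :=
  tsub (tmul 8 0 (tex p) (tsub (tex p) (tT j))) (tsm (Z.pos 32) (tex (pder p)))

noncomputable def okH (j : Nat) : Bool :=
  fL (pH j) (fun p => fT (dfH j p) (fun C => band (posC (tex p)) (band C.ok
    (Nat.ble (Nat.add (Nat.mul 16 (zabs (Z.sub (at1 p) (atm1 (pH (Nat.succ j)))))) (tbd C))
      (Nat.mul 16 ETAH)))))

noncomputable def tH (j : Nat) : TM := ⟨true, pH j, [EH]⟩
noncomputable def tR (j : Nat) : TM := ⟨true, pR (Nat.succ j), [ER]⟩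

noncomputable def dfR (j : Nat) (s : List Z) : TM :=
  tsub (tsub (tcst (Z.pos 1)) (tmul 8 0 (tsub (tH j) (tT j)) (tex s)))
    (tsm (Z.pos 32) (tex (pder s)))

noncomputable def okR (j : Nat) : Bool :=
  fL (pR (Nat.succ j)) (fun s => fT (dfR j s) (fun C => band C.ok
    (Nat.ble (Nat.add (Nat.mul 16 (zabs (Z.sub (atm1 s) (at1 (pR j))))) (tbd C))
      (Nat.mul 16 ETAR))))

noncomputable def tE (j : Nat) : TM :=
  tsqrt 8 0 (tadd (tcst (Z.pos 5)) (tmul 8 0 (tT j) (tT j))) (pE j)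

def progC : List Ex := [
  (.sub (.v 1) (.v 0)),
  (.sub (.c 1) (.mul (.v 4) (.v 2))),
  (.sub (.add (.mul (.v 0) (.v 5)) (.v 2)) (.v 1)),
  (.sub (.add (.mul (.v 0) (.v 6)) (.sm 2 (.v 5))) (.mul (.v 1) (.v 4))),
  (.add (.v 5) (.mul (.v 2) (.v 6))),
  (.add (.add (.v 6) (.mul (.v 5) (.v 6))) (.mul (.v 2) (.v 7))),
  (.mul (.v 1) (.v 2))]

def progP : List Ex := [
  (.add (.v 4) (.mul (.v 0) (.v 6))),
  (.mt (.mt (.sub (.v 2) (.c 1)))),
  (.add (.v 5) (.mul (.v 0) (.v 7))),
  (.mul (.v 1) (.v 9)),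
  (.sub (.c 1) (.mul (.v 8) (.v 10))),
  (.mul (.v 8) (.v 1)),
  (.sub (.c 1) (.mul (.v 5) (.v 12))),
  (.mt (.mt (.sub (.v 1) (.v 12)))),
  (.mt (.mt (.mt (.sub (.add (.v 13) (.mul (.v 5) (.v 1))) (.v 2))))),
  (.mt (.mt (.sub (.v 14) (.sm 2 (.v 12))))),
  (.mt (.mt (.mt (.sub (.add (.mul (.v 0) (.v 15)) (.sm 2 (.v 13))) (.mul (.v 2) (.v 8)))))),
  (.add (.v 15) (.mul (.v 7) (.v 14))),
  (.add (.v 17) (.mul (.v 7) (.v 16))),
  (.add (.v 11) (.mul (.v 0) (.mul (.v 10) (.v 18)))),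
  (.add (.add (.v 18) (.mul (.v 11) (.v 18))) (.mul (.v 10) (.v 19)))]

def progN : List Ex := [
  (.add (.c 1) (.mul (.v 0) (.v 2))),
  (.mul (.v 0) (.v 1)),
  (.sub (.c 1) (.mul (.v 4) (.v 1))),
  (.sub (.sub (.v 5) (.v 2)) (.mt (.v 6))),
  (.sub (.sub (.sm 2 (.v 6)) (.mt (.v 7))) (.mt (.mul (.v 2) (.v 4)))),
  (.add (.v 6) (.mul (.v 5) (.v 7))),
  (.add (.add (.v 7) (.mul (.v 6) (.v 7))) (.mul (.v 5) (.v 8))),
  (.mul (.v 2) (.v 5))]

/-- check on the piece `j` -/
noncomputable def chkC (es : List Ex) (j : Nat) : Bool :=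
  chkE posC 8 0 [tT j, tH j, tR j, tE j] progC es

noncomputable def lG : List Z := unp 31 dG
/-- `a σ ^ k` -/
noncomputable def mono (a k : Nat) : List Nat :=
  Nat.rec (motive := fun _ => List Nat) [a] (fun _ ih => 0 :: ih) k
noncomputable def bar (l : List Z) : List Z :=
  padd (pscal (Z.pos 64) (psub l [Z.pos SS])) (Z.pos 0 :: Z.pos 0 :: padd l (Z.pos 0 :: pder l))
noncomputable def okG : Bool :=
  band (posR (tex (Z.pos 0 :: popp (bar lG)))) (posR (tex (bar (padd lG (pofN (mono RG 32))))))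

noncomputable def tU : TM := tex [Z.pos 0, Z.pos 158456325028528675187087900672]
noncomputable def tG : TM := ⟨true, lG, mono RG 32⟩
noncomputable def tI : TM := tinv 33 32 tG (unp 31 dI)
noncomputable def tW : TM :=
  tsqrt 33 32 (tadd (tcst (Z.pos 1)) (tsm (Z.pos 5) (tmul 33 32 tU tU))) (unp 31 dW)
noncomputable def tXp : TM :=
  ⟨true, [Z.pos 31691265005705735037417580134], [31691265005705735037417580135]⟩
noncomputable def tHf : TM := tex [Z.pos 633825300114114700748351602688]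
noncomputable def tL8 : TM :=
  ⟨true, [Z.pos 3815628306686970498505076648182], [12676506002282294014967032054]⟩
noncomputable def tTiny : TM := ⟨true, [], mono TINY 32⟩

noncomputable def chkP (es : List Ex) : Bool :=
  chkE posR 33 32 [tU, tG, tI, tW, tXp, tHf, tL8] progP es
noncomputable def chkN (es : List Ex) : Bool :=
  chkE posR 33 32 [tU, tadd tG tTiny, tTiny, tW] progN es

/-- the value at `σ = 1` is within `e` of `v` -/
noncomputable def near1 (A : TM) (v : Z) (e : Nat) : Bool :=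
  fT A (fun A => band A.ok (Nat.ble (Nat.add (zabs (Z.sub (at1 A.p) v)) (nsum A.r)) e))

noncomputable def okH0 : Bool := near1 (tsm (Z.pos 8) tI) (atm1 (pH 256)) E0H
noncomputable def okR0 : Bool := near1 (tmul 33 32 tU (tadd tG tTiny)) (at1 (pR 0)) E0R

end Crest.Agent.R253.Tm
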