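import Crest.Agent.Lib.PolyBB.Core

/-!
# Row 253: Taylor-model arithmetic, the checker (no Mathlib import)

A model is a polynomial `p` in `σ` with fixed-point coefficients (scale `SS = 2 ^ 100`) and an error
polynomial `r` in `|σ|`.
-/

set_option autoImplicit false

namespace Crest.Agent.R253.Tm

open Crest.Agent.Lib.PolyBB

/-- the scale `2 ^ 100` -/
def SS : Nat := 1267650600228229401496703205376

noncomputable def zabs (a : Z) : Nat := Z.rec (motive := fun _ => Nat) (fun n => n) (fun n => n) a
noncomputable def zneg (a : Z) : Nat := Z.rec (motive := fun _ => Nat) (fun _ => 0) (fun n => n) a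
noncomputable def zopp (a : Z) : Z :=
  Z.rec (motive := fun _ => Z) (fun n => Z.neg n) (fun n => Z.pos n) a
noncomputable def zdiv (a : Z) : Z :=
  Z.rec (motive := fun _ => Z) (fun n => Z.pos (Nat.div n SS)) (fun n => Z.neg (Nat.div n SS)) a
noncomputable def zge (a : Z) (n : Nat) : Bool :=
  Z.rec (motive := fun _ => Bool) (fun m => Nat.ble n m) (fun _ => false) a

noncomputable def fZ {β : Type} (a : Z) (k : Z → β) : β :=
  Z.rec (motive := fun _ => β) (fun n => force n (fun m => k (Z.pos m)))
    (fun n => force n (fun m => k (Z.neg m))) a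
noncomputable def fL {β : Type} (l : List Z) : (List Z → β) → β :=
  List.rec (motive := fun _ => (List Z → β) → β) (fun k => k [])
    (fun a _ ih k => fZ a (fun a' => ih (fun l' => k (a' :: l')))) l
noncomputable def fN {β : Type} (l : List Nat) : (List Nat → β) → β :=
  List.rec (motive := fun _ => (List Nat → β) → β) (fun k => k [])
    (fun a _ ih k => force a (fun a' => ih (fun l' => k (a' :: l')))) l

noncomputable def padd (a : List Z) : List Z → List Z :=
  List.rec (motive := fun _ => List Z → List Z) (fun b => b)
    (fun x a ih b => List.rec (motive := fun _ => List Z) (x :: a)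
      (fun y b _ => Z.add x y :: ih b) b) a
noncomputable def popp (a : List Z) : List Z :=
  List.rec (motive := fun _ => List Z) [] (fun x _ ih => zopp x :: ih) a
noncomputable def psub (a : List Z) : List Z → List Z :=
  List.rec (motive := fun _ => List Z → List Z) (fun b => popp b)
    (fun x a ih b => List.rec (motive := fun _ => List Z) (x :: a)
      (fun y b _ => Z.sub x y :: ih b) b) a
noncomputable def pscal (c : Z) (a : List Z) : List Z :=
  List.rec (motive := fun _ => List Z) [] (fun x _ ih => Z.mul c x :: ih) a
noncomputable def pfma (c : Z) (a : List Z) : List Z → List Z :=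
  List.rec (motive := fun _ => List Z → List Z) (fun b => b)
    (fun x a ih b => List.rec (motive := fun _ => List Z) (Z.mul c x :: pscal c a)
      (fun y b _ => Z.add (Z.mul c x) y :: ih b) b) a
noncomputable def pmul (a b : List Z) : List Z :=
  List.rec (motive := fun _ => List Z) [] (fun x _ ih => pfma x b (Z.pos 0 :: ih)) a
noncomputable def pabs (a : List Z) : List Nat :=
  List.rec (motive := fun _ => List Nat) [] (fun x _ ih => zabs x :: ih) a
noncomputable def pofN (a : List Nat) : List Z :=
  List.rec (motive := fun _ => List Z) [] (fun x _ ih => Z.pos x :: ih) a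
/-- derivative of `σ ^ k * a`, divided by `σ ^ (k - 1)` -/
noncomputable def pderK (a : List Z) : Nat → List Z :=
  List.rec (motive := fun _ => Nat → List Z) (fun _ => [])
    (fun x _ ih k => Z.mul (Z.pos k) x :: ih (Nat.succ k)) a
noncomputable def pder (a : List Z) : List Z :=
  List.rec (motive := fun _ => List Z) [] (fun _ a _ => pderK a 1) a
noncomputable def at1 (a : List Z) : Z :=
  List.rec (motive := fun _ => Z) (Z.pos 0) (fun x _ ih => Z.add x ih) a
noncomputable def atm1 (a : List Z) : Z :=
  List.rec (motive := fun _ => Z) (Z.pos 0) (fun x _ ih => Z.sub x ih) a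
noncomputable def prnd (l : List Z) : Nat → List Z :=
  List.rec (motive := fun _ => Nat → List Z) (fun _ => [])
    (fun x _ ih n => Nat.rec (motive := fun _ => List Z) [] (fun m _ => zdiv x :: ih m) n) l
noncomputable def prem (l : List Z) : Nat → List Nat :=
  List.rec (motive := fun _ => Nat → List Nat) (fun _ => [])
    (fun x l ih n => Nat.rec (motive := fun _ => List Nat) (zabs x :: pabs l)
      (fun m _ => Nat.mod (zabs x) SS :: ih m) n) l
/-- bound for the negative part on `[-1, 1]`, the flag says that the current degree is even -/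
noncomputable def nsC (l : List Z) : Bool → Nat :=
  List.rec (motive := fun _ => Bool → Nat) (fun _ => 0)
    (fun x _ ih b => Bool.rec (motive := fun _ => Nat) (Nat.add (zabs x) (ih true))
      (Nat.add (zneg x) (ih false)) b) l
/-- bound for the negative part on `[0, 1]` -/
noncomputable def nsR (l : List Z) : Nat :=
  List.rec (motive := fun _ => Nat) 0 (fun x _ ih => Nat.add (zneg x) ih) l

noncomputable def nadd (a : List Nat) : List Nat → List Nat :=
  List.rec (motive := fun _ => List Nat → List Nat) (fun b => b)
    (fun x a ih b => List.rec (motive := fun _ => List Nat) (x :: a)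
      (fun y b _ => Nat.add x y :: ih b) b) a
noncomputable def nscal (c : Nat) (a : List Nat) : List Nat :=
  List.rec (motive := fun _ => List Nat) [] (fun x _ ih => Nat.mul c x :: ih) a
noncomputable def nmul (a b : List Nat) : List Nat :=
  List.rec (motive := fun _ => List Nat) [] (fun x _ ih => nadd (nscal x b) (0 :: ih)) a
noncomputable def nsum (a : List Nat) : Nat :=
  List.rec (motive := fun _ => Nat) 0 (fun x _ ih => Nat.add x ih) a
noncomputable def cdiv (s n : Nat) : Nat := Nat.div (Nat.add n s) (Nat.succ s)
/-- collapse the degrees above `k` and divide by `s + 1`, rounding up -/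
noncomputable def ncol (s : Nat) (l : List Nat) : Nat → List Nat :=
  List.rec (motive := fun _ => Nat → List Nat) (fun _ => [])
    (fun x l ih k => Nat.rec (motive := fun _ => List Nat) [cdiv s (Nat.add x (nsum l))]
      (fun m _ => cdiv s x :: ih m) k) l

/-- Taylor models -/
structure TM where
  ok : Bool
  p : List Z
  r : List Nat

noncomputable def fB {β : Type} (b : Bool) (k : Bool → β) : β :=
  Bool.rec (motive := fun _ => β) (k false) (k true) b
noncomputable def fT {β : Type} (A : TM) (k : TM → β) : β :=
  TM.rec (motive := fun _ => β)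
    (fun o p r => fB o (fun o => fL p (fun p => fN r (fun r => k ⟨o, p, r⟩)))) A

def SM : Nat := 1267650600228229401496703205375

noncomputable def tadd (A B : TM) : TM := ⟨band A.ok B.ok, padd A.p B.p, nadd A.r B.r⟩
noncomputable def tsub (A B : TM) : TM := ⟨band A.ok B.ok, psub A.p B.p, nadd A.r B.r⟩
noncomputable def tsm (c : Z) (A : TM) : TM := ⟨A.ok, pscal c A.p, nscal (zabs c) A.r⟩
noncomputable def tcst (c : Z) : TM := ⟨true, [Z.mul c (Z.pos SS)], []⟩
noncomputable def tmul (n K : Nat) (A B : TM) : TM :=
  fT A (fun A => fT B (fun B => fL (pmul A.p B.p) (fun l =>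
    ⟨band A.ok B.ok, prnd l n, ncol SM (nadd (prem l n)
      (nadd (nmul B.r (pabs A.p)) (nmul A.r (nadd (pabs B.p) B.r)))) K⟩)))
noncomputable def hzP (l : List Z) : Bool :=
  List.rec (motive := fun _ => Bool) true (fun x _ _ => Nat.beq (zabs x) 0) l
noncomputable def hzN (l : List Nat) : Bool :=
  List.rec (motive := fun _ => Bool) true (fun x _ _ => Nat.beq x 0) l
noncomputable def tl {α : Type} (l : List α) : List α :=
  List.rec (motive := fun _ => List α) [] (fun _ l _ => l) l
/-- multiplication by `8 / σ` -/
noncomputable def tmt (A : TM) : TM :=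
  fT A (fun A => ⟨band A.ok (band (hzP A.p) (hzN A.r)), pscal (Z.pos 8) (tl A.p),
    nscal 8 (tl A.r)⟩)
noncomputable def posC (A : TM) : Bool :=
  fT A (fun A => band A.ok (List.rec (motive := fun _ => Bool) false
    (fun x l _ => zge x (Nat.add (nsC l false) (nsum A.r))) A.p))
noncomputable def posR (A : TM) : Bool :=
  fT A (fun A => band A.ok (List.rec (motive := fun _ => Bool) false
    (fun x l _ => zge x (nsR l)) (psub A.p (pofN A.r))))
noncomputable def tex (p : List Z) : TM := ⟨true, p, []⟩
/-- inverse with candidate `q`, for arguments `≥ 1 / 2` -/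
noncomputable def tinv (n K : Nat) (A : TM) (q : List Z) : TM :=
  fT (tsub (tmul n K A (tex q)) (tcst (Z.pos 1))) (fun C =>
    ⟨C.ok, q, nscal 2 (ncol 0 (nadd (pabs C.p) C.r) K)⟩)
/-- square root with candidate `q`, for arguments `≥ 1` -/
noncomputable def tsqrt (n K : Nat) (A : TM) (q : List Z) : TM :=
  fT (tsub (tmul n K (tex q) (tex q)) A) (fun C =>
    ⟨band C.ok (posC (tex q)), q, ncol 0 (nadd (pabs C.p) C.r) K⟩)
/-- bound for the absolute value -/
noncomputable def tbd (A : TM) : Nat := Nat.add (nsum (pabs A.p)) (nsum A.r)

/-- expressions -/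
inductive Ex
  | v (i : Nat)
  | c (z : Int)
  | add (a b : Ex)
  | sub (a b : Ex)
  | mul (a b : Ex)
  | sm (z : Int) (a : Ex)
  | mt (a : Ex)

noncomputable def tmE (n K : Nat) (env : List TM) (e : Ex) : TM :=
  Ex.rec (motive := fun _ => TM) (fun i => nth ⟨false, [], []⟩ env i) (fun z => tcst (Z.ofInt z))
    (fun _ _ a b => tadd a b) (fun _ _ a b => tsub a b) (fun _ _ a b => tmul n K a b)
    (fun z _ a => tsm (Z.ofInt z) a)
    (fun _ a => Nat.rec (motive := fun _ => TM) ⟨false, [], []⟩ (fun _ _ => tmt a) K) e

/-- run a program: each instruction appends its value to the environment -/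
noncomputable def runT {β : Type} (n K : Nat) (prog : List Ex) : List TM → (List TM → β) → β :=
  List.rec (motive := fun _ => List TM → (List TM → β) → β) (fun env k => k env)
    (fun e _ ih env k => fT (tmE n K env e) (fun A => ih (app env [A]) k)) prog

noncomputable def allE (pos : TM → Bool) (n K : Nat) (env : List TM) (es : List Ex) : Bool :=
  List.rec (motive := fun _ => Bool) true (fun e _ ih => band (pos (tmE n K env e)) ih) es

noncomputable def fEnv {β : Type} (l : List TM) : (List TM → β) → β :=
  List.rec (motive := fun _ => (List TM → β) → β) (fun k => k [])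
    (fun a _ ih k => fT a (fun a' => ih (fun l' => k (a' :: l')))) l

/-- check the expressions `es` after running `prog` on `env` -/
noncomputable def chkE (pos : TM → Bool) (n K : Nat) (env : List TM) (prog es : List Ex) : Bool :=
  fEnv env (fun env => runT n K prog env (fun env => allE pos n K env es))

noncomputable def allR (f : Nat → Bool) (a n : Nat) : Bool :=
  Nat.rec (motive := fun _ => Bool) true (fun m ih => band (force (Nat.add a m) f) ih) n

/-- unpack `c` coefficients in base `2 ^ 112` with offset `2 ^ 111` -/
noncomputable def unp (c : Nat) : Nat → List Z :=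
  Nat.rec (motive := fun _ => Nat → List Z) (fun _ => [])
    (fun _ ih n => Z.dif (Nat.mod n 5192296858534827628530496329220096)
      2596148429267413814265248164610048 ::
        force (Nat.div n 5192296858534827628530496329220096) ih) c

end Crest.Agent.R253.Tm
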