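import Crest.Agent.R253.TmJ0

/-! Row 253: coefficients of the joint inequalities (scale `10 ^ 5`). -/

set_option autoImplicit false
set_option maxRecDepth 100000

namespace Crest.Agent.R253.Tm

def csJ : List JC := [
  ⟨10300, 0, 20900, 12140, 854000, 2523, 1379, -532⟩,
  ⟨15000, 0, 20700, 11830, 840000, 4212, 1638, -527⟩,
  ⟨14600, 0, 33900, 11000, 760000, 3987, 1388, -427⟩,
  ⟨14800, 0, 41100, 9870, 648000, 4036, 1256, -359⟩,
  ⟨14800, 0, 36200, 8890, 574000, 4070, 1193, -306⟩,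
  ⟨29050, 14700, 124000, 34940, 1409000, 1727, 5552, 3270⟩,
  ⟨54180, 12800, 180100, 51580, 2307000, 9389, 6991, 2447⟩,
  ⟨76170, 17900, 255700, 77560, 3381000, 12416, 9618, 3519⟩,
  ⟨104400, 23800, 309200, 114700, 5365000, 15208, 12438, 4858⟩,
  ⟨142410, 31500, 449600, 161530, 6419000, 20051, 16008, 6610⟩,
  ⟨183520, 40600, 596600, 231300, 8757000, 23177, 20233, 8618⟩,
  ⟨262920, 47700, 659500, 305500, 11405000, 36182, 24590, 10283⟩,
  ⟨368000, 53500, 886900, 418600, 14139000, 50232, 29211, 11621⟩,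
  ⟨492480, 60600, 944700, 546730, 17930000, 68480, 33995, 13315⟩,
  ⟨0, 100000, 0, 0, 0, -37075, 21171, 23921⟩,
  ⟨0, 0, 0, 14410, 287000, -1588, 0, 0⟩]

end Crest.Agent.R253.Tm
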