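import Crest.Agent.Lib.PolyBB.Comp
import Crest.Agent.R253.TmCore

/-! Row 253: soundness of the Taylor-model arithmetic. -/

set_option autoImplicit false

namespace Crest.Agent.R253.Tm

open Crest.Agent.Lib.PolyBB

/-- value of a signed number -/
noncomputable def zv (a : Z) : ℝ := (a.val : ℝ)

@[simp] theorem zv_pos (n : ℕ) : zv (Z.pos n) = n := by simp [zv, Z.val]
@[simp] theorem zv_neg (n : ℕ) : zv (Z.neg n) = -n := by simp [zv, Z.val]
theorem zv_add (a b : Z) : zv (Z.add a b) = zv a + zv b := by simp [zv, Z.val_add]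
theorem zv_sub (a b : Z) : zv (Z.sub a b) = zv a - zv b := by simp [zv, Z.val_sub]
theorem zv_mul (a b : Z) : zv (Z.mul a b) = zv a * zv b := by simp [zv, Z.val_mul]
theorem zv_dif (m n : ℕ) : zv (Z.dif m n) = (m : ℝ) - n := by simp [zv, Z.val_dif]
theorem zv_ofInt (z : ℤ) : zv (Z.ofInt z) = z := by simp [zv, Z.val_ofInt]
theorem zv_opp (a : Z) : zv (zopp a) = -zv a := by cases a <;> simp [zopp]
theorem zabs_eq (a : Z) : (zabs a : ℝ) = |zv a| := by cases a <;> simp [zabs]
theorem zneg_le (a : Z) : -(zneg a : ℝ) ≤ zv a := by cases a <;> simp [zneg]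
theorem zge_spec {a : Z} {n : ℕ} (h : zge a n = true) : (n : ℝ) ≤ zv a := by
  cases a with
  | pos m => simpa using Nat.le_of_ble_eq_true h
  | neg m => exact absurd h (by simp [zge])

theorem SS_pos : (0 : ℝ) < (SS : ℝ) := by unfold SS; norm_num
theorem SM_succ : SM + 1 = SS := by unfold SM SS; norm_num

theorem zdiv_spec (a : Z) : |zv a - SS * zv (zdiv a)| = ((Nat.mod (zabs a) SS : ℕ) : ℝ) := by
  have key : ∀ n : ℕ, (n : ℝ) - SS * ((n / SS : ℕ) : ℝ) = ((n % SS : ℕ) : ℝ) := fun n => by
    have := Nat.div_add_mod n SS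
    have h2 : (n : ℝ) = SS * ((n / SS : ℕ) : ℝ) + ((n % SS : ℕ) : ℝ) := by exact_mod_cast this.symm
    linarith
  cases a with
  | pos n =>
    show |zv (Z.pos n) - SS * zv (Z.pos (n / SS))| = ((n % SS : ℕ) : ℝ)
    rw [zv_pos, zv_pos, key, abs_of_nonneg (Nat.cast_nonneg _)]
  | neg n =>
    show |zv (Z.neg n) - SS * zv (Z.neg (n / SS))| = ((n % SS : ℕ) : ℝ)
    rw [zv_neg, zv_neg, show -(n : ℝ) - SS * -((n / SS : ℕ) : ℝ) =
      -((n : ℝ) - SS * ((n / SS : ℕ) : ℝ)) by ring, key, abs_neg,
      abs_of_nonneg (Nat.cast_nonneg _)]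

theorem fZ_eq {β : Type} (a : Z) (k : Z → β) : fZ a k = k a := by
  cases a with
  | pos n => exact force_eq n (fun m => k (Z.pos m))
  | neg n => exact force_eq n (fun m => k (Z.neg m))
theorem fL_eq {β : Type} (l : List Z) (k : List Z → β) : fL l k = k l := by
  induction l generalizing k with
  | nil => rfl
  | cons a l ih =>
    exact (fZ_eq a (fun a' => fL l (fun l' => k (a' :: l')))).trans (ih (fun l' => k (a :: l')))
theorem fN_eq {β : Type} (l : List ℕ) (k : List ℕ → β) : fN l k = k l := by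
  induction l generalizing k with
  | nil => rfl
  | cons a l ih =>
    exact (force_eq a (fun a' => fN l (fun l' => k (a' :: l')))).trans
      (ih (fun l' => k (a :: l')))
theorem fB_eq {β : Type} (b : Bool) (k : Bool → β) : fB b k = k b := by cases b <;> rfl
theorem fT_eq {β : Type} (A : TM) (k : TM → β) : fT A k = k A := by
  obtain ⟨o, p, r⟩ := A
  show fB o (fun o => fL p (fun p => fN r (fun r => k ⟨o, p, r⟩))) = _
  rw [fB_eq, fL_eq, fN_eq]
theorem fEnv_eq {β : Type} (l : List TM) (k : List TM → β) : fEnv l k = k l := by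
  induction l generalizing k with
  | nil => rfl
  | cons a l ih =>
    exact (fT_eq a (fun a' => fEnv l (fun l' => k (a' :: l')))).trans
      (ih (fun l' => k (a :: l')))

/-- value of a polynomial -/
noncomputable def ev : List Z → ℝ → ℝ
  | [], _ => 0
  | a :: l, s => zv a + s * ev l s
/-- value of an error polynomial -/
noncomputable def evN : List ℕ → ℝ → ℝ
  | [], _ => 0
  | a :: l, s => a + s * evN l s

@[simp] theorem ev_nil (s : ℝ) : ev [] s = 0 := rfl
@[simp] theorem ev_cons (a : Z) (l : List Z) (s : ℝ) : ev (a :: l) s = zv a + s * ev l s := rfl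
@[simp] theorem evN_nil (s : ℝ) : evN [] s = 0 := rfl
@[simp] theorem evN_cons (a : ℕ) (l : List ℕ) (s : ℝ) : evN (a :: l) s = a + s * evN l s := rfl

variable {s : ℝ}

theorem ev_padd (a b : List Z) : ev (padd a b) s = ev a s + ev b s := by
  induction a generalizing b with
  | nil => simp [padd]
  | cons x a ih =>
    cases b with
    | nil => simp [padd]
    | cons y b =>
      show ev (Z.add x y :: padd a b) s = _
      simp only [ev_cons, ih, zv_add]; ring
theorem ev_popp (a : List Z) : ev (popp a) s = -ev a s := by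
  induction a with
  | nil => simp [popp]
  | cons x a ih =>
    show ev (zopp x :: popp a) s = _
    simp only [ev_cons, ih, zv_opp]; ring
theorem ev_psub (a b : List Z) : ev (psub a b) s = ev a s - ev b s := by
  induction a generalizing b with
  | nil => show ev (popp b) s = _; simp [ev_popp]
  | cons x a ih =>
    cases b with
    | nil => simp [psub]
    | cons y b =>
      show ev (Z.sub x y :: psub a b) s = _
      simp only [ev_cons, ih, zv_sub]; ring
theorem ev_pscal (c : Z) (a : List Z) : ev (pscal c a) s = zv c * ev a s := by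
  induction a with
  | nil => simp [pscal]
  | cons x a ih =>
    show ev (Z.mul c x :: pscal c a) s = _
    simp only [ev_cons, ih, zv_mul]; ring
theorem ev_pfma (c : Z) (a b : List Z) : ev (pfma c a b) s = zv c * ev a s + ev b s := by
  induction a generalizing b with
  | nil => simp [pfma]
  | cons x a ih =>
    cases b with
    | nil =>
      show ev (Z.mul c x :: pscal c a) s = _
      simp only [ev_cons, ev_pscal, zv_mul, ev_nil]; ring
    | cons y b =>
      show ev (Z.add (Z.mul c x) y :: pfma c a b) s = _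
      simp only [ev_cons, ih, zv_mul, zv_add]; ring
theorem ev_pmul (a b : List Z) : ev (pmul a b) s = ev a s * ev b s := by
  induction a with
  | nil => simp [pmul]
  | cons x a ih =>
    show ev (pfma x b (Z.pos 0 :: pmul a b)) s = _
    simp only [ev_pfma, ev_cons, ih, zv_pos]; push_cast; ring
theorem ev_pofN (a : List ℕ) : ev (pofN a) s = evN a s := by
  induction a with
  | nil => simp [pofN]
  | cons x a ih =>
    show ev (Z.pos x :: pofN a) s = _
    simp only [ev_cons, ih, zv_pos, evN_cons]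
theorem ev_at1 (a : List Z) : zv (at1 a) = ev a 1 := by
  induction a with
  | nil => simp [at1]
  | cons x a ih =>
    show zv (Z.add x (at1 a)) = _
    simp only [ev_cons, ih, zv_add]; ring
theorem ev_atm1 (a : List Z) : zv (atm1 a) = ev a (-1) := by
  induction a with
  | nil => simp [atm1]
  | cons x a ih =>
    show zv (Z.sub x (atm1 a)) = _
    simp only [ev_cons, ih, zv_sub]; ring

/-- formal derivative by the product rule -/
noncomputable def evD : List Z → ℝ → ℝ
  | [], _ => 0
  | _ :: l, s => ev l s + s * evD l s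

theorem hasDerivAt_ev' (a : List Z) (s : ℝ) : HasDerivAt (ev a) (evD a s) s := by
  induction a with
  | nil => exact hasDerivAt_const s 0
  | cons x a ih =>
    have := ((hasDerivAt_id s).mul ih).const_add (zv x)
    refine HasDerivAt.congr_deriv (f' := 1 * ev a s + s * evD a s) this ?_
    simp [evD]
theorem ev_pderK (a : List Z) (k : ℕ) : ev (pderK a k) s = k * ev a s + s * evD a s := by
  induction a generalizing k with
  | nil => simp [pderK, evD]
  | cons x a ih =>
    show ev (Z.mul (Z.pos k) x :: pderK a (k + 1)) s = _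
    simp only [ev_cons, ih, zv_mul, zv_pos, evD]; push_cast; ring
theorem hasDerivAt_ev (a : List Z) (s : ℝ) : HasDerivAt (ev a) (ev (pder a) s) s := by
  have := hasDerivAt_ev' a s
  cases a with
  | nil => exact this
  | cons x a =>
    have e : ev (pder (x :: a)) s = evD (x :: a) s := by
      show ev (pderK a 1) s = _
      rw [ev_pderK]; simp [evD]
    rwa [e]

theorem evN_nonneg (a : List ℕ) (hs : 0 ≤ s) : 0 ≤ evN a s := by
  induction a with
  | nil => simp
  | cons x a ih => simp only [evN_cons]; positivity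
theorem evN_nadd (a b : List ℕ) : evN (nadd a b) s = evN a s + evN b s := by
  induction a generalizing b with
  | nil => simp [nadd]
  | cons x a ih =>
    cases b with
    | nil => simp [nadd]
    | cons y b =>
      show evN ((x + y) :: nadd a b) s = _
      simp only [evN_cons, ih]; push_cast; ring
theorem evN_nscal (c : ℕ) (a : List ℕ) : evN (nscal c a) s = c * evN a s := by
  induction a with
  | nil => simp [nscal]
  | cons x a ih =>
    show evN ((c * x) :: nscal c a) s = _
    simp only [evN_cons, ih]; push_cast; ring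
theorem evN_nmul (a b : List ℕ) : evN (nmul a b) s = evN a s * evN b s := by
  induction a with
  | nil => simp [nmul]
  | cons x a ih =>
    show evN (nadd (nscal x b) (0 :: nmul a b)) s = _
    simp only [evN_nadd, evN_nscal, evN_cons, ih]; push_cast; ring
theorem evN_le_nsum (a : List ℕ) (h0 : 0 ≤ s) (h1 : s ≤ 1) : evN a s ≤ nsum a := by
  induction a with
  | nil => simp [nsum]
  | cons x a ih =>
    show _ ≤ ((x + nsum a : ℕ) : ℝ)
    have := mul_le_of_le_one_left (evN_nonneg a h0) h1
    simp only [evN_cons]; push_cast; linarith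
theorem abs_ev_le (a : List Z) : |ev a s| ≤ evN (pabs a) |s| := by
  induction a with
  | nil => simp [pabs]
  | cons x a ih =>
    show _ ≤ evN (zabs x :: pabs a) |s|
    simp only [ev_cons, evN_cons, zabs_eq]
    refine (abs_add_le _ _).trans ?_
    rw [abs_mul]
    exact add_le_add le_rfl (mul_le_mul_of_nonneg_left ih (abs_nonneg _))
theorem rnd_rem (l : List Z) (n : ℕ) :
    |ev l s - SS * ev (prnd l n) s| ≤ evN (prem l n) |s| := by
  induction l generalizing n with
  | nil => simp [prnd, prem]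
  | cons x l ih =>
    cases n with
    | zero =>
      show |ev (x :: l) s - SS * ev [] s| ≤ evN (pabs (x :: l)) |s|
      simpa using abs_ev_le (x :: l)
    | succ m =>
      show |ev (x :: l) s - SS * ev (zdiv x :: prnd l m) s| ≤
        evN (Nat.mod (zabs x) SS :: prem l m) |s|
      simp only [ev_cons, evN_cons, ← zdiv_spec]
      rw [show zv x + s * ev l s - SS * (zv (zdiv x) + s * ev (prnd l m) s) =
        (zv x - SS * zv (zdiv x)) + s * (ev l s - SS * ev (prnd l m) s) by ring]
      refine (abs_add_le _ _).trans ?_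
      rw [abs_mul]
      exact add_le_add le_rfl (mul_le_mul_of_nonneg_left (ih m) (abs_nonneg _))
theorem cdiv_spec (q n : ℕ) : (n : ℝ) ≤ ((q + 1 : ℕ) : ℝ) * (cdiv q n : ℝ) := by
  have h1 := Nat.div_add_mod (n + q) (q + 1)
  have h2 : (n + q) % (q + 1) < q + 1 := Nat.mod_lt _ (Nat.succ_pos q)
  have h3 : n ≤ (q + 1) * ((n + q) / (q + 1)) := by omega
  exact_mod_cast h3
theorem ncol_spec (q : ℕ) (l : List ℕ) (k : ℕ) (h0 : 0 ≤ s) (h1 : s ≤ 1) :
    evN l s ≤ ((q + 1 : ℕ) : ℝ) * evN (ncol q l k) s := by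
  induction l generalizing k with
  | nil => simp [ncol]
  | cons x l ih =>
    cases k with
    | zero =>
      show _ ≤ _ * evN [cdiv q (x + nsum l)] s
      have h2 := evN_le_nsum (x :: l) h0 h1
      have h3 := cdiv_spec q (x + nsum l)
      simp only [evN_cons, evN_nil, mul_zero, add_zero] at h2 ⊢
      exact h2.trans h3
    | succ m =>
      show _ ≤ _ * evN (cdiv q x :: ncol q l m) s
      have h2 := mul_le_mul_of_nonneg_left (ih m) h0
      have h3 := cdiv_spec q x
      simp only [evN_cons]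
      nlinarith
theorem nsC_spec (l : List Z) (b : Bool) {w : ℝ} (hs : |s| ≤ 1) (hw : |w| ≤ 1)
    (h : if b then 0 ≤ w else 0 ≤ w * s) : -(nsC l b : ℝ) ≤ w * ev l s := by
  induction l generalizing b w with
  | nil => simp [nsC]
  | cons x l ih =>
    have hws : |w * s| ≤ 1 := by rw [abs_mul]; exact mul_le_one₀ hw (abs_nonneg _) hs
    cases b with
    | true =>
      have hw0 : 0 ≤ w := h
      have h1 := ih false hws (by
        show 0 ≤ w * s * s
        rw [mul_assoc]; exact mul_nonneg hw0 (mul_self_nonneg s))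
      show -((zneg x + nsC l false : ℕ) : ℝ) ≤ _
      have h2 := zneg_le x
      have h3 : (0 : ℝ) ≤ zneg x := Nat.cast_nonneg _
      have h4 : w ≤ 1 := (le_abs_self w).trans hw
      simp only [ev_cons]; push_cast
      nlinarith
    | false =>
      have h1 := ih true hws h
      show -((zabs x + nsC l true : ℕ) : ℝ) ≤ _
      have h2 : |w * zv x| ≤ |zv x| := by
        rw [abs_mul]; exact mul_le_of_le_one_left (abs_nonneg _) hw
      have h3 := neg_abs_le (w * zv x)
      simp only [ev_cons]; push_cast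
      rw [zabs_eq]
      nlinarith
theorem nsR_spec (l : List Z) {w : ℝ} (h0 : 0 ≤ s) (h1 : s ≤ 1) (hw0 : 0 ≤ w) (hw : w ≤ 1) :
    -(nsR l : ℝ) ≤ w * ev l s := by
  induction l generalizing w with
  | nil => simp [nsR]
  | cons x l ih =>
    have h2 := ih (mul_nonneg hw0 h0) (mul_le_one₀ hw h0 h1)
    show -((zneg x + nsR l : ℕ) : ℝ) ≤ _
    have h3 := zneg_le x
    have h4 : (0 : ℝ) ≤ zneg x := Nat.cast_nonneg _
    simp only [ev_cons]; push_cast
    nlinarith

/-- the model `A` encloses `x` at the point `s` -/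
def Mem (A : TM) (s x : ℝ) : Prop := A.ok = true → |x * SS - ev A.p s| ≤ evN A.r |s|

variable {A B : TM} {x y : ℝ}

theorem Mem.add (h : Mem A s x) (h' : Mem B s y) : Mem (tadd A B) s (x + y) := by
  intro hk
  obtain ⟨k1, k2⟩ := band_eq_true.1 hk
  show |_ - ev (padd A.p B.p) s| ≤ evN (nadd A.r B.r) |s|
  rw [ev_padd, evN_nadd, show (x + y) * SS - (ev A.p s + ev B.p s) =
    (x * SS - ev A.p s) + (y * SS - ev B.p s) by ring]
  exact (abs_add_le _ _).trans (add_le_add (h k1) (h' k2))
theorem Mem.sub (h : Mem A s x) (h' : Mem B s y) : Mem (tsub A B) s (x - y) := by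
  intro hk
  obtain ⟨k1, k2⟩ := band_eq_true.1 hk
  show |_ - ev (psub A.p B.p) s| ≤ evN (nadd A.r B.r) |s|
  rw [ev_psub, evN_nadd, show (x - y) * SS - (ev A.p s - ev B.p s) =
    (x * SS - ev A.p s) - (y * SS - ev B.p s) by ring]
  exact (abs_sub _ _).trans (add_le_add (h k1) (h' k2))
theorem Mem.sm (c : Z) (h : Mem A s x) : Mem (tsm c A) s (zv c * x) := by
  intro hk
  show |_ - ev (pscal c A.p) s| ≤ evN (nscal (zabs c) A.r) |s|
  rw [ev_pscal, evN_nscal, zabs_eq, show zv c * x * SS - zv c * ev A.p s =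
    zv c * (x * SS - ev A.p s) by ring, abs_mul]
  exact mul_le_mul_of_nonneg_left (h hk) (abs_nonneg _)
theorem mem_cst (c : Z) : Mem (tcst c) s (zv c) := by
  intro _
  show |_ - ev [Z.mul c (Z.pos SS)] s| ≤ evN [] |s|
  simp [zv_mul]
theorem mem_tex (p : List Z) : Mem (tex p) s (ev p s / SS) := by
  intro _
  show |_ - ev p s| ≤ evN [] |s|
  rw [div_mul_cancel₀ _ SS_pos.ne']; simp
theorem Mem.mul (n K : ℕ) (hs : |s| ≤ 1) (h : Mem A s x) (h' : Mem B s y) :
    Mem (tmul n K A B) s (x * y) := by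
  unfold tmul
  rw [fT_eq, fT_eq, fL_eq]
  intro hk
  obtain ⟨k1, k2⟩ := band_eq_true.1 hk
  have h1 := h k1
  have h2 := h' k2
  have h3 := rnd_rem (s := s) (pmul A.p B.p) n
  have h4 := ncol_spec SM (nadd (prem (pmul A.p B.p) n)
    (nadd (nmul B.r (pabs A.p)) (nmul A.r (nadd (pabs B.p) B.r)))) K (abs_nonneg s) hs
  rw [SM_succ, evN_nadd, evN_nadd, evN_nmul, evN_nmul, evN_nadd] at h4
  rw [ev_pmul] at h3
  have h5 := abs_ev_le (s := s) A.p
  have h6 := abs_ev_le (s := s) B.p
  show |x * y * SS - ev (prnd (pmul A.p B.p) n) s| ≤ _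
  refine le_of_mul_le_mul_left (le_trans ?_ h4) SS_pos
  rw [← abs_of_pos SS_pos, ← abs_mul, abs_of_pos SS_pos]
  have e : SS * (x * y * SS - ev (prnd (pmul A.p B.p) n) s) =
      (ev A.p s * ev B.p s - SS * ev (prnd (pmul A.p B.p) n) s) +
      ((y * SS - ev B.p s) * ev A.p s + (x * SS - ev A.p s) * (ev B.p s + (y * SS - ev B.p s))) := by
    ring
  rw [e]
  refine (abs_add_le _ _).trans (add_le_add h3 ((abs_add_le _ _).trans (add_le_add ?_ ?_)))
  · rw [abs_mul]
    exact mul_le_mul h2 h5 (abs_nonneg _) (evN_nonneg _ (abs_nonneg _))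
  · rw [abs_mul]
    exact mul_le_mul h1 ((abs_add_le _ _).trans (add_le_add h6 h2)) (abs_nonneg _)
      (evN_nonneg _ (abs_nonneg _))
theorem hzP_spec {l : List Z} (h : hzP l = true) : ev l s = s * ev (tl l) s := by
  cases l with
  | nil => simp [tl]
  | cons a l =>
    have h1 : zabs a = 0 := Nat.eq_of_beq_eq_true h
    have h2 : |zv a| = 0 := by rw [← zabs_eq, h1]; simp
    show ev (a :: l) s = s * ev l s
    simp [abs_eq_zero.1 h2]
theorem hzN_spec {l : List ℕ} (h : hzN l = true) : evN l s = s * evN (tl l) s := by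
  cases l with
  | nil => simp [tl]
  | cons a l =>
    have h1 : a = 0 := Nat.eq_of_beq_eq_true h
    show evN (a :: l) s = s * evN l s
    simp [h1]
theorem Mem.mt (hs : s ≠ 0) (h : Mem A s x) : Mem (tmt A) s (x * (8 / s)) := by
  unfold tmt
  rw [fT_eq]
  intro hk
  obtain ⟨k1, k2⟩ := band_eq_true.1 hk
  obtain ⟨k2, k3⟩ := band_eq_true.1 k2
  have h1 := h k1
  rw [hzP_spec k2, hzN_spec k3] at h1
  show |_ - ev (pscal (Z.pos 8) (tl A.p)) s| ≤ evN (nscal 8 (tl A.r)) |s|
  rw [ev_pscal, evN_nscal, zv_pos]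
  have hp : 0 < |s| := abs_pos.2 hs
  refine le_of_mul_le_mul_left ?_ hp
  rw [← abs_mul, show s * (x * (8 / s) * SS - ((8 : ℕ) : ℝ) * ev (tl A.p) s) =
    8 * (x * SS - s * ev (tl A.p) s) by push_cast; field_simp, abs_mul]
  push_cast
  rw [abs_of_pos (by norm_num : (0 : ℝ) < 8)]
  nlinarith

theorem posC_sound (hs : |s| ≤ 1) (h : Mem A s x) (hp : posC A = true) : 0 ≤ x := by
  unfold posC at hp
  rw [fT_eq] at hp
  obtain ⟨k1, k2⟩ := band_eq_true.1 hp
  have h1 := h k1
  rcases hA : A.p with _ | ⟨a, l⟩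
  · rw [hA] at k2; exact absurd k2 (by simp)
  · rw [hA] at k2 h1
    have h2 : ((nsC l false + nsum A.r : ℕ) : ℝ) ≤ zv a := zge_spec k2
    have h3 := nsC_spec l false hs hs (mul_self_nonneg s)
    have h4 := evN_le_nsum A.r (abs_nonneg s) hs
    have h5 := (abs_le.1 h1).1
    rw [ev_cons] at h5
    push_cast at h2
    exact nonneg_of_mul_nonneg_left (by linarith : 0 ≤ x * SS) SS_pos

theorem posR_sound (h0 : 0 ≤ s) (h1 : s ≤ 1) (h : Mem A s x) (hp : posR A = true) : 0 ≤ x := by
  unfold posR at hp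
  rw [fT_eq] at hp
  obtain ⟨k1, k2⟩ := band_eq_true.1 hp
  have h2 := (abs_le.1 (h k1)).1
  rw [abs_of_nonneg h0] at h2
  have h3 : ev (psub A.p (pofN A.r)) s = ev A.p s - evN A.r s := by rw [ev_psub, ev_pofN]
  rcases hA : psub A.p (pofN A.r) with _ | ⟨a, l⟩
  · rw [hA] at k2; exact absurd k2 (by simp)
  · rw [hA] at k2 h3
    have h4 : (nsR l : ℝ) ≤ zv a := zge_spec k2
    have h5 := nsR_spec l h0 h1 h0 h1
    rw [ev_cons] at h3
    exact nonneg_of_mul_nonneg_left (by linarith : 0 ≤ x * SS) SS_pos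

theorem Mem.abs_le (h : Mem A s x) (hk : A.ok = true) :
    |x| * SS ≤ evN (nadd (pabs A.p) A.r) |s| := by
  have h1 := h hk
  have h2 := abs_ev_le (s := s) A.p
  rw [evN_nadd, ← abs_of_pos SS_pos, ← abs_mul]
  have := abs_add_le (x * SS - ev A.p s) (ev A.p s)
  rw [sub_add_cancel] at this
  linarith

theorem Mem.abs_le_col (K : ℕ) (hs : |s| ≤ 1) (h : Mem A s x) (hk : A.ok = true) :
    |x| * SS ≤ evN (ncol 0 (nadd (pabs A.p) A.r) K) |s| := by
  have := ncol_spec 0 (nadd (pabs A.p) A.r) K (abs_nonneg s) hs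
  rw [zero_add, Nat.cast_one, one_mul] at this
  exact (h.abs_le hk).trans this

theorem Mem.abs_le_tbd (hs : |s| ≤ 1) (h : Mem A s x) (hk : A.ok = true) :
    |x| * SS ≤ tbd A := by
  have h1 := h.abs_le hk
  rw [evN_nadd] at h1
  have h2 := evN_le_nsum (pabs A.p) (abs_nonneg s) hs
  have h3 := evN_le_nsum A.r (abs_nonneg s) hs
  show _ ≤ ((nsum (pabs A.p) + nsum A.r : ℕ) : ℝ)
  push_cast
  linarith

theorem Mem.inv (n K : ℕ) (q : List Z) (hs : |s| ≤ 1) (h : Mem A s x) (hx : 1 / 2 ≤ x) :
    Mem (tinv n K A q) s x⁻¹ := by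
  unfold tinv
  rw [fT_eq]
  intro hk
  have h1 := ((h.mul n K hs (mem_tex q)).sub (mem_cst (Z.pos 1))).abs_le_col K hs hk
  show |_ - ev q s| ≤ evN (nscal 2 _) |s|
  rw [evN_nscal]
  have hx0 : 0 < x := by linarith
  have hS := SS_pos
  have e : x⁻¹ * SS - ev q s = -(x⁻¹ * ((x * (ev q s / SS) - zv (Z.pos 1)) * SS)) := by
    rw [zv_pos]; push_cast; field_simp; ring
  have hi : x⁻¹ ≤ 2 := by rw [inv_le_comm₀ hx0 (by norm_num)]; linarith
  rw [e, abs_neg, abs_mul, abs_mul, abs_of_pos hS, abs_of_pos (inv_pos.2 hx0)]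
  push_cast
  exact mul_le_mul hi h1 (by positivity) (by norm_num)

theorem Mem.sqrt (n K : ℕ) (q : List Z) (hs : |s| ≤ 1) (h : Mem A s x) (hx : 1 ≤ x) :
    Mem (tsqrt n K A q) s √x := by
  unfold tsqrt
  rw [fT_eq]
  intro hk
  obtain ⟨k1, k2⟩ := band_eq_true.1 hk
  have h1 := (((mem_tex q).mul n K hs (mem_tex q)).sub h).abs_le_col K hs k1
  have h2 : 0 ≤ ev q s / SS := posC_sound hs (mem_tex q) k2
  show |_ - ev q s| ≤ evN (ncol 0 _ K) |s|
  refine le_trans ?_ h1
  have hS := SS_pos
  have h3 : 1 ≤ √x := Real.one_le_sqrt.2 hx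
  have h4 : √x * √x = x := Real.mul_self_sqrt (by linarith)
  obtain ⟨w, hw⟩ : ∃ w, w = ev q s / SS := ⟨_, rfl⟩
  have h5 : ev q s = w * SS := by rw [hw]; field_simp
  rw [← hw] at h2 ⊢
  rw [h5, ← sub_mul, abs_mul, abs_of_pos hS]
  refine mul_le_mul_of_nonneg_right ?_ hS.le
  rw [show w * w - x = (√x - w) * (-(√x + w)) by linear_combination h4, abs_mul, abs_neg]
  exact le_mul_of_one_le_right (abs_nonneg _) (le_trans (by linarith) (le_abs_self _))

/-- real value of an expression -/
noncomputable def Ex.val (s : ℝ) (env : List ℝ) : Ex → ℝ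
  | .v i => env.getD i 0
  | .c z => z
  | .add a b => a.val s env + b.val s env
  | .sub a b => a.val s env - b.val s env
  | .mul a b => a.val s env * b.val s env
  | .sm z a => z * a.val s env
  | .mt a => a.val s env * (8 / s)

/-- enclosure of environments -/
def MemL (As : List TM) (s : ℝ) (xs : List ℝ) : Prop := List.Forall₂ (fun A x => Mem A s x) As xs

theorem MemL.nth {As : List TM} {xs : List ℝ} (h : MemL As s xs) (i : ℕ) :
    Mem (nth ⟨false, [], []⟩ As i) s (xs.getD i 0) := by
  induction h generalizing i with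
  | nil => intro hk; exact absurd hk Bool.false_ne_true
  | cons h _ ih =>
    cases i with
    | zero => exact h
    | succ i => exact ih i

theorem MemL.snoc {As : List TM} {xs : List ℝ} (h : MemL As s xs) (h' : Mem A s x) :
    MemL (app As [A]) s (xs ++ [x]) := by
  rw [app_eq]
  exact List.rel_append h (List.Forall₂.cons h' List.Forall₂.nil)

theorem tmE_sound (n K : ℕ) (hs : |s| ≤ 1) (hK : K ≠ 0 → s ≠ 0) {As : List TM} {xs : List ℝ}
    (h : MemL As s xs) (e : Ex) : Mem (tmE n K As e) s (e.val s xs) := by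
  induction e with
  | v i => exact h.nth i
  | c z => have := mem_cst (s := s) (Z.ofInt z); rwa [zv_ofInt] at this
  | add a b iha ihb => exact iha.add ihb
  | sub a b iha ihb => exact iha.sub ihb
  | mul a b iha ihb => exact iha.mul n K hs ihb
  | sm z a iha => have := iha.sm (Z.ofInt z); rwa [zv_ofInt] at this
  | mt a iha =>
    cases K with
    | zero => intro hk; exact absurd hk (by simp [tmE])
    | succ K => exact iha.mt (hK (Nat.succ_ne_zero K))

/-- real run of a program -/
noncomputable def runR (s : ℝ) : List Ex → List ℝ → List ℝ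
  | [], xs => xs
  | e :: prog, xs => runR s prog (xs ++ [e.val s xs])

theorem runT_sound {β : Type} (n K : ℕ) (hs : |s| ≤ 1) (hK : K ≠ 0 → s ≠ 0) (prog : List Ex)
    {As : List TM} {xs : List ℝ} (h : MemL As s xs) (k : List TM → β) :
    ∃ Bs, MemL Bs s (runR s prog xs) ∧ runT n K prog As k = k Bs := by
  induction prog generalizing As xs with
  | nil => exact ⟨As, h, rfl⟩
  | cons e prog ih =>
    obtain ⟨Bs, h1, h2⟩ := ih (h.snoc (tmE_sound n K hs hK h e))
    refine ⟨Bs, h1, ?_⟩
    show fT (tmE n K As e) (fun A => runT n K prog (app As [A]) k) = _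
    rw [fT_eq, h2]

theorem chkE_sound {pos : TM → Bool} (hpos : ∀ A x, Mem A s x → pos A = true → 0 ≤ x) (n K : ℕ)
    (hs : |s| ≤ 1) (hK : K ≠ 0 → s ≠ 0) {As : List TM} {xs : List ℝ} (h : MemL As s xs)
    {prog es : List Ex} (hc : chkE pos n K As prog es = true) :
    ∀ e ∈ es, 0 ≤ e.val s (runR s prog xs) := by
  unfold chkE at hc
  rw [fEnv_eq] at hc
  obtain ⟨Bs, h1, h2⟩ := runT_sound n K hs hK prog h (fun env => allE pos n K env es)
  rw [h2] at hc
  clear h2
  induction es with
  | nil => simp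
  | cons e es ih =>
    obtain ⟨k1, k2⟩ := band_eq_true.1 hc
    intro e' he'
    rcases List.mem_cons.1 he' with rfl | he'
    · exact hpos _ _ (tmE_sound n K hs hK h1 _) k1
    · exact ih k2 e' he'

theorem allR_sound {f : ℕ → Bool} {a n : ℕ} (h : allR f a n = true) :
    ∀ j, a ≤ j → j < a + n → f j = true := by
  induction n with
  | zero => intro j h1 h2; omega
  | succ m ih =>
    obtain ⟨k1, k2⟩ := band_eq_true.1 h
    rw [force_eq] at k1
    intro j h1 h2
    by_cases hj : j = a + m
    · rw [hj]; exact k1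
    · exact ih k2 j h1 (by omega)

end Crest.Agent.R253.Tm
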