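import Crest.Agent.R253.TubeA
import Crest.Agent.R253.TmSound
import Crest.Agent.R253.TmCert0

/-! Row 253: Taylor models of the basic functions in the tails `|t| ≥ 8`, `σ = 8 / |t|`. -/

set_option autoImplicit false

open Set Filter Topology
open Crest.Agent.R203 Crest.Agent.Lib.PolyBB

namespace Crest.Agent.R253.Tm

theorem ev_bar (l : List Z) (s : ℝ) :
    ev (bar l) s = 64 * (ev l s - SS) + s * (s * (ev l s + s * ev (pder l) s)) := by
  simp only [bar, ev_padd, ev_pscal, ev_psub, ev_cons, ev_nil, zv_pos]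
  push_cast
  ring

theorem sig_mem {t : ℝ} (ht : 8 ≤ t) : 0 < 8 / t ∧ 8 / t ≤ 1 :=
  ⟨by positivity, by rw [div_le_one (by linarith)]; exact ht⟩

theorem sig_abs {t : ℝ} (ht : 8 ≤ t) : |8 / t| ≤ 1 := by
  rw [abs_of_pos (sig_mem ht).1]; exact (sig_mem ht).2

theorem barrier (l : List Z) (ε : ℝ) (h : ∀ s : ℝ, 0 < s → s ≤ 1 → 0 ≤ ε * ev (bar l) s) {t : ℝ}
    (ht : 8 ≤ t) : ε * (t / lam t * SS - ev l (8 / t)) ≤ 0 := by
  let φ : ℝ → ℝ := fun u => ε * (gq u * SS - gp u * (ev l (8 / u) / u))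
  have hd : ∀ u : ℝ, 8 ≤ u → HasDerivAt φ (gp u * (ε * ev (bar l) (8 / u)) / 64) u := by
    intro u hu
    have hu0 : u ≠ 0 := by linarith
    have h1 : HasDerivAt (fun u : ℝ => 8 / u) (-8 / u ^ 2) u := by
      have := (hasDerivAt_const u (8 : ℝ)).div (hasDerivAt_id u) hu0
      refine HasDerivAt.congr_deriv this ?_
      simp
    have h2 := ((hasDerivAt_ev l (8 / u)).comp u h1).div (hasDerivAt_id u) hu0
    have h3 := ((((hasDerivAt_gq u).mul_const (SS : ℝ))).sub ((hasDerivAt_gp u).mul h2)).const_mul ε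
    refine HasDerivAt.congr_deriv h3 ?_
    rw [ev_bar]
    simp only [Function.comp, id, Pi.div_apply]
    field_simp
    ring
  have hm : MonotoneOn φ (Ici 8) := by
    refine monotoneOn_of_deriv_nonneg (convex_Ici 8)
      (fun u hu => (hd u hu).continuousAt.continuousWithinAt)
      (fun u hu => (hd u (interior_subset hu)).differentiableAt.differentiableWithinAt) ?_
    intro u hu
    have hu' : (8 : ℝ) ≤ u := interior_subset hu
    rw [(hd u hu').deriv]
    have := h _ (sig_mem hu').1 (sig_mem hu').2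
    have := gp_pos u
    positivity
  have hl : Tendsto φ atTop (𝓝 0) := by
    have h1 : Tendsto (fun u => gp u * (ev l (8 / u) / u)) atTop (𝓝 0) := by
      refine squeeze_zero_norm' ?_ (by simpa using tendsto_gp_atTop.mul_const (nsum (pabs l) : ℝ))
      filter_upwards [eventually_ge_atTop (8 : ℝ)] with u hu
      rw [Real.norm_eq_abs, abs_mul, abs_of_pos (gp_pos u), abs_div,
        abs_of_pos (show (0 : ℝ) < u by linarith)]
      refine mul_le_mul_of_nonneg_left ?_ (gp_pos u).le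
      have h2 := (abs_ev_le (s := 8 / u) l).trans
        (evN_le_nsum _ (abs_nonneg _) (sig_abs hu))
      exact (div_le_self (abs_nonneg _) (by linarith)).trans h2
    simpa using ((tendsto_gq_atTop.mul_const (SS : ℝ)).sub h1).const_mul ε
  have h0 : φ t ≤ 0 := ge_of_tendsto hl (by
    filter_upwards [eventually_ge_atTop t] with u hu
    exact hm ht (le_trans ht hu) hu)
  have ht0 : 0 < t := by linarith
  have e : ε * (t / lam t * SS - ev l (8 / t)) = φ t * (t / gp t) := by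
    have := gp_pos t
    have := lam_pos t
    simp only [φ, gq_eq_div]
    field_simp
  rw [e]
  exact mul_nonpos_of_nonpos_of_nonneg h0 (div_pos ht0 (gp_pos t)).le

theorem evN_mono (a k : ℕ) (s : ℝ) : evN (mono a k) s = a * s ^ k := by
  induction k with
  | zero => simp [mono]
  | succ k ih =>
    show evN (0 :: mono a k) s = _
    rw [evN_cons, ih]; push_cast; ring

theorem tex_pos {p : List Z} (h : posR (tex p) = true) {s : ℝ} (h0 : 0 ≤ s) (h1 : s ≤ 1) :
    0 ≤ ev p s := by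
  have := posR_sound h0 h1 (mem_tex p) h
  exact (div_nonneg_iff.1 this).elim (fun h => h.1) (fun h => absurd h.2 (not_le.2 SS_pos))

theorem mem_G {t : ℝ} (ht : 8 ≤ t) : Mem tG (8 / t) (t / lam t) := by
  intro _
  obtain ⟨k1, k2⟩ := band_eq_true.1 okG_true
  have h1 := barrier lG (-1) (fun s h0 h1 => by
    have := tex_pos k1 h0.le h1
    rw [ev_cons, ev_popp, zv_pos, Nat.cast_zero, zero_add] at this
    have := nonneg_of_mul_nonneg_right this h0
    linarith) ht
  have h2 := barrier (padd lG (pofN (mono RG 32))) 1 (fun s h0 h1 => by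
    rw [one_mul]; exact tex_pos k2 h0.le h1) ht
  rw [ev_padd, ev_pofN] at h2
  show |_ - ev lG _| ≤ evN (mono RG 32) _
  rw [abs_of_pos (sig_mem ht).1, abs_of_nonneg (by linarith)]
  linarith

theorem mem_U {t : ℝ} (ht : 8 ≤ t) : Mem tU (8 / t) t⁻¹ := by
  have := mem_tex (s := 8 / t) [Z.pos 0, Z.pos 158456325028528675187087900672]
  have e : ev [Z.pos 0, Z.pos 158456325028528675187087900672] (8 / t) / SS = t⁻¹ := by
    have : t ≠ 0 := by linarith
    simp only [ev_cons, ev_nil, zv_pos, SS]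
    push_cast
    field_simp
    ring
  rwa [e] at this

theorem mem_I {t : ℝ} (ht : 8 ≤ t) : Mem tI (8 / t) (t⁻¹ * lam t) := by
  have h1 := lam_le t
  rw [abs_of_pos (by linarith)] at h1
  have h2 := (mem_G ht).inv 33 32 (unp 31 dI) (sig_abs ht) (by
    rw [le_div_iff₀ (lam_pos t)]; linarith)
  rwa [inv_div, div_eq_inv_mul (lam t) t] at h2

theorem mem_W {t : ℝ} (ht : 8 ≤ t) : Mem tW (8 / t) (t⁻¹ * ee t) := by
  have h1 := ((mem_cst (Z.pos 1)).add (((mem_U ht).mul 33 32 (sig_abs ht) (mem_U ht)).sm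
    (Z.pos 5))).sqrt 33 32 (unp 31 dW) (sig_abs ht) (by
      simp only [zv_pos]; push_cast; nlinarith [mul_self_nonneg t⁻¹])
  have ht0 : 0 < t := by linarith
  have e : √(zv (Z.pos 1) + zv (Z.pos 5) * (t⁻¹ * t⁻¹)) = t⁻¹ * ee t := by
    have e1 : zv (Z.pos 1) + zv (Z.pos 5) * (t⁻¹ * t⁻¹) = t⁻¹ ^ 2 * (5 + t ^ 2) := by
      simp only [zv_pos]; push_cast; field_simp; ring
    rw [e1, Real.sqrt_mul (sq_nonneg _), Real.sqrt_sq (inv_pos.2 ht0).le, ee]
  rwa [e] at h1

theorem gp_tiny {t : ℝ} (ht : 8 ≤ t) : 2 * gp t * SS ≤ TINY * (8 / t) ^ 32 := by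
  have ht0 : 0 < t := by linarith
  have h1 := gp_le t
  have hy : 1 ≤ t / 8 := by rw [le_div_iff₀ (by norm_num)]; linarith
  have h2 : (t / 8) ^ 2 ≤ Real.exp ((t / 8) ^ 2 - 1) := by
    linarith [Real.add_one_le_exp ((t / 8) ^ 2 - 1)]
  have h3 : (t / 8) ^ 32 ≤ Real.exp ((t / 8) ^ 2 - 1) ^ 32 :=
    pow_le_pow_left₀ (by positivity) (le_trans (by nlinarith) h2) 32
  have h4 : (27 / 10 : ℝ) ^ 32 ≤ Real.exp 1 ^ 32 :=
    pow_le_pow_left₀ (by norm_num) (by linarith [Real.exp_one_gt_d9]) 32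
  have h5 : Real.exp (t ^ 2 / 2) = Real.exp 1 ^ 32 * Real.exp ((t / 8) ^ 2 - 1) ^ 32 := by
    rw [← Real.exp_nat_mul, ← Real.exp_nat_mul, ← Real.exp_add]
    congr 1; push_cast; ring
  have h6 : (27 / 10 : ℝ) ^ 32 * (t / 8) ^ 32 ≤ Real.exp (t ^ 2 / 2) := by
    rw [h5]; exact mul_le_mul h4 h3 (by positivity) (by positivity)
  have h7 : Real.exp (-t ^ 2 / 2) ≤ ((27 / 10 : ℝ) ^ 32)⁻¹ * (8 / t) ^ 32 := by
    rw [neg_div, Real.exp_neg, ← inv_div t 8, inv_pow, ← mul_inv]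
    exact inv_anti₀ (by positivity) h6
  have h8 : 2 * (2 / 5 * ((27 / 10 : ℝ) ^ 32)⁻¹) * SS ≤ TINY := by
    unfold SS TINY; norm_num
  have h9 : (0 : ℝ) ≤ (8 / t) ^ 32 := by positivity
  have hS := SS_pos
  calc 2 * gp t * SS ≤ 2 * (2 / 5 * (((27 / 10 : ℝ) ^ 32)⁻¹ * (8 / t) ^ 32)) * SS := by
        gcongr
        exact h1.trans (by gcongr)
    _ = 2 * (2 / 5 * ((27 / 10 : ℝ) ^ 32)⁻¹) * SS * (8 / t) ^ 32 := by ring
    _ ≤ _ := mul_le_mul_of_nonneg_right h8 h9

theorem mem_tiny {t x : ℝ} (ht : 8 ≤ t) (hx : |x| ≤ 2 * gp t) : Mem tTiny (8 / t) x := by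
  intro _
  show |x * SS - ev [] _| ≤ evN (mono TINY 32) _
  rw [evN_mono, abs_of_pos (sig_mem ht).1, ev_nil, sub_zero, abs_mul, abs_of_pos SS_pos]
  exact (mul_le_mul_of_nonneg_right hx SS_pos.le).trans (gp_tiny ht)

theorem mem_Hn {t : ℝ} (ht : 8 ≤ t) : Mem tTiny (8 / t) (lam (-t)) := by
  refine mem_tiny ht ?_
  rw [abs_of_pos (lam_pos _), ← gp_neg]
  exact lam_le_of_nonpos (by linarith)

theorem mem_Ga {t : ℝ} (ht : 8 ≤ t) : Mem (tadd tG tTiny) (8 / t) (t * r0 (-t)) := by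
  have ht0 : 0 < t := by linarith
  obtain ⟨h1, h2⟩ := r0_neg t
  have hl := lam_pos t
  have h3 : t / lam t ≤ 1 := by rw [div_le_one hl]; exact (lt_lam t).le
  have h4 : gq t ≤ gp t := by nlinarith [mul_gq_lt t, gq_pos t]
  have h5 : t * r0 (-t) ≤ t / lam t := by
    rw [div_eq_mul_one_div]; exact mul_le_mul_of_nonneg_left h2 ht0.le
  have h6 : t / lam t - t / lam t * gq t ≤ t * r0 (-t) := by
    have := mul_le_mul_of_nonneg_left h1 ht0.le
    rwa [show t * ((1 - gq t) / lam t) = t / lam t - t / lam t * gq t by ring] at this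
  have h7 : t / lam t * gq t ≤ gq t := mul_le_of_le_one_left (gq_pos t).le h3
  have h8 := (mem_G ht).add (mem_tiny (x := t * r0 (-t) - t / lam t) ht (by
    rw [abs_le]; constructor <;> linarith [gp_pos t]))
  rwa [add_sub_cancel] at h8

theorem near1_sound {A : TM} {v : Z} {e : ℕ} {x : ℝ} (h : Mem A 1 x) (hn : near1 A v e = true) :
    |x * SS - zv v| ≤ e := by
  unfold near1 at hn
  rw [fT_eq] at hn
  obtain ⟨k1, k2⟩ := band_eq_true.1 hn
  have h1 := h k1
  have h2 : ((zabs (Z.sub (at1 A.p) v) + nsum A.r : ℕ) : ℝ) ≤ e := by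
    exact_mod_cast Nat.le_of_ble_eq_true k2
  push_cast at h2
  rw [zabs_eq, zv_sub, ev_at1] at h2
  have h3 := evN_le_nsum (s := |1|) A.r (abs_nonneg _) (by simp)
  have h4 := abs_add_le (x * SS - ev A.p 1) (ev A.p 1 - zv v)
  rw [sub_add_sub_cancel] at h4
  linarith

theorem node_H : |lam 8 * SS - zv (atm1 (pH 256))| ≤ E0H := by
  have h := (mem_I (t := 8) le_rfl).sm (Z.pos 8)
  rw [div_self (by norm_num), show zv (Z.pos 8) * ((8 : ℝ)⁻¹ * lam 8) = lam 8 by
    simp only [zv_pos]; push_cast; ring] at h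
  exact near1_sound h okH0_true

theorem node_R : |r0 (-8) * SS - zv (at1 (pR 0))| ≤ E0R := by
  have h := (mem_U (t := 8) le_rfl).mul 33 32 (sig_abs le_rfl) (mem_Ga le_rfl)
  rw [div_self (by norm_num), show (8 : ℝ)⁻¹ * (8 * r0 (-8)) = r0 (-8) by ring] at h
  exact near1_sound h okR0_true

end Crest.Agent.R253.Tm
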