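import Crest.Agent.R253.TmTail

/-! Row 253: the tubes on `[-8, 8]` and the three checkers. -/

set_option autoImplicit false
set_option linter.unusedVariables false

open Set Filter Topology
open Crest.Agent.R203 Crest.Agent.Lib.PolyBB

namespace Crest.Agent.R253.Tm

/-- left end of the piece `j` -/
noncomputable def nd (j : ℕ) : ℝ := -8 + j / 16
/-- local coordinate on the piece `j` -/
noncomputable def sg (j : ℕ) (t : ℝ) : ℝ := 32 * (t + 8) - (2 * j + 1)

theorem nd_succ (j : ℕ) : nd (j + 1) = nd j + 1 / 16 := by unfold nd; push_cast; ring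
theorem sg_nd (j : ℕ) : sg j (nd j) = -1 := by unfold sg nd; ring
theorem sg_nd_succ (j : ℕ) : sg j (nd (j + 1)) = 1 := by unfold sg nd; push_cast; ring
theorem sg_abs {j : ℕ} {t : ℝ} (ht : t ∈ Icc (nd j) (nd (j + 1))) : |sg j t| ≤ 1 := by
  obtain ⟨h1, h2⟩ := ht
  rw [nd_succ] at h2
  unfold nd at h1 h2
  unfold sg
  rw [abs_le]; constructor <;> linarith

theorem mem_T (j : ℕ) (t : ℝ) : Mem (tT j) (sg j t) t := by
  have := mem_tex (s := sg j t) [Z.dif (Nat.mul (Nat.succ (Nat.mul 2 j)) S32) S8x, Z.pos S32]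
  have e : ev [Z.dif (Nat.mul (Nat.succ (Nat.mul 2 j)) S32) S8x, Z.pos S32] (sg j t) / SS = t := by
    have e1 : ((Nat.mul (Nat.succ (Nat.mul 2 j)) S32 : ℕ) : ℝ) = (2 * j + 1) * S32 := by
      show (((2 * j + 1) * S32 : ℕ) : ℝ) = _
      push_cast; ring
    simp only [ev_cons, ev_nil, zv_pos, zv_dif, e1]
    unfold sg S32 S8x SS
    push_cast
    ring
  rwa [e] at this

theorem hasDerivAt_pc (p : List Z) (j : ℕ) (t : ℝ) :
    HasDerivAt (fun t => ev p (sg j t) / SS) (zv (Z.pos 32) * (ev (pder p) (sg j t) / SS)) t := by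
  have h1 : HasDerivAt (sg j) 32 t := by
    have := (((hasDerivAt_id t).add_const 8).const_mul 32).sub_const (2 * (j : ℝ) + 1)
    refine HasDerivAt.congr_deriv this ?_
    simp
  have h2 := ((hasDerivAt_ev p (sg j t)).comp t h1).div_const (SS : ℝ)
  refine HasDerivAt.congr_deriv h2 ?_
  simp only [zv_pos]; push_cast; ring

theorem abs_scale (x y : ℝ) : |x * SS - y| = |x - y / SS| * SS := by
  have hS := SS_pos
  rw [← abs_of_pos hS, ← abs_mul, abs_of_pos hS]
  congr 1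
  field_simp

theorem fin_step {x y D b : ℝ} {u v n η : ℝ} (hD : 0 ≤ D) (hb : b ≤ 1 / 16)
    (h : x ≤ y + D / SS * b) (hy : y * SS ≤ u + v) (hk : 16 * v + D ≤ 16 * η) (hu : u ≤ n) :
    x * SS ≤ n + η := by
  have hS := SS_pos
  have h1 : D / SS * b ≤ D / SS * (1 / 16) := mul_le_mul_of_nonneg_left hb (by positivity)
  have h2 : x * SS ≤ (y + D / SS * (1 / 16)) * SS :=
    mul_le_mul_of_nonneg_right (by linarith) hS.le
  have h3 : (y + D / SS * (1 / 16)) * SS = y * SS + D / 16 := by field_simp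
  linarith

theorem stepH {j : ℕ} (hk : okH j = true) {e : ℝ}
    (hn : |lam (nd (j + 1)) * SS - zv (atm1 (pH (j + 1)))| ≤ e) {t : ℝ}
    (ht : t ∈ Icc (nd j) (nd (j + 1))) : |lam t * SS - ev (pH j) (sg j t)| ≤ e + ETAH := by
  unfold okH at hk
  rw [fL_eq, fT_eq] at hk
  obtain ⟨k1, k2⟩ := band_eq_true.1 hk
  obtain ⟨k2, k3⟩ := band_eq_true.1 k2
  have hS := SS_pos
  have h1 := lam_tube (p := fun t => ev (pH j) (sg j t) / SS) (D := tbd (dfH j (pH j)) / SS)
    (fun t _ => hasDerivAt_pc (pH j) j t)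
    (fun t ht => (min_le_left _ _).trans (posC_sound (sg_abs ht) (mem_tex _) k1))
    (fun t ht => by
      rw [le_div_iff₀ hS]
      exact (((mem_tex (pH j)).mul 8 0 (sg_abs ht) ((mem_tex (pH j)).sub (mem_T j t))).sub
        ((mem_tex (pder (pH j))).sm (Z.pos 32))).abs_le_tbd (sg_abs ht) k2) ht
  have h2 : ((16 * zabs (Z.sub (at1 (pH j)) (atm1 (pH (j + 1)))) + tbd (dfH j (pH j)) : ℕ) : ℝ) ≤
      ((16 * ETAH : ℕ) : ℝ) := by exact_mod_cast Nat.le_of_ble_eq_true k3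
  push_cast at h2
  rw [zabs_eq, zv_sub, ev_at1] at h2
  rw [abs_scale]
  refine fin_step (Nat.cast_nonneg _) (by have := nd_succ j; linarith [ht.1]) h1 ?_ h2 hn
  rw [← abs_scale, sg_nd_succ]
  have := abs_sub (lam (nd (j + 1)) * SS - zv (atm1 (pH (j + 1))))
    (ev (pH j) 1 - zv (atm1 (pH (j + 1))))
  rwa [sub_sub_sub_cancel_right] at this

theorem nodeH (k : ℕ) (hk : k ≤ 256) :
    |lam (nd (256 - k)) * SS - zv (atm1 (pH (256 - k)))| ≤ E0H + k * ETAH := by
  induction k with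
  | zero =>
    have : nd (256 - 0) = 8 := by unfold nd; norm_num
    rw [this]; simpa using node_H
  | succ k ih =>
    have e : 256 - k = 256 - (k + 1) + 1 := by omega
    have h1 := ih (by omega)
    rw [e] at h1
    have h2 := stepH (allR_sound okH_true (256 - (k + 1)) (Nat.zero_le _) (by omega)) h1
      (t := nd (256 - (k + 1))) ⟨le_rfl, by rw [nd_succ]; linarith⟩
    rw [sg_nd, ← ev_atm1] at h2
    refine h2.trans (le_of_eq ?_)
    push_cast
    ring

theorem mem_H {j : ℕ} (hj : j < 256) {t : ℝ} (ht : t ∈ Icc (nd j) (nd (j + 1))) :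
    Mem (tH j) (sg j t) (lam t) := by
  intro _
  have h1 := nodeH (255 - j) (by omega)
  rw [show 256 - (255 - j) = j + 1 by omega] at h1
  have h2 := stepH (allR_sound okH_true j (Nat.zero_le _) (by omega)) h1 ht
  show |_ - ev (pH j) _| ≤ evN [EH] _
  have h3 : ((255 - j : ℕ) : ℝ) ≤ 255 := by exact_mod_cast Nat.sub_le 255 j
  have h4 : (E0H : ℝ) + 256 * ETAH ≤ EH := by unfold E0H ETAH EH; norm_num
  have h5 := mul_le_mul_of_nonneg_right h3 (Nat.cast_nonneg (α := ℝ) ETAH)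
  simp only [evN_cons, evN_nil, mul_zero, add_zero]
  linarith

theorem stepR {j : ℕ} (hj : j < 256) {e : ℝ}
    (hn : |r0 (nd j) * SS - zv (at1 (pR j))| ≤ e) {t : ℝ}
    (ht : t ∈ Icc (nd j) (nd (j + 1))) : |r0 t * SS - ev (pR (j + 1)) (sg j t)| ≤ e + ETAR := by
  have hk := allR_sound okR_true j (Nat.zero_le _) (by omega)
  unfold okR at hk
  rw [fL_eq, fT_eq] at hk
  obtain ⟨k2, k3⟩ := band_eq_true.1 hk
  have hS := SS_pos
  have h1 := r0_tube (q := fun t => ev (pR (j + 1)) (sg j t) / SS)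
    (D := tbd (dfR j (pR (j + 1))) / SS) (fun t _ => hasDerivAt_pc (pR (j + 1)) j t)
    (fun t ht => by
      rw [le_div_iff₀ hS]
      have := (((mem_cst (Z.pos 1)).sub ((((mem_H hj ht).sub (mem_T j t))).mul 8 0 (sg_abs ht)
        (mem_tex (pR (j + 1))))).sub
        ((mem_tex (pder (pR (j + 1)))).sm (Z.pos 32))).abs_le_tbd (sg_abs ht) k2
      rwa [zv_pos 1, Nat.cast_one] at this) ht
  have h2 : ((16 * zabs (Z.sub (atm1 (pR (j + 1))) (at1 (pR j))) +
      tbd (dfR j (pR (j + 1))) : ℕ) : ℝ) ≤ ((16 * ETAR : ℕ) : ℝ) := by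
    exact_mod_cast Nat.le_of_ble_eq_true k3
  push_cast at h2
  rw [zabs_eq, zv_sub, ev_atm1] at h2
  rw [abs_scale]
  refine fin_step (Nat.cast_nonneg _) (by have := nd_succ j; linarith [ht.2]) h1 ?_ h2 hn
  rw [← abs_scale, sg_nd]
  have := abs_sub (r0 (nd j) * SS - zv (at1 (pR j))) (ev (pR (j + 1)) (-1) - zv (at1 (pR j)))
  rwa [sub_sub_sub_cancel_right] at this

theorem nodeR (j : ℕ) (hj : j ≤ 256) : |r0 (nd j) * SS - zv (at1 (pR j))| ≤ E0R + j * ETAR := by
  induction j with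
  | zero =>
    have : nd 0 = -8 := by unfold nd; norm_num
    rw [this]; simpa using node_R
  | succ j ih =>
    have h2 := stepR (by omega) (ih (by omega)) (t := nd (j + 1))
      ⟨by rw [nd_succ]; linarith, le_rfl⟩
    rw [sg_nd_succ, ← ev_at1] at h2
    push_cast
    linarith

theorem mem_R {j : ℕ} (hj : j < 256) {t : ℝ} (ht : t ∈ Icc (nd j) (nd (j + 1))) :
    Mem (tR j) (sg j t) (r0 t) := by
  intro _
  have h2 := stepR hj (nodeR j hj.le) ht
  show |_ - ev (pR (j + 1)) _| ≤ evN [ER] _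
  have h3 : (j : ℝ) ≤ 255 := by exact_mod_cast (by omega : j ≤ 255)
  have h4 : (E0R : ℝ) + 256 * ETAR ≤ ER := by unfold E0R ETAR ER; norm_num
  have h5 := mul_le_mul_of_nonneg_right h3 (Nat.cast_nonneg (α := ℝ) ETAR)
  simp only [evN_cons, evN_nil, mul_zero, add_zero]
  linarith

theorem mem_E {j : ℕ} {t : ℝ} (ht : t ∈ Icc (nd j) (nd (j + 1))) : Mem (tE j) (sg j t) (ee t) := by
  have h := ((mem_cst (Z.pos 5)).add ((mem_T j t).mul 8 0 (sg_abs ht) (mem_T j t))).sqrt 8 0 (pE j)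
    (sg_abs ht) (by simp only [zv_pos]; push_cast; nlinarith [mul_self_nonneg t])
  have e : √(zv (Z.pos 5) + t * t) = ee t := by
    rw [ee, zv_pos, sq]; norm_num
  rwa [e] at h

/-- environment on `[-8, 8]` -/
noncomputable def envC (t : ℝ) : List ℝ :=
  [t, lam t, r0 t, ee t, bt t, r1 t, r2 t, r3 t, qq t, q1 t, FF t]

theorem runC (s t : ℝ) : runR s progC [t, lam t, r0 t, ee t] = envC t := by
  simp only [progC, runR, Ex.val, List.cons_append, List.nil_append, List.getD_cons_zero,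
    List.getD_cons_succ, envC, bt, r1, r2, r3, qq, q1, F2, ← lam_mul_r0, Int.cast_one,
    Int.cast_ofNat]

theorem chkC_sound {es : List Ex} {j : ℕ} (hj : j < 256) (h : chkC es j = true) {t : ℝ}
    (ht : t ∈ Icc (nd j) (nd (j + 1))) : ∀ e ∈ es, 0 ≤ e.val (sg j t) (envC t) := by
  rw [← runC (sg j t)]
  exact chkE_sound (fun A x hA hp => posC_sound (sg_abs ht) hA hp) 8 0 (sg_abs ht)
    (fun h => absurd rfl h)
    (.cons (mem_T j t) (.cons (mem_H hj ht) (.cons (mem_R hj ht) (.cons (mem_E ht) .nil)))) h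

theorem exists_piece {t : ℝ} (h1 : -8 ≤ t) (h2 : t ≤ 8) :
    ∃ j, j < 256 ∧ t ∈ Icc (nd j) (nd (j + 1)) := by
  rcases eq_or_lt_of_le h2 with rfl | h2
  · exact ⟨255, by norm_num, by unfold nd; constructor <;> norm_num⟩
  · have h0 : 0 ≤ 16 * (t + 8) := by linarith
    refine ⟨⌊16 * (t + 8)⌋₊, (Nat.floor_lt h0).2 (by push_cast; linarith), ?_, ?_⟩
    · have := Nat.floor_le h0
      unfold nd; linarith
    · have := Nat.lt_floor_add_one (16 * (t + 8))
      unfold nd; push_cast; linarith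

theorem compact_sound {es : List Ex} (h : ∀ j, j < 256 → chkC es j = true) {t : ℝ} (h1 : -8 ≤ t)
    (h2 : t ≤ 8) : ∃ s, ∀ e ∈ es, 0 ≤ e.val s (envC t) := by
  obtain ⟨j, hj, ht⟩ := exists_piece h1 h2
  exact ⟨_, chkC_sound hj (h j hj) ht⟩

theorem all_of_four {f : ℕ → Bool} (h0 : allR f 0 64 = true) (h1 : allR f 64 64 = true)
    (h2 : allR f 128 64 = true) (h3 : allR f 192 64 = true) : ∀ j, j < 256 → f j = true := by
  intro j hj
  by_cases a : j < 64
  · exact allR_sound h0 j (by omega) (by omega)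
  by_cases b : j < 128
  · exact allR_sound h1 j (by omega) (by omega)
  by_cases c : j < 192
  · exact allR_sound h2 j (by omega) (by omega)
  · exact allR_sound h3 j (by omega) (by omega)

/-! ### the tails -/

theorem L8_bound : 3 ≤ FF 8 - 32 ∧ FF 8 - 32 ≤ 302 / 100 := by
  have h := chkC_sound (by norm_num) esL_true (t := 8) (by unfold nd; constructor <;> norm_num)
  simp only [esL, List.forall_mem_cons, Ex.val, envC, List.getD_cons_zero, List.getD_cons_succ,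
    Int.cast_ofNat] at h
  constructor <;> linarith [h.1, h.2.1]

theorem mem_L8 (s : ℝ) : Mem tL8 s (FF 8 - 32) := by
  intro _
  obtain ⟨h1, h2⟩ := L8_bound
  show |_ - ev [Z.pos _] _| ≤ evN [_] _
  simp only [ev_cons, ev_nil, evN_cons, evN_nil, zv_pos, SS, mul_zero, add_zero]
  push_cast
  rw [abs_le]; constructor <;> linarith

theorem mem_Hf (s : ℝ) : Mem tHf s (1 / 2) := by
  intro _
  show |_ - ev [Z.pos _] _| ≤ evN [] _
  simp only [ev_cons, ev_nil, evN_nil, zv_pos, SS, mul_zero, add_zero]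
  norm_num

theorem xp_bound {t : ℝ} (ht : 8 ≤ t) : 0 ≤ t⁻¹ * (FF t - t ^ 2 / 2 - (FF 8 - 32)) ∧
    t⁻¹ * (FF t - t ^ 2 / 2 - (FF 8 - 32)) ≤ 1 / 20 := by
  have ht0 : 0 < t := by linarith
  have e : FF t - t ^ 2 / 2 - (FF 8 - 32) = Real.log (lam t / lam 8) := by
    rw [Real.log_div (lam_pos t).ne' (lam_pos 8).ne', FF_eq t, FF_eq 8]; ring
  rw [e]
  have h1 : 1 ≤ lam t / lam 8 := (one_le_div (lam_pos 8)).2 (lam_mono.monotone ht)
  refine ⟨mul_nonneg (inv_pos.2 ht0).le (Real.log_nonneg h1), ?_⟩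
  have h2 : lam t ≤ t + 1 / 8 := by
    have h3 := (lam_cf ht0 0).2
    have h4 : cfa (2 * 0 + 1) 0 t = 1 / t := by simp [cfa]
    have h5 : 1 / t ≤ 1 / 8 := one_div_le_one_div_of_le (by norm_num) ht
    linarith
  have h6 : lam t / lam 8 ≤ (t + 1 / 8) / 8 :=
    div_le_div₀ (by linarith) h2 (by norm_num) (lt_lam 8).le
  have h7 : Real.log (lam t / lam 8) ≤ lam t / lam 8 / Real.exp 1 := by
    have := Real.log_le_sub_one_of_pos (x := lam t / lam 8 / Real.exp 1) (by positivity)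
    rw [Real.log_div (by positivity) (Real.exp_pos 1).ne', Real.log_exp] at this
    linarith
  have h8 : lam t / lam 8 / Real.exp 1 ≤ (t + 1 / 8) / 8 / (27 / 10) :=
    div_le_div₀ (by positivity) h6 (by norm_num) (by linarith [Real.exp_one_gt_d9])
  rw [inv_mul_le_iff₀ ht0]
  linarith

theorem mem_Xp {t : ℝ} (ht : 8 ≤ t) (s : ℝ) :
    Mem tXp s (t⁻¹ * (FF t - t ^ 2 / 2 - (FF 8 - 32))) := by
  intro _
  obtain ⟨h1, h2⟩ := xp_bound ht
  show |_ - ev [Z.pos _] _| ≤ evN [_] _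
  simp only [ev_cons, ev_nil, evN_cons, evN_nil, zv_pos, SS, mul_zero, add_zero]
  push_cast
  rw [abs_le]; constructor <;> linarith

/-- the interesting part of the environment for `t ≥ 8` -/
structure EnvP (t : ℝ) (l : List ℝ) : Prop where
  u : l.getD 0 0 = t⁻¹
  uh : l.getD 2 0 = t⁻¹ * lam t
  w : l.getD 3 0 = t⁻¹ * ee t
  be : l.getD 8 0 = t * bt t
  F : l.getD 9 0 = t⁻¹ ^ 2 * FF t
  p0 : l.getD 10 0 = t⁻¹ * r0 t
  p1 : l.getD 11 0 = r1 t
  p2 : l.getD 18 0 = t ^ 2 * r2 t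
  p3 : l.getD 19 0 = t ^ 3 * r3 t
  q : l.getD 20 0 = qq t
  q' : l.getD 21 0 = t ^ 2 * q1 t

theorem runP {t : ℝ} (ht : 8 ≤ t) : EnvP t (runR (8 / t) progP [t⁻¹, t / lam t, t⁻¹ * lam t,
    t⁻¹ * ee t, t⁻¹ * (FF t - t ^ 2 / 2 - (FF 8 - 32)), 1 / 2, FF 8 - 32]) := by
  have ht0 : t ≠ 0 := by linarith
  have hl := (lam_pos t).ne'
  have e8 : 8 / (8 / t) = t := by field_simp
  simp only [progP, runR, Ex.val, List.cons_append, List.nil_append, List.getD_cons_zero,
    List.getD_cons_succ, Int.cast_one, Int.cast_ofNat, e8]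
  constructor
  all_goals simp only [List.getD_cons_zero, List.getD_cons_succ, qq, q1, r3, r2, r1, r0, bt, F2]
  all_goals field_simp
  all_goals ring

theorem pos_sound {es : List Ex} (h : chkP es = true) {t : ℝ} (ht : 8 ≤ t) :
    ∃ l, EnvP t l ∧ ∀ e ∈ es, 0 ≤ e.val (8 / t) l :=
  ⟨_, runP ht, chkE_sound (fun A x hA hp => posR_sound (sig_mem ht).1.le (sig_mem ht).2 hA hp)
    33 32 (sig_abs ht) (fun _ => (sig_mem ht).1.ne')
    (.cons (mem_U ht) (.cons (mem_G ht) (.cons (mem_I ht) (.cons (mem_W ht) (.cons (mem_Xp ht _)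
      (.cons (mem_Hf _) (.cons (mem_L8 _) .nil))))))) h⟩

/-- environment at `-t`, `t ≥ 8` -/
noncomputable def envN (t : ℝ) : List ℝ :=
  [t⁻¹, t * r0 (-t), lam (-t), t⁻¹ * ee (-t), t⁻¹ * bt (-t), r0 (-t), r1 (-t), r2 (-t), r3 (-t),
    qq (-t), q1 (-t), FF (-t)]

theorem runN {t : ℝ} (ht : 8 ≤ t) :
    runR (8 / t) progN [t⁻¹, t * r0 (-t), lam (-t), t⁻¹ * ee t] = envN t := by
  have ht0 : t ≠ 0 := by linarith
  have e8 : 8 / (8 / t) = t := by field_simp
  have e4 : 1 + t⁻¹ * lam (-t) = t⁻¹ * bt (-t) := by rw [bt]; field_simp; ring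
  have e5 : t⁻¹ * (t * r0 (-t)) = r0 (-t) := by field_simp
  have e6 : 1 - t⁻¹ * bt (-t) * (t * r0 (-t)) = r1 (-t) := by rw [r1]; field_simp
  have e7 : r0 (-t) - lam (-t) - r1 (-t) * t = r2 (-t) := by rw [r2]; ring
  have e9 : 2 * r1 (-t) - r2 (-t) * t - lam (-t) * (t⁻¹ * bt (-t)) * t = r3 (-t) := by
    rw [r3, F2, bt]; field_simp; ring
  simp only [progN, runR, Ex.val, List.cons_append, List.nil_append, List.getD_cons_zero,
    List.getD_cons_succ, Int.cast_one, Int.cast_ofNat, e8, e4, e5, e6, e7, e9, envN, ee_neg, qq, q1,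
    lam_mul_r0]

theorem neg_sound {es : List Ex} (h : chkN es = true) {t : ℝ} (ht : 8 ≤ t) :
    ∀ e ∈ es, 0 ≤ e.val (8 / t) (envN t) := by
  rw [← runN ht]
  exact chkE_sound (fun A x hA hp => posR_sound (sig_mem ht).1.le (sig_mem ht).2 hA hp)
    33 32 (sig_abs ht) (fun _ => (sig_mem ht).1.ne')
    (.cons (mem_U ht) (.cons (mem_Ga ht) (.cons (mem_Hn ht) (.cons (mem_W ht) .nil)))) h

end Crest.Agent.R253.Tm
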