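import Crest.Agent.R253.One
import Mathlib.Analysis.Real.Pi.Bounds
import Mathlib.Analysis.Complex.ExponentialBounds

/-! Row 253: analytic lemmas for the verified numerics (continued fraction, tubes, tails). -/

set_option autoImplicit false
set_option linter.unusedVariables false

open Set Filter Topology
open Crest.Agent.R203

noncomputable section

namespace Crest.Agent.R253

/-- moments of the overshoot `E[(U - t)^k | U > t]` -/
def mom : ℕ → ℝ → ℝ
  | 0, _ => 1
  | 1, t => lam t - t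
  | k + 2, t => (k + 1) * mom k t - t * mom (k + 1) t

theorem mom_deriv : ∀ (k : ℕ) (t : ℝ),
    HasDerivAt (fun t => mom (k + 1) t * gq t) (-((k + 1) * (mom k t * gq t))) t
  | 0, t => by
    have h : (fun t => mom (0 + 1) t * gq t) = fun t => gp t - t * gq t := by
      funext t
      simp only [mom, sub_mul, lam_mul_gq]
    rw [h]
    refine ((hasDerivAt_gp t).sub ((hasDerivAt_id' t).mul (hasDerivAt_gq t))).congr_deriv ?_
    simp only [mom]
    ring
  | 1, t => by
    have h : (fun t => mom (1 + 1) t * gq t) = fun t => gq t - t * (mom (0 + 1) t * gq t) := by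
      funext t
      simp only [mom]
      ring
    rw [h]
    refine ((hasDerivAt_gq t).sub ((hasDerivAt_id' t).mul (mom_deriv 0 t))).congr_deriv ?_
    simp only [mom, ← lam_mul_gq]
    push_cast
    ring
  | k + 2, t => by
    have h : (fun t => mom (k + 2 + 1) t * gq t) = fun t =>
        ((k + 1 : ℕ) + 1) * (mom (k + 1) t * gq t) - t * (mom (k + 1 + 1) t * gq t) := by
      funext t
      rw [show k + 2 + 1 = (k + 1) + 2 from rfl, mom]
      ring
    rw [h]
    refine (((mom_deriv k t).const_mul _).sub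
      ((hasDerivAt_id' t).mul (mom_deriv (k + 1) t))).congr_deriv ?_
    rw [show k + 1 + 1 = k + 2 from rfl, mom]
    push_cast
    ring

theorem mom_tendsto : ∀ (k n : ℕ), Tendsto (fun t => t ^ n * (mom k t * gq t)) atTop (𝓝 0)
  | 0, n => by
    refine squeeze_zero' ?_ ?_ (tendsto_pow_gp n)
    · filter_upwards [eventually_ge_atTop (0 : ℝ)] with t ht
      simp only [mom, one_mul]
      exact mul_nonneg (pow_nonneg ht _) (gq_pos t).le
    · filter_upwards [eventually_ge_atTop (1 : ℝ)] with t ht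
      simp only [mom, one_mul]
      exact mul_le_mul_of_nonneg_left (by nlinarith [mul_gq_lt t, gq_pos t]) (by positivity)
  | 1, n => by
    have := (tendsto_pow_gp n).sub (mom_tendsto 0 (n + 1))
    rw [sub_zero] at this
    refine this.congr fun t => ?_
    simp only [mom, ← lam_mul_gq]
    ring
  | k + 2, n => by
    have := ((mom_tendsto k n).const_mul ((k : ℝ) + 1)).sub (mom_tendsto (k + 1) (n + 1))
    rw [mul_zero, sub_zero] at this
    refine this.congr fun t => ?_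
    rw [mom]
    ring

theorem mom_pos : ∀ (k : ℕ) (t : ℝ), 0 < mom k t
  | 0, t => one_pos
  | k + 1, t => by
    have h : StrictAnti fun t => mom (k + 1) t * gq t :=
      strictAnti_of_deriv_neg fun t => by
        rw [(mom_deriv k t).deriv, neg_lt_zero]
        exact mul_pos (by positivity) (mul_pos (mom_pos k t) (gq_pos t))
    have h0 : Tendsto (fun t => mom (k + 1) t * gq t) atTop (𝓝 0) := by
      simpa using mom_tendsto (k + 1) 0
    have h1 := h.antitone.le_of_tendsto h0 (t + 1)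
    exact (pos_iff_pos_of_mul_pos (h1.trans_lt (h (lt_add_one t)))).2 (gq_pos t)

/-- tails of the continued fraction -/
def cf (k : ℕ) (t : ℝ) : ℝ := mom (k + 1) t / mom k t

theorem cf_pos (k : ℕ) (t : ℝ) : 0 < cf k t := div_pos (mom_pos _ _) (mom_pos _ _)
theorem cf_zero (t : ℝ) : cf 0 t = bt t := by simp [cf, mom, bt]
theorem cf_mul (k : ℕ) (t : ℝ) : cf k t * (t + cf (k + 1) t) = k + 1 := by
  have h1 := (mom_pos k t).ne'
  have h2 := (mom_pos (k + 1) t).ne'
  unfold cf
  rw [show k + 1 + 1 = k + 2 from rfl, mom]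
  field_simp
  ring
theorem add_cf_pos (k : ℕ) (t : ℝ) : 0 < t + cf (k + 1) t :=
  (pos_iff_pos_of_mul_pos (by rw [cf_mul]; positivity)).1 (cf_pos k t)
theorem cf_eq (k : ℕ) (t : ℝ) : cf k t = (k + 1) / (t + cf (k + 1) t) :=
  eq_div_of_mul_eq (add_cf_pos k t).ne' (cf_mul k t)

/-- convergents: depth `n`, level `k` -/
def cfa : ℕ → ℕ → ℝ → ℝ
  | 0, _, _ => 0
  | n + 1, k, t => (k + 1) / (t + cfa n (k + 1) t)

theorem cfa_nonneg {t : ℝ} (ht : 0 < t) : ∀ n k : ℕ, 0 ≤ cfa n k t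
  | 0, _ => le_rfl
  | n + 1, k => div_nonneg (by positivity) (add_nonneg ht.le (cfa_nonneg ht n _))

theorem cf_le_of {t y : ℝ} {k : ℕ} (h0 : 0 < t + y) (h : y ≤ cf (k + 1) t) :
    cf k t ≤ (k + 1) / (t + y) := by
  rw [cf_eq]
  exact div_le_div_of_nonneg_left (by positivity) h0 (by linarith)

theorem le_cf_of {t y : ℝ} {k : ℕ} (h : cf (k + 1) t ≤ y) : (k + 1) / (t + y) ≤ cf k t := by
  rw [cf_eq]
  exact div_le_div_of_nonneg_left (by positivity) (add_cf_pos k t) (by linarith)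

theorem cfa_le {t : ℝ} (ht : 0 < t) : ∀ n k : ℕ, cfa (2 * n) k t ≤ cf k t
  | 0, k => (cf_pos k t).le
  | n + 1, k => le_cf_of (cf_le_of (add_pos_of_pos_of_nonneg ht (cfa_nonneg ht _ _))
      (cfa_le ht n _))

theorem le_cfa {t : ℝ} (ht : 0 < t) (n k : ℕ) : cf k t ≤ cfa (2 * n + 1) k t :=
  cf_le_of (add_pos_of_pos_of_nonneg ht (cfa_nonneg ht _ _)) (cfa_le ht n _)

/-- all continued fraction bounds of the hazard rate -/
theorem lam_cf {t : ℝ} (ht : 0 < t) (n : ℕ) :
    t + cfa (2 * n) 0 t ≤ lam t ∧ lam t ≤ t + cfa (2 * n + 1) 0 t := by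
  have h1 := cfa_le ht n 0
  have h2 := le_cfa ht n 0
  rw [cf_zero, bt] at h1 h2
  constructor <;> linarith

/-- the same over `ℚ` (for kernel evaluation) -/
def cfq : ℕ → ℕ → ℚ → ℚ
  | 0, _, _ => 0
  | n + 1, k, t => (k + 1) / (t + cfq n (k + 1) t)

theorem cfq_cast (t : ℚ) : ∀ n k : ℕ, ((cfq n k t : ℚ) : ℝ) = cfa n k t
  | 0, _ => by simp [cfq, cfa]
  | n + 1, k => by
    simp only [cfq, cfa]
    push_cast
    rw [cfq_cast t n]

/-! ### tubes -/

theorem tube_fwd {E k d : ℝ → ℝ} {a b D : ℝ}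
    (hE : ∀ t ∈ Icc a b, HasDerivAt E (d t - k t * E t) t) (hk : ∀ t ∈ Icc a b, 0 ≤ k t)
    (hd : ∀ t ∈ Icc a b, |d t| ≤ D) {t : ℝ} (ht : t ∈ Icc a b) : |E t| ≤ |E a| + D * (t - a) := by
  have key : ∀ {E d : ℝ → ℝ}, (∀ t ∈ Icc a b, HasDerivAt E (d t - k t * E t) t) →
      (∀ t ∈ Icc a b, |d t| ≤ D) → E t ≤ |E a| + D * (t - a) := fun {E d} hE hd => by
    have hD : 0 ≤ D := (abs_nonneg _).trans (hd t ht)
    refine le_of_forall_pos_le_add fun ε hε => ?_
    have hb : 0 < b - a + 1 := by linarith [ht.1, ht.2]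
    have hη : 0 < ε / (b - a + 1) := div_pos hε hb
    have h := image_le_of_deriv_right_lt_deriv_boundary (f := E) (f' := fun t => d t - k t * E t)
      (a := a) (b := b) (fun x hx => (hE x hx).continuousAt.continuousWithinAt)
      (fun x hx => (hE x (Ico_subset_Icc_self hx)).hasDerivWithinAt)
      (B := fun t => |E a| + (D + ε / (b - a + 1)) * (t - a)) (B' := fun _ => D + ε / (b - a + 1))
      (by simpa using le_abs_self _)
      (fun x => by simpa using (((hasDerivAt_id' x).sub_const a).const_mul _).const_add |E a|)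
      (fun x hx e => by
        have h1 := (abs_le.1 (hd x (Ico_subset_Icc_self hx))).2
        have h2 : 0 ≤ E x := by
          rw [e]
          exact add_nonneg (abs_nonneg _) (mul_nonneg (by linarith) (sub_nonneg.2 hx.1))
        linarith [mul_nonneg (hk x (Ico_subset_Icc_self hx)) h2]) ht
    have h3 : ε / (b - a + 1) * (t - a) ≤ ε := by
      rw [div_mul_eq_mul_div, div_le_iff₀ hb]
      nlinarith [ht.2]
    linarith
  refine abs_le.2 ⟨?_, key hE hd⟩
  have := key (E := fun t => -E t) (d := fun t => -d t)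
    (fun t ht => (hE t ht).neg.congr_deriv (by ring)) (fun t ht => by rw [abs_neg]; exact hd t ht)
  rw [abs_neg] at this
  linarith

theorem tube_back {E k d : ℝ → ℝ} {a b D : ℝ}
    (hE : ∀ t ∈ Icc a b, HasDerivAt E (d t + k t * E t) t) (hk : ∀ t ∈ Icc a b, 0 ≤ k t)
    (hd : ∀ t ∈ Icc a b, |d t| ≤ D) {t : ℝ} (ht : t ∈ Icc a b) : |E t| ≤ |E b| + D * (b - t) := by
  have hm : ∀ s ∈ Icc (-b) (-a), -s ∈ Icc a b := fun s hs => ⟨by linarith [hs.2], by linarith [hs.1]⟩
  have := tube_fwd (E := fun s => E (-s)) (k := fun s => k (-s)) (d := fun s => -d (-s))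
    (a := -b) (b := -a) (D := D)
    (fun s hs => ((hE _ (hm s hs)).comp s (hasDerivAt_neg' s)).congr_deriv (by ring))
    (fun s hs => hk _ (hm s hs)) (fun s hs => by rw [abs_neg]; exact hd _ (hm s hs))
    (t := -t) ⟨by linarith [ht.2], by linarith [ht.1]⟩
  simp only [neg_neg] at this
  linarith

/-- tube for `lam`, backward: `p ≥ 0` or `p ≥ t` is enough -/
theorem lam_tube {p p' : ℝ → ℝ} {a b D : ℝ} (hp : ∀ t ∈ Icc a b, HasDerivAt p (p' t) t)
    (hk : ∀ t ∈ Icc a b, min 0 t ≤ p t) (hd : ∀ t ∈ Icc a b, |p t * (p t - t) - p' t| ≤ D)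
    {t : ℝ} (ht : t ∈ Icc a b) : |lam t - p t| ≤ |lam b - p b| + D * (b - t) :=
  tube_back (E := fun t => lam t - p t) (k := fun t => lam t + p t - t)
    (d := fun t => p t * (p t - t) - p' t)
    (fun t ht => ((hasDerivAt_lam t).sub (hp t ht)).congr_deriv (by unfold F2; ring))
    (fun t ht => by
      have h1 := lt_lam t
      have h2 := lam_pos t
      rcases min_le_iff.1 (hk t ht) with h | h <;> linarith) hd ht

/-- tube for `r0`, forward -/
theorem r0_tube {q q' : ℝ → ℝ} {a b D : ℝ} (hq : ∀ t ∈ Icc a b, HasDerivAt q (q' t) t)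
    (hd : ∀ t ∈ Icc a b, |1 - (lam t - t) * q t - q' t| ≤ D)
    {t : ℝ} (ht : t ∈ Icc a b) : |r0 t - q t| ≤ |r0 a - q a| + D * (t - a) :=
  tube_fwd (E := fun t => r0 t - q t) (k := bt) (d := fun t => 1 - (lam t - t) * q t - q' t)
    (fun t ht => ((c1_r0.d t).sub (hq t ht)).congr_deriv (by unfold r1 bt; ring))
    (fun t _ => (bt_pos t).le) hd ht

/-! ### the two ends -/

theorem gq_eq_div (s : ℝ) : gq s = gp s / lam s := by
  rw [← lam_mul_gq, mul_div_cancel_left₀ _ (lam_pos s).ne']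

theorem gp_le (s : ℝ) : gp s ≤ 2 / 5 * Real.exp (-s ^ 2 / 2) := by
  refine mul_le_mul_of_nonneg_right ?_ (Real.exp_pos _).le
  rw [inv_le_comm₀ (Real.sqrt_pos.2 (by positivity)) (by norm_num), Real.le_sqrt (by norm_num)
    (by positivity)]
  linarith [Real.pi_gt_d2]

theorem lam_neg_eq (s : ℝ) : lam (-s) = gp s / (1 - gq s) := by
  rw [lam, gp_neg, ← gq_add_neg s, add_sub_cancel_left]

/-- `(1 - Q) m ≤ r0 (-s) ≤ m`, `m = 1 / lam s` the Mills ratio, `Q = gq s` -/
theorem r0_neg (s : ℝ) : (1 - gq s) / lam s ≤ r0 (-s) ∧ r0 (-s) ≤ 1 / lam s := by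
  have h1 := gq_pos s
  have h2 : 0 < 1 - gq s := sub_pos.2 (gq_lt_one s)
  have h3 := lam_pos s
  have e : r0 (-s) = -Real.log (1 - gq s) * (1 - gq s) / gq s / lam s := by
    rw [r0, lam_neg_eq, FF, show gq (-s) = 1 - gq s by linarith [gq_add_neg s], ← lam_mul_gq]
    field_simp
  have a1 := Real.log_le_sub_one_of_pos h2
  have a2 := Real.one_sub_inv_le_log_of_pos h2
  rw [e]
  refine ⟨div_le_div_of_nonneg_right ?_ h3.le, div_le_div_of_nonneg_right ?_ h3.le⟩
  · rw [le_div_iff₀ h1]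
    nlinarith
  · rw [div_le_iff₀ h1]
    have := mul_le_mul_of_nonneg_right a2 h2.le
    rw [sub_mul, inv_mul_cancel₀ h2.ne'] at this
    linarith

theorem FF_eq (t : ℝ) : FF t = t ^ 2 / 2 + Real.log (lam t) + Real.log (2 * Real.pi) / 2 := by
  rw [log_lam]
  ring

theorem log_two_pi : 0.918 ≤ Real.log (2 * Real.pi) / 2 ∧ Real.log (2 * Real.pi) / 2 ≤ 0.92 := by
  have h1 := Real.log_two_gt_d9
  have h2 := Real.log_two_lt_d9
  have e : Real.log (2 * Real.pi) = 3 * Real.log 2 + Real.log (Real.pi / 4) := by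
    rw [show 2 * Real.pi = 2 ^ 3 * (Real.pi / 4) by ring, Real.log_mul (by norm_num) (by positivity),
      Real.log_pow]
    norm_num
  have p1 := Real.pi_gt_d4
  have p2 := Real.pi_lt_d4
  have hx : |1 - Real.pi / 4| < 1 := abs_lt.2 ⟨by linarith, by linarith⟩
  have h3 := Real.abs_log_sub_add_sum_range_le hx 4
  rw [sub_sub_cancel, abs_of_pos (show 0 < 1 - Real.pi / 4 by linarith)] at h3
  simp only [Finset.sum_range_succ, Finset.range_zero, Finset.sum_empty] at h3
  set x := 1 - Real.pi / 4 with hx'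
  have x1 : 0.2146 ≤ x := by linarith
  have x2 : x ≤ 0.21463 := by linarith
  have h4 : x ^ (4 + 1) / (1 - x) ≤ 0.0006 := by
    rw [div_le_iff₀ (by linarith)]
    have : x ^ (4 + 1) ≤ 0.21463 ^ (4 + 1) := pow_le_pow_left₀ (by linarith) x2 _
    norm_num at this ⊢
    linarith
  obtain ⟨h5, h6⟩ := abs_le.1 (h3.trans h4)
  have b2 : x ^ 2 ≤ 0.21463 ^ 2 := pow_le_pow_left₀ (by linarith) x2 _
  have b3 : x ^ 3 ≤ 0.21463 ^ 3 := pow_le_pow_left₀ (by linarith) x2 _
  have b4 : x ^ 4 ≤ 0.21463 ^ 4 := pow_le_pow_left₀ (by linarith) x2 _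
  have c2 : 0.2146 ^ 2 ≤ x ^ 2 := pow_le_pow_left₀ (by linarith) x1 _
  have c3 : 0.2146 ^ 3 ≤ x ^ 3 := pow_le_pow_left₀ (by linarith) x1 _
  have c4 : 0.2146 ^ 4 ≤ x ^ 4 := pow_le_pow_left₀ (by linarith) x1 _
  rw [e]
  norm_num at h5 h6 b2 b3 b4 c2 c3 c4 ⊢
  constructor <;> linarith

end Crest.Agent.R253
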