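import Crest.Agent.R253.Defs

set_option autoImplicit false
set_option linter.unusedVariables false
set_option linter.unusedSectionVars false

open MeasureTheory Matrix Set Filter Topology
open Crest.Agent.R215 (gam)
open Crest.Agent.R203
open Crest.GeometryTopology.Isotropic

noncomputable section

namespace Crest.Agent.R253

variable {m : ℕ}

/-! The Gaussian Sobolev space through Hermite coefficients. -/

variable {f w : Vc m → ℝ} {g Dw : Fin m → Vc m → ℝ}

theorem Wd_int_hm (hf : MemLp f 2 (gm m)) (α : Fin m → ℕ) :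
    Integrable (fun z => f z * hm α z) (gm m) :=
  hf.integrable_mul (tame_hm α).pg.memLp_two
theorem Wd_hc_add (hf : MemLp f 2 (gm m)) (hw : MemLp w 2 (gm m)) (α : Fin m → ℕ) :
    hc (fun z => f z + w z) α = hc f α + hc w α := by
  simp only [hc, add_mul]
  exact integral_add (Wd_int_hm hf α) (Wd_int_hm hw α)
theorem Wd_hc_sub (hf : MemLp f 2 (gm m)) (hw : MemLp w 2 (gm m)) (α : Fin m → ℕ) :
    hc (fun z => f z - w z) α = hc f α - hc w α := by
  simp only [hc, sub_mul]
  exact integral_sub (Wd_int_hm hf α) (Wd_int_hm hw α)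
theorem Wd_hc_const_mul (f : Vc m → ℝ) (c : ℝ) (α : Fin m → ℕ) :
    hc (fun z => c * f z) α = c * hc f α := by
  simp only [hc, mul_assoc]
  exact integral_const_mul _ _
theorem wd_of_tame (hf : Tame f) : WD f fun k => pd k f := by
  exact ⟨hf.pg.memLp_two, fun k => (hf.pg_pd k).memLp_two, fun k α => hf.hc_pd k α⟩
theorem WD.congr (h : WD f g) {f' : Vc m → ℝ} {g' : Fin m → Vc m → ℝ} (h1 : f =ᵐ[gm m] f')
    (h2 : ∀ k, g k =ᵐ[gm m] g' k) : WD f' g' := by
  exact ⟨(memLp_congr_ae h1).1 h.l2, fun k => (memLp_congr_ae (h2 k)).1 (h.l2d k), fun k α => by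
    rw [← hc_congr (h2 k), ← hc_congr h1, h.co]⟩
theorem WD.uniq (h : WD f g) {g' : Fin m → Vc m → ℝ} (h' : WD f g') (k : Fin m) :
    g k =ᵐ[gm m] g' k := by
  have := ae_zero_of_hc (F := fun z => g k z - g' k z) ((h.l2d k).sub (h'.l2d k)) fun α => by
    rw [Wd_hc_sub (h.l2d k) (h'.l2d k), h.co, h'.co, sub_self]
  filter_upwards [this] with z hz
  exact sub_eq_zero.1 hz
theorem wd_const (c : ℝ) : WD (fun _ : Vc m => c) fun _ _ => 0 := by
  refine (wd_of_tame (Tame.const c)).congr (EventuallyEq.refl _ _) fun k =>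
    Eventually.of_forall fun z => ?_
  exact pd_of_hasFDerivAt (hasFDerivAt_const c z) k
theorem wd_coord (i : Fin m) : WD (fun z : Vc m => z i) fun k _ => if i = k then 1 else 0 := by
  exact (wd_of_tame (Tame.coord i)).congr (EventuallyEq.refl _ _) fun k =>
    Eventually.of_forall fun z => pd_coord k i z
theorem WD.add (h : WD f g) (h' : WD w Dw) : WD (fun z => f z + w z) fun k z => g k z + Dw k z := by
  exact ⟨h.l2.add h'.l2, fun k => (h.l2d k).add (h'.l2d k), fun k α => by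
    rw [Wd_hc_add (h.l2d k) (h'.l2d k), Wd_hc_add h.l2 h'.l2, h.co, h'.co]⟩
theorem WD.sub (h : WD f g) (h' : WD w Dw) : WD (fun z => f z - w z) fun k z => g k z - Dw k z := by
  exact ⟨h.l2.sub h'.l2, fun k => (h.l2d k).sub (h'.l2d k), fun k α => by
    rw [Wd_hc_sub (h.l2d k) (h'.l2d k), Wd_hc_sub h.l2 h'.l2, h.co, h'.co]⟩
theorem WD.const_mul (h : WD f g) (c : ℝ) : WD (fun z => c * f z) fun k z => c * g k z := by
  exact ⟨h.l2.const_mul c, fun k => (h.l2d k).const_mul c, fun k α => by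
    rw [Wd_hc_const_mul, Wd_hc_const_mul, h.co]⟩
theorem wd_sum {κ : Type} (s : Finset κ) {F : κ → Vc m → ℝ} {G : κ → Fin m → Vc m → ℝ}
    (h : ∀ j ∈ s, WD (F j) (G j)) : WD (fun z => ∑ j ∈ s, F j z) fun k z => ∑ j ∈ s, G j k z := by
  classical
  induction s using Finset.induction_on with
  | empty => simpa using wd_const (m := m) 0
  | insert j s hj ih =>
    simp only [Finset.sum_insert hj]
    exact (h j (Finset.mem_insert_self _ _)).add
      (ih fun i hi => h i (Finset.mem_insert_of_mem hi))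
theorem WD.stein (h : WD f g) (k : Fin m) : ∫ z, g k z ∂gm m = ∫ z, z k * f z ∂gm m := by
  rw [← hc_zero, h.co, zero_add, hc_single]

theorem WD.hasSum_dirichlet (h : WD f g) (h' : WD w Dw) :
    HasSum (fun β => (deg β : ℝ) * (hc f β * hc w β) / fac β) (∑ k, ∫ z, g k z * Dw k z ∂gm m) := by
  exact reidx (fun β => hc f β * hc w β) _ fun i => by
    have := parseval (h.l2d i) (h'.l2d i)
    simpa only [h.co, h'.co] using this

theorem WD.poincare (h : WD f g) :
    ∫ z, f z ^ 2 ∂gm m ≤ (∫ z, f z ∂gm m) ^ 2 + ∑ k, ∫ z, g k z ^ 2 ∂gm m := by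
  have h0 := lvl0 fun α => hc f α * hc f α
  have hD := h.hasSum_dirichlet h
  have hP := parseval h.l2 h.l2
  have := hasSum_le (fun α => ?_) hP (h0.add hD)
  · simpa only [hc_zero, sq] using this
  · have hp := fac_pos α
    have hw : 0 ≤ hc f α * hc f α / fac α := div_nonneg (mul_self_nonneg _) hp.le
    by_cases a0 : deg α = 0
    · simp [a0]
    · have h3 : (1 : ℝ) ≤ deg α := by exact_mod_cast (show 1 ≤ deg α by omega)
      simp only [a0, if_false, zero_div, zero_add]
      rw [mul_div_assoc (deg α : ℝ)]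
      nlinarith

/-- Poincaré inequality above the first chaos -/
theorem WD.gap (h : WD f g) : 2 * ∫ z, f z ^ 2 ∂gm m ≤
    2 * (∫ z, f z ∂gm m) ^ 2 + ∑ k, (∫ z, g k z ∂gm m) ^ 2 + ∑ k, ∫ z, g k z ^ 2 ∂gm m := by
  have h0 := lvl0 fun α => hc f α * hc f α
  have h1 := lvl1 fun α => hc f α * hc f α
  have hD := h.hasSum_dirichlet h
  have hP := parseval h.l2 h.l2
  have := hasSum_le (fun α => ?_) (hP.mul_left 2) (((h0.mul_left 2).add h1).add hD)
  · have e1 : ∀ i, hc f (Pi.single i 1) = ∫ z, g i z ∂gm m := fun i => by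
      rw [h.stein, hc_single]
    simpa only [hc_zero, e1, sq] using this
  · have hp := fac_pos α
    have hw : 0 ≤ hc f α * hc f α / fac α := div_nonneg (mul_self_nonneg _) hp.le
    by_cases a0 : deg α = 0
    · simp [a0]
    · by_cases a1 : deg α = 1
      · simp only [a1, if_true, one_ne_zero, if_false, zero_div, mul_zero, zero_add, Nat.cast_one,
          one_mul]
        linarith
      · have h3 : (2 : ℝ) ≤ deg α := by exact_mod_cast (show 2 ≤ deg α by omega)
        simp only [a0, a1, if_false, zero_div, mul_zero, zero_add]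
        rw [mul_div_assoc (deg α : ℝ)]
        nlinarith

/-- Hermite truncation -/
def trunc (f : Vc m → ℝ) (n : ℕ) (z : Vc m) : ℝ :=
  ∑ α ∈ Fintype.piFinset (fun _ : Fin m => Finset.range n), hc f α / fac α * hm α z

theorem wd2_im (hf : MemLp f 2 (gm m)) (hw : MemLp w 2 (gm m)) :
    Integrable (fun z => f z * w z) (gm m) := hf.integrable_mul hw

theorem wd2_contDiff_hm (α : Fin m → ℕ) : ContDiff ℝ 2 (hm α) :=
  contDiff_prod fun i _ =>
    (Polynomial.contDiff_aeval (Polynomial.hermite (α i)) 2).comp (contDiff_apply ℝ ℝ i)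

theorem wd2_pd_trunc (f : Vc m → ℝ) (n : ℕ) (k : Fin m) (z : Vc m) : pd k (trunc f n) z =
    ∑ α ∈ Fintype.piFinset (fun _ : Fin m => Finset.range n), hc f α / fac α * pd k (hm α) z := by
  have hd : ∀ α : Fin m → ℕ, DifferentiableAt ℝ (hm α) z := fun α =>
    ((wd2_contDiff_hm α).differentiable (by simp)) z
  have h : HasFDerivAt (trunc f n) (∑ α ∈ Fintype.piFinset (fun _ : Fin m => Finset.range n),
      (hc f α / fac α) • fderiv ℝ (hm α) z) z :=
    HasFDerivAt.fun_sum fun α _ => (hd α).hasFDerivAt.const_mul _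
  rw [pd_of_hasFDerivAt h, _root_.sum_apply]
  exact Finset.sum_congr rfl fun α _ => by rw [pd_eq_fderiv (hd α)]; rfl

theorem wd2_hc_trunc (f : Vc m → ℝ) (n : ℕ) (β : Fin m → ℕ) :
    hc (trunc f n) β = if ∀ i, β i < n then hc f β else 0 := by
  have h : hc (trunc f n) β = ∑ α ∈ Fintype.piFinset (fun _ : Fin m => Finset.range n),
      hc f α / fac α * hc (hm α) β := by
    simp only [hc, trunc, Finset.sum_mul, mul_assoc]
    rw [integral_finsetSum _ fun α _ =>
      (((tame_hm α).pg.mul (tame_hm β).pg).const_mul _).integrable]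
    exact Finset.sum_congr rfl fun α _ => integral_const_mul _ _
  rw [h]
  simp only [hc_hm, mul_ite, mul_zero, Finset.sum_ite_eq', Fintype.mem_piFinset, Finset.mem_range,
    div_mul_cancel₀ _ (fac_pos β).ne']

theorem wd2_hc_sub (hf : MemLp f 2 (gm m)) (hw : MemLp w 2 (gm m)) (α : Fin m → ℕ) :
    hc (fun z => f z - w z) α = hc f α - hc w α := by
  simp only [hc, sub_mul]
  exact integral_sub (hf.integrable_mul (tame_hm α).pg.memLp_two)
    (hw.integrable_mul (tame_hm α).pg.memLp_two)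

theorem wd2_parseval_sub (hf : MemLp f 2 (gm m)) (hw : MemLp w 2 (gm m)) :
    HasSum (fun α => (hc f α - hc w α) ^ 2 / fac α) (∫ z, (f z - w z) ^ 2 ∂gm m) := by
  have h := parseval (f := fun z => f z - w z) (g := fun z => f z - w z) (hf.sub hw) (hf.sub hw)
  simpa only [wd2_hc_sub hf hw, sq] using h

theorem wd2_tail {F : ℕ → Vc m → ℝ} (hf : MemLp f 2 (gm m)) (hF : ∀ n, MemLp (F n) 2 (gm m))
    (σ : (Fin m → ℕ) → Fin m → ℕ)
    (h : ∀ n α, hc (F n) α = if ∀ i, σ α i < n then hc f α else 0) :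
    Tendsto (fun n => ∫ z, (F n z - f z) ^ 2 ∂gm m) atTop (𝓝 0) := by
  have h1 := tendsto_tsum_of_dominated_convergence (𝓕 := atTop)
    (f := fun n α => (hc (F n) α - hc f α) ^ 2 / fac α) (g := fun _ => (0 : ℝ))
    (parseval hf hf).summable (fun α => ?_) (Eventually.of_forall fun n α => ?_)
  · rw [tsum_zero] at h1
    exact h1.congr fun n => (wd2_parseval_sub (hF n) hf).tsum_eq
  · refine tendsto_const_nhds.congr' ?_
    filter_upwards [eventually_all.2 fun i => eventually_gt_atTop (σ α i)] with n hn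
    rw [h, if_pos hn, sub_self]
    simp
  · have hp := fac_pos α
    rw [Real.norm_of_nonneg (by positivity), h]
    split_ifs
    · rw [sub_self]
      simpa using div_nonneg (mul_self_nonneg _) hp.le
    · exact le_of_eq (by ring)

theorem wd2_sq_le (hf : MemLp f 2 (gm m)) (hw : MemLp w 2 (gm m)) (p : (Fin m → ℕ) → Prop)
    [DecidablePred p] (h : ∀ α, hc w α = if p α then hc f α else 0) :
    ∫ z, w z ^ 2 ∂gm m ≤ ∫ z, f z ^ 2 ∂gm m := by
  have := hasSum_le (fun α => ?_) (parseval hw hw) (parseval hf hf)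
  · simpa only [sq] using this
  · rw [h]
    split_ifs
    · exact le_rfl
    · simpa using div_nonneg (mul_self_nonneg _) (fac_pos α).le

theorem wd2_cs (hf : MemLp f 2 (gm m)) (hw : MemLp w 2 (gm m)) :
    (∫ z, f z * w z ∂gm m) ^ 2 ≤ (∫ z, f z ^ 2 ∂gm m) * ∫ z, w z ^ 2 ∂gm m := by
  have h := discrim_le_zero (a := ∫ z, f z ^ 2 ∂gm m) (b := 2 * ∫ z, f z * w z ∂gm m)
    (c := ∫ z, w z ^ 2 ∂gm m) fun t => by
      have h1 : 0 ≤ ∫ z, (f z ^ 2 * (t * t) + 2 * t * (f z * w z) + w z ^ 2) ∂gm m :=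
        integral_nonneg fun z => by
          have := sq_nonneg (f z * t + w z)
          simp only [Pi.zero_apply]
          linarith
      have i1 : Integrable (fun z => f z ^ 2 * (t * t)) (gm m) := hf.integrable_sq.mul_const _
      have i2 : Integrable (fun z => 2 * t * (f z * w z)) (gm m) :=
        (hf.integrable_mul hw).const_mul _
      have i3 : Integrable (fun z => f z ^ 2 * (t * t) + 2 * t * (f z * w z)) (gm m) := i1.add i2
      rw [integral_add i3 hw.integrable_sq, integral_add i1 i2, integral_mul_const,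
        integral_const_mul] at h1
      linarith
  rw [discrim] at h
  linarith

/-- continuity of the `L²` pairing -/
theorem wd2_pair {F : ℕ → Vc m → ℝ} (hF : ∀ n, MemLp (F n) 2 (gm m)) (hf : MemLp f 2 (gm m))
    (hw : MemLp w 2 (gm m)) (h : Tendsto (fun n => ∫ z, (F n z - f z) ^ 2 ∂gm m) atTop (𝓝 0)) :
    Tendsto (fun n => ∫ z, F n z * w z ∂gm m) atTop (𝓝 (∫ z, f z * w z ∂gm m)) := by
  rw [tendsto_iff_norm_sub_tendsto_zero]
  have h1 := (h.mul_const (∫ z, w z ^ 2 ∂gm m)).sqrt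
  rw [zero_mul, Real.sqrt_zero] at h1
  refine squeeze_zero (fun _ => norm_nonneg _) (fun n => Real.abs_le_sqrt ?_) h1
  rw [← integral_sub (wd2_im (hF n) hw) (wd2_im hf hw)]
  simpa only [sub_mul] using wd2_cs (f := fun z => F n z - f z) ((hF n).sub hf) hw

theorem wd2_fatou {u : ℕ → Vc m → ℝ} {v : Vc m → ℝ} {B : ℝ} (hu : ∀ n, Integrable (u n) (gm m))
    (h0 : ∀ n z, 0 ≤ u n z) (hv : ∀ z, Tendsto (fun n => u n z) atTop (𝓝 (v z)))
    (hB : ∀ n, ∫ z, u n z ∂gm m ≤ B) : Integrable v (gm m) ∧ ∫ z, v z ∂gm m ≤ B := by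
  have hm : AEStronglyMeasurable v (gm m) :=
    aestronglyMeasurable_of_tendsto_ae atTop (fun n => (hu n).1) (ae_of_all _ hv)
  have hv0 : 0 ≤ᵐ[gm m] v := ae_of_all _ fun z => ge_of_tendsto' (hv z) fun n => h0 n z
  have h1 : ∫⁻ z, ENNReal.ofReal (v z) ∂gm m ≤ ENNReal.ofReal B := by
    have h2 := lintegral_liminf_le' (μ := gm m) (u := atTop)
      (f := fun n z => ENNReal.ofReal (u n z)) fun n => (hu n).aemeasurable.ennreal_ofReal
    rw [lintegral_congr fun z => (ENNReal.tendsto_ofReal (hv z)).liminf_eq] at h2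
    refine h2.trans (liminf_le_of_frequently_le' (Frequently.of_forall fun n => ?_))
    rw [← ofReal_integral_eq_lintegral_ofReal (hu n) (ae_of_all _ (h0 n))]
    exact ENNReal.ofReal_le_ofReal (hB n)
  refine ⟨⟨hm, (hasFiniteIntegral_iff_ofReal hv0).2 (h1.trans_lt ENNReal.ofReal_lt_top)⟩, ?_⟩
  rw [integral_eq_lintegral_of_nonneg_ae hv0 hm]
  exact ENNReal.toReal_le_of_le_ofReal ((integral_nonneg (h0 0)).trans (hB 0)) h1

theorem wd2_zmul_tame (hf : Tame f) (k : Fin m) :
    ∫ z, (z k * f z) ^ 2 ∂gm m ≤ 2 * ∫ z, f z ^ 2 ∂gm m + 4 * ∫ z, pd k f z ^ 2 ∂gm m := by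
  have h1 := hf.ibp ((Tame.coord k).mul hf) k
  have p1 := (PG.coord k).mul hf.pg
  have p2 := hf.pg_pd k
  have i1 := (p1.pow 2).integrable
  have i2 := (hf.pg.pow 2).integrable
  have i3 := (p2.mul p1).integrable
  have i4 := (p2.pow 2).integrable
  have h2 : ∫ z, f z * (z k * (z k * f z) - pd k (fun x => x k * f x) z) ∂gm m =
      ∫ z, ((z k * f z) ^ 2 - f z ^ 2 - pd k f z * (z k * f z)) ∂gm m := by
    refine integral_congr_ae ?_
    filter_upwards [hf.ae_diff] with z hz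
    rw [pd_mul (differentiableAt_apply k z) hz, pd_coord, if_pos rfl]
    ring
  have i5 : Integrable (fun z => (z k * f z) ^ 2 - f z ^ 2) (gm m) := i1.sub i2
  rw [h2, integral_sub i5 i3, integral_sub i1 i2] at h1
  have h3 : ∫ z, 4 * (pd k f z * (z k * f z)) ∂gm m ≤
      ∫ z, ((z k * f z) ^ 2 + 4 * pd k f z ^ 2) ∂gm m :=
    integral_mono (i3.const_mul 4) (i1.add (i4.const_mul 4)) fun z => by
      have := sq_nonneg (z k * f z - 2 * pd k f z)
      simp only
      linarith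
  rw [integral_add i1 (i4.const_mul 4), integral_const_mul, integral_const_mul] at h3
  linarith

theorem tame_trunc (f : Vc m → ℝ) (n : ℕ) : Tame (trunc f n) :=
  Tame.sum _ fun α _ => (tame_hm α).const_mul _
theorem contDiff_trunc (f : Vc m → ℝ) (n : ℕ) : ContDiff ℝ 2 (trunc f n) :=
  ContDiff.sum fun α _ => contDiff_const.mul (wd2_contDiff_hm α)
theorem tame_pd_trunc (f : Vc m → ℝ) (n : ℕ) (k : Fin m) : Tame (pd k (trunc f n)) := by
  rw [funext (wd2_pd_trunc f n k)]
  simp only [pd_hm]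
  exact Tame.sum _ fun α _ => ((tame_hm _).const_mul _).const_mul _
theorem tendsto_trunc (hf : MemLp f 2 (gm m)) :
    Tendsto (fun n => ∫ z, (trunc f n z - f z) ^ 2 ∂gm m) atTop (𝓝 0) :=
  wd2_tail hf (fun n => (tame_trunc f n).pg.memLp_two) id (wd2_hc_trunc f)
theorem WD.tendsto_pd_trunc (h : WD f g) (k : Fin m) :
    Tendsto (fun n => ∫ z, (pd k (trunc f n) z - g k z) ^ 2 ∂gm m) atTop (𝓝 0) :=
  wd2_tail (h.l2d k) (fun n => (tame_pd_trunc f n k).pg.memLp_two) (fun α => α + Pi.single k 1)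
    fun n α => by rw [(tame_trunc f n).hc_pd, wd2_hc_trunc, h.co]

/-- closedness -/
theorem wd_of_tendsto {F : ℕ → Vc m → ℝ} {G : ℕ → Fin m → Vc m → ℝ} (h : ∀ n, WD (F n) (G n))
    (hf : MemLp f 2 (gm m)) (hg : ∀ k, MemLp (g k) 2 (gm m))
    (h1 : Tendsto (fun n => ∫ z, (F n z - f z) ^ 2 ∂gm m) atTop (𝓝 0))
    (h2 : ∀ k, Tendsto (fun n => ∫ z, (G n k z - g k z) ^ 2 ∂gm m) atTop (𝓝 0)) : WD f g := by
  refine ⟨hf, hg, fun k α => ?_⟩
  have a1 := wd2_pair (fun n => (h n).l2d k) (hg k) (tame_hm α).pg.memLp_two (h2 k)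
  have a2 := wd2_pair (fun n => (h n).l2) hf (tame_hm (α + Pi.single k 1)).pg.memLp_two h1
  exact tendsto_nhds_unique a1 (a2.congr fun n => ((h n).co k α).symm)

/-- for tame `f`: Stein for `z f²`; then truncations and Fatou (or Cauchy) -/
theorem WD.zmul (h : WD f g) (k : Fin m) : MemLp (fun z => z k * f z) 2 (gm m) ∧
    ∫ z, (z k * f z) ^ 2 ∂gm m ≤ 2 * ∫ z, f z ^ 2 ∂gm m + 4 * ∫ z, g k z ^ 2 ∂gm m := by
  have hF : ∀ n, MemLp (trunc f n) 2 (gm m) := fun n => (tame_trunc f n).pg.memLp_two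
  have hB : ∀ n, ∫ z, (z k * trunc f n z) ^ 2 ∂gm m ≤
      2 * ∫ z, f z ^ 2 ∂gm m + 4 * ∫ z, g k z ^ 2 ∂gm m := by
    intro n
    have a1 := wd2_zmul_tame (tame_trunc f n) k
    have a2 := wd2_sq_le h.l2 (hF n) _ (wd2_hc_trunc f n)
    have a3 := wd2_sq_le (h.l2d k) (tame_pd_trunc f n k).pg.memLp_two
      (fun α => ∀ i, (α + Pi.single k 1 : Fin m → ℕ) i < n)
      fun α => by rw [(tame_trunc f n).hc_pd, wd2_hc_trunc, h.co]
    linarith
  have hc0 : ∀ (R : ℕ) (z : Vc m), 0 ≤ min (z k ^ 2) (R : ℝ) := fun R z =>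
    le_min (sq_nonneg _) (Nat.cast_nonneg _)
  have hc : ∀ R : ℕ, MemLp (fun z => min (z k ^ 2) (R : ℝ) * f z) 2 (gm m) := by
    intro R
    refine (h.l2.const_mul (R : ℝ)).of_le
      ((Measurable.aestronglyMeasurable (by fun_prop)).mul h.l2.1) (ae_of_all _ fun z => ?_)
    rw [norm_mul, norm_mul, Real.norm_of_nonneg (hc0 R z), Real.norm_of_nonneg (Nat.cast_nonneg _)]
    exact mul_le_mul_of_nonneg_right (min_le_right _ _) (norm_nonneg _)
  obtain ⟨b1, b2⟩ := wd2_fatou (u := fun R z => f z * (min (z k ^ 2) (R : ℝ) * f z))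
    (v := fun z => (z k * f z) ^ 2) (B := 2 * ∫ z, f z ^ 2 ∂gm m + 4 * ∫ z, g k z ^ 2 ∂gm m)
    (fun R => h.l2.integrable_mul (hc R))
    (fun R z => by
      have := mul_nonneg (hc0 R z) (sq_nonneg (f z))
      linarith)
    (fun z => by
      refine tendsto_const_nhds.congr' ?_
      filter_upwards [tendsto_natCast_atTop_atTop.eventually_ge_atTop (z k ^ 2)] with R hR
      rw [min_eq_left hR]
      ring)
    (fun R => by
      have a1 := (wd2_pair hF h.l2 (hc R) (tendsto_trunc h.l2)).const_mul 2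
      have a2 : ∀ n, 2 * ∫ z, trunc f n z * (min (z k ^ 2) (R : ℝ) * f z) ∂gm m ≤
          ∫ z, f z * (min (z k ^ 2) (R : ℝ) * f z) ∂gm m + ∫ z, (z k * trunc f n z) ^ 2 ∂gm m := by
        intro n
        have i1 := (((PG.coord k).mul (tame_trunc f n).pg).pow 2).integrable
        rw [← integral_const_mul, ← integral_add (wd2_im h.l2 (hc R)) i1]
        refine integral_mono (((hF n).integrable_mul (hc R)).const_mul 2)
          ((h.l2.integrable_mul (hc R)).add i1) fun z => ?_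
        have c1 := mul_nonneg (hc0 R z) (sq_nonneg (f z - trunc f n z))
        have c2 := mul_le_mul_of_nonneg_right (min_le_left (z k ^ 2) (R : ℝ))
          (sq_nonneg (trunc f n z))
        simp only
        linarith
      have a3 := le_of_tendsto' a1 fun n => (a2 n).trans (add_le_add_right (hB n) _)
      linarith)
  exact ⟨(memLp_two_iff_integrable_sq
    ((measurable_pi_apply k).aestronglyMeasurable.mul h.l2.1)).2 b1, b2⟩

/-- integration by parts for two Sobolev functions (truncate both, use `zmul`) -/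
theorem WD.ibp (h : WD f g) (h' : WD w Dw) (k : Fin m) :
    ∫ z, z k * f z * w z ∂gm m = ∫ z, g k z * w z ∂gm m + ∫ z, f z * Dw k z ∂gm m := by
  have hF : ∀ n, MemLp (trunc f n) 2 (gm m) := fun n => (tame_trunc f n).pg.memLp_two
  have hz := (h'.zmul k).1
  have a1 := wd2_pair hF h.l2 hz (tendsto_trunc h.l2)
  have a2 := (wd2_pair (fun n => (tame_pd_trunc f n k).pg.memLp_two) (h.l2d k) h'.l2
    (h.tendsto_pd_trunc k)).add (wd2_pair hF h.l2 (h'.l2d k) (tendsto_trunc h.l2))
  have a3 : ∀ α : Fin m → ℕ, ∫ z, hm α z * (z k * w z) ∂gm m =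
      ∫ z, pd k (hm α) z * w z ∂gm m + ∫ z, hm α z * Dw k z ∂gm m := by
    intro α
    have b1 := h'.co k α
    have b2 : ∫ z, w z * (z k * hm α z - pd k (hm α) z) ∂gm m =
        ∫ z, (hm α z * (z k * w z) - pd k (hm α) z * w z) ∂gm m :=
      integral_congr_ae (ae_of_all _ fun z => by ring)
    have b3 : ∫ z, Dw k z * hm α z ∂gm m = ∫ z, hm α z * Dw k z ∂gm m :=
      integral_congr_ae (ae_of_all _ fun z => mul_comm _ _)
    simp only [hc, hm_add_single] at b1
    rw [b2, b3, integral_sub (wd2_im (tame_hm α).pg.memLp_two hz)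
      (wd2_im ((tame_hm α).pg_pd k).memLp_two h'.l2)] at b1
    linarith
  have a4 : ∀ (u : (Fin m → ℕ) → Vc m → ℝ) (c : (Fin m → ℕ) → ℝ) (s : Finset (Fin m → ℕ))
      (v : Vc m → ℝ), (∀ α, MemLp (u α) 2 (gm m)) → MemLp v 2 (gm m) →
      ∫ z, (∑ α ∈ s, c α * u α z) * v z ∂gm m = ∑ α ∈ s, c α * ∫ z, u α z * v z ∂gm m := by
    intro u c s v hu hv
    simp only [Finset.sum_mul, mul_assoc]
    rw [integral_finsetSum _ fun α _ => (wd2_im (hu α) hv).const_mul _]
    exact Finset.sum_congr rfl fun α _ => integral_const_mul _ _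
  have a5 : ∀ n, ∫ z, trunc f n z * (z k * w z) ∂gm m =
      ∫ z, pd k (trunc f n) z * w z ∂gm m + ∫ z, trunc f n z * Dw k z ∂gm m := by
    intro n
    simp only [wd2_pd_trunc, trunc]
    rw [a4 _ _ _ _ (fun α => (tame_hm α).pg.memLp_two) hz,
      a4 _ _ _ _ (fun α => ((tame_hm α).pg_pd k).memLp_two) h'.l2,
      a4 _ _ _ _ (fun α => (tame_hm α).pg.memLp_two) (h'.l2d k), ← Finset.sum_add_distrib]
    exact Finset.sum_congr rfl fun α _ => by rw [a3, mul_add]
  rw [← tendsto_nhds_unique (a1.congr a5) a2]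
  exact integral_congr_ae (ae_of_all _ fun z => by ring)

end Crest.Agent.R253
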