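import Crest.Agent.R253.Defs

/-! Row 253: Riesz–Fischer, difference quotients, reflection (auxiliary file of `WdB`). -/

set_option autoImplicit false
set_option linter.unusedVariables false

open MeasureTheory Set Filter Topology
open Crest.Agent.R215 (gam)
open Crest.Agent.R203

noncomputable section

namespace Crest.Agent.R253.WdB2

variable {m : ℕ}

theorem exists_of_coeff (c : (Fin m → ℕ) → ℝ) (C : ℝ)
    (h : ∀ s : Finset (Fin m → ℕ), ∑ α ∈ s, c α ^ 2 / fac α ≤ C) :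
    ∃ u : Vc m → ℝ, Measurable u ∧ MemLp u 2 (gm m) ∧ (∀ α, hc u α = c α) ∧
      ∫ z, u z ^ 2 ∂gm m ≤ C := by
  let a : (Fin m → ℕ) → ℝ := fun α => (√(fac α))⁻¹ * c α
  have ha : ∀ α, ‖a α‖ ^ 2 = c α ^ 2 / fac α := fun α => by
    rw [Real.norm_eq_abs, sq_abs]
    simp only [a]
    rw [mul_pow, inv_pow, Real.sq_sqrt (fac_pos α).le, div_eq_inv_mul]
  have hs : Summable fun α => a α • hv α := by
    have := ((orthonormal_hv (ι := Fin m)).orthogonalFamily.summable_iff_norm_sq_summable a).2 (by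
      simp only [ha]
      exact summable_of_sum_le (fun α => div_nonneg (sq_nonneg _) (fac_pos α).le) h)
    simpa using this
  obtain ⟨F, hF⟩ := hs
  have hcF : ∀ β, hc F β = c β := fun β => by
    have h1 := hF.mapL (innerSL ℝ (hv β))
    simp only [innerSL_apply_apply, inner_smul_right, orthonormal_iff_ite.1 orthonormal_hv] at h1
    have h2 : HasSum (fun α => a α * if β = α then (1 : ℝ) else 0) (a β) := by
      have := hasSum_single (f := fun α => a α * if β = α then (1 : ℝ) else 0) β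
        (fun α hα => by simp [Ne.symm hα])
      simpa using this
    have h3 := h1.unique h2
    rw [real_inner_comm, inner_hv] at h3
    exact mul_left_cancel₀ (inv_ne_zero (Real.sqrt_pos.2 (fac_pos β)).ne') h3
  refine ⟨F, (Lp.stronglyMeasurable F).measurable, Lp.memLp F, hcF, ?_⟩
  have h1 := parseval (Lp.memLp F) (Lp.memLp F)
  simp only [hcF, ← sq] at h1
  exact hasSum_le_of_sum_le h1 h

/-- the adjoint of the shift applied to a Hermite polynomial -/
def ps (β : Fin m → ℕ) (k : Fin m) (t : ℝ) (z : Vc m) : ℝ :=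
  hm β (z - t • (Pi.single k 1 : Vc m)) * Real.exp (t * z k - t ^ 2 / 2)

theorem hm_shift (β : Fin m → ℕ) (k : Fin m) (t : ℝ) (z : Vc m) :
    hm β (z - t • (Pi.single k 1 : Vc m)) =
      He (β k) (z k - t) * ∏ j ∈ Finset.univ.erase k, He (β j) (z j) := by
  rw [hm_split β k]
  congr 1
  · simp
  · refine Finset.prod_congr rfl fun j hj => ?_
    simp [Finset.ne_of_mem_erase hj]

theorem ps_zero (β : Fin m → ℕ) (k : Fin m) (z : Vc m) : ps β k 0 z = hm β z := by simp [ps]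

theorem hasDerivAt_ps (β : Fin m → ℕ) (k : Fin m) (t : ℝ) (z : Vc m) :
    HasDerivAt (fun t => ps β k t z) (ps (β + Pi.single k 1) k t z) t := by
  have e1 : ∏ j ∈ Finset.univ.erase k, He ((β + Pi.single k 1 : Fin m → ℕ) j) (z j) =
      ∏ j ∈ Finset.univ.erase k, He (β j) (z j) :=
    Finset.prod_congr rfl fun j hj => by simp [Finset.ne_of_mem_erase hj]
  have e2 : (β + Pi.single k 1 : Fin m → ℕ) k = β k + 1 := by simp
  simp only [ps, hm_shift, e1, e2]
  have h1 : HasDerivAt (fun t : ℝ => z k - t) (-1) t := by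
    simpa using (hasDerivAt_id t).const_sub (z k)
  have h2 := ((hasDerivAt_He (β k) (z k - t)).comp t h1).mul_const
    (∏ j ∈ Finset.univ.erase k, He (β j) (z j))
  have h3 : HasDerivAt (fun t : ℝ => t * z k - t ^ 2 / 2) (z k - t) t := by
    have := ((hasDerivAt_id t).mul_const (z k)).sub (((hasDerivAt_id t).pow 2).div_const 2)
    exact this.congr_deriv (by simp)
  refine (h2.mul h3.exp).congr_deriv ?_
  rw [He_succ]
  simp only [Function.comp]
  ring

theorem measurable_ps (β : Fin m → ℕ) (k : Fin m) (t : ℝ) : Measurable (ps β k t) := by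
  have := (tame_hm β).pg.measurable
  unfold ps
  fun_prop

theorem ps_bound (β : Fin m → ℕ) (k : Fin m) : ∃ b : Vc m → ℝ, Integrable b (gm m) ∧
    ∀ z, ∀ t ∈ Ioo (-1 : ℝ) 1, |ps β k t z| ≤ b z := by
  obtain ⟨-, C, n, hC, h⟩ := (tame_hm β).pg
  refine ⟨fun z => C * (2 + ‖z‖) ^ n * Real.exp (1 * ‖z‖),
    ((((PG.const 2).add PG.norm).pow n).const_mul C).integrable_mul_exp zero_le_one, fun z t ht => ?_⟩
  have ht' : |t| ≤ 1 := abs_le.2 ⟨ht.1.le, ht.2.le⟩
  rw [ps, abs_mul, abs_of_pos (Real.exp_pos _)]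
  refine mul_le_mul ((h _).trans ?_) (Real.exp_le_exp.2 ?_) (Real.exp_pos _).le (by positivity)
  · have : ‖z - t • (Pi.single k 1 : Vc m)‖ ≤ ‖z‖ + 1 := by
      refine (norm_sub_le _ _).trans ?_
      rw [norm_smul, Pi.norm_single, norm_one, mul_one, Real.norm_eq_abs]
      linarith
    exact mul_le_mul_of_nonneg_left (pow_le_pow_left₀ (by positivity) (by linarith) n) hC
  · have h1 : |z k| ≤ ‖z‖ := norm_le_pi_norm z k
    have h2 : t * z k ≤ |t| * |z k| := by rw [← abs_mul]; exact le_abs_self _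
    nlinarith [abs_nonneg (z k), sq_nonneg t, abs_nonneg t]

theorem diff_int {F F' : ℝ → Vc m → ℝ} {b : Vc m → ℝ} (h1 : ∀ t, AEStronglyMeasurable (F t) (gm m))
    (h2 : Integrable (F 0) (gm m)) (h3 : AEStronglyMeasurable (F' 0) (gm m))
    (h4 : ∀ z, ∀ t ∈ Ioo (-1 : ℝ) 1, ‖F' t z‖ ≤ b z) (h5 : Integrable b (gm m))
    (h6 : ∀ z t, HasDerivAt (fun t => F t z) (F' t z) t) :
    HasDerivAt (fun t => ∫ z, F t z ∂gm m) (∫ z, F' 0 z ∂gm m) 0 :=
  (hasDerivAt_integral_of_dominated_loc_of_deriv_le (Ioo_mem_nhds (by norm_num) (by norm_num))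
    (Eventually.of_forall h1) h2 h3 (ae_of_all _ h4) h5 (ae_of_all _ fun z t _ => h6 z t)).2

theorem hasDerivAt_int {f : Vc m → ℝ} (hf : Measurable f) {B : ℝ} (hB : ∀ z, |f z| ≤ B)
    (β : Fin m → ℕ) (k : Fin m) :
    HasDerivAt (fun t => ∫ z, f z * ps β k t z ∂gm m) (hc f (β + Pi.single k 1)) 0 := by
  have hpg : PG f := (PG.const B).of_le hf fun z => (hB z).trans (le_abs_self _)
  obtain ⟨b, hb, hb'⟩ := ps_bound (β + Pi.single k 1) k
  have m1 : ∀ γ t, AEStronglyMeasurable (fun z => f z * ps γ k t z) (gm m) := fun γ t =>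
    (hf.mul (measurable_ps γ k t)).aestronglyMeasurable
  have i1 : Integrable (fun z => f z * ps β k 0 z) (gm m) := by
    simp only [ps_zero]; exact (hpg.mul (tame_hm β).pg).integrable
  have b1 : ∀ z, ∀ t ∈ Ioo (-1 : ℝ) 1, ‖f z * ps (β + Pi.single k 1) k t z‖ ≤ B * b z := fun z t ht => by
    rw [Real.norm_eq_abs, abs_mul]
    exact mul_le_mul (hB z) (hb' z t ht) (abs_nonneg _) ((abs_nonneg _).trans (hB z))
  have d1 : ∀ z t, HasDerivAt (fun t => f z * ps β k t z) (f z * ps (β + Pi.single k 1) k t z) t :=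
    fun z t => (hasDerivAt_ps β k t z).const_mul (f z)
  have e : hc f (β + Pi.single k 1) = ∫ z, f z * ps (β + Pi.single k 1) k 0 z ∂gm m := by
    simp only [ps_zero]; rfl
  rw [e]
  have := diff_int (F := fun t z => f z * ps β k t z)
    (F' := fun t z => f z * ps (β + Pi.single k 1) k t z) (b := fun z => B * b z) (m1 β) i1
    (m1 (β + Pi.single k 1) 0) b1 (hb.const_mul B) d1
  exact this

theorem coeff_le {f : Vc m → ℝ} (hf : Measurable f) {B : ℝ} (hB : ∀ z, |f z| ≤ B) {C : ℝ} (k : Fin m)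
    (h : ∀ ε : ℝ, 0 < ε → ε ≤ 1 →
      ∫ z, (f (z + ε • (Pi.single k 1 : Vc m)) - f z) ^ 2 ∂gm m ≤ C * ε ^ 2)
    (s : Finset (Fin m → ℕ)) : ∑ α ∈ s, hc f (α + Pi.single k 1) ^ 2 / fac α ≤ C := by
  have hpg : PG f := (PG.const B).of_le hf fun z => (hB z).trans (le_abs_self _)
  have ht : Tendsto (fun t : ℝ => ∑ α ∈ s, (t⁻¹ • (∫ z, f z * ps α k (0 + t) z ∂gm m -
      ∫ z, f z * ps α k 0 z ∂gm m)) ^ 2 / fac α) (𝓝[>] 0)
      (𝓝 (∑ α ∈ s, hc f (α + Pi.single k 1) ^ 2 / fac α)) :=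
    tendsto_finsetSum _ fun α _ =>
      ((hasDerivAt_int hf hB α k).tendsto_slope_zero_right.pow 2).div_const _
  refine le_of_tendsto ht ?_
  filter_upwards [Ioo_mem_nhdsGT (zero_lt_one' ℝ)] with t ht
  have hs : PG fun z => f (z + t • (Pi.single k 1 : Vc m)) :=
    (PG.const B).of_le (by fun_prop) fun z => (hB _).trans (le_abs_self _)
  have hD : PG fun z => t⁻¹ * (f (z + t • (Pi.single k 1 : Vc m)) - f z) := (hs.sub hpg).const_mul _
  have h1 := parseval hD.memLp_two hD.memLp_two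
  have h2 : ∀ α, hc (fun z => t⁻¹ * (f (z + t • (Pi.single k 1 : Vc m)) - f z)) α =
      t⁻¹ • (∫ z, f z * ps α k (0 + t) z ∂gm m - ∫ z, f z * ps α k 0 z ∂gm m) := by
    intro α
    have e := integral_shift (fun z => f z * hm α (z - t • (Pi.single k 1 : Vc m))) k t
    simp only [add_sub_cancel_right] at e
    simp only [zero_add, smul_eq_mul, ps, ← mul_assoc]
    rw [← e, ← integral_sub (hs.mul (tame_hm α).pg).integrable, ← integral_const_mul]
    · refine integral_congr_ae (ae_of_all _ fun z => ?_)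
      simp; ring
    · simpa using (hpg.mul (tame_hm α).pg).integrable
  simp only [h2, ← sq] at h1
  refine (sum_le_hasSum s (fun α _ => div_nonneg (sq_nonneg _) (fac_pos α).le) h1).trans ?_
  simp only [mul_pow]
  rw [integral_const_mul]
  have h3 := h t ht.1 ht.2.le
  have h4 : 0 < t := ht.1
  calc t⁻¹ ^ 2 * ∫ z, (f (z + t • (Pi.single k 1 : Vc m)) - f z) ^ 2 ∂gm m ≤ t⁻¹ ^ 2 * (C * t ^ 2) :=
        mul_le_mul_of_nonneg_left h3 (by positivity)
    _ = C := by field_simp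

theorem wd_of_dq {f : Vc m → ℝ} (hf : Measurable f) {B : ℝ} (hB : ∀ z, |f z| ≤ B) {C : Fin m → ℝ}
    (h : ∀ k (ε : ℝ), 0 < ε → ε ≤ 1 →
      ∫ z, (f (z + ε • (Pi.single k 1 : Vc m)) - f z) ^ 2 ∂gm m ≤ C k * ε ^ 2) :
    ∃ g : Fin m → Vc m → ℝ, (∀ k, Measurable (g k)) ∧ WD f g ∧ ∀ k, ∫ z, g k z ^ 2 ∂gm m ≤ C k := by
  have hpg : PG f := (PG.const B).of_le hf fun z => (hB z).trans (le_abs_self _)
  choose g h1 h2 h3 h4 using fun k => exists_of_coeff (fun α => hc f (α + Pi.single k 1)) (C k)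
    (coeff_le hf hB k (h k))
  exact ⟨g, h1, ⟨hpg.memLp_two, h2, h3⟩, h4⟩

theorem mp_neg : MeasurePreserving (fun z : Vc m => -z) (gm m) (gm m) :=
  measurePreserving_pi (f := fun _ (x : ℝ) => -x) _ _ fun _ =>
    ⟨measurable_neg, by rw [ProbabilityTheory.gaussianReal_map_neg, neg_zero]⟩

end Crest.Agent.R253.WdB2
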