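import Crest.Agent.R253.Wd
import Crest.Agent.R253.Sc
import Crest.Agent.R253.WdBAux2

set_option autoImplicit false
set_option linter.unusedVariables false
set_option linter.unusedSectionVars false

open MeasureTheory Matrix Set Filter Topology
open Crest.Agent.R215 (gam)
open Crest.Agent.R203
open Crest.GeometryTopology.Isotropic

noncomputable section

namespace Crest.Agent.R253

variable {m : ℕ}

/-! Duality formulas for the variance, difference quotients, interpolation. -/

variable {f : Vc m → ℝ} {g : Fin m → Vc m → ℝ}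

theorem WdB_ip_sum {u w : Vc m → Vc m} (h : ∀ i, MemLp (fun z => u z i) 2 (gm m))
    (h' : ∀ i, MemLp (fun z => w z i) 2 (gm m)) : ip u w = ∑ i, ∫ z, u z i * w z i ∂gm m := by
  unfold ip dotProduct
  exact integral_finsetSum _ fun i _ => (h i).integrable_mul (h' i)

theorem WdB_var_sum (h : WD f g) :
    HasSum (fun α => ∑ j, hc (g j) α * hc (g j) α / ((deg α : ℝ) + 1) / fac α)
      (∫ z, f z ^ 2 ∂gm m - (∫ z, f z ∂gm m) ^ 2) := by
  set φ : (Fin m → ℕ) → ℝ := fun β => hc f β * hc f β / deg β with hφ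
  have eφ : ∀ j α, φ (α + Pi.single j 1) = hc (g j) α * hc (g j) α / ((deg α : ℝ) + 1) := by
    intro j α
    simp only [hφ, h.co, deg_add_single]
    push_cast
    rfl
  have hs : ∀ j, Summable (fun α => φ (α + Pi.single j 1) / fac α) := fun j => by
    refine Summable.of_nonneg_of_le (fun α => ?_) (fun α => ?_)
      (parseval (h.l2d j) (h.l2d j)).summable
    · exact div_nonneg (div_nonneg (mul_self_nonneg _) (Nat.cast_nonneg _)) (fac_pos α).le
    · refine div_le_div_of_nonneg_right ?_ (fac_pos α).le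
      rw [eφ]
      refine div_le_self (mul_self_nonneg _) ?_
      linarith [Nat.cast_nonneg (α := ℝ) (deg α)]
  have h1 := reidx φ _ fun j => (hs j).hasSum
  have h0 := lvl0 fun α => hc f α * hc f α
  have hp := parseval h.l2 h.l2
  have h2 : ∑ j, ∑' α, φ (α + Pi.single j 1) / fac α
      = ∫ z, f z ^ 2 ∂gm m - (∫ z, f z ∂gm m) ^ 2 := by
    have h3 := hp.sub h0
    have e : (fun β : Fin m → ℕ => (deg β : ℝ) * φ β / fac β) = fun α =>
        hc f α * hc f α / fac α - (if deg α = 0 then hc f α * hc f α else 0) / fac α := by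
      funext β
      by_cases hb : deg β = 0
      · simp [hb]
      · have : (deg β : ℝ) ≠ 0 := by exact_mod_cast hb
        simp only [hφ, hb, if_false, zero_div, sub_zero]
        field_simp
    rw [e] at h1
    have := h1.unique h3
    simpa only [hc_zero, sq] using this
  rw [← h2]
  have := hasSum_sum (s := Finset.univ) fun j _ => (hs j).hasSum
  simpa only [eφ] using this

theorem WdB_dual_sum (h : WD f g) {u : Vc m → Vc m} {D : Fin m → Vc m → Vc m} (hu : VW u D) :
    HasSum (fun α => ∑ j, (2 * (hc (g j) α * hc (fun z => u z j) α) -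
        ((deg α : ℝ) + 1) * (hc (fun z => u z j) α * hc (fun z => u z j) α)) / fac α)
      (2 * ip (fun z j => g j z) u - ip u u - ipk D D) := by
  have e3 : ipk D D = ∑ j, ∑ k, ∫ z, D k z j * D k z j ∂gm m := by
    unfold ipk
    rw [Finset.sum_comm]
    exact Finset.sum_congr rfl fun k _ =>
      WdB_ip_sum (fun j => (hu j).l2d k) (fun j => (hu j).l2d k)
  rw [WdB_ip_sum (u := fun z j => g j z) h.l2d (fun j => (hu j).l2),
    WdB_ip_sum (fun j => (hu j).l2) (fun j => (hu j).l2), e3, Finset.mul_sum,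
    ← Finset.sum_sub_distrib, ← Finset.sum_sub_distrib]
  refine hasSum_sum fun j _ => ?_
  have a1 := parseval (h.l2d j) (hu j).l2
  have a2 := parseval (hu j).l2 (hu j).l2
  have a3 := (hu j).hasSum_dirichlet (hu j)
  have a4 := ((a1.mul_left 2).sub a2).sub a3
  have e : (fun α => (2 * (hc (g j) α * hc (fun z => u z j) α) -
        ((deg α : ℝ) + 1) * (hc (fun z => u z j) α * hc (fun z => u z j) α)) / fac α) =
      fun α => 2 * (hc (g j) α * hc (fun z => u z j) α / fac α) -
        hc (fun z => u z j) α * hc (fun z => u z j) α / fac α -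
        (deg α : ℝ) * (hc (fun z => u z j) α * hc (fun z => u z j) α) / fac α := by
    funext α
    ring
  rw [e]
  exact a4

/-- `Tame.var_dual` for Sobolev fields -/
theorem WD.var_dual (h : WD f g) {u : Vc m → Vc m} {D : Fin m → Vc m → Vc m} (hu : VW u D) :
    2 * ip (fun z j => g j z) u - ip u u - ipk D D ≤ ∫ z, f z ^ 2 ∂gm m - (∫ z, f z ∂gm m) ^ 2 := by
  refine hasSum_le (fun α => Finset.sum_le_sum fun j _ => ?_) (WdB_dual_sum h hu) (WdB_var_sum h)
  refine div_le_div_of_nonneg_right ?_ (fac_pos α).le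
  have hd : (0 : ℝ) < (deg α : ℝ) + 1 := by positivity
  rw [le_div_iff₀ hd]
  nlinarith [sq_nonneg (hc (g j) α - ((deg α : ℝ) + 1) * hc (fun z => u z j) α)]

theorem WdB_hc_poly (s : Finset (Fin m → ℕ)) (c : (Fin m → ℕ) → ℝ) (β : Fin m → ℕ) :
    hc (fun z : Vc m => ∑ α ∈ s, c α * hm α z) β = if β ∈ s then c β * fac β else 0 := by
  have e : hc (fun z : Vc m => ∑ α ∈ s, c α * hm α z) β = ∑ α ∈ s, c α * hc (hm α) β := by
    unfold hc
    simp only [Finset.sum_mul, mul_assoc]
    rw [integral_finsetSum _ fun α _ =>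
      (((tame_hm α).pg.mul (tame_hm β).pg).const_mul (c α)).integrable]
    exact Finset.sum_congr rfl fun α _ => integral_const_mul _ _
  rw [e]
  simp only [hc_hm, mul_ite, mul_zero, Finset.sum_ite_eq']

/-- The converse: test with the polynomial fields
`u j = ∑_{α ∈ s} hc (g j) α / ((deg α + 1) fac α) hm α`. -/
theorem WD.var_le (h : WD f g) {U : ℝ}
    (hU : ∀ (u : Vc m → Vc m) (D : Fin m → Vc m → Vc m), VW u D →
      2 * ip (fun z j => g j z) u - ip u u - ipk D D ≤ U) :
    ∫ z, f z ^ 2 ∂gm m - (∫ z, f z ∂gm m) ^ 2 ≤ U := by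
  refine hasSum_le_of_sum_le (WdB_var_sum h) fun s => ?_
  set u : Vc m → Vc m := fun z j =>
    ∑ α ∈ s, hc (g j) α / (((deg α : ℝ) + 1) * fac α) * hm α z with hu
  have ht : ∀ j, Tame fun z => u z j := fun j =>
    Tame.sum s fun α _ => (tame_hm α).const_mul _
  have hvw : VW u fun k z j => pd k (fun y => u y j) z := fun j => wd_of_tame (ht j)
  refine le_trans (le_of_eq ?_) (hU u _ hvw)
  refine HasSum.unique ?_ (WdB_dual_sum h hvw)
  have hcu : ∀ j β, hc (fun z => u z j) β =
      if β ∈ s then hc (g j) β / (((deg β : ℝ) + 1) * fac β) * fac β else 0 := fun j β =>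
    WdB_hc_poly s (fun α => hc (g j) α / (((deg α : ℝ) + 1) * fac α)) β
  have e : ∑ α ∈ s, ∑ j, hc (g j) α * hc (g j) α / ((deg α : ℝ) + 1) / fac α =
      ∑ α ∈ s, ∑ j, (2 * (hc (g j) α * hc (fun z => u z j) α) -
        ((deg α : ℝ) + 1) * (hc (fun z => u z j) α * hc (fun z => u z j) α)) / fac α := by
    refine Finset.sum_congr rfl fun α hα => Finset.sum_congr rfl fun j _ => ?_
    rw [hcu, if_pos hα]
    have hd : (0 : ℝ) < (deg α : ℝ) + 1 := by positivity
    have hp := fac_pos α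
    field_simp
    ring
  rw [e]
  refine hasSum_sum_of_ne_finset_zero fun α hα => Finset.sum_eq_zero fun j _ => ?_
  rw [hcu, if_neg hα]
  simp

/-- Riesz–Fischer -/
theorem exists_of_coeff (c : (Fin m → ℕ) → ℝ) (C : ℝ)
    (h : ∀ s : Finset (Fin m → ℕ), ∑ α ∈ s, c α ^ 2 / fac α ≤ C) :
    ∃ u : Vc m → ℝ, Measurable u ∧ MemLp u 2 (gm m) ∧ (∀ α, hc u α = c α) ∧
      ∫ z, u z ^ 2 ∂gm m ≤ C := WdB2.exists_of_coeff c C h

/-- Bounded difference quotients give a weak derivative: for a polynomial `p`,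
`∫ (f(z + ε e) - f z)/ε * p → ∫ f (z_k p - ∂_k p)` (`integral_shift`), hence
`|∫ f δ_k p| ≤ √C ‖p‖`; take `p = ∑_{α ∈ s} hc f (α + e_k)/fac α * hm α`. -/
theorem wd_of_dq (hm : Measurable f) {B : ℝ} (hB : ∀ z, |f z| ≤ B) {C : Fin m → ℝ}
    (h : ∀ k (ε : ℝ), 0 < ε → ε ≤ 1 →
      ∫ z, (f (z + ε • (Pi.single k 1 : Vc m)) - f z) ^ 2 ∂gm m ≤ C k * ε ^ 2) :
    ∃ g : Fin m → Vc m → ℝ, (∀ k, Measurable (g k)) ∧ WD f g ∧ ∀ k, ∫ z, g k z ^ 2 ∂gm m ≤ C k :=
  WdB2.wd_of_dq hm hB h

/-- `deg ≤ N + deg (deg - 1) / N` -/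
theorem WD.interp (h : WD f g) {G : Fin m → Fin m → Vc m → ℝ} (h2 : ∀ k, WD (g k) (G k)) {N : ℝ}
    (hN : 1 ≤ N) : ∑ k, ∫ z, g k z ^ 2 ∂gm m ≤
      N * ∫ z, f z ^ 2 ∂gm m + (∑ k, ∑ l, ∫ z, G k l z ^ 2 ∂gm m) / N := by
  have a1 := h.hasSum_dirichlet h
  have a2 := parseval h.l2 h.l2
  have a3 := reidx (fun γ => ((deg γ : ℝ) - 1) * (hc f γ * hc f γ))
    (fun k => ∑ l, ∫ z, G k l z * G k l z ∂gm m) fun k => by
      have := (h2 k).hasSum_dirichlet (h2 k)
      simpa only [h.co, deg_add_single, Nat.cast_add, Nat.cast_one, add_sub_cancel_right]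
        using this
  have := hasSum_le (fun α => ?_) a1 ((a2.mul_left N).add (a3.div_const N))
  · simpa only [sq] using this
  · have hp := fac_pos α
    have hw : 0 ≤ hc f α * hc f α / fac α := div_nonneg (mul_self_nonneg _) hp.le
    have hN0 : 0 < N := by linarith
    have hd : (0 : ℝ) ≤ deg α := Nat.cast_nonneg _
    have key : (deg α : ℝ) ≤ N + deg α * ((deg α : ℝ) - 1) / N := by
      rw [← sub_le_iff_le_add', le_div_iff₀ hN0]
      nlinarith [sq_nonneg ((deg α : ℝ) - N), mul_nonneg hd (sub_nonneg.2 hN)]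
    have := mul_le_mul_of_nonneg_right key hw
    calc (deg α : ℝ) * (hc f α * hc f α) / fac α = deg α * (hc f α * hc f α / fac α) := by ring
      _ ≤ _ := this
      _ = _ := by ring

/-- symmetry of second weak derivatives -/
theorem WD.symm2 (h : WD f g) {G : Fin m → Fin m → Vc m → ℝ} (h2 : ∀ k, WD (g k) (G k))
    (k l : Fin m) : G k l =ᵐ[gm m] G l k := by
  have hz := ae_zero_of_hc (((h2 k).l2d l).sub ((h2 l).l2d k)) fun α => by
    have e : hc (G k l - G l k) α = hc (G k l) α - hc (G l k) α := by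
      have i1 : Integrable (fun z => G k l z * hm α z) (gm m) :=
        ((h2 k).l2d l).integrable_mul (tame_hm α).pg.memLp_two
      have i2 : Integrable (fun z => G l k z * hm α z) (gm m) :=
        ((h2 l).l2d k).integrable_mul (tame_hm α).pg.memLp_two
      unfold hc
      rw [← integral_sub i1 i2]
      refine integral_congr_ae (ae_of_all _ fun z => ?_)
      simp only [Pi.sub_apply]
      ring
    rw [e, (h2 k).co, (h2 l).co, h.co, h.co, add_right_comm, sub_self]
  filter_upwards [hz] with z hz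
  exact sub_eq_zero.1 hz

theorem integral_comp_neg (u : Vc m → ℝ) : ∫ z, u (-z) ∂gm m = ∫ z, u z ∂gm m :=
  MeasurePreserving.integral_comp' (f := MeasurableEquiv.neg (Vc m)) WdB2.mp_neg u
theorem memLp_comp_neg {u : Vc m → ℝ} (h : MemLp u 2 (gm m)) :
    MemLp (fun z => u (-z)) 2 (gm m) := h.comp_measurePreserving WdB2.mp_neg

end Crest.Agent.R253
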